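import Crest.Agent.R227.TopDefs

-- ▼ part R227/EasyAux
section

/-!
# R227 / EasyAux : membership in the ideals `II`
-/

set_option autoImplicit false

noncomputable section

namespace Crest.Agent.R227

open Crest.LubinTate MvPowerSeries Topology

variable (p : ℕ) [Fact p.Prime] (n : ℕ)

/-- the indicator of the variables which are not killed -/
def killE (R : Type*) [Zero R] [One R] (h : ℕ) : Fin (n - 1) → R :=
  fun i => if (i : ℕ) + 1 < h then 0 else 1

/-- the ring hom `E₀ → k[[u_h, …]]` with kernel `II h` for `1 ≤ h`. -/
def killHom (h : ℕ) : LTRing p n →+* MvPowerSeries (Fin (n - 1)) (GaloisField p n) :=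
  (rescale (killE n (GaloisField p n) h)).comp
    (MvPowerSeries.map (WittVector.constantCoeff : WittVector p (GaloisField p n) →+* _))

theorem killHom_eq_zero_iff (h : ℕ) (a : LTRing p n) : killHom p n h a = 0 ↔
    ∀ d : Fin (n - 1) →₀ ℕ, (∀ i : Fin (n - 1), (i : ℕ) + 1 < h → d i = 0) →
      WittVector.constantCoeff (coeff d a) = 0 := by
  rw [MvPowerSeries.ext_iff]
  refine forall_congr' fun d => ?_
  have : coeff d (killHom p n h a) =
      (d.prod fun s m => killE n (GaloisField p n) h s ^ m) *
        WittVector.constantCoeff (coeff d a) := by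
    simp [killHom, coeff_rescale]
  rw [this]
  simp only [map_zero]
  constructor
  · intro h1 h2
    have : (d.prod fun s m => killE n (GaloisField p n) h s ^ m) = 1 := by
      rw [Finsupp.prod]
      apply Finset.prod_eq_one
      intro i hi
      rw [Finsupp.mem_support_iff] at hi
      have : ¬ ((i : ℕ) + 1 < h) := fun h3 => hi (h2 i h3)
      simp [killE, this]
    rwa [this, one_mul] at h1
  · intro h1
    by_cases h2 : ∀ i : Fin (n - 1), (i : ℕ) + 1 < h → d i = 0
    · rw [h1 h2, mul_zero]
    · push Not at h2
      obtain ⟨i, hi, hd⟩ := h2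
      have : (d.prod fun s m => killE n (GaloisField p n) h s ^ m) = 0 := by
        rw [Finsupp.prod]
        apply Finset.prod_eq_zero (i := i) (Finsupp.mem_support_iff.mpr hd)
        simp [killE, hi, hd]
      rw [this, zero_mul]

theorem uu_of_lt {h : ℕ} (h0 : 1 ≤ h) (hn : h < n) :
    uu p n h = MvPowerSeries.X ⟨h - 1, by omega⟩ := by
  unfold uu upt
  rw [if_neg (by omega), dif_pos ⟨h0, hn⟩]

theorem killHom_uu {h i : ℕ} (hi : i < h) (hh : h ≤ n) : killHom p n h (uu p n i) = 0 := by
  rcases Nat.eq_zero_or_pos i with rfl | h0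
  · have : uu p n 0 = ((p : ℕ) : LTRing p n) := by simp [uu]
    rw [this, map_natCast]
    have : ((p : ℕ) : GaloisField p n) = 0 := CharP.cast_eq_zero _ _
    have h2 : ((p : ℕ) : MvPowerSeries (Fin (n - 1)) (GaloisField p n)) =
      MvPowerSeries.C ((p : ℕ) : GaloisField p n) := (map_natCast _ _).symm
    rw [h2, this, map_zero]
  · rw [uu_of_lt p n h0 (by omega), killHom_eq_zero_iff]
    intro d hd
    classical
    rw [coeff_X]
    split_ifs with h1
    · have := hd ⟨i - 1, by omega⟩ (by simp; omega)
      rw [h1] at this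
      simp at this
    · simp

theorem II_succ (h : ℕ) : II p n (h + 1) = II p n h ⊔ Ideal.span {uu p n h} := by
  unfold II
  rw [← Ideal.span_union, ← Set.image_singleton, ← Set.image_union]
  congr 2
  ext i
  simp [Nat.lt_succ_iff_lt_or_eq, or_comm]

theorem mem_II_iff {h : ℕ} (h0 : 1 ≤ h) (hh : h ≤ n) (a : LTRing p n) :
    a ∈ II p n h ↔ killHom p n h a = 0 := by
  constructor
  · intro ha
    have : II p n h ≤ RingHom.ker (killHom p n h) := by
      unfold II
      rw [Ideal.span_le]
      rintro _ ⟨i, hi, rfl⟩
      exact killHom_uu p n hi hh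
    exact this ha
  · induction h, h0 using Nat.le_induction generalizing a with
    | base =>
      intro ha
      rw [killHom_eq_zero_iff] at ha
      have h1 : ∀ d : Fin (n - 1) →₀ ℕ, ∃ b : WittVector p (GaloisField p n),
          coeff d a = (p : WittVector p (GaloisField p n)) * b := by
        intro d
        have := ha d (fun i hi => by omega)
        have h2 : coeff d a ∈ Ideal.span {(p : WittVector p (GaloisField p n))} := by
          rw [WittVector.mem_span_p_iff_coeff_zero_eq_zero]
          exact this
        rw [Ideal.mem_span_singleton] at h2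
        exact h2
      choose b hb using h1
      let b' : LTRing p n := fun d => b d
      have h3 : a = (p : LTRing p n) * b' := by
        ext1 d
        have : ((p : ℕ) : LTRing p n) =
            MvPowerSeries.C ((p : ℕ) : WittVector p (GaloisField p n)) := (map_natCast _ _).symm
        rw [this, coeff_C_mul, hb d]
        rfl
      rw [h3]
      refine Ideal.mul_mem_right _ _ (Ideal.subset_span ⟨0, by simp, by simp [uu]⟩)
    | succ h h0 ih =>
      intro ha
      rw [killHom_eq_zero_iff] at ha
      rw [II_succ]
      set i0 : Fin (n - 1) := ⟨h - 1, by omega⟩ with hi0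
      set a0 : LTRing p n := rescale (fun i => if i = i0 then 0 else 1) a with ha0
      have hc : ∀ d : Fin (n - 1) →₀ ℕ, coeff d a0 = if d i0 = 0 then coeff d a else 0 := by
        intro d
        rw [ha0, coeff_rescale]
        split_ifs with h1
        · have : (d.prod fun s m => (if s = i0 then (0 : WittVector p (GaloisField p n)) else 1) ^ m) = 1 := by
            rw [Finsupp.prod]
            apply Finset.prod_eq_one
            intro i hi
            rw [Finsupp.mem_support_iff] at hi
            have : i ≠ i0 := fun h3 => hi (h3 ▸ h1)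
            simp [this]
          rw [this, one_mul]
        · have : (d.prod fun s m => (if s = i0 then (0 : WittVector p (GaloisField p n)) else 1) ^ m) = 0 := by
            rw [Finsupp.prod]
            apply Finset.prod_eq_zero (i := i0) (Finsupp.mem_support_iff.mpr h1)
            simp [h1]
          rw [this, zero_mul]
      have h1 : a0 ∈ II p n h := by
        apply ih (by omega)
        rw [killHom_eq_zero_iff]
        intro d hd
        rw [hc]
        split_ifs with h2
        · apply ha
          intro i hi
          rcases Nat.lt_or_ge ((i : ℕ) + 1) h with h3 | h3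
          · exact hd i h3
          · have : i = i0 := by ext; simp [hi0]; omega
            rw [this]; exact h2
        · simp
      have h2 : uu p n h ∣ a - a0 := by
        rw [uu_of_lt p n h0 (by omega), X_dvd_iff]
        intro d hd
        rw [map_sub, hc, if_pos hd, sub_self]
      have h3 : a = a0 + (a - a0) := by ring
      rw [h3]
      exact Ideal.add_mem _ (Ideal.mem_sup_left h1)
        (Ideal.mem_sup_right (Ideal.mem_span_singleton.mpr h2))

theorem II_isPrime' (hn : 1 ≤ n) (h : ℕ) (hh : h ≤ n) : (II p n h).IsPrime := by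
  rcases Nat.eq_zero_or_pos h with rfl | h0
  · have : II p n 0 = ⊥ := by simp [II]
    rw [this]
    have : IsDomain (LTRing p n) := NoZeroDivisors.to_isDomain _
    exact Ideal.isPrime_bot
  · have : II p n h = RingHom.ker (killHom p n h) := by
      ext a
      rw [mem_II_iff p n h0 hh, RingHom.mem_ker]
    rw [this]
    have : IsDomain (MvPowerSeries (Fin (n - 1)) (GaloisField p n)) := NoZeroDivisors.to_isDomain _
    exact RingHom.ker_isPrime _

theorem mem_II_n' (hn : 1 ≤ n) (a : LTRing p n) : a ∈ II p n n ↔ LTRing.residue p n a = 0 := by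
  rw [mem_II_iff p n hn le_rfl, killHom_eq_zero_iff]
  constructor
  · intro h
    have := h 0 (by simp)
    simpa [LTRing.residue] using this
  · intro h d hd
    have : d = 0 := by
      ext i
      exact hd i (by omega)
    rw [this]
    simpa [LTRing.residue] using h

end Crest.Agent.R227
end
end

-- ▼ part R227/EasyAux2

/-!
# R227 / EasyAux2 : leading coefficients of formal sums, height ideals of `H1`
-/

set_option autoImplicit false

noncomputable section

namespace Crest.Agent.R227

open Crest.LubinTate MvPowerSeries Topology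

section
variable {R : Type*} [CommRing R]

theorem easy_hasSubst_pair {τ : Type*} (a b : MvPowerSeries τ R)
    (ha : constantCoeff a = 0) (hb : constantCoeff b = 0) :
    MvPowerSeries.HasSubst (![a, b] : Fin 2 → MvPowerSeries τ R) :=
  hasSubst_of_constantCoeff_zero (by intro s; fin_cases s <;> simp [ha, hb])

/-- leading coefficients of a formal sum -/
theorem coeff_fadd_low (F : FormalGroup R) (a b : PowerSeries R) (m : ℕ) (hm : 1 ≤ m)
    (ha : ∀ i < m, PowerSeries.coeff i a = 0) (hb : ∀ i < m, PowerSeries.coeff i b = 0) (i : ℕ)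
    (hi : i ≤ m) :
    PowerSeries.coeff i (fadd F a b) = PowerSeries.coeff i a + PowerSeries.coeff i b := by
  have ha0 : MvPowerSeries.constantCoeff a = 0 := by
    have := ha 0 (by omega)
    rwa [PowerSeries.coeff_zero_eq_constantCoeff_apply] at this
  have hb0 : MvPowerSeries.constantCoeff b = 0 := by
    have := hb 0 (by omega)
    rwa [PowerSeries.coeff_zero_eq_constantCoeff_apply] at this
  have hs := easy_hasSubst_pair a b ha0 hb0
  obtain ⟨a', ha'⟩ := PowerSeries.X_pow_dvd_iff.mpr ha
  obtain ⟨b', hb'⟩ := PowerSeries.X_pow_dvd_iff.mpr hb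
  unfold fadd PowerSeries.coeff
  rw [MvPowerSeries.coeff_subst hs]
  have hprod : ∀ d : Fin 2 →₀ ℕ, (d.prod fun s e => (![a, b] : Fin 2 → PowerSeries R) s ^ e) =
      a ^ d 0 * b ^ d 1 := by
    intro d
    rw [Finsupp.prod_fintype _ _ (by simp)]
    simp
  have hzero : ∀ d : Fin 2 →₀ ℕ, 2 ≤ d 0 + d 1 →
      MvPowerSeries.coeff (Finsupp.single () i) (a ^ d 0 * b ^ d 1) = 0 := by
    intro d hd
    have : a ^ d 0 * b ^ d 1 = PowerSeries.X ^ (m * (d 0 + d 1)) * (a' ^ d 0 * b' ^ d 1) := by
      rw [ha', hb']; ring
    rw [this]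
    change PowerSeries.coeff i _ = 0
    rw [PowerSeries.coeff_X_pow_mul', if_neg]
    have : m * 2 ≤ m * (d 0 + d 1) := Nat.mul_le_mul_left _ hd
    omega
  rw [finsum_eq_sum_of_support_subset (s := {Finsupp.single 0 1, Finsupp.single 1 1})]
  · rw [Finset.sum_pair]
    · simp only [hprod]
      simp [F.lin_coeff_X, F.lin_coeff_Y]
    · intro h
      have := DFunLike.congr_fun h (0 : Fin 2)
      simp at this
  · intro d hd
    rw [Function.mem_support] at hd
    by_contra hnot
    apply hd
    simp only [hprod]
    rcases Nat.lt_or_ge (d 0 + d 1) 2 with h | h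
    · have hd0 : d = 0 := by
        have h3 : ¬ (d 0 = 1 ∧ d 1 = 0) := by
          rintro ⟨h1, h2⟩
          apply hnot
          have : d = Finsupp.single 0 1 := by
            ext s; fin_cases s <;> simp [h1, h2]
          simp [this]
        have h4 : ¬ (d 0 = 0 ∧ d 1 = 1) := by
          rintro ⟨h1, h2⟩
          apply hnot
          have : d = Finsupp.single 1 1 := by
            ext s; fin_cases s <;> simp [h1, h2]
          simp [this]
        ext s
        fin_cases s
        · simp; omega
        · simp; omega
      rw [hd0]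
      have := F.zero_constantCoeff
      rw [← MvPowerSeries.coeff_zero_eq_constantCoeff_apply] at this
      rw [this, zero_smul]
    · rw [hzero d h, smul_zero]

theorem coeff_fsum_low (F : FormalGroup R) (m : ℕ) (hm : 1 ≤ m) (l : List (PowerSeries R))
    (hl : ∀ a ∈ l, ∀ i < m, PowerSeries.coeff i a = 0) (i : ℕ) (hi : i ≤ m) :
    PowerSeries.coeff i (fsum F l) = (l.map (PowerSeries.coeff i)).sum := by
  induction l generalizing i with
  | nil => simp [fsum]
  | cons a l ih =>
    have h1 : fsum F (a :: l) = fadd F a (fsum F l) := rfl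
    have ih' := fun i hi => ih (fun b hb => hl b (List.mem_cons_of_mem _ hb)) i hi
    rw [h1, coeff_fadd_low F a (fsum F l) m hm (hl a List.mem_cons_self) _ i hi, ih' i hi]
    · simp
    · intro j hj
      rw [ih' j hj.le]
      apply List.sum_eq_zero
      intro x hx
      rw [List.mem_map] at hx
      obtain ⟨b, hb, rfl⟩ := hx
      exact hl b (List.mem_cons_of_mem _ hb) j hj

end

section
variable (p : ℕ) [Fact p.Prime]

/-- the leading coefficient of the `p`-series in characteristic `p` -/
theorem coeff_mulSeries_hz (n : ℕ) {A : Type*} [CommRing A] [CharP A p] (x : ℕ → A) (h : ℕ)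
    (h1 : 1 ≤ h) (hn : h ≤ n) (hx : ∀ i, 1 ≤ i → i < h → x i = 0) (i : ℕ) (hi : i ≤ p ^ h) :
    PowerSeries.coeff i (mulSeries (hz p n x) p) = if i = p ^ h then x h else 0 := by
  have hp := (Fact.out : p.Prime)
  rw [mulSeries_hz, coeff_fsum_low _ (p ^ h) (Nat.one_le_pow _ _ hp.pos) _ _ i hi]
  · rw [List.map_map]
    split_ifs with h2
    · subst h2
      rw [← List.sum_toFinset _ (List.nodup_range)]
      rw [Finset.sum_eq_single (h - 1)]
      · simp [PowerSeries.coeff_X_pow, Nat.sub_add_cancel h1]
      · intro j _ hj
        have : p ^ h ≠ p ^ (j + 1) := by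
          intro h3
          have := Nat.pow_right_injective hp.two_le h3
          omega
        simp [PowerSeries.coeff_X_pow, this]
      · intro h3
        simp at h3
        omega
    · apply List.sum_eq_zero
      intro y hy
      rw [List.mem_map] at hy
      obtain ⟨j, hj, rfl⟩ := hy
      simp only [Function.comp_apply, PowerSeries.coeff_C_mul, PowerSeries.coeff_X_pow]
      split_ifs with h3
      · have h4 : j + 1 < h := by
          have : p ^ (j + 1) < p ^ h := by omega
          exact (Nat.pow_lt_pow_iff_right hp.one_lt).mp this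
        rw [hx (j + 1) (by omega) h4, zero_mul]
      · simp
  · intro a ha j hj
    rw [List.mem_map] at ha
    obtain ⟨k, hk, rfl⟩ := ha
    simp only [PowerSeries.coeff_C_mul, PowerSeries.coeff_X_pow]
    split_ifs with h3
    · have h4 : k + 1 < h := by
        have : p ^ (k + 1) < p ^ h := by omega
        exact (Nat.pow_lt_pow_iff_right hp.one_lt).mp this
      rw [hx (k + 1) (by omega) h4, zero_mul]
    · simp

variable (n : ℕ)

theorem p_mem_II {h : ℕ} (h1 : 1 ≤ h) : ((p : ℕ) : LTRing p n) ∈ II p n h :=
  Ideal.subset_span ⟨0, by simp; omega, by simp [uu]⟩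

theorem II_ne_top (hn : 1 ≤ n) {h : ℕ} (hh : h ≤ n) : II p n h ≠ ⊤ :=
  (II_isPrime' p n hn h hh).ne_top

theorem charP_quot (hn : 1 ≤ n) {h : ℕ} (h1 : 1 ≤ h) (hh : h ≤ n) :
    CharP (LTRing p n ⧸ II p n h) p := by
  have hp := (Fact.out : p.Prime)
  have : Nontrivial (LTRing p n ⧸ II p n h) :=
    Ideal.Quotient.nontrivial_iff.mpr (II_ne_top p n hn hh)
  have h2 : ((p : ℕ) : LTRing p n ⧸ II p n h) = 0 := by
    have := Ideal.Quotient.eq_zero_iff_mem.mpr (p_mem_II p n h1)
    rwa [map_natCast] at this
  obtain ⟨q, hq⟩ := CharP.exists (LTRing p n ⧸ II p n h)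
  have h3 : q ∣ p := (CharP.cast_eq_zero_iff _ q p).mp h2
  rcases (Nat.dvd_prime hp).mp h3 with h4 | h4
  · subst h4
    exact absurd rfl (CharP.char_ne_one (LTRing p n ⧸ II p n h) 1)
  · subst h4
    exact hq

/-- the `p`-series of `H1` modulo `II h`, low coefficients -/
theorem coeff_mulSeries_H1 (hn : 1 ≤ n) (h : ℕ) (hh : h ≤ n) (i : ℕ) (hi : i ≤ p ^ h) :
    PowerSeries.coeff i (mulSeries (H1 p n) p) -
      (if i = p ^ h then (if h = 0 then ((p : ℕ) : LTRing p n) else upt p n h) else 0) ∈
      II p n h := by
  rcases Nat.eq_zero_or_pos h with rfl | h1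
  · rw [pow_zero] at hi
    rcases Nat.lt_or_ge i 1 with h2 | h2
    · have : i = 0 := by omega
      subst this
      have := constantCoeff_mulSeries (H1 p n) p
      rw [PowerSeries.coeff_zero_eq_constantCoeff_apply, this]
      simp
    · have : i = 1 := by omega
      subst this
      rw [coeff_one_mulSeries]
      simp
  · have := charP_quot p n hn h1 hh
    rw [← Ideal.Quotient.eq_zero_iff_mem, map_sub, sub_eq_zero]
    have h2 : Ideal.Quotient.mk (II p n h) (PowerSeries.coeff i (mulSeries (H1 p n) p)) =
        PowerSeries.coeff i (mulSeries (hz p n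
          (fun i => Ideal.Quotient.mk (II p n h) (upt p n i))) p) := by
      rw [← PowerSeries.coeff_map, mulSeries_map, hz_map]
    rw [h2, coeff_mulSeries_hz p n _ h h1 hh _ i hi]
    · rw [if_neg (by omega : ¬ h = 0)]
      split_ifs <;> simp
    · intro j hj1 hj2
      rw [Ideal.Quotient.eq_zero_iff_mem]
      exact Ideal.subset_span ⟨j, hj2, by simp [uu]; omega⟩

theorem heightIdeal_H1' (hn : 1 ≤ n) (h : ℕ) (hh : h ≤ n) :
    heightIdeal p n (H1 p n) h = II p n h := by
  induction h with
  | zero => simp [heightIdeal, II]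
  | succ h ih =>
    rw [heightIdeal, ih (by omega), II_succ]
    have h1 := coeff_mulSeries_H1 p n hn h (by omega) (p ^ h) le_rfl
    rw [if_pos rfl] at h1
    have h2 : (if h = 0 then ((p : ℕ) : LTRing p n) else upt p n h) = uu p n h := by
      unfold uu; rfl
    rw [h2] at h1
    apply le_antisymm
    · apply sup_le le_sup_left
      rw [Ideal.span_singleton_le_iff_mem]
      have : PowerSeries.coeff (p ^ h) (mulSeries (H1 p n) p) =
        (PowerSeries.coeff (p ^ h) (mulSeries (H1 p n) p) - uu p n h) + uu p n h := by ring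
      rw [this]
      exact Ideal.add_mem _ (Ideal.mem_sup_left h1)
        (Ideal.mem_sup_right (Ideal.mem_span_singleton_self _))
    · apply sup_le le_sup_left
      rw [Ideal.span_singleton_le_iff_mem]
      have : uu p n h = PowerSeries.coeff (p ^ h) (mulSeries (H1 p n) p) -
        (PowerSeries.coeff (p ^ h) (mulSeries (H1 p n) p) - uu p n h) := by ring
      rw [this]
      exact Ideal.sub_mem _ (Ideal.mem_sup_right (Ideal.mem_span_singleton_self _))
        (Ideal.mem_sup_left h1)

end

end Crest.Agent.R227
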