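import Crest.Agent.R227.FE
import Crest.Agent.R227.FG1

/-!
# R227 / Typical : homomorphisms between `p`-typical laws over `F_p`-algebras are `p`-typical

Main results: `exists_typical`, `typical_unique`.
-/

set_option autoImplicit false

noncomputable section

namespace Crest.Agent.R227

open Crest.LubinTate MvPowerSeries

namespace Typical

section fsumAPI

variable {R : Type*} [CommRing R] {τ : Type*}

theorem hs {a : MvPowerSeries τ R} (ha : constantCoeff a = 0) : PowerSeries.HasSubst a :=
  PowerSeries.HasSubst.of_constantCoeff_zero ha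

theorem hs2 {a b : MvPowerSeries τ R} (ha : constantCoeff a = 0) (hb : constantCoeff b = 0) :
    MvPowerSeries.HasSubst ![a, b] :=
  hasSubst_of_constantCoeff_nilpotent fun s => by fin_cases s <;> simp [ha, hb]

theorem constantCoeff_fsum (F : FormalGroup R) (l : List (MvPowerSeries τ R))
    (hl : ∀ a ∈ l, constantCoeff a = 0) : constantCoeff (fsum F l) = 0 := by
  induction l with
  | nil => simp [fsum]
  | cons a l ih =>
    exact constantCoeff_fadd F a _ (hl a (by simp)) (ih fun b hb => hl b (by simp [hb]))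

theorem fsum_cons (F : FormalGroup R) (a : MvPowerSeries τ R) (l : List (MvPowerSeries τ R)) :
    fsum F (a :: l) = fadd F a (fsum F l) := rfl

theorem map_fsum {S : Type*} [CommRing S] (f : R →+* S) (F : FormalGroup R)
    (l : List (MvPowerSeries τ R)) (hl : ∀ a ∈ l, constantCoeff a = 0) :
    (fsum F l).map f = fsum (F.map f) (l.map fun a => a.map f) := by
  induction l with
  | nil => simp [fsum]
  | cons a l ih =>
    have h1 : ∀ b ∈ l, constantCoeff b = 0 := fun b hb => hl b (by simp [hb])
    rw [List.map_cons, fsum_cons, fsum_cons, map_fadd f F a _ (hl a (by simp))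
      (constantCoeff_fsum F l h1), ih h1]

theorem fsum_map_fadd {ι : Type*} (F : FormalGroup R) [F.IsComm] (l : List ι)
    (a b : ι → MvPowerSeries τ R) (ha : ∀ i, constantCoeff (a i) = 0)
    (hb : ∀ i, constantCoeff (b i) = 0) :
    fsum F (l.map fun i => fadd F (a i) (b i)) = fadd F (fsum F (l.map a)) (fsum F (l.map b)) := by
  induction l with
  | nil => simpa [fsum] using (fadd_zero F (0 : MvPowerSeries τ R) (by simp)).symm
  | cons i l ih =>
    have hA : constantCoeff (fsum F (l.map a)) = 0 :=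
      constantCoeff_fsum F _ (by simp [ha])
    have hB : constantCoeff (fsum F (l.map b)) = 0 :=
      constantCoeff_fsum F _ (by simp [hb])
    simp only [List.map_cons, fsum_cons]
    rw [ih]
    rw [fadd_assoc F _ _ _ (ha i) (hb i) (constantCoeff_fadd F _ _ hA hB),
      ← fadd_assoc F (b i) _ _ (hb i) hA hB, fadd_comm F (b i) _ (hb i) hA,
      fadd_assoc F _ (b i) _ hA (hb i) hB,
      ← fadd_assoc F (a i) _ _ (ha i) hA (constantCoeff_fadd F _ _ (hb i) hB)]

theorem fsum_map_zero {ι : Type*} (F : FormalGroup R) (l : List ι) :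
    fsum F (l.map fun _ => (0 : MvPowerSeries τ R)) = 0 := by
  induction l with
  | nil => rfl
  | cons i l ih =>
    rw [List.map_cons, fsum_cons, ih, fadd_zero F 0 (by simp)]

theorem subst_fsum_hom {F G : FormalGroup R} {φ : PowerSeries R} (h : IsFGHom F G φ)
    (l : List (MvPowerSeries τ R)) (hl : ∀ a ∈ l, constantCoeff a = 0) :
    PowerSeries.subst (fsum F l) φ = fsum G (l.map fun a => PowerSeries.subst a φ) := by
  induction l with
  | nil =>
    have : PowerSeries.subst (0 : MvPowerSeries τ R) φ = 0 :=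
      PowerSeries.subst_zero_of_constantCoeff_zero h.1
    simpa [fsum] using this
  | cons a l ih =>
    have h1 : ∀ b ∈ l, constantCoeff b = 0 := fun b hb => hl b (by simp [hb])
    rw [List.map_cons, fsum_cons, fsum_cons,
      IsFGHom.subst_fadd h a _ (hl a (by simp)) (constantCoeff_fsum F l h1), ih h1]

/-- substitution in a formal sum of power series in one variable -/
theorem subst_fsum_ps (F : FormalGroup R) (g : MvPowerSeries τ R) (hg : constantCoeff g = 0)
    (l : List (PowerSeries R)) (hl : ∀ a ∈ l, PowerSeries.constantCoeff a = 0) :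
    PowerSeries.subst g (fsum F l) = fsum F (l.map fun a => PowerSeries.subst g a) := by
  induction l with
  | nil =>
    have : PowerSeries.subst g (0 : PowerSeries R) = 0 := by
      rw [← PowerSeries.coe_substAlgHom (hs hg), map_zero]
    simpa [fsum] using this
  | cons a l ih =>
    have h1 : ∀ b ∈ l, PowerSeries.constantCoeff b = 0 := fun b hb => hl b (by simp [hb])
    rw [List.map_cons, fsum_cons, fsum_cons]
    have := subst_fadd (τ := Unit) F a (fsum F l) (hl a (by simp)) (constantCoeff_fsum F l h1)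
      (fun _ => g) (fun _ => hg)
    rw [PowerSeries.subst_def, this, ← PowerSeries.subst_def, ← PowerSeries.subst_def, ih h1]

end fsumAPI

section log

variable {B : Type*} [CommRing B] {τ : Type*}

/-- abstract logarithm -/
theorem log_fadd {F : FormalGroup B} {L : PowerSeries B} 
    (hF : PowerSeries.subst F.toPowerSeries L =
      PowerSeries.subst (X 0 : MvPowerSeries (Fin 2) B) L +
      PowerSeries.subst (X 1 : MvPowerSeries (Fin 2) B) L)
    (a b : MvPowerSeries τ B) (ha : constantCoeff a = 0) (hb : constantCoeff b = 0) :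
    PowerSeries.subst (fadd F a b) L = PowerSeries.subst a L + PowerSeries.subst b L := by
  have h := congrArg (MvPowerSeries.subst ![a, b]) hF
  rw [PowerSeries.subst_def, PowerSeries.subst_def, PowerSeries.subst_def] at h
  have h2 := hs2 ha hb
  rw [MvPowerSeries.subst_add h2] at h
  rw [MvPowerSeries.subst_comp_subst_apply (hs F.zero_constantCoeff).const h2,
    MvPowerSeries.subst_comp_subst_apply (PowerSeries.HasSubst.X 0).const h2,
    MvPowerSeries.subst_comp_subst_apply (PowerSeries.HasSubst.X 1).const h2] at h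
  rw [MvPowerSeries.subst_X h2, MvPowerSeries.subst_X h2] at h
  simpa [fadd, PowerSeries.subst_def] using h

theorem log_fsum {F : FormalGroup B} {L : PowerSeries B} (hL0 : PowerSeries.constantCoeff L = 0)
    (hF : PowerSeries.subst F.toPowerSeries L =
      PowerSeries.subst (X 0 : MvPowerSeries (Fin 2) B) L +
      PowerSeries.subst (X 1 : MvPowerSeries (Fin 2) B) L)
    (l : List (MvPowerSeries τ B)) (hl : ∀ a ∈ l, constantCoeff a = 0) :
    PowerSeries.subst (fsum F l) L = (l.map fun a => PowerSeries.subst a L).sum := by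
  induction l with
  | nil =>
    have : PowerSeries.subst (0 : MvPowerSeries τ B) L = 0 :=
      PowerSeries.subst_zero_of_constantCoeff_zero hL0
    simpa [fsum] using this
  | cons a l ih =>
    have h1 : ∀ b ∈ l, constantCoeff b = 0 := fun b hb => hl b (by simp [hb])
    rw [List.map_cons, fsum_cons, List.sum_cons, log_fadd hF a _ (hl a (by simp))
      (constantCoeff_fsum F l h1), ih h1]

theorem log_injective {L : PowerSeries B} (hL0 : PowerSeries.constantCoeff L = 0)
    (hL1 : IsUnit (PowerSeries.coeff 1 L)) {a : MvPowerSeries τ B}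
    (ha : constantCoeff a = 0) (h : PowerSeries.subst a L = 0) : a = 0 := by
  have h1 : PowerSeries.HasSubst L := PowerSeries.HasSubst.of_constantCoeff_zero' hL0
  calc a = PowerSeries.subst a (PowerSeries.X : PowerSeries B) := (PowerSeries.subst_X (hs ha)).symm
    _ = PowerSeries.subst a ((L.substInvOfIsUnit hL1).subst L) := by
        rw [PowerSeries.subst_substInvOfIsUnit_left L hL0 hL1]
    _ = PowerSeries.subst (PowerSeries.subst a L) (L.substInvOfIsUnit hL1) := by
        rw [PowerSeries.subst_comp_subst_apply h1 (hs ha)]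
    _ = 0 := by
        rw [h]
        exact PowerSeries.subst_zero_of_constantCoeff_zero
          (PowerSeries.constantCoeff_substInvOfIsUnit L hL1)

end log

section coeffs

variable {R : Type*} [CommRing R]

open PowerSeries in
/-- `F(a,b) ≡ F(0,b)` modulo `X^M` when `a ≡ 0`. -/
theorem coeff_fadd_left (F : FormalGroup R) (a b : PowerSeries R)
    (ha : PowerSeries.constantCoeff a = 0) (hb : PowerSeries.constantCoeff b = 0) (M : ℕ)
    (hM : PowerSeries.X ^ M ∣ a) (i : ℕ) (hi : i < M) :
    PowerSeries.coeff i (fadd F a b) = PowerSeries.coeff i b := by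
  have h0 := zero_fadd F b hb
  conv_rhs => rw [← h0]
  unfold fadd
  rw [PowerSeries.coeff, MvPowerSeries.coeff_subst (hs2 ha hb), MvPowerSeries.coeff_subst
    (hs2 (a := (0 : MvPowerSeries Unit R)) (by simp) hb)]
  apply finsum_congr
  intro d
  congr 1
  change PowerSeries.coeff i _ = PowerSeries.coeff i _
  rw [Finsupp.prod_fintype _ _ (by simp), Finsupp.prod_fintype _ _ (by simp)]
  simp only [Fin.prod_univ_two, Matrix.cons_val_zero, Matrix.cons_val_one]
  rcases Nat.eq_zero_or_pos (d 0) with h | h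
  · rw [h, pow_zero, pow_zero]
  · have h1 : PowerSeries.X ^ M ∣ a ^ (d 0) * b ^ (d 1) :=
      Dvd.dvd.mul_right (hM.trans (dvd_pow_self a h.ne')) _
    have h2 : PowerSeries.X ^ M ∣ (0 : PowerSeries R) ^ (d 0) * b ^ (d 1) :=
      Dvd.dvd.mul_right ((dvd_zero _).trans (dvd_pow_self (0 : PowerSeries R) h.ne')) _
    have h3 := PowerSeries.X_pow_dvd_iff.1 h1 i hi
    have h4 := PowerSeries.X_pow_dvd_iff.1 h2 i hi
    exact h3.trans h4.symm

/-- leading terms add -/
theorem coeff_fadd_both (F : FormalGroup R) (a b : PowerSeries R) (M : ℕ) (hM0 : 1 ≤ M)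
    (ha : PowerSeries.X ^ M ∣ a) (hb : PowerSeries.X ^ M ∣ b) (i : ℕ) (hi : i ≤ M) :
    PowerSeries.coeff i (fadd F a b) = PowerSeries.coeff i a + PowerSeries.coeff i b := by
  have hX : ∀ {c : PowerSeries R}, PowerSeries.X ^ M ∣ c → PowerSeries.constantCoeff c = 0 := by
    intro c hc
    rw [← PowerSeries.coeff_zero_eq_constantCoeff_apply]
    exact PowerSeries.X_pow_dvd_iff.1 hc 0 (by omega)
  have ha0 := hX ha
  have hb0 := hX hb
  unfold fadd
  rw [PowerSeries.coeff, MvPowerSeries.coeff_subst (hs2 ha0 hb0)]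
  have key : ∀ d : Fin 2 →₀ ℕ, d ≠ Finsupp.single 0 1 → d ≠ Finsupp.single 1 1 →
      MvPowerSeries.coeff d F.toPowerSeries •
        MvPowerSeries.coeff (Finsupp.single () i) (d.prod fun s e => (![a, b] s) ^ e) = 0 := by
    intro d h1 h2
    by_cases h0 : d = 0
    · subst h0
      have := F.zero_constantCoeff
      rw [← MvPowerSeries.coeff_zero_eq_constantCoeff_apply] at this
      rw [this, zero_smul]
    · have h3 : 2 ≤ d 0 + d 1 := by
        by_contra hcon
        push Not at hcon
        have hc : (d 0 = 0 ∧ d 1 = 0) ∨ (d 0 = 1 ∧ d 1 = 0) ∨ (d 0 = 0 ∧ d 1 = 1) := by omega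
        rcases hc with ⟨h4, h5⟩ | ⟨h4, h5⟩ | ⟨h4, h5⟩
        · apply h0; ext s; fin_cases s <;> simp [h4, h5]
        · apply h1; ext s; fin_cases s <;> simp [h4, h5]
        · apply h2; ext s; fin_cases s <;> simp [h4, h5]
      change _ • PowerSeries.coeff i _ = 0
      rw [Finsupp.prod_fintype _ _ (by simp)]
      simp only [Fin.prod_univ_two, Matrix.cons_val_zero, Matrix.cons_val_one]
      have h4 : PowerSeries.X ^ (M * 2) ∣ a ^ (d 0) * b ^ (d 1) := by
        have h5 : PowerSeries.X ^ (M * (d 0 + d 1)) ∣ a ^ (d 0) * b ^ (d 1) := by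
          rw [mul_add, pow_add, pow_mul, pow_mul]
          exact mul_dvd_mul (pow_dvd_pow_of_dvd ha _) (pow_dvd_pow_of_dvd hb _)
        exact (pow_dvd_pow _ (Nat.mul_le_mul_left _ h3)).trans h5
      rw [PowerSeries.X_pow_dvd_iff.1 h4 i (by omega), smul_zero]
  rw [finsum_eq_sum_of_support_subset _ (s := {Finsupp.single 0 1, Finsupp.single 1 1})]
  · rw [Finset.sum_pair]
    · rw [F.lin_coeff_X, F.lin_coeff_Y]
      simp [PowerSeries.coeff]
    · intro h
      have := DFunLike.congr_fun h 0
      simp at this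
  · intro d hd
    by_contra hcon
    simp only [Finset.coe_insert, Finset.coe_singleton, Set.mem_insert_iff,
      Set.mem_singleton_iff, not_or] at hcon
    exact hd (key d hcon.1 hcon.2)

end coeffs

universe u

section roots

/-- power sums of a primitive `ℓ`-th root of unity in a domain -/
theorem sum_zeta_domain {S : Type*} [CommRing S] [IsDomain S] {l : ℕ} (hl : l.Prime)
    (hl0 : (l : S) ≠ 0) (ζ : S) (hζ : ∑ j ∈ Finset.range l, ζ ^ j = 0) (m : ℕ) (hm : ¬ l ∣ m) :
    ∑ j ∈ Finset.range l, (ζ ^ m) ^ j = 0 := by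
  have h1 : ζ ^ l = 1 := by
    have := geom_sum_mul ζ l
    rw [hζ, zero_mul] at this
    exact (sub_eq_zero.1 this.symm)
  have h2 := geom_sum_mul (ζ ^ m) l
  rw [← pow_mul, mul_comm m l, pow_mul, h1, one_pow, sub_self] at h2
  rcases mul_eq_zero.1 h2 with h3 | h3
  · exact h3
  · exfalso
    have h4 : ζ ^ m = 1 := sub_eq_zero.1 h3
    have h5 : orderOf ζ ∣ Nat.gcd m l := Nat.dvd_gcd (orderOf_dvd_of_pow_eq_one h4)
      (orderOf_dvd_of_pow_eq_one h1)
    have h6 : Nat.gcd m l = 1 := Nat.Coprime.symm ((Nat.Prime.coprime_iff_not_dvd hl).2 hm)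
    rw [h6, Nat.dvd_one, orderOf_eq_one_iff] at h5
    rw [h5] at hζ
    simp at hζ
    exact hl0 hζ

theorem eval₂_cyclo {l : ℕ} (hl : l.Prime) {R S : Type*} [CommRing R] [CommRing S] (g : R →+* S)
    (z : S) : Polynomial.eval₂ g z (Polynomial.cyclotomic l R) = ∑ j ∈ Finset.range l, z ^ j := by
  have : Fact l.Prime := ⟨hl⟩
  rw [Polynomial.cyclotomic_prime, Polynomial.eval₂_finsetSum]
  simp

/-- the universal ring with an `ℓ`-th root of unity -/
abbrev El (l : ℕ) : Type := AdjoinRoot (Polynomial.cyclotomic l ℤ)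

theorem El_isDomain (l : ℕ) (hl : l.Prime) : IsDomain (El l) := by
  have h := Polynomial.cyclotomic.irreducible hl.pos
  exact AdjoinRoot.isDomain_of_prime h.prime

theorem El_charZero (l : ℕ) (hl : l.Prime) : CharZero (El l) := by
  have := El_isDomain l hl
  have h1 : Function.Injective (AdjoinRoot.of (Polynomial.cyclotomic l ℤ)) := by
    apply AdjoinRoot.of.injective_of_degree_ne_zero
    rw [Polynomial.degree_cyclotomic]
    simp [hl.pos.ne']
  exact charZero_of_injective_ringHom h1

theorem El_root (l : ℕ) (hl : l.Prime) :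
    ∑ j ∈ Finset.range l, (AdjoinRoot.root (Polynomial.cyclotomic l ℤ)) ^ j = 0 := by
  have h := AdjoinRoot.eval₂_root (Polynomial.cyclotomic l ℤ)
  rwa [eval₂_cyclo hl] at h

/-- the map from the universal ring -/
def Elhom {l : ℕ} (hl : l.Prime) {R : Type*} [CommRing R] (ζ : R)
    (hζ : ∑ j ∈ Finset.range l, ζ ^ j = 0) : El l →+* R :=
  AdjoinRoot.lift (Int.castRingHom R) ζ (by
    have : Fact l.Prime := ⟨hl⟩
    rw [Polynomial.cyclotomic_prime, Polynomial.eval₂_finsetSum]
    simpa using hζ)

theorem Elhom_root {l : ℕ} (hl : l.Prime) {R : Type*} [CommRing R] (ζ : R)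
    (hζ : ∑ j ∈ Finset.range l, ζ ^ j = 0) :
    Elhom hl ζ hζ (AdjoinRoot.root (Polynomial.cyclotomic l ℤ)) = ζ := by
  simp [Elhom]

/-- power sums of `ζ` in a general ring -/
theorem sum_zeta {R : Type*} [CommRing R] {l : ℕ} (hl : l.Prime) (ζ : R)
    (hζ : ∑ j ∈ Finset.range l, ζ ^ j = 0) (m : ℕ) (hm : ¬ l ∣ m) :
    ∑ j ∈ Finset.range l, (ζ ^ m) ^ j = 0 := by
  have := El_isDomain l hl
  have := El_charZero l hl
  have h := sum_zeta_domain hl (Nat.cast_ne_zero.2 hl.ne_zero) _ (El_root l hl) m hm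
  have h2 := congrArg (Elhom hl ζ hζ) h
  simpa [Elhom_root] using h2

/-- `ζ ^ l = 1` -/
theorem zeta_pow {R : Type*} [CommRing R] {l : ℕ} (ζ : R)
    (hζ : ∑ j ∈ Finset.range l, ζ ^ j = 0) : ζ ^ l = 1 := by
  have := geom_sum_mul ζ l
  rw [hζ, zero_mul] at this
  exact (sub_eq_zero.1 this.symm)

/-- adjoining a root of unity -/
theorem exists_ext {A : Type u} [CommRing A] [Nontrivial A] (l : ℕ) (hl : l.Prime) :
    ∃ (A' : Type u) (_ : CommRing A') (ι : A →+* A') (ζ : A'), Function.Injective ι ∧
      ∑ j ∈ Finset.range l, ζ ^ j = 0 := by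
  refine ⟨AdjoinRoot (Polynomial.cyclotomic l A), inferInstance, AdjoinRoot.of _,
    AdjoinRoot.root _, ?_, ?_⟩
  · rw [injective_iff_map_eq_zero]
    intro a ha
    by_contra hne
    have h1 : Polynomial.cyclotomic l A ∣ Polynomial.C a := by
      rw [← AdjoinRoot.mk_eq_zero]
      exact ha
    have h2 : (Polynomial.C a) ≠ 0 := by simpa using hne
    refine (Polynomial.cyclotomic.monic l A).not_dvd_of_degree_lt h2 ?_ h1
    rw [Polynomial.degree_cyclotomic]
    refine lt_of_le_of_lt Polynomial.degree_C_le ?_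
    have := Nat.totient_pos.2 hl.pos
    exact_mod_cast this
  · have h := AdjoinRoot.eval₂_root (Polynomial.cyclotomic l A)
    rwa [eval₂_cyclo hl] at h

end roots

section typ

variable {R : Type*} [CommRing R]

/-- the `ℓ`-typicality test for curves -/
def LTyp (F : FormalGroup R) (ζ : R) (l : ℕ) (γ : PowerSeries R) : Prop :=
  fsum F ((List.range l).map fun j => PowerSeries.rescale (ζ ^ j) γ) = 0

theorem constantCoeff_rescale (r : R) (γ : PowerSeries R)
    (h : PowerSeries.constantCoeff γ = 0) :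
    MvPowerSeries.constantCoeff (PowerSeries.rescale r γ) = 0 := by
  change PowerSeries.constantCoeff _ = 0
  rw [← PowerSeries.coeff_zero_eq_constantCoeff_apply, PowerSeries.coeff_rescale]
  simp [h]

theorem hsrX (r : R) : MvPowerSeries.constantCoeff (r • PowerSeries.X : PowerSeries R) = 0 := by
  change PowerSeries.constantCoeff _ = 0
  simp

theorem rescale_fadd (F : FormalGroup R) (r : R) (a b : PowerSeries R)
    (ha : PowerSeries.constantCoeff a = 0) (hb : PowerSeries.constantCoeff b = 0) :
    PowerSeries.rescale r (fadd F a b) =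
      fadd F (PowerSeries.rescale r a) (PowerSeries.rescale r b) := by
  rw [PowerSeries.rescale_eq_subst, PowerSeries.rescale_eq_subst, PowerSeries.rescale_eq_subst,
    PowerSeries.subst_def]
  exact subst_fadd (τ := Unit) F a b ha hb (fun _ => r • PowerSeries.X) (fun _ => hsrX r)

theorem LTyp.fadd {F : FormalGroup R} [F.IsComm] {ζ : R} {l : ℕ} {a b : PowerSeries R}
    (ha0 : PowerSeries.constantCoeff a = 0) (hb0 : PowerSeries.constantCoeff b = 0)
    (ha : LTyp F ζ l a) (hb : LTyp F ζ l b) : LTyp F ζ l (Crest.Agent.R227.fadd F a b) := by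
  unfold LTyp at *
  have : (fun j => PowerSeries.rescale (ζ ^ j) (Crest.Agent.R227.fadd F a b)) = fun j =>
      Crest.Agent.R227.fadd F (PowerSeries.rescale (ζ ^ j) a) (PowerSeries.rescale (ζ ^ j) b) := by
    funext j
    exact rescale_fadd F _ a b ha0 hb0
  rw [this, fsum_map_fadd F (List.range l) _ _ (fun j => constantCoeff_rescale _ a ha0)
    (fun j => constantCoeff_rescale _ b hb0), ha, hb, fadd_zero F 0 (by simp)]

theorem LTyp.of_fadd_eq_zero {F : FormalGroup R} [F.IsComm] {ζ : R} {l : ℕ} {a b : PowerSeries R}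
    (ha0 : PowerSeries.constantCoeff a = 0) (hn0 : PowerSeries.constantCoeff b = 0)
    (hab : Crest.Agent.R227.fadd F a b = 0)
    (ha : LTyp F ζ l a) : LTyp F ζ l b := by
  unfold LTyp at *
  have h1 := fsum_map_fadd F (List.range l) (fun j => PowerSeries.rescale (ζ ^ j) a)
    (fun j => PowerSeries.rescale (ζ ^ j) b)
    (fun j => constantCoeff_rescale _ a ha0)
    (fun j => constantCoeff_rescale _ _ hn0)
  have h2 : (fun j => Crest.Agent.R227.fadd F (PowerSeries.rescale (ζ ^ j) a)
      (PowerSeries.rescale (ζ ^ j) b)) = fun j => 0 := by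
    funext j
    rw [← rescale_fadd F _ a _ ha0 hn0, hab, map_zero]
  rw [h2, fsum_map_zero, ha, zero_fadd F _ (constantCoeff_fsum F _ (by
    intro c hc
    obtain ⟨j, -, rfl⟩ := List.mem_map.1 hc
    exact constantCoeff_rescale _ _ hn0))] at h1
  exact h1.symm

theorem coeff_fsum_both (F : FormalGroup R) (M : ℕ) (hM0 : 1 ≤ M) (l : List (PowerSeries R))
    (hl : ∀ a ∈ l, PowerSeries.X ^ M ∣ a) :
    PowerSeries.X ^ M ∣ fsum F l ∧
      PowerSeries.coeff M (fsum F l) = (l.map fun a => PowerSeries.coeff M a).sum := by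
  induction l with
  | nil =>
    constructor
    · exact dvd_zero _
    · simp [fsum]
  | cons a l ih =>
    obtain ⟨h1, h2⟩ := ih fun b hb => hl b (by simp [hb])
    have h3 := coeff_fadd_both F a (fsum F l) M hM0 (hl a (by simp)) h1
    constructor
    · rw [PowerSeries.X_pow_dvd_iff]
      intro i hi
      rw [fsum_cons]
      rw [h3 i hi.le, PowerSeries.X_pow_dvd_iff.1 (hl a (by simp)) i hi,
        PowerSeries.X_pow_dvd_iff.1 h1 i hi, add_zero]
    · rw [fsum_cons, h3 M le_rfl, h2, List.map_cons, List.sum_cons]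

theorem LTyp.coeff {F : FormalGroup R} {ζ : R} {l : ℕ} (hζ : ζ ^ l = 1) {γ : PowerSeries R}
    (h : LTyp F ζ l γ) {m : ℕ} (hm0 : 1 ≤ m) (hm : l ∣ m) (hX : PowerSeries.X ^ m ∣ γ) :
    (l : R) * PowerSeries.coeff m γ = 0 := by
  have h1 := (coeff_fsum_both F m hm0 ((List.range l).map fun j => PowerSeries.rescale (ζ ^ j) γ)
    (by
      intro a ha
      obtain ⟨j, -, rfl⟩ := List.mem_map.1 ha
      rw [PowerSeries.X_pow_dvd_iff]
      intro i hi
      rw [PowerSeries.coeff_rescale, PowerSeries.X_pow_dvd_iff.1 hX i hi, mul_zero])).2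
  unfold LTyp at h
  rw [h, map_zero] at h1
  obtain ⟨k, rfl⟩ := hm
  have h2 : ∀ j, (ζ ^ j) ^ (l * k) = 1 := by
    intro j
    rw [← pow_mul, mul_comm j, mul_assoc, pow_mul, hζ, one_pow]
  simp only [List.map_map, Function.comp_def, PowerSeries.coeff_rescale, h2, one_mul,
    List.map_const', List.sum_replicate, List.length_range, nsmul_eq_mul] at h1
  exact h1.symm

end typ

section main

variable {p : ℕ} [Fact p.Prime]

theorem constantCoeff_pSeries {B : Type*} [CommRing B] (l : ℕ → B) :
    PowerSeries.constantCoeff (pSeries p l) = 0 := by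
  rw [← PowerSeries.coeff_zero_eq_constantCoeff_apply, pSeries, PowerSeries.coeff_mk]
  simp

theorem coeff_one_pSeries {B : Type*} [CommRing B] (l : ℕ → B) :
    PowerSeries.coeff 1 (pSeries p l) = l 0 := by
  rw [pSeries, PowerSeries.coeff_mk]
  simp

theorem coeff_pSeries_eq_zero {B : Type*} [CommRing B] (l : ℕ → B) (m : ℕ)
    (hm : ∀ k, m ≠ p ^ k) : PowerSeries.coeff m (pSeries p l) = 0 := by
  rw [pSeries, PowerSeries.coeff_mk, if_neg]
  intro h
  exact hm _ h.symm

theorem hle_zero (n : ℕ) {B : Type*} [CommRing B] [Algebra ℚ B] (x : ℕ → B) :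
    hle p n x 0 = 1 := by
  simp [hle, hl]

theorem list_sum_range {M : Type*} [AddCommMonoid M] (f : ℕ → M) (l : ℕ) :
    ((List.range l).map f).sum = ∑ j ∈ Finset.range l, f j := by
  induction l with
  | zero => simp
  | succ l ih =>
    rw [List.range_succ, List.map_append, List.sum_append, ih, Finset.sum_range_succ]
    simp

/-- `∑^F_j ζ^j X = 0` over a domain of characteristic zero. -/
theorem LTyp_X_domain (n : ℕ) {U : Type*} [CommRing U] [IsDomain U] [CharZero U] (x : ℕ → U)
    {l : ℕ} (hl : l.Prime) (hlp : l ≠ p) (ζ : U) (hζ : ∑ j ∈ Finset.range l, ζ ^ j = 0) :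
    LTyp (hz p n x) ζ l PowerSeries.X := by
  let B := FractionRing U
  have hinj : Function.Injective (algebraMap U B) := IsFractionRing.injective U B
  have : CharZero B := charZero_of_injective_algebraMap hinj
  let y : ℕ → B := fun i => algebraMap U B (x i)
  let L : PowerSeries B := logAt p n y
  have hL0 : PowerSeries.constantCoeff L = 0 := constantCoeff_pSeries _
  have hL1 : IsUnit (PowerSeries.coeff 1 L) := by
    have : PowerSeries.coeff 1 L = 1 := by
      rw [show L = pSeries p (hle p n y) from rfl, coeff_one_pSeries, hle_zero]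
    rw [this]
    exact isUnit_one
  have hlog := log_hz (p := p) n y
  unfold LTyp
  have hlist : ∀ a ∈ ((List.range l).map fun j =>
      PowerSeries.rescale (ζ ^ j) (PowerSeries.X : PowerSeries U)),
      MvPowerSeries.constantCoeff a = 0 := by
    intro a ha
    obtain ⟨j, -, rfl⟩ := List.mem_map.1 ha
    exact constantCoeff_rescale _ _ (by simp)
  have hmapinj : Function.Injective (MvPowerSeries.map (σ := Unit) (algebraMap U B)) := by
    intro a b hab
    apply MvPowerSeries.ext
    intro d
    have := congrArg (MvPowerSeries.coeff d) hab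
    rw [MvPowerSeries.coeff_map, MvPowerSeries.coeff_map] at this
    exact hinj this
  apply hmapinj
  rw [map_zero, map_fsum _ _ _ hlist, hz_map]
  change fsum (hz p n y) _ = 0
  have hlist2 : ∀ a ∈ (((List.range l).map fun j =>
      PowerSeries.rescale (ζ ^ j) (PowerSeries.X : PowerSeries U)).map fun a =>
        MvPowerSeries.map (algebraMap U B) a),
      MvPowerSeries.constantCoeff a = 0 := by
    intro a ha
    obtain ⟨b, hb, rfl⟩ := List.mem_map.1 ha
    rw [MvPowerSeries.constantCoeff_map, hlist b hb, map_zero]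
  refine log_injective hL0 hL1 (constantCoeff_fsum _ _ hlist2) ?_
  rw [log_fsum hL0 hlog _ hlist2]
  rw [List.map_map, List.map_map]
  have hterm : ∀ j, (((fun a => PowerSeries.subst a L) ∘
      fun a => MvPowerSeries.map (algebraMap U B) a) ∘
      fun j => PowerSeries.rescale (ζ ^ j) (PowerSeries.X : PowerSeries U)) j =
      PowerSeries.rescale (algebraMap U B ζ ^ j) L := by
    intro j
    simp only [Function.comp_apply]
    rw [PowerSeries.rescale_eq_subst (algebraMap U B ζ ^ j) L]
    congr 1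
    ext i
    change PowerSeries.coeff i (PowerSeries.map _ _) = _
    rw [PowerSeries.coeff_map, PowerSeries.coeff_rescale]
    simp only [PowerSeries.coeff_X, map_mul, map_pow]
    rw [PowerSeries.coeff_smul, PowerSeries.coeff_X]
    split_ifs with h
    · subst h; simp
    · simp
  rw [List.map_congr_left (fun j _ => hterm j)]
  apply PowerSeries.ext
  intro m
  rw [map_list_sum, List.map_map]
  have hc : ∀ j, (⇑(PowerSeries.coeff m) ∘ fun j =>
      PowerSeries.rescale (algebraMap U B ζ ^ j) L) j =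
      (algebraMap U B ζ ^ j) ^ m * PowerSeries.coeff m L := by
    intro j
    simp only [Function.comp_apply]
    rw [PowerSeries.coeff_rescale]
  rw [List.map_congr_left (fun j _ => hc j), map_zero]
  by_cases hm : ∃ k, m = p ^ k
  · obtain ⟨k, rfl⟩ := hm
    have h1 : ¬ l ∣ p ^ k := by
      intro h
      exact hlp ((Nat.prime_dvd_prime_iff_eq hl Fact.out).1 (hl.dvd_of_dvd_pow h))
    have h2 := sum_zeta_domain (S := B) hl (Nat.cast_ne_zero.2 hl.ne_zero)
      (algebraMap U B ζ) (by
        have := congrArg (algebraMap U B) hζ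
        simpa using this) (p ^ k) h1
    have h3 : ∀ j, (algebraMap U B ζ ^ j) ^ p ^ k = (algebraMap U B ζ ^ p ^ k) ^ j := by
      intro j; rw [← pow_mul, ← pow_mul, mul_comm]
    rw [List.map_congr_left (fun j _ => by rw [h3 j])]
    rw [list_sum_range, ← Finset.sum_mul, h2, zero_mul]
  · push Not at hm
    have : PowerSeries.coeff m L = 0 := coeff_pSeries_eq_zero _ m hm
    simp [this]

/-- `∑^F_j ζ^j X = 0` over every ring -/
theorem LTyp_X (n : ℕ) {R : Type*} [CommRing R] (x : ℕ → R)
    {l : ℕ} (hl : l.Prime) (hlp : l ≠ p) (ζ : R) (hζ : ∑ j ∈ Finset.range l, ζ ^ j = 0) :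
    LTyp (hz p n x) ζ l PowerSeries.X := by
  have := El_isDomain l hl
  have := El_charZero l hl
  let U := MvPolynomial ℕ (El l)
  have : CharZero U := charZero_of_injective_algebraMap (MvPolynomial.C_injective ℕ (El l))
  let f : U →+* R := MvPolynomial.eval₂Hom (Elhom hl ζ hζ) x
  have h := LTyp_X_domain (p := p) n (U := U) (fun i => MvPolynomial.X i) hl hlp
    (MvPolynomial.C (AdjoinRoot.root _)) (by
      have := congrArg (MvPolynomial.C (σ := ℕ)) (El_root l hl)
      simpa using this)
  unfold LTyp at h ⊢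
  have h2 := congrArg (MvPowerSeries.map f) h
  rw [map_fsum _ _ _ (by
    intro a ha
    obtain ⟨j, -, rfl⟩ := List.mem_map.1 ha
    exact constantCoeff_rescale _ _ (by simp)), map_zero, hz_map, List.map_map] at h2
  rw [← h2]
  congr 1
  · congr 1
    funext i
    exact (MvPolynomial.eval₂Hom_X' (Elhom hl ζ hζ) x i).symm
  · apply List.map_congr_left
    intro j _
    simp only [Function.comp_apply]
    apply PowerSeries.ext
    intro i
    change _ = PowerSeries.coeff i (PowerSeries.map f _)
    rw [PowerSeries.coeff_map, PowerSeries.coeff_rescale, PowerSeries.coeff_rescale]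
    simp only [PowerSeries.coeff_X, map_mul, map_pow]
    have hfC : f (MvPolynomial.C (AdjoinRoot.root (Polynomial.cyclotomic l ℤ))) = ζ := by
      rw [show f (MvPolynomial.C (AdjoinRoot.root (Polynomial.cyclotomic l ℤ))) =
        Elhom hl ζ hζ (AdjoinRoot.root (Polynomial.cyclotomic l ℤ)) from
        MvPolynomial.eval₂Hom_C (Elhom hl ζ hζ) x _, Elhom_root]
    rw [hfC]
    split_ifs with h
    · simp
    · simp

/-- homomorphisms out of `hz` are typical curves -/
theorem LTyp_hom {n : ℕ} {R : Type*} [CommRing R] {x : ℕ → R} {G : FormalGroup R}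
    {l : ℕ} (hl : l.Prime) (hlp : l ≠ p) (ζ : R) (hζ : ∑ j ∈ Finset.range l, ζ ^ j = 0)
    {f : PowerSeries R} (hf : IsFGHom (hz p n x) G f) : LTyp G ζ l f := by
  have h := LTyp_X (p := p) n x hl hlp ζ hζ
  unfold LTyp at h ⊢
  have h2 := subst_fsum_hom hf ((List.range l).map fun j =>
    PowerSeries.rescale (ζ ^ j) (PowerSeries.X : PowerSeries R)) (by
    intro a ha
    obtain ⟨j, -, rfl⟩ := List.mem_map.1 ha
    exact constantCoeff_rescale _ _ (by simp))
  rw [h, List.map_map] at h2
  have h3 : PowerSeries.subst (0 : MvPowerSeries Unit R) f = 0 :=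
    PowerSeries.subst_zero_of_constantCoeff_zero hf.1
  rw [h3] at h2
  rw [h2]
  congr 1
  apply List.map_congr_left
  intro j _
  simp only [Function.comp_apply]
  rw [PowerSeries.rescale_eq_subst]
  congr 1
  rw [PowerSeries.rescale_eq_subst, PowerSeries.subst_X]
  exact hs (hsrX _)

/-- the curves `c X^{p^K}` are typical -/
theorem LTyp_monomial (n : ℕ) {R : Type*} [CommRing R] (x : ℕ → R)
    {l : ℕ} (hl : l.Prime) (hlp : l ≠ p) (ζ : R) (hζ : ∑ j ∈ Finset.range l, ζ ^ j = 0)
    (c : R) (K : ℕ) :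
    LTyp (hz p n x) ζ l (PowerSeries.C c * PowerSeries.X ^ p ^ K) := by
  have hp : p.Prime := Fact.out
  have hK : ¬ l ∣ p ^ K := by
    intro h
    exact hlp ((Nat.prime_dvd_prime_iff_eq hl hp).1 (hl.dvd_of_dvd_pow h))
  have h := LTyp_X (p := p) n x hl hlp (ζ ^ p ^ K) (sum_zeta hl ζ hζ _ hK)
  unfold LTyp at h ⊢
  have hg : MvPowerSeries.constantCoeff
      (PowerSeries.C c * PowerSeries.X ^ p ^ K : PowerSeries R) = 0 := by
    change PowerSeries.constantCoeff _ = 0
    simp [hp.pos.ne']
  have h2 := subst_fsum_ps (hz p n x) (PowerSeries.C c * PowerSeries.X ^ p ^ K : PowerSeries R) hg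
    ((List.range l).map fun j =>
    PowerSeries.rescale ((ζ ^ p ^ K) ^ j) (PowerSeries.X : PowerSeries R)) (by
    intro a ha
    obtain ⟨j, -, rfl⟩ := List.mem_map.1 ha
    exact constantCoeff_rescale _ _ (by simp))
  have h0 : PowerSeries.subst (PowerSeries.C c * PowerSeries.X ^ p ^ K : PowerSeries R)
      (0 : PowerSeries R) = 0 := by
    rw [← PowerSeries.coe_substAlgHom (hs hg), map_zero]
  rw [h, List.map_map, h0] at h2
  rw [h2]
  congr 1
  apply List.map_congr_left
  intro j _
  simp only [Function.comp_apply]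
  rw [PowerSeries.rescale_eq_subst ((ζ ^ p ^ K) ^ j), PowerSeries.subst_X (hs (hsrX _))]
  rw [PowerSeries.subst_smul (hs hg), PowerSeries.subst_X (hs hg)]
  apply PowerSeries.ext
  intro i
  rw [PowerSeries.coeff_rescale, PowerSeries.coeff_smul, PowerSeries.coeff_C_mul,
    PowerSeries.coeff_X_pow]
  split_ifs with h
  · rw [h, ← pow_mul, ← pow_mul, mul_comm j]
    simp
  · simp

end main

section final

variable {p : ℕ} [Fact p.Prime] {A : Type u} [CommRing A]

/-- partial formal sums `∑^F_{K<N} c_K X^{p^K}` -/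
def psum (p : ℕ) (F : FormalGroup A) (c : ℕ → A) (N : ℕ) : PowerSeries A :=
  fsum F ((List.range N).map fun K => (PowerSeries.C (c K) * PowerSeries.X ^ p ^ K : PowerSeries A))

theorem cc_mono (c : A) (K : ℕ) :
    MvPowerSeries.constantCoeff (PowerSeries.C c * PowerSeries.X ^ p ^ K : PowerSeries A) = 0 := by
  change PowerSeries.constantCoeff _ = 0
  simp [(Fact.out : p.Prime).pos.ne']

theorem constantCoeff_psum (F : FormalGroup A) (c : ℕ → A) (N : ℕ) :
    PowerSeries.constantCoeff (psum p F c N) = 0 := by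
  apply constantCoeff_fsum
  intro a ha
  obtain ⟨j, -, rfl⟩ := List.mem_map.1 ha
  exact cc_mono _ _

theorem fsum_append_singleton {τ : Type*} (F : FormalGroup A) (l : List (MvPowerSeries τ A))
    (hl : ∀ a ∈ l, constantCoeff a = 0) (a : MvPowerSeries τ A) (ha : constantCoeff a = 0) :
    fsum F (l ++ [a]) = fadd F (fsum F l) a := by
  induction l with
  | nil =>
    simp only [List.nil_append, fsum, List.foldr]
    rw [fadd_zero F a ha, zero_fadd F a ha]
  | cons b l ih =>
    have h1 : ∀ b ∈ l, constantCoeff b = 0 := fun b hb => hl b (by simp [hb])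
    rw [List.cons_append, fsum_cons, fsum_cons, ih h1,
      fadd_assoc F b _ a (hl b (by simp)) (constantCoeff_fsum F l h1) ha]

theorem psum_succ (F : FormalGroup A) (c : ℕ → A) (N : ℕ) :
    psum p F c (N + 1) = fadd F (psum p F c N) (PowerSeries.C (c N) * PowerSeries.X ^ p ^ N) := by
  unfold psum
  rw [List.range_succ, List.map_append]
  apply fsum_append_singleton
  · intro a ha
    obtain ⟨j, -, rfl⟩ := List.mem_map.1 ha
    exact cc_mono _ _
  · exact cc_mono _ _

theorem psum_congr (F : FormalGroup A) (c c' : ℕ → A) (N : ℕ) (h : ∀ K < N, c K = c' K) :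
    psum p F c N = psum p F c' N := by
  unfold psum
  congr 1
  apply List.map_congr_left
  intro j hj
  rw [h j (List.mem_range.1 hj)]

theorem dvd_fneg (F : FormalGroup A) (a : PowerSeries A) (M : ℕ) (hM : 1 ≤ M)
    (ha : PowerSeries.X ^ M ∣ a) : PowerSeries.X ^ M ∣ fneg F a := by
  have ha0 : PowerSeries.constantCoeff a = 0 := by
    rw [← PowerSeries.coeff_zero_eq_constantCoeff_apply]
    exact PowerSeries.X_pow_dvd_iff.1 ha 0 (by omega)
  have h0 : PowerSeries.constantCoeff (fnegSeries F) = 0 := (exists_fneg F).choose_spec.1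
  obtain ⟨g, hg⟩ := PowerSeries.X_dvd_iff.2 h0
  unfold fneg
  rw [hg, PowerSeries.subst_mul (hs ha0), PowerSeries.subst_X (hs ha0)]
  exact Dvd.dvd.mul_right ha _

theorem coeff_fneg (F : FormalGroup A) (a : PowerSeries A) (M : ℕ) (hM : 1 ≤ M)
    (ha : PowerSeries.X ^ M ∣ a) (i : ℕ) (hi : i ≤ M) :
    PowerSeries.coeff i (fneg F a) = - PowerSeries.coeff i a := by
  have ha0 : PowerSeries.constantCoeff a = 0 := by
    rw [← PowerSeries.coeff_zero_eq_constantCoeff_apply]
    exact PowerSeries.X_pow_dvd_iff.1 ha 0 (by omega)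
  have h := coeff_fadd_both F a (fneg F a) M hM ha (dvd_fneg F a M hM ha) i hi
  rw [fadd_fneg F a ha0, map_zero] at h
  exact (neg_eq_of_add_eq_zero_right h.symm).symm

/-- typicality test, universal form -/
def Typ (p : ℕ) (F : FormalGroup A) (γ : PowerSeries A) : Prop :=
  ∀ l : ℕ, l.Prime → l ≠ p → ∀ (A' : Type u) [CommRing A'] (ι : A →+* A') (ζ : A'),
    ∑ j ∈ Finset.range l, ζ ^ j = 0 → LTyp (F.map ι) ζ l (PowerSeries.map ι γ)

theorem cc_map {A' : Type*} [CommRing A'] (ι : A →+* A') {a : PowerSeries A}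
    (ha : PowerSeries.constantCoeff a = 0) :
    PowerSeries.constantCoeff (PowerSeries.map ι a) = 0 := by
  rw [← PowerSeries.coeff_zero_eq_constantCoeff_apply, PowerSeries.coeff_map,
    PowerSeries.coeff_zero_eq_constantCoeff_apply, ha, map_zero]

theorem isComm_map (F : FormalGroup A) [F.IsComm] {A' : Type*} [CommRing A'] (ι : A →+* A') :
    (F.map ι).IsComm := by
  constructor
  have h := FormalGroup.IsComm.comm (F := F)
  change MvPowerSeries.map ι F.toPowerSeries =
    MvPowerSeries.subst ![X 1, X 0] (MvPowerSeries.map ι F.toPowerSeries)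
  conv_lhs => rw [h]
  rw [MvPowerSeries.map_subst HasSubst.X_X]
  congr 1
  funext i
  fin_cases i <;> simp

theorem Typ.fadd {F : FormalGroup A} [F.IsComm] {a b : PowerSeries A}
    (ha0 : PowerSeries.constantCoeff a = 0) (hb0 : PowerSeries.constantCoeff b = 0)
    (ha : Typ p F a) (hb : Typ p F b) : Typ p F (Crest.Agent.R227.fadd F a b) := by
  intro l hl hlp A' _ ι ζ hζ
  have := isComm_map F ι
  have h := (ha l hl hlp A' ι ζ hζ).fadd (cc_map ι ha0) (cc_map ι hb0) (hb l hl hlp A' ι ζ hζ)
  have h2 := map_fadd ι F a b ha0 hb0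
  change PowerSeries.map ι _ = Crest.Agent.R227.fadd _ (PowerSeries.map ι a)
    (PowerSeries.map ι b) at h2
  rw [h2]
  exact h

theorem Typ.fneg {F : FormalGroup A} [F.IsComm] {a : PowerSeries A}
    (ha0 : PowerSeries.constantCoeff a = 0)
    (ha : Typ p F a) : Typ p F (Crest.Agent.R227.fneg F a) := by
  intro l hl hlp A' _ ι ζ hζ
  have := isComm_map F ι
  have hn0 : PowerSeries.constantCoeff (Crest.Agent.R227.fneg F a) = 0 :=
    constantCoeff_fneg F a ha0
  have h2 := map_fadd ι F a _ ha0 hn0
  rw [fadd_fneg F a ha0, map_zero] at h2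
  exact LTyp.of_fadd_eq_zero (cc_map ι ha0) (cc_map ι hn0) h2.symm (ha l hl hlp A' ι ζ hζ)

theorem Typ_hom {n : ℕ} {x : ℕ → A} {G : FormalGroup A} {f : PowerSeries A}
    (hf : IsFGHom (hz p n x) G f) : Typ p G f := by
  intro l hl hlp A' _ ι ζ hζ
  have h := Crest.Agent.R227.IsFGHom.map ι hf
  rw [hz_map] at h
  exact LTyp_hom hl hlp ζ hζ h

theorem Typ_monomial (n : ℕ) (x : ℕ → A) (c : A) (K : ℕ) :
    Typ p (hz p n x) (PowerSeries.C c * PowerSeries.X ^ p ^ K) := by
  intro l hl hlp A' _ ι ζ hζ
  rw [hz_map]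
  have := LTyp_monomial (p := p) n (fun i => ι (x i)) hl hlp ζ hζ (ι c) K
  simpa using this

theorem Typ.coeff_eq_zero [CharP A p] {F : FormalGroup A} {γ : PowerSeries A} (h : Typ p F γ)
    {m : ℕ} (hm0 : 1 ≤ m) {l : ℕ} (hl : l.Prime) (hlp : l ≠ p) (hm : l ∣ m)
    (hX : PowerSeries.X ^ m ∣ γ) : PowerSeries.coeff m γ = 0 := by
  have hp : p.Prime := Fact.out
  have hnt : Nontrivial A := CharP.nontrivial_of_char_ne_one (R := A) hp.one_lt.ne'
  obtain ⟨A', _, ι, ζ, hι, hζ⟩ := exists_ext (A := A) l hl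
  have h1 := h l hl hlp A' ι ζ hζ
  have hX' : PowerSeries.X ^ m ∣ PowerSeries.map ι γ := by
    rw [PowerSeries.X_pow_dvd_iff] at hX ⊢
    intro i hi
    rw [PowerSeries.coeff_map, hX i hi, map_zero]
  have h2 := h1.coeff (zeta_pow ζ hζ) hm0 hm hX'
  rw [PowerSeries.coeff_map, ← map_natCast ι, ← map_mul, ← map_zero ι] at h2
  have h3 := hι h2
  have hunit : IsUnit (l : A) := (CharP.isUnit_natCast_iff (R := A) (p := p) (n := l) hp).2
    (fun h => hlp ((Nat.prime_dvd_prime_iff_eq hp hl).1 h).symm)
  exact hunit.mul_right_eq_zero.1 h3 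

/-- the coefficients of the expansion of a curve, recursively -/
def cs (p : ℕ) (F : FormalGroup A) (f : PowerSeries A) : ℕ → (ℕ → A)
  | 0 => fun _ => 0
  | N + 1 => Function.update (cs p F f N) N
      (PowerSeries.coeff (p ^ N) (fadd F f (fneg F (psum p F (cs p F f N) N))))

theorem cs_stable (F : FormalGroup A) (f : PowerSeries A) (K N : ℕ) (h : K < N) :
    cs p F f N K = cs p F f (K + 1) K := by
  obtain ⟨d, rfl⟩ := Nat.exists_eq_add_of_lt h
  clear h
  induction d with
  | zero => rfl
  | succ d ih =>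
    rw [← ih, show K + (d + 1) + 1 = (K + d + 1) + 1 by ring]
    conv_lhs => rw [cs]
    rw [Function.update_of_ne (by omega)]

theorem fneg_unique (F : FormalGroup A) [F.IsComm] (a b : PowerSeries A)
    (ha : PowerSeries.constantCoeff a = 0) (hb : PowerSeries.constantCoeff b = 0)
    (h : fadd F a b = 0) : b = fneg F a := by
  have hn : MvPowerSeries.constantCoeff (fneg F a) = 0 := constantCoeff_fneg F a ha
  have h1 : fadd F (fneg F a) (fadd F a b) = fneg F a := by rw [h, fadd_zero F _ hn]
  rw [← fadd_assoc F _ a b hn ha hb, fadd_comm F _ a hn ha, fadd_fneg F a ha,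
    zero_fadd F b hb] at h1
  exact h1

theorem fneg_fadd (F : FormalGroup A) [F.IsComm] (a b : PowerSeries A)
    (ha : PowerSeries.constantCoeff a = 0) (hb : PowerSeries.constantCoeff b = 0) :
    fneg F (fadd F a b) = fadd F (fneg F a) (fneg F b) := by
  have hna : MvPowerSeries.constantCoeff (fneg F a) = 0 := constantCoeff_fneg F a ha
  have hnb : MvPowerSeries.constantCoeff (fneg F b) = 0 := constantCoeff_fneg F b hb
  refine (fneg_unique F _ _ (constantCoeff_fadd F _ _ ha hb)
    (constantCoeff_fadd F _ _ hna hnb) ?_).symm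
  rw [fadd_comm F a b ha hb, fadd_assoc F b a _ hb ha (constantCoeff_fadd F _ _ hna hnb),
    ← fadd_assoc F a _ _ ha hna hnb, fadd_fneg F a ha, zero_fadd F _ hnb, fadd_fneg F b hb]

theorem Typ_zero (F : FormalGroup A) : Typ p F 0 := by
  intro l hl hlp A' _ ι ζ hζ
  unfold LTyp
  simp only [map_zero]
  exact fsum_map_zero _ _

theorem Typ_psum (n : ℕ) (x : ℕ → A) (c : ℕ → A) (N : ℕ) :
    Typ p (hz p n x) (psum p (hz p n x) c N) := by
  induction N with
  | zero => exact Typ_zero _
  | succ N ih =>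
    rw [psum_succ]
    exact Typ.fadd (constantCoeff_psum _ _ _) (cc_mono _ _) ih (Typ_monomial n x _ _)

theorem dvd_expansion [CharP A p] {n m : ℕ} (x y : ℕ → A) (f : PowerSeries A)
    (hf : IsFGHom (hz p n x) (hz p m y) f) (N : ℕ) :
    PowerSeries.X ^ p ^ N ∣
      fadd (hz p m y) f (fneg (hz p m y) (psum p (hz p m y) (cs p (hz p m y) f N) N)) := by
  have hp : p.Prime := Fact.out
  have hf0 : PowerSeries.constantCoeff f = 0 := hf.1
  have hfT : Typ p (hz p m y) f := Typ_hom hf
  induction N with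
  | zero =>
    rw [pow_zero, pow_one, PowerSeries.X_dvd_iff]
    exact constantCoeff_fadd _ _ _ hf0 (constantCoeff_fneg _ _ (constantCoeff_psum _ _ _))
  | succ N ih =>
    set F := hz p m y with hF
    have hS0 : PowerSeries.constantCoeff (psum p F (cs p F f N) N) = 0 := constantCoeff_psum F _ _
    have hnS0 : PowerSeries.constantCoeff (fneg F (psum p F (cs p F f N) N)) = 0 :=
      constantCoeff_fneg F _ hS0
    have hST : Typ p F (psum p F (cs p F f N) N) := Typ_psum m y _ N
    have hγ0 : PowerSeries.constantCoeff (fadd F f (fneg F (psum p F (cs p F f N) N))) = 0 :=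
      constantCoeff_fadd F _ _ hf0 hnS0
    have hγT : Typ p F (fadd F f (fneg F (psum p F (cs p F f N) N))) :=
      Typ.fadd hf0 hnS0 hfT (Typ.fneg hS0 hST)
    rw [psum_succ, psum_congr F (cs p F f (N + 1)) (cs p F f N) N (by
      intro K hK
      rw [cs, Function.update_of_ne hK.ne]), show cs p F f (N + 1) N =
        PowerSeries.coeff (p ^ N) (fadd F f (fneg F (psum p F (cs p F f N) N))) by
      rw [cs, Function.update_self]]
    generalize hc : PowerSeries.coeff (p ^ N) (fadd F f (fneg F (psum p F (cs p F f N) N))) = c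
    have hT0 : PowerSeries.constantCoeff (PowerSeries.C c * PowerSeries.X ^ p ^ N :
      PowerSeries A) = 0 := cc_mono _ _
    rw [fneg_fadd F _ _ hS0 hT0, ← fadd_assoc F f _ _ hf0 hnS0 (constantCoeff_fneg F _ hT0)]
    generalize fadd F f (fneg F (psum p F (cs p F f N) N)) = γ at *
    have hTd : PowerSeries.X ^ p ^ N ∣ (PowerSeries.C c * PowerSeries.X ^ p ^ N :
      PowerSeries A) := Dvd.intro_left _ rfl
    have hpN : 1 ≤ p ^ N := Nat.one_le_pow _ _ hp.pos
    have hγ'T : Typ p F (fadd F γ (fneg F (PowerSeries.C c * PowerSeries.X ^ p ^ N :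
      PowerSeries A))) := Typ.fadd hγ0 (constantCoeff_fneg F _ hT0) hγT
        (Typ.fneg hT0 (Typ_monomial m y c N))
    have hstart : PowerSeries.X ^ (p ^ N + 1) ∣ fadd F γ
        (fneg F (PowerSeries.C c * PowerSeries.X ^ p ^ N : PowerSeries A)) := by
      rw [PowerSeries.X_pow_dvd_iff]
      intro i hi
      rw [coeff_fadd_both F γ _ (p ^ N) hpN ih (dvd_fneg F _ _ hpN hTd) i (by omega),
        coeff_fneg F _ (p ^ N) hpN hTd i (by omega)]
      rcases Nat.lt_succ_iff_lt_or_eq.1 hi with h | h
      · rw [PowerSeries.X_pow_dvd_iff.1 ih i h, PowerSeries.X_pow_dvd_iff.1 hTd i h]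
        simp
      · subst h
        rw [hc, PowerSeries.coeff_C_mul, PowerSeries.coeff_X_pow_self, mul_one, add_neg_cancel]
    generalize fadd F γ
        (fneg F (PowerSeries.C c * PowerSeries.X ^ p ^ N : PowerSeries A)) = γ' at *
    have hall : ∀ k, p ^ N + 1 ≤ k → k ≤ p ^ (N + 1) → PowerSeries.X ^ k ∣ γ' := by
      intro k hk
      induction k, hk using Nat.le_induction with
      | base => intro _; exact hstart
      | succ k hk ih2 =>
        intro hk2
        have h1 := ih2 (by omega)
        -- `k` is not a power of `p`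
        obtain ⟨l, hl, hlp, hlk⟩ : ∃ l : ℕ, l.Prime ∧ l ≠ p ∧ l ∣ k := by
          by_contra hcon
          push Not at hcon
          have h2 : ∀ {d : ℕ}, d.Prime → d ∣ k → d = p := by
            intro d hd hdk
            by_contra hne
            exact hcon d hd hne hdk
          have h3 := Nat.eq_prime_pow_of_unique_prime_dvd (by omega : k ≠ 0) h2
          rw [h3] at hk hk2
          have h4 : N < k.primeFactorsList.length :=
            (Nat.pow_lt_pow_iff_right hp.one_lt).1 (by omega)
          have h5 : k.primeFactorsList.length < N + 1 :=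
            (Nat.pow_lt_pow_iff_right hp.one_lt).1 (by omega)
          omega
        have h2 := hγ'T.coeff_eq_zero (by omega) hl hlp hlk h1
        rw [PowerSeries.X_pow_dvd_iff] at h1 ⊢
        intro i hi
        rcases Nat.lt_succ_iff_lt_or_eq.1 hi with h | h
        · exact h1 i h
        · rw [h]; exact h2
    refine hall _ ?_ le_rfl
    have : p ^ N < p ^ (N + 1) := Nat.pow_lt_pow_right hp.one_lt (Nat.lt_succ_self N)
    omega

/-- `f ≡ S` when `f -_F S ≡ 0`. -/
theorem coeff_eq_of_dvd_fsub (F : FormalGroup A) [F.IsComm] (f S : PowerSeries A)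
    (hf : PowerSeries.constantCoeff f = 0) (hS : PowerSeries.constantCoeff S = 0) (M : ℕ)
    (h : PowerSeries.X ^ M ∣ fadd F f (fneg F S)) (i : ℕ) (hi : i < M) :
    PowerSeries.coeff i f = PowerSeries.coeff i S := by
  have hnS : PowerSeries.constantCoeff (fneg F S) = 0 := constantCoeff_fneg F _ hS
  have h1 := coeff_fadd_left F _ S (constantCoeff_fadd F _ _ hf hnS) hS M h i hi
  rw [fadd_assoc F f _ S hf hnS hS, fadd_comm F (fneg F S) S hnS hS, fadd_fneg F S hS,
    fadd_zero F f hf] at h1
  exact h1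

/-- congruences modulo `X^M` are compatible with the formal sum -/
theorem fadd_congr_X (F : FormalGroup A) (a b a' b' : PowerSeries A)
    (ha : PowerSeries.constantCoeff a = 0) (hb : PowerSeries.constantCoeff b = 0)
    (ha' : PowerSeries.constantCoeff a' = 0) (hb' : PowerSeries.constantCoeff b' = 0) (M : ℕ)
    (h1 : ∀ i < M, PowerSeries.coeff i a = PowerSeries.coeff i a')
    (h2 : ∀ i < M, PowerSeries.coeff i b = PowerSeries.coeff i b') :
    ∀ i < M, PowerSeries.coeff i (fadd F a b) = PowerSeries.coeff i (fadd F a' b') := by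
  intro i hi
  unfold fadd
  rw [PowerSeries.coeff, MvPowerSeries.coeff_subst (hs2 ha hb), MvPowerSeries.coeff_subst
    (hs2 ha' hb')]
  apply finsum_congr
  intro d
  congr 1
  change PowerSeries.coeff i _ = PowerSeries.coeff i _
  rw [Finsupp.prod_fintype _ _ (by simp), Finsupp.prod_fintype _ _ (by simp)]
  simp only [Fin.prod_univ_two, Matrix.cons_val_zero, Matrix.cons_val_one]
  have e1 : PowerSeries.X ^ M ∣ a - a' := by
    rw [PowerSeries.X_pow_dvd_iff]
    intro j hj
    rw [map_sub, h1 j hj, sub_self]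
  have e2 : PowerSeries.X ^ M ∣ b - b' := by
    rw [PowerSeries.X_pow_dvd_iff]
    intro j hj
    rw [map_sub, h2 j hj, sub_self]
  have e3 : PowerSeries.X ^ M ∣ a ^ (d 0) * b ^ (d 1) - a' ^ (d 0) * b' ^ (d 1) := by
    have : a ^ (d 0) * b ^ (d 1) - a' ^ (d 0) * b' ^ (d 1) =
        (a ^ (d 0) - a' ^ (d 0)) * b ^ (d 1) + a' ^ (d 0) * (b ^ (d 1) - b' ^ (d 1)) := by ring
    rw [this]
    exact dvd_add (Dvd.dvd.mul_right (e1.trans (sub_dvd_pow_sub_pow _ _ _)) _)
      (Dvd.dvd.mul_left (e2.trans (sub_dvd_pow_sub_pow _ _ _)) _)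
  have := PowerSeries.X_pow_dvd_iff.1 e3 i hi
  rw [map_sub, sub_eq_zero] at this
  exact this

theorem psum_trunc (F : FormalGroup A) (c : ℕ → A) (K N : ℕ) (hK : K ≤ N) :
    ∀ i < p ^ K, PowerSeries.coeff i (psum p F c N) = PowerSeries.coeff i (psum p F c K) := by
  have hp : p.Prime := Fact.out
  induction N, hK using Nat.le_induction with
  | base => intro i _; rfl
  | succ N hN ih =>
    intro i hi
    rw [← ih i hi, psum_succ]
    have h0 := fadd_zero F (psum p F c N) (constantCoeff_psum F c N)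
    conv_rhs => rw [← h0]
    refine fadd_congr_X F _ _ _ _ (constantCoeff_psum F c N) (cc_mono _ _)
      (constantCoeff_psum F c N) (by simp) (p ^ K) (fun _ _ => rfl) ?_ i hi
    intro j hj
    have : j < p ^ N := lt_of_lt_of_le hj (Nat.pow_le_pow_right hp.pos hN)
    rw [PowerSeries.coeff_C_mul, PowerSeries.coeff_X_pow, if_neg this.ne]
    simp

end final

end Typical

universe u

open Typical in
/-- Homomorphisms between the laws `hz` over `F_p`-algebras are formal sums `∑^F c_K X^{p^K}`. -/
theorem exists_typical {p : ℕ} [Fact p.Prime] {A : Type u} [CommRing A] [CharP A p] {n m : ℕ}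
    (x y : ℕ → A) (f : PowerSeries A) (hf : IsFGHom (hz p n x) (hz p m y) f) :
    ∃ c : ℕ → A, ∀ N, ∀ i < p ^ N, PowerSeries.coeff i f =
      PowerSeries.coeff i (fsum (hz p m y) ((List.range N).map fun K =>
        (PowerSeries.C (c K) * PowerSeries.X ^ p ^ K : PowerSeries A))) := by
  refine ⟨fun K => cs p (hz p m y) f (K + 1) K, fun N i hi => ?_⟩
  change _ = PowerSeries.coeff i (psum p (hz p m y) _ N)
  rw [← psum_congr (hz p m y) (cs p (hz p m y) f N) _ N
    (fun K hK => cs_stable (hz p m y) f K N hK)]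
  exact coeff_eq_of_dvd_fsub (hz p m y) f _ hf.1 (constantCoeff_psum _ _ _) _
    (dvd_expansion x y f hf N) i hi

open Typical in
/-- Uniqueness of the coefficients. -/
theorem typical_unique {p : ℕ} [Fact p.Prime] {A : Type u} [CommRing A]
    (F : FormalGroup A) [F.IsComm] (c c' : ℕ → A) (N : ℕ)
    (h : ∀ i < p ^ N, PowerSeries.coeff i (fsum F ((List.range N).map fun K =>
        (PowerSeries.C (c K) * PowerSeries.X ^ p ^ K : PowerSeries A))) =
      PowerSeries.coeff i (fsum F ((List.range N).map fun K =>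
        (PowerSeries.C (c' K) * PowerSeries.X ^ p ^ K : PowerSeries A)))) :
    ∀ K < N, c K = c' K := by
  have hp : p.Prime := Fact.out
  intro K
  induction K using Nat.strong_induction_on with
  | _ K ih =>
    intro hKN
    have hS : psum p F c K = psum p F c' K :=
      psum_congr F c c' K fun j hj => ih j hj (hj.trans hKN)
    have hlt : p ^ K < p ^ (K + 1) := Nat.pow_lt_pow_right hp.one_lt (Nat.lt_succ_self K)
    have h1 : ∀ i < p ^ (K + 1), PowerSeries.coeff i (psum p F c (K + 1)) =
        PowerSeries.coeff i (psum p F c' (K + 1)) := by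
      intro i hi
      rw [← psum_trunc F c (K + 1) N hKN i hi, ← psum_trunc F c' (K + 1) N hKN i hi]
      exact h i (lt_of_lt_of_le hi (Nat.pow_le_pow_right hp.pos hKN))
    rw [psum_succ, psum_succ, hS] at h1
    have hS0 := constantCoeff_psum (p := p) F c' K
    have hn0 : PowerSeries.constantCoeff (fneg F (psum p F c' K)) = 0 :=
      constantCoeff_fneg F _ hS0
    have key : ∀ a : PowerSeries A, PowerSeries.constantCoeff a = 0 →
        fadd F (fneg F (psum p F c' K)) (fadd F (psum p F c' K) a) = a := by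
      intro a ha
      rw [← fadd_assoc F _ _ _ hn0 hS0 ha, fadd_comm F (fneg F _) _ hn0 hS0,
        fadd_fneg F _ hS0, zero_fadd F a ha]
    have h2 := fadd_congr_X F (fneg F (psum p F c' K)) (fadd F (psum p F c' K)
      (PowerSeries.C (c K) * PowerSeries.X ^ p ^ K)) (fneg F (psum p F c' K))
      (fadd F (psum p F c' K) (PowerSeries.C (c' K) * PowerSeries.X ^ p ^ K)) hn0
      (constantCoeff_fadd F _ _ hS0 (cc_mono _ _)) hn0
      (constantCoeff_fadd F _ _ hS0 (cc_mono _ _)) (p ^ (K + 1)) (fun _ _ => rfl) h1 (p ^ K) hlt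
    rw [key _ (cc_mono _ _), key _ (cc_mono _ _)] at h2
    simpa [PowerSeries.coeff_C_mul] using h2

end Crest.Agent.R227
end
private theorem rz_0de2072cc9 : type_of% @_root_.Crest.Agent.R227.Typical.cs.eq_def := @_root_.Crest.Agent.R227.Typical.cs.eq_def -- L826
private theorem rz_8d039858e3 : type_of% @_root_.Crest.Agent.R227.Typical.cs.eq_1 := @_root_.Crest.Agent.R227.Typical.cs.eq_1 -- L826
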