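import Crest.Agent.R227.TopDefs
import Crest.Agent.R227.IFT
import Crest.Agent.R227.Typical
import Crest.Agent.R227.EasyAux2

-- ▼ part R227/DhDefs
section

/-!
# R227 / DhDefs : objects for the characteristic p part (height h stratum)
-/

set_option autoImplicit false

noncomputable section

namespace Crest.Agent.R227

open Crest.LubinTate MvPowerSeries Topology Filter

section

variable (p : ℕ) [Fact p.Prime] (n h : ℕ)

/-- The law with `u_i = 0` for `i < h`, `u_{h+i} = z i`, `u_n = 1`. -/
abbrev Hx {R : Type*} [CommRing R] (z : Fin (n - h) → R) : FormalGroup R := hz p n (pt n h z)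

/-- The series `V` with `[p](X) = V(X^{p^h})` (char. `p`). -/
abbrev Vz {R : Type*} [CommRing R] (z : Fin (n - h) → R) : PowerSeries R :=
  Vs p n h (pt n h z)

/-- The reference law of height `h` (over any ring): `[p](X) = X^{p^h}` in characteristic `p`. -/
abbrev Fh (R : Type*) [CommRing R] : FormalGroup R := hz p n (sp h)

/-- applying a power series without constant term to a point -/
def apS {S : Type*} [CommRing S] [UniformSpace S] [IsUniformAddGroup S] [IsTopologicalRing S]
    [IsLinearTopology S S] [CompleteSpace S] [T2Space S] {F : FormalGroup S} (G : FormalGroup S)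
    (α : PowerSeries S) (h0 : PowerSeries.constantCoeff α = 0) (P : FPt F) : FPt G :=
  ⟨ev₁ P.val α, by
    refine ev_tn (fun _ => P.tn) _ ?_
    have : (MvPowerSeries.constantCoeff α : S) = 0 := h0
    rw [this]; exact IsTopologicallyNilpotent.zero⟩

@[simp] theorem apS_val {S : Type*} [CommRing S] [UniformSpace S] [IsUniformAddGroup S]
    [IsTopologicalRing S] [IsLinearTopology S S] [CompleteSpace S] [T2Space S]
    {F : FormalGroup S} (G : FormalGroup S) (α : PowerSeries S)
    (h0 : PowerSeries.constantCoeff α = 0) (P : FPt F) :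
    (apS G α h0 P).val = ev₁ P.val α := rfl

/-- a series with coefficients in `F_p` evaluated in a ring of characteristic `p` -/
def chiEv {ι : Type*} {S : Type*} [CommRing S] [UniformSpace S] [CharP S p]
    (χ : MvPowerSeries ι (ZMod p)) (y : ι → S) : S :=
  ev y (χ.map (ZMod.castHom (dvd_refl p) S))

section K

variable {K : Type*} [NontriviallyNormedField K] [IsUltrametricDist K] [CompleteSpace K]

/-- A basis of the Tate module of the étale part of `Hx z`. -/
structure Tower (z : Fin (n - h) → Ob K) where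
  w : ℕ → Fin (n - h) → FPt (Hx p n h z)
  w_zero : ∀ l, w 0 l = 0
  w_succ : ∀ m l, p • w (m + 1) l = w m l
  indep : ∀ c : Fin (n - h) → ℤ, ∑ l, c l • w 1 l = 0 → ∀ l, (p : ℤ) ∣ c l

/-- level `p^m` structure on the étale part -/
def IsLvl (z : Fin (n - h) → Ob K) (m : ℕ) (w : Fin (n - h) → FPt (Hx p n h z)) : Prop :=
  (∀ l, p ^ m • w l = 0) ∧
    ∀ c : Fin (n - h) → ℤ, ∑ l, c l • (p ^ (m - 1) • w l) = 0 → ∀ l, (p : ℤ) ∣ c l

end K

/-- universal `F_p`-power series expressing the point `z` through a level `p^m` structure. -/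
structure ChiSys where
  χ : ℕ → Fin (n - h) → MvPowerSeries (Fin (n - h)) (ZMod p)
  const : ∀ m i, constantCoeff (χ m i) = 0
  recur : ∀ (S : Type) [CommRing S] [UniformSpace S] [IsUniformAddGroup S]
    [IsTopologicalRing S] [IsLinearTopology S S] [CompleteSpace S] [T2Space S] [CharP S p]
    (y : Fin (n - h) → S), (∀ i, IsTopologicallyNilpotent (y i)) → ∀ m, 1 ≤ m → ∀ i,
    chiEv p (χ (m + 1) i) y = chiEv p (χ m i) (fun l => ev₁ (y l)
      (Vz p n h (fun j => chiEv p (χ (m + 1) j) y ^ p ^ (h * m))))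
  point : ∀ (K : Type) [NontriviallyNormedField K] [IsUltrametricDist K] [CompleteSpace K]
    [CharP K p] (z : Fin (n - h) → Ob K), (∀ i, ‖z i‖ < 1) →
    (∀ i : Fin (n - h), (i : ℕ) = 0 → z i ≠ 0) →
    ∀ (m : ℕ), 1 ≤ m → ∀ w : Fin (n - h) → FPt (Hx p n h z), IsLvl p n h z m w → ∀ i,
    z i = chiEv p (χ m i) (fun l => (w l).val ^ p ^ (h * m))

section K

variable {K : Type} [NontriviallyNormedField K] [IsUltrametricDist K] [CompleteSpace K]
  [CharP K p]

/-- The points `E_l(α) = pr_0(α t_l)` (and `p^{-i}` multiples): limits of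
`[p^m](α(w_{m+i,l}))`. -/
structure ESys (z : Fin (n - h) → Ob K) (T : Tower p n h z) (ρ : ℝ)
    (j : GaloisField p n →+* Ob K) where
  E : PowerSeries (GaloisField p n) → Fin (n - h) → ℕ → FPt (Hx p n h z)
  close : ∀ α, IsFGHom (Fn p n) (Fn p n) α → ∀ (h0 : PowerSeries.constantCoeff (α.map j) = 0)
    l i m, ‖(p ^ m • apS (Hx p n h z) (α.map j) h0 (T.w (m + i) l)).val - (E α l i).val‖ ≤
      ρ ^ p ^ (h * m)
  add : ∀ α β, IsFGHom (Fn p n) (Fn p n) α → IsFGHom (Fn p n) (Fn p n) β → ∀ l i,
    E (fadd (Fn p n) α β) l i = E α l i + E β l i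
  smul : ∀ α, IsFGHom (Fn p n) (Fn p n) α → ∀ l i, p ^ i • E α l i = E α l 0



end K

end

end Crest.Agent.R227
end
end

-- ▼ part R227/VFactsA
section

/-! # R227 / VFactsA : the coefficients of `V` modulo the (square of the) ideal of the `z` -/

set_option autoImplicit false

noncomputable section

namespace Crest.Agent.R227.VFactsAux

open Crest.LubinTate MvPowerSeries Topology Filter Crest.Agent.R227

section general

variable {R : Type*} [CommRing R]

/-- `g(a) = g(0) + ∑ a_i g_i(a)`. -/
theorem subst_eq_add {m : ℕ} {τ : Type*} (g : MvPowerSeries (Fin m) R)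
    (a : Fin m → MvPowerSeries τ R) (ha : ∀ i, constantCoeff (a i) = 0) :
    ∃ G : Fin m → MvPowerSeries τ R, g.subst a = C (constantCoeff g) + ∑ i, a i * G i := by
  have hs : HasSubst a := hasSubst_of_constantCoeff_zero ha
  obtain ⟨F, hF⟩ := exists_decomp (ι := Fin m) (fun i => Finsupp.single i 1)
    (g - C (constantCoeff g)) (by
      intro d hd
      have hd0 : d ≠ 0 := by
        rintro rfl
        simp at hd
      obtain ⟨i, hi⟩ := Finsupp.ne_iff.1 hd0
      refine ⟨i, ?_⟩
      rw [Finsupp.single_le_iff]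
      have : d i ≠ 0 := hi
      omega)
  refine ⟨fun i => (F i).subst a, ?_⟩
  rw [sub_eq_iff_eq_add'] at hF
  conv_lhs => rw [hF]
  have hC : (C (constantCoeff g) : MvPowerSeries (Fin m) R).subst a = C (constantCoeff g) :=
    subst_C _
  rw [← coe_substAlgHom hs, map_add, map_sum, coe_substAlgHom hs, hC]
  congr 1
  refine Finset.sum_congr rfl fun i _ => ?_
  rw [← coe_substAlgHom hs, map_mul, coe_substAlgHom hs]
  congr 1
  exact subst_X hs i

/-- `F(a, s) = s + a (1 + s g + a g')`. -/
theorem fadd_eq (F : FormalGroup R) [F.IsComm] (a s : PowerSeries R)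
    (ha : PowerSeries.constantCoeff a = 0) (hs : PowerSeries.constantCoeff s = 0) :
    ∃ g g' : PowerSeries R, (fadd F a s : PowerSeries R) = s + a * (1 + s * g + a * g') := by
  have h1 := subst_sub_subst F.toPowerSeries s a 0 hs ha (map_zero _)
  obtain ⟨G, hG⟩ := subst_eq_add (τ := Unit) (dquot F.toPowerSeries) ![s, a, 0] (by
    intro i
    fin_cases i
    · exact hs
    · exact ha
    · exact map_zero _)
  rw [hG, constantCoeff_dquot, F.lin_coeff_Y, Fin.sum_univ_three] at h1
  refine ⟨G 0, G 1, ?_⟩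
  rw [fadd_comm F a s ha hs]
  have h2 : (fadd F s 0 : PowerSeries R) = s := fadd_zero F s hs
  have h3 : fadd F s a - fadd F s 0 = (a - 0) * (C 1 + (s * G 0 + a * G 1 + 0 * G 2)) := by
    exact h1
  rw [h2, sub_eq_iff_eq_add', map_one, zero_mul, add_zero, sub_zero, ← add_assoc] at h3
  exact h3

end general

section list

variable {p : ℕ} [Fact p.Prime] {R : Type*} [CommRing R]

theorem cc_term (c : R) (j : ℕ) :
    PowerSeries.constantCoeff (PowerSeries.C c * PowerSeries.X ^ p ^ j : PowerSeries R) = 0 := by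
  rw [map_mul, map_pow, PowerSeries.constantCoeff_X, zero_pow
    (pow_ne_zero _ (Fact.out : p.Prime).ne_zero), mul_zero]

theorem cc_fsum_terms (F : FormalGroup R) (y : ℕ → R) (l : List ℕ) (b : PowerSeries R)
    (hb : PowerSeries.constantCoeff b = 0) :
    PowerSeries.constantCoeff (fsum F ((l.map fun j =>
      (PowerSeries.C (y j) * PowerSeries.X ^ p ^ j : PowerSeries R)) ++ [b]) : PowerSeries R) =
      0 := by
  refine FEAux.cc_fsum F _ fun a ha => ?_
  rw [List.mem_append, List.mem_map] at ha
  rcases ha with ⟨j, _, rfl⟩ | ha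
  · exact cc_term _ _
  · rw [List.mem_singleton] at ha
    rw [ha]
    exact hb

omit [Fact p.Prime] in
theorem coeff_term (c : R) (j m : ℕ) (w : PowerSeries R) :
    PowerSeries.coeff m ((PowerSeries.C c * PowerSeries.X ^ p ^ j) * w) =
      c * (if p ^ j ≤ m then PowerSeries.coeff (m - p ^ j) w else 0) := by
  rw [mul_assoc, PowerSeries.coeff_C_mul]
  congr 1
  rw [mul_comm, PowerSeries.coeff_mul_X_pow']

/-- coefficients of index `< N` in `J` is stable by multiplication -/
theorem coeff_mul_mem' (J : Ideal R) (N : ℕ) (f g : PowerSeries R)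
    (hf : ∀ m < N, PowerSeries.coeff m f ∈ J) : ∀ m < N, PowerSeries.coeff m (f * g) ∈ J := by
  intro m hm
  rw [PowerSeries.coeff_mul]
  refine Ideal.sum_mem _ fun x hx => ?_
  replace hx := Finset.HasAntidiagonal.mem_antidiagonal.1 hx
  exact Ideal.mul_mem_right _ _ (hf _ (by omega))

theorem fsum_terms_mem (F : FormalGroup R) [F.IsComm] (y : ℕ → R) (J : Ideal R) (N : ℕ)
    (hN : N ≠ 0)
    (l : List ℕ) (hl : ∀ j ∈ l, y j ∈ J) :
    ∀ m < N, PowerSeries.coeff m (fsum F ((l.map fun j =>
      (PowerSeries.C (y j) * PowerSeries.X ^ p ^ j : PowerSeries R)) ++ [PowerSeries.X ^ N]) :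
        PowerSeries R) - (l.map fun j => if p ^ j = m then y j else 0).sum ∈ J ^ 2 := by
  have hX : PowerSeries.constantCoeff (PowerSeries.X ^ N : PowerSeries R) = 0 := by
    rw [map_pow, PowerSeries.constantCoeff_X, zero_pow hN]
  induction l with
  | nil =>
    intro m hm
    have h1 : (fsum F [(PowerSeries.X ^ N : PowerSeries R)] : PowerSeries R) =
        PowerSeries.X ^ N := fadd_zero F _ hX
    have h2 : PowerSeries.coeff m (PowerSeries.X ^ N : PowerSeries R) = 0 := by
      rw [PowerSeries.coeff_X_pow, if_neg (by omega)]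
    simp only [List.map_nil, List.nil_append, List.sum_nil, sub_zero]
    rw [h1, h2]
    exact Ideal.zero_mem _
  | cons j l ih =>
    intro m hm
    have hyj : y j ∈ J := hl j (by simp)
    have ih' := ih fun j hj => hl j (by simp [hj])
    set s : PowerSeries R := fsum F ((l.map fun j =>
      (PowerSeries.C (y j) * PowerSeries.X ^ p ^ j : PowerSeries R)) ++ [PowerSeries.X ^ N]) with hs
    have hsJ : ∀ m < N, PowerSeries.coeff m s ∈ J := by
      intro m hm
      have h1 : (l.map fun j => if p ^ j = m then y j else 0).sum ∈ J := by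
        refine list_sum_mem ?_
        intro a ha
        rw [List.mem_map] at ha
        obtain ⟨i, hi, rfl⟩ := ha
        split_ifs
        · exact hl i (by simp [hi])
        · exact J.zero_mem
      have h2 := Ideal.pow_le_self (I := J) (n := 2) two_ne_zero (ih' m hm)
      have h3 := J.add_mem h2 h1
      rwa [sub_add_cancel] at h3
    obtain ⟨g, g', hg⟩ := fadd_eq F (PowerSeries.C (y j) * PowerSeries.X ^ p ^ j : PowerSeries R) s
      (cc_term _ _) (cc_fsum_terms F y l _ hX)
    have h1 : (fsum F (((j :: l).map fun j =>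
      (PowerSeries.C (y j) * PowerSeries.X ^ p ^ j : PowerSeries R)) ++ [PowerSeries.X ^ N]) :
        PowerSeries R) = fadd F (PowerSeries.C (y j) * PowerSeries.X ^ p ^ j : PowerSeries R) s :=
      rfl
    rw [h1, hg, List.map_cons, List.sum_cons]
    have h2 : PowerSeries.coeff m (PowerSeries.C (y j) * PowerSeries.X ^ p ^ j : PowerSeries R) =
        if p ^ j = m then y j else 0 := by
      rw [PowerSeries.coeff_C_mul, PowerSeries.coeff_X_pow]
      simp only [eq_comm (a := m), mul_ite, mul_one, mul_zero]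
    have h3 : s + (PowerSeries.C (y j) * PowerSeries.X ^ p ^ j) * (1 + s * g +
        (PowerSeries.C (y j) * PowerSeries.X ^ p ^ j) * g') =
        s + PowerSeries.C (y j) * PowerSeries.X ^ p ^ j +
        (PowerSeries.C (y j) * PowerSeries.X ^ p ^ j) * (s * g +
        (PowerSeries.C (y j) * PowerSeries.X ^ p ^ j) * g') := by ring
    rw [h3, map_add, map_add, h2, coeff_term]
    have h4 : PowerSeries.coeff m s + (if p ^ j = m then y j else 0) +
        y j * (if p ^ j ≤ m then PowerSeries.coeff (m - p ^ j) (s * g +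
        (PowerSeries.C (y j) * PowerSeries.X ^ p ^ j) * g') else 0) -
        ((if p ^ j = m then y j else 0) + (l.map fun j => if p ^ j = m then y j else 0).sum) =
        (PowerSeries.coeff m s - (l.map fun j => if p ^ j = m then y j else 0).sum) +
        y j * (if p ^ j ≤ m then PowerSeries.coeff (m - p ^ j) (s * g +
        (PowerSeries.C (y j) * PowerSeries.X ^ p ^ j) * g') else 0) := by ring
    rw [h4]
    refine Ideal.add_mem _ (ih' m hm) ?_
    rw [pow_two]
    refine Ideal.mul_mem_mul hyj ?_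
    split_ifs with hjm
    · rw [map_add]
      refine J.add_mem (coeff_mul_mem' J N s g hsJ _ (by omega)) ?_
      rw [coeff_term]
      exact J.mul_mem_right _ hyj
    · exact J.zero_mem

/-- modulo an ideal containing all `y j`, the sum is the last term -/
theorem fsum_terms_sub_mem (F : FormalGroup R) [F.IsComm] (y : ℕ → R) (J : Ideal R)
    (b : PowerSeries R) (hb : PowerSeries.constantCoeff b = 0)
    (l : List ℕ) (hl : ∀ j ∈ l, y j ∈ J) (m : ℕ) :
    PowerSeries.coeff m ((fsum F ((l.map fun j =>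
      (PowerSeries.C (y j) * PowerSeries.X ^ p ^ j : PowerSeries R)) ++ [b]) :
        PowerSeries R) - b) ∈ J := by
  induction l generalizing m with
  | nil =>
    have h1 : (fsum F [b] : PowerSeries R) = b := fadd_zero F _ hb
    simp only [List.map_nil, List.nil_append]
    rw [h1, sub_self, map_zero]
    exact J.zero_mem
  | cons j l ih =>
    have hyj : y j ∈ J := hl j (by simp)
    have ih' := ih fun j hj => hl j (by simp [hj])
    set s : PowerSeries R := fsum F ((l.map fun j =>
      (PowerSeries.C (y j) * PowerSeries.X ^ p ^ j : PowerSeries R)) ++ [b]) with hs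
    obtain ⟨g, g', hg⟩ := fadd_eq F (PowerSeries.C (y j) * PowerSeries.X ^ p ^ j : PowerSeries R) s
      (cc_term _ _) (cc_fsum_terms F y l _ hb)
    have h1 : (fsum F (((j :: l).map fun j =>
      (PowerSeries.C (y j) * PowerSeries.X ^ p ^ j : PowerSeries R)) ++ [b]) :
        PowerSeries R) = fadd F (PowerSeries.C (y j) * PowerSeries.X ^ p ^ j : PowerSeries R) s :=
      rfl
    rw [h1, hg, add_sub_right_comm, map_add]
    refine J.add_mem (ih' m) ?_
    rw [coeff_term]
    exact J.mul_mem_right _ hyj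

theorem coeff_one_fsum_terms (F : FormalGroup R) (y : ℕ → R)
    (b : PowerSeries R) (hb : PowerSeries.constantCoeff b = 0) (l : List ℕ) :
    PowerSeries.coeff 1 (fsum F ((l.map fun j =>
      (PowerSeries.C (y j) * PowerSeries.X ^ p ^ j : PowerSeries R)) ++ [b]) :
        PowerSeries R) = (l.map fun j => if j = 0 then y j else 0).sum + PowerSeries.coeff 1 b := by
  have hp : p.Prime := Fact.out
  induction l with
  | nil =>
    have h1 : (fsum F [b] : PowerSeries R) = b := fadd_zero F _ hb
    simp only [List.map_nil, List.nil_append, List.sum_nil, zero_add]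
    rw [h1]
  | cons j l ih =>
    have h1 : (fsum F (((j :: l).map fun j =>
      (PowerSeries.C (y j) * PowerSeries.X ^ p ^ j : PowerSeries R)) ++ [b]) :
        PowerSeries R) = fadd F (PowerSeries.C (y j) * PowerSeries.X ^ p ^ j : PowerSeries R)
          (fsum F ((l.map fun j =>
      (PowerSeries.C (y j) * PowerSeries.X ^ p ^ j : PowerSeries R)) ++ [b])) :=
      rfl
    rw [h1, coeff_one_fadd F _ _ (cc_term _ _) (cc_fsum_terms F y l _ hb), ih, List.map_cons,
      List.sum_cons, add_assoc]
    congr 1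
    rw [PowerSeries.coeff_C_mul, PowerSeries.coeff_X_pow]
    rcases Nat.eq_zero_or_pos j with rfl | hj
    · simp
    · have : 1 < p ^ j := Nat.one_lt_pow hj.ne' hp.one_lt
      rw [if_neg (by omega), if_neg (by omega), mul_zero]

end list

variable (p : ℕ) [Fact p.Prime] (n h : ℕ)

theorem Vz_eq {R : Type*} [CommRing R] (hh : h < n) (z : Fin (n - h) → R) :
    Vz p n h z = fsum (Hx p n h z) (((List.range (n - h)).map fun j =>
      (PowerSeries.C (pt n h z (h + j)) * PowerSeries.X ^ p ^ j : PowerSeries R)) ++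
        [PowerSeries.X ^ p ^ (n - h)]) := by
  rw [Vz, Vs, List.range_succ, List.map_append, List.map_singleton]
  congr 3
  have h1 : pt n h z (h + (n - h)) = 1 := by
    rw [pt, dif_neg (by omega), if_pos (by omega)]
  rw [h1, map_one, one_mul]

theorem pt_mem {R : Type*} [CommRing R] (z : Fin (n - h) → R) (I : Ideal R)
    (hz : ∀ i, z i ∈ I) (j : ℕ) (hj : j < n - h) : pt n h z (h + j) ∈ I := by
  rw [pt, dif_pos ⟨by omega, by omega⟩]
  exact hz _

/-- `V ≡ X^{p^{n-h}}` modulo any ideal containing the `z i`. -/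
theorem coeff_Vz_sub_mem (hh : h < n) {R : Type*} [CommRing R] (z : Fin (n - h) → R)
    (I : Ideal R) (hz : ∀ i, z i ∈ I) (k : ℕ) :
    PowerSeries.coeff k (Vz p n h z - PowerSeries.X ^ p ^ (n - h)) ∈ I := by
  have hp : p.Prime := Fact.out
  rw [Vz_eq p n h hh z]
  refine fsum_terms_sub_mem _ (fun j => pt n h z (h + j)) I _ ?_ _ ?_ k
  · rw [map_pow, PowerSeries.constantCoeff_X, zero_pow (pow_ne_zero _ hp.ne_zero)]
  · intro j hj
    rw [List.mem_range] at hj
    exact pt_mem n h z I hz j hj

/-- `coeff (p^i) V ≡ z i` modulo the square of the ideal generated by the `z`. -/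
theorem coeff_Vz_sub_mem_sq (hh : h < n) {R : Type*} [CommRing R] (z : Fin (n - h) → R)
    (i : Fin (n - h)) :
    PowerSeries.coeff (p ^ (i : ℕ)) (Vz p n h z) - z i ∈ (Ideal.span (Set.range z)) ^ 2 := by
  have hp : p.Prime := Fact.out
  rw [Vz_eq p n h hh z]
  have h1 := fsum_terms_mem (p := p) (Hx p n h z) (fun j => pt n h z (h + j))
    (Ideal.span (Set.range z)) (p ^ (n - h)) (pow_ne_zero _ hp.ne_zero) (List.range (n - h))
    (by
      intro j hj
      rw [List.mem_range] at hj
      exact pt_mem n h z _ (fun i => Ideal.subset_span (Set.mem_range_self i)) j hj)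
    (p ^ (i : ℕ)) (Nat.pow_lt_pow_right hp.one_lt i.2)
  have h2 : ((List.range (n - h)).map fun j => if p ^ j = p ^ (i : ℕ) then pt n h z (h + j)
      else 0).sum = z i := by
    rw [FEAux.list_sum_range (fun j => if p ^ j = p ^ (i : ℕ) then pt n h z (h + j) else 0) (n - h),
      Finset.sum_eq_single (i : ℕ)]
    · rw [if_pos rfl, pt, dif_pos ⟨by omega, by omega⟩]
      congr 1
      ext
      simp
    · intro j _ hj
      rw [if_neg]
      intro h
      exact hj (Nat.pow_right_injective hp.two_le h)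
    · intro h
      exact absurd (Finset.mem_range.2 i.2) h
  rw [h2] at h1
  exact h1

theorem coeff_one_Vz {R : Type*} [CommRing R] (hh : h < n) (z : Fin (n - h) → R) :
    PowerSeries.coeff 1 (Vz p n h z) = z ⟨0, by omega⟩ := by
  have hp : p.Prime := Fact.out
  have hN : 1 < p ^ (n - h) := Nat.one_lt_pow (by omega) hp.one_lt
  rw [Vz_eq p n h hh z, coeff_one_fsum_terms (p := p) _ (fun j => pt n h z (h + j)) _ (by
    rw [map_pow, PowerSeries.constantCoeff_X, zero_pow (pow_ne_zero _ hp.ne_zero)]),
    PowerSeries.coeff_X_pow, if_neg (by omega), add_zero,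
    FEAux.list_sum_range (fun j => if j = 0 then pt n h z (h + j) else 0) (n - h),
    Finset.sum_eq_single 0]
  · rw [if_pos rfl, pt, dif_pos ⟨by omega, by omega⟩]
    congr 1
    ext
    simp
  · intro j _ hj
    rw [if_neg hj]
  · intro h
    exact absurd (Finset.mem_range.2 (by omega)) h

end Crest.Agent.R227.VFactsAux
end
end

-- ▼ part R227/VFacts

/-! # R227 / VFacts : properties of `V` and `Hx` (task VFACTS) -/

set_option autoImplicit false

noncomputable section

namespace Crest.Agent.R227

open Crest.LubinTate MvPowerSeries Topology Filter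

variable (p : ℕ) [Fact p.Prime] (n h : ℕ)


theorem vf_pt_map {R S : Type*} [CommRing R] [CommRing S] (f : R →+* S) (z : Fin (n - h) → R) :
    (fun i => f (pt n h z i)) = pt n h (fun i => f (z i)) := by
  funext i
  unfold pt
  split_ifs <;> simp

theorem Hx_map {R S : Type*} [CommRing R] [CommRing S] (f : R →+* S) (z : Fin (n - h) → R) :
    (Hx p n h z).map f = Hx p n h (fun i => f (z i)) := by
  rw [Hx, hz_map, vf_pt_map]

theorem vf_cc_mon {R : Type*} [CommRing R] (a : R) (k : ℕ) :
    MvPowerSeries.constantCoeff (PowerSeries.C a * PowerSeries.X ^ p ^ k : PowerSeries R) = 0 := by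
  have hp : p ^ k ≠ 0 := pow_ne_zero _ (Fact.out : p.Prime).ne_zero
  change PowerSeries.constantCoeff (PowerSeries.C a * PowerSeries.X ^ p ^ k : PowerSeries R) = 0
  rw [map_mul, map_pow, PowerSeries.constantCoeff_X, zero_pow hp, mul_zero]

theorem Vz_map {R S : Type*} [CommRing R] [CommRing S] (f : R →+* S) (z : Fin (n - h) → R) :
    PowerSeries.map f (Vz p n h z) = Vz p n h (fun i => f (z i)) := by
  unfold Vz Vs
  have h1 := Typical.map_fsum f (hz p n (pt n h z)) ((List.range (n - h + 1)).map fun i =>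
    (PowerSeries.C (pt n h z (h + i)) * PowerSeries.X ^ p ^ i : PowerSeries R)) (by
      intro a ha
      obtain ⟨i, -, rfl⟩ := List.mem_map.1 ha
      exact vf_cc_mon p _ _)
  refine h1.trans ?_
  rw [hz_map, List.map_map, ← vf_pt_map n h f z]
  congr 1
  apply List.map_congr_left
  intro i _
  change PowerSeries.map f _ = _
  rw [map_mul, map_pow, PowerSeries.map_C, PowerSeries.map_X]


theorem constantCoeff_Vz {R : Type*} [CommRing R] (z : Fin (n - h) → R) :
    PowerSeries.constantCoeff (Vz p n h z) = 0 := by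
  refine Typical.constantCoeff_fsum _ _ ?_
  intro a ha
  obtain ⟨i, -, rfl⟩ := List.mem_map.1 ha
  exact vf_cc_mon p _ _

theorem coeff_one_Vz {R : Type*} [CommRing R] (hh : h < n) (z : Fin (n - h) → R) :
    PowerSeries.coeff 1 (Vz p n h z) = z ⟨0, by omega⟩ := by
  have hp := (Fact.out : p.Prime)
  unfold Vz Vs
  rw [coeff_fsum_low _ 1 le_rfl _ _ 1 le_rfl, List.map_map]
  · rw [List.range_succ_eq_map, List.map_cons, List.sum_cons, List.map_map]
    have h0 : ((List.range (n - h)).map
        (((PowerSeries.coeff 1 : PowerSeries R →ₗ[R] R) ∘ fun i =>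
          (PowerSeries.C (pt n h z (h + i)) * PowerSeries.X ^ p ^ i : PowerSeries R)) ∘
          Nat.succ)).sum = 0 := by
      apply List.sum_eq_zero
      intro a ha
      obtain ⟨i, -, rfl⟩ := List.mem_map.1 ha
      simp only [Function.comp_apply]
      rw [PowerSeries.coeff_C_mul, PowerSeries.coeff_X_pow, if_neg, mul_zero]
      have : 1 < p ^ (i + 1) := Nat.one_lt_pow (by omega) hp.one_lt
      exact this.ne
    rw [h0, add_zero]
    simp only [Function.comp_apply]
    rw [PowerSeries.coeff_C_mul, PowerSeries.coeff_X_pow, pow_zero, if_pos rfl, mul_one]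
    unfold pt
    rw [dif_pos (by omega)]
    congr 1
    exact Fin.ext (by simp)
  · intro a ha i hi
    obtain ⟨j, -, rfl⟩ := List.mem_map.1 ha
    have : i = 0 := by omega
    subst this
    rw [PowerSeries.coeff_zero_eq_constantCoeff_apply]
    exact vf_cc_mon p _ _


theorem vf_mon_X_pow {R : Type*} [CommRing R] (a : R) (k m : ℕ) (hm : m ≠ 0) :
    PowerSeries.subst (PowerSeries.X ^ m : PowerSeries R)
      (PowerSeries.C a * PowerSeries.X ^ k : PowerSeries R) =
      PowerSeries.C a * PowerSeries.X ^ (m * k) := by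
  have hs : PowerSeries.HasSubst (PowerSeries.X ^ m : PowerSeries R) :=
    PowerSeries.HasSubst.X_pow hm
  rw [← PowerSeries.smul_eq_C_mul, PowerSeries.subst_smul hs, PowerSeries.subst_pow hs,
    PowerSeries.subst_X hs, ← pow_mul, PowerSeries.smul_eq_C_mul]

theorem vf_fsum_append_zero {R : Type*} [CommRing R] {τ : Type*} (F : FormalGroup R)
    (l l' : List (MvPowerSeries τ R)) (hl : ∀ a ∈ l, a = 0)
    (hl' : ∀ a ∈ l', constantCoeff a = 0) : fsum F (l ++ l') = fsum F l' := by
  induction l with
  | nil => rfl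
  | cons a l ih =>
    rw [List.cons_append, Typical.fsum_cons, ih fun b hb => hl b (List.mem_cons_of_mem _ hb),
      hl a List.mem_cons_self, zero_fadd]
    exact Typical.constantCoeff_fsum _ _ hl'

/-- `[p](X) = V(X^{p^h})`. -/
theorem mulSeries_Hx (h1 : 1 ≤ h) (hh : h < n) {R : Type*} [CommRing R] [CharP R p]
    (z : Fin (n - h) → R) :
    mulSeries (Hx p n h z) p =
      PowerSeries.subst (PowerSeries.X ^ p ^ h : PowerSeries R) (Vz p n h z) := by
  have hp := (Fact.out : p.Prime)
  have hp0 : p ^ h ≠ 0 := pow_ne_zero _ hp.ne_zero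
  unfold Vz Vs
  rw [Typical.subst_fsum_ps]
  · rw [mulSeries_hz, List.map_map]
    have e1 : List.range n = List.range ((h - 1) + (n - h + 1)) := by congr 1; omega
    rw [e1, List.range_add, List.map_append, vf_fsum_append_zero, List.map_map]
    · congr 1
      apply List.map_congr_left
      intro i _
      simp only [Function.comp_apply]
      rw [vf_mon_X_pow _ _ _ hp0, ← pow_add]
      have : h - 1 + i + 1 = h + i := by omega
      rw [this]
    · intro a ha
      obtain ⟨i, hi, rfl⟩ := List.mem_map.1 ha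
      rw [List.mem_range] at hi
      have : pt n h z (i + 1) = 0 := by
        unfold pt
        rw [dif_neg (by omega), if_neg (by omega)]
      rw [this, map_zero, zero_mul]
    · intro a ha
      obtain ⟨i, -, rfl⟩ := List.mem_map.1 ha
      exact vf_cc_mon p _ _
  · change PowerSeries.constantCoeff (PowerSeries.X ^ p ^ h : PowerSeries R) = 0
    rw [map_pow, PowerSeries.constantCoeff_X, zero_pow hp0]
  · intro a ha
    obtain ⟨i, -, rfl⟩ := List.mem_map.1 ha
    exact vf_cc_mon p _ _

/-- `V : Hx(z^{p^h}) → Hx(z)` is a homomorphism. -/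
theorem Vz_hom (h1 : 1 ≤ h) (hh : h < n) {R : Type*} [CommRing R] [CharP R p]
    (z : Fin (n - h) → R) :
    IsFGHom (Hx p n h (fun i => z i ^ p ^ h)) (Hx p n h z) (Vz p n h z) := by
  have hp := (Fact.out : p.Prime)
  have hp0 : p ^ h ≠ 0 := pow_ne_zero _ hp.ne_zero
  have hV0 : MvPowerSeries.constantCoeff (Vz p n h z) = 0 := constantCoeff_Vz p n h z
  have hF : (Hx p n h z).map (iterateFrobenius R p h) = Hx p n h (fun i => z i ^ p ^ h) := by
    rw [Hx_map]
    rfl
  have hfrob : IsFGHom (Hx p n h z) (Hx p n h (fun i => z i ^ p ^ h))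
      (PowerSeries.X ^ p ^ h) := by
    have := isFGHom_frob (Hx p n h z) h
    rwa [hF] at this
  set Q := p ^ h with hQ
  set F := Hx p n h z with hFd
  set F' := Hx p n h (fun i => z i ^ p ^ h) with hFd'
  have hXQ : PowerSeries.constantCoeff (PowerSeries.X ^ Q : PowerSeries R) = 0 := by
    rw [map_pow, PowerSeries.constantCoeff_X, zero_pow hp0]
  have hmul : mulSeries F p = PowerSeries.subst (PowerSeries.X ^ Q : PowerSeries R) (Vz p n h z) :=
    mulSeries_Hx p n h h1 hh z
  have hg : MvPowerSeries.HasSubst (![X 0 ^ Q, X 1 ^ Q] : Fin 2 → MvPowerSeries (Fin 2) R) := by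
    apply hasSubst_of_constantCoeff_zero
    intro i
    fin_cases i <;> simp [hp0]
  have hXQi : ∀ i : Fin 2, PowerSeries.subst (X i : MvPowerSeries (Fin 2) R)
      (PowerSeries.X ^ Q : PowerSeries R) = X i ^ Q := by
    intro i
    rw [PowerSeries.subst_pow (PowerSeries.HasSubst.of_constantCoeff_zero (ccX i)),
      psubst_X (ccX i)]
  have hccXQ : ∀ i : Fin 2, constantCoeff (X i ^ Q : MvPowerSeries (Fin 2) R) = 0 := by
    intro i; simp [hp0]
  have hccF := constantCoeff_fadd F (X 0 : MvPowerSeries (Fin 2) R) (X 1) (ccX 0) (ccX 1)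
  have hccF' := constantCoeff_fadd F' (X 0 : MvPowerSeries (Fin 2) R) (X 1) (ccX 0) (ccX 1)
  rw [isFGHom_iff]
  refine ⟨constantCoeff_Vz p n h z, ?_⟩
  apply expand_inj Q hp0
  rw [expand_eq_subst _ hp0, expand_eq_subst _ hp0]
  have e1 : MvPowerSeries.subst (![X 0 ^ Q, X 1 ^ Q] : Fin 2 → MvPowerSeries (Fin 2) R)
      (fadd F' (X 0) (X 1)) = PowerSeries.subst (fadd F (X 0 : MvPowerSeries (Fin 2) R) (X 1))
        (PowerSeries.X ^ Q : PowerSeries R) := by
    rw [(isFGHom_iff.1 hfrob).2, subst_fadd' F' _ _ (ccX 0) (ccX 1) _ hg, hXQi, hXQi,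
      MvPowerSeries.subst_X hg, MvPowerSeries.subst_X hg]
    rfl
  have e2 : ∀ i : Fin 2, MvPowerSeries.subst
      (![X 0 ^ Q, X 1 ^ Q] : Fin 2 → MvPowerSeries (Fin 2) R)
      (PowerSeries.subst (X i : MvPowerSeries (Fin 2) R) (Vz p n h z)) =
        PowerSeries.subst (X i : MvPowerSeries (Fin 2) R) (mulSeries F p) := by
    intro i
    rw [subst_psubst (ccX i) hg, hmul, psubst_psubst hXQ (ccX i), hXQi, MvPowerSeries.subst_X hg]
    congr 1
    fin_cases i <;> rfl
  rw [subst_psubst hccF' hg, e1, ← psubst_psubst hXQ hccF, ← hmul,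
    (isFGHom_iff.1 (IsFGHom.mulSeries F p)).2,
    subst_fadd' F _ _ (constantCoeff_psubst (ccX 0) (constantCoeff_Vz p n h z))
      (constantCoeff_psubst (ccX 1) (constantCoeff_Vz p n h z)) _ hg, e2, e2]

/-- `V ≡ X^{p^{n-h}}` modulo any ideal containing the `z i`. -/
theorem coeff_Vz_sub_mem (hh : h < n) {R : Type*} [CommRing R] (z : Fin (n - h) → R)
    (I : Ideal R) (hz : ∀ i, z i ∈ I) (k : ℕ) :
    PowerSeries.coeff k (Vz p n h z - PowerSeries.X ^ p ^ (n - h)) ∈ I := by
  rw [← Ideal.Quotient.eq_zero_iff_mem, ← PowerSeries.coeff_map, map_sub, Vz_map, map_pow,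
    PowerSeries.map_X]
  have : (fun i => (Ideal.Quotient.mk I) (z i)) = fun _ => 0 := by
    funext i
    exact Ideal.Quotient.eq_zero_iff_mem.2 (hz i)
  rw [this]
  unfold Vz Vs
  rw [List.range_succ, List.map_append, vf_fsum_append_zero]
  · have h1 : pt n h (fun _ => (0 : R ⧸ I)) (h + (n - h)) = 1 := by
      unfold pt
      rw [dif_neg (by omega), if_pos (by omega)]
    rw [List.map_singleton, Typical.fsum_cons, h1, map_one, one_mul]
    have h2 : fsum (Crest.Agent.R227.hz p n (pt n h (fun _ => (0 : R ⧸ I))))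
      ([] : List (PowerSeries (R ⧸ I))) = 0 := rfl
    rw [h2, fadd_zero, sub_self, map_zero]
    have hp0 : p ^ (n - h) ≠ 0 := pow_ne_zero _ (Fact.out : p.Prime).ne_zero
    change PowerSeries.constantCoeff (PowerSeries.X ^ p ^ (n - h) : PowerSeries (R ⧸ I)) = 0
    rw [map_pow, PowerSeries.constantCoeff_X, zero_pow hp0]
  · intro a ha
    obtain ⟨i, hi, rfl⟩ := List.mem_map.1 ha
    rw [List.mem_range] at hi
    have : pt n h (fun _ => (0 : R ⧸ I)) (h + i) = 0 := by
      unfold pt
      rw [dif_pos (by omega)]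
    rw [this, map_zero, zero_mul]
  · intro a ha
    obtain ⟨i, -, rfl⟩ := List.mem_map.1 ha
    exact vf_cc_mon p _ _

/-- `coeff (p^i) V ≡ z i` modulo the square of the ideal generated by the `z`. -/
theorem coeff_Vz_sub_mem_sq (hh : h < n) {R : Type*} [CommRing R] (z : Fin (n - h) → R)
    (i : Fin (n - h)) :
    PowerSeries.coeff (p ^ (i : ℕ)) (Vz p n h z) - z i ∈ (Ideal.span (Set.range z)) ^ 2 :=
  VFactsAux.coeff_Vz_sub_mem_sq p n h hh z i



theorem vf_fsum_zero {R : Type*} [CommRing R] {τ : Type*} (F : FormalGroup R)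
    (l : List (MvPowerSeries τ R)) (hl : ∀ a ∈ l, a = 0) : fsum F l = 0 := by
  have := vf_fsum_append_zero F l [] hl (by simp)
  rwa [List.append_nil] at this

theorem mulSeries_Fh (h1 : 1 ≤ h) (hh : h ≤ n) {R : Type*} [CommRing R] [CharP R p] :
    mulSeries (Fh p n h R) p = PowerSeries.X ^ p ^ h := by
  have hp0 : p ^ h ≠ 0 := pow_ne_zero _ (Fact.out : p.Prime).ne_zero
  rw [Fh, mulSeries_hz]
  have e1 : List.range n = List.range ((h - 1) + (n - h + 1)) := by congr 1; omega
  rw [e1, List.range_add, List.map_append, vf_fsum_append_zero, List.map_map,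
    List.range_succ_eq_map, List.map_cons, Typical.fsum_cons, vf_fsum_zero]
  · have : h - 1 + 0 + 1 = h := by omega
    simp only [Function.comp_apply]
    rw [this, sp, if_pos rfl, map_one, one_mul, fadd_zero]
    change PowerSeries.constantCoeff (PowerSeries.X ^ p ^ h : PowerSeries R) = 0
    rw [map_pow, PowerSeries.constantCoeff_X, zero_pow hp0]
  · intro a ha
    rw [List.map_map] at ha
    obtain ⟨i, -, rfl⟩ := List.mem_map.1 ha
    simp only [Function.comp_apply]
    rw [sp, if_neg (by omega), map_zero, zero_mul]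
  · intro a ha
    obtain ⟨i, hi, rfl⟩ := List.mem_map.1 ha
    rw [List.mem_range] at hi
    rw [sp, if_neg (by omega), map_zero, zero_mul]
  · intro a ha
    obtain ⟨i, -, rfl⟩ := List.mem_map.1 ha
    exact vf_cc_mon p _ _

theorem Fh_map {R S : Type*} [CommRing R] [CommRing S] (f : R →+* S) :
    (Fh p n h R).map f = Fh p n h S := by
  rw [Fh, hz_map]
  congr 1
  funext i
  unfold sp
  split_ifs <;> simp

end Crest.Agent.R227
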