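import Crest.Agent.R227.CoDefs
import Crest.Agent.R227.VFacts
import Crest.Agent.R227.CoRho

-- ▼ part R227/CoRoot
section

/-! # R227 / CoRoot : zeros of power series in the open unit ball (task COROOT)

Weierstrass preparation (Mathlib `PowerSeries.IsWeierstrassDivisorAt`) with respect to the ideal
`(ϖ)`, `max_{m < m0} ‖coeff m g‖ ≤ ‖ϖ‖ < 1`; `Ob K` is `(ϖ)`-adically complete. -/

set_option autoImplicit false
set_option linter.unusedSectionVars false
set_option linter.deprecated false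

noncomputable section

namespace Crest.Agent.R227

open Crest.LubinTate MvPowerSeries Topology

variable {p : ℕ} [Fact p.Prime] {n h : ℕ}
variable {K : Type} [NontriviallyNormedField K] [IsUltrametricDist K] [CompleteSpace K]
  [IsAlgClosed K] [CharP K p]

namespace CoRootAux

theorem norm_mul' (a b : Ob K) : ‖a * b‖ = ‖a‖ * ‖b‖ := by
  change ‖((a * b : Ob K) : K)‖ = ‖(a : K)‖ * ‖(b : K)‖
  rw [Subring.coe_mul, norm_mul]

theorem norm_pow' (a : Ob K) (k : ℕ) : ‖a ^ k‖ = ‖a‖ ^ k := by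
  change ‖((a ^ k : Ob K) : K)‖ = ‖(a : K)‖ ^ k
  rw [Subring.coe_pow, norm_pow]


/-- divisibility is detected by the norm -/
theorem dvd_iff {a b : Ob K} (hb : b ≠ 0) : b ∣ a ↔ ‖a‖ ≤ ‖b‖ := by
  have hb' : (b : K) ≠ 0 := fun h => hb (Subtype.ext h)
  constructor
  · rintro ⟨c, rfl⟩
    rw [norm_mul']
    calc ‖b‖ * ‖c‖ ≤ ‖b‖ * 1 := mul_le_mul_of_nonneg_left (Ob_norm_le_one c) (norm_nonneg _)
      _ = ‖b‖ := mul_one _
  · intro h
    refine ⟨⟨(a : K) / (b : K), ?_⟩, ?_⟩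
    · rw [mem_Ob, norm_div]
      exact div_le_one_of_le₀ h (norm_nonneg _)
    · apply Subtype.ext
      rw [Subring.coe_mul, mul_div_cancel₀ _ hb']

theorem mem_span_pow {ϖ : Ob K} (hϖ : ϖ ≠ 0) (a : Ob K) (k : ℕ) :
    a ∈ (Ideal.span {ϖ}) ^ k • (⊤ : Submodule (Ob K) (Ob K)) ↔ ‖a‖ ≤ ‖ϖ‖ ^ k := by
  rw [Ideal.smul_top_eq_map, Algebra.algebraMap_self, Ideal.map_id,
    Submodule.restrictScalars_self, Ideal.span_singleton_pow, Ideal.mem_span_singleton,
    dvd_iff (pow_ne_zero k hϖ), norm_pow']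

end CoRootAux

open CoRootAux

/-- `Ob K` is complete for the `ϖ`-adic topology. -/
theorem isAdicComplete_span (ϖ : Ob K) (hϖ : ‖ϖ‖ < 1) : IsAdicComplete (Ideal.span {ϖ}) (Ob K) := by
  rcases eq_or_ne ϖ 0 with h0 | h0
  · rw [h0, Ideal.span_singleton_zero]; infer_instance
  · have hpow : Filter.Tendsto (fun k : ℕ => ‖ϖ‖ ^ k) Filter.atTop (𝓝 0) :=
      tendsto_pow_atTop_nhds_zero_of_lt_one (norm_nonneg _) hϖ
    refine { haus' := fun x hx => ?_, prec' := fun f hf => ?_ }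
    · have h1 : ∀ k : ℕ, ‖x‖ ≤ ‖ϖ‖ ^ k := by
        intro k
        have := hx k
        rw [SModEq.zero, mem_span_pow h0] at this
        exact this
      have h2 : ‖x‖ ≤ 0 := ge_of_tendsto' hpow h1
      exact norm_le_zero_iff.1 h2
    · have h1 : ∀ k l : ℕ, k ≤ l → ‖f k - f l‖ ≤ ‖ϖ‖ ^ k := by
        intro k l hkl
        have := hf hkl
        rw [SModEq.sub_mem, mem_span_pow h0] at this
        exact this
      have hc : CauchySeq f := by
        refine cauchySeq_of_le_tendsto_0 (fun k => ‖ϖ‖ ^ k) (fun a b N ha hb => ?_) hpow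
        rw [dist_eq_norm]
        have e : f a - f b = -(f N - f a) + (f N - f b) := by ring
        rw [e]
        refine (IsUltrametricDist.norm_add_le_max _ _).trans (max_le ?_ (h1 N b hb))
        rw [norm_neg]
        exact h1 N a ha
      obtain ⟨L, hL⟩ := cauchySeq_tendsto_of_complete hc
      refine ⟨L, fun k => ?_⟩
      rw [SModEq.sub_mem, mem_span_pow h0]
      have h2 : Filter.Tendsto (fun l => ‖f k - f l‖) Filter.atTop (𝓝 ‖f k - L‖) :=
        (tendsto_const_nhds.sub hL).norm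
      exact le_of_tendsto h2 (Filter.eventually_atTop.2 ⟨k, fun l hl => h1 k l hl⟩)

/-- an element bounding finitely many elements of norm `< 1` -/
theorem exists_bound (m0 : ℕ) (c : ℕ → Ob K) (hlt : ∀ m < m0, ‖c m‖ < 1) :
    ∃ ϖ : Ob K, ϖ ≠ 0 ∧ ‖ϖ‖ < 1 ∧ ∀ m < m0, ‖c m‖ ≤ ‖ϖ‖ := by
  induction m0 with
  | zero =>
    obtain ⟨x, hx0, hx1⟩ := NormedField.exists_norm_lt_one K
    exact ⟨⟨x, hx1.le⟩, fun h => by
      have := congrArg Subtype.val h
      simp only [ZeroMemClass.coe_zero] at this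
      rw [this, norm_zero] at hx0
      exact lt_irrefl _ hx0, hx1, fun m hm => absurd hm (Nat.not_lt_zero m)⟩
  | succ k ih =>
    obtain ⟨ϖ, h0, h1, h2⟩ := ih fun m hm => hlt m (Nat.lt_succ_of_lt hm)
    rcases le_total ‖c k‖ ‖ϖ‖ with h | h
    · refine ⟨ϖ, h0, h1, fun m hm => ?_⟩
      rcases Nat.lt_succ_iff_lt_or_eq.1 hm with h3 | h3
      · exact h2 m h3
      · rw [h3]; exact h
    · refine ⟨c k, ?_, hlt k (Nat.lt_succ_self k), fun m hm => ?_⟩
      · intro h3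
        rw [h3, norm_zero] at h
        exact h0 (norm_le_zero_iff.1 h)
      · rcases Nat.lt_succ_iff_lt_or_eq.1 hm with h3 | h3
        · exact (h2 m h3).trans h
        · rw [h3]

/-- Weierstrass preparation. -/
theorem exists_weierstrass (g : PowerSeries (Ob K)) (m0 : ℕ)
    (hlt : ∀ m < m0, ‖PowerSeries.coeff m g‖ < 1) (hm0 : ‖PowerSeries.coeff m0 g‖ = 1) :
    ∃ (q : PowerSeries (Ob K)) (P : Polynomial (Ob K)), IsUnit q ∧ P.Monic ∧ P.natDegree = m0 ∧
      (∀ m < m0, ‖P.coeff m‖ < 1) ∧ g = q * (P : PowerSeries (Ob K)) := by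
  obtain ⟨ϖ, h0, h1, h2⟩ := exists_bound m0 (fun m => PowerSeries.coeff m g) hlt
  have hI : ∀ a : Ob K, a ∈ Ideal.span {ϖ} ↔ ‖a‖ ≤ ‖ϖ‖ := fun a => by
    rw [Ideal.mem_span_singleton, dvd_iff h0]
  have := isAdicComplete_span ϖ h1
  set I : Ideal (Ob K) := Ideal.span {ϖ} with hIdef
  have hord : (g.map (Ideal.Quotient.mk I)).order = (m0 : ℕ∞) := by
    rw [PowerSeries.order_eq_nat]
    constructor
    · rw [PowerSeries.coeff_map, Ne, Ideal.Quotient.eq_zero_iff_mem, hI, hm0]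
      exact not_le.2 h1
    · intro i hi
      rw [PowerSeries.coeff_map, Ideal.Quotient.eq_zero_iff_mem, hI]
      exact h2 i hi
  have hto : (g.map (Ideal.Quotient.mk I)).order.toNat = m0 := by rw [hord]; rfl
  have hW : PowerSeries.IsWeierstrassDivisorAt g I := by
    unfold PowerSeries.IsWeierstrassDivisorAt
    rw [hto, Ob_isUnit_iff]
    exact hm0
  have hdiv := hW.isWeierstrassDivisionAt_div_mod (PowerSeries.X ^ m0)
  set q := hW.div (PowerSeries.X ^ m0)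
  set r := hW.mod (PowerSeries.X ^ m0)
  have hdeg : r.degree < m0 := by
    have := hdiv.degree_lt
    rwa [hto] at this
  have heq : (PowerSeries.X ^ m0 : PowerSeries (Ob K)) = g * q + (r : PowerSeries (Ob K)) :=
    hdiv.eq_mul_add
  have hrI : ∀ i < m0, ‖r.coeff i‖ ≤ ‖ϖ‖ := by
    intro i hi
    have := hdiv.coeff_f_sub_r_mem (i := i) (by rw [hto]; exact hi)
    rw [hI, map_sub, PowerSeries.coeff_X_pow, if_neg hi.ne, zero_sub, norm_neg,
      Polynomial.coeff_coe] at this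
    exact this
  have hrm0 : r.coeff m0 = 0 := Polynomial.coeff_eq_zero_of_degree_lt hdeg
  -- q is a unit
  have hq : IsUnit q := by
    rw [PowerSeries.isUnit_iff_constantCoeff, Ob_isUnit_iff]
    have h3 := congrArg (PowerSeries.coeff m0) heq
    rw [PowerSeries.coeff_X_pow, if_pos rfl, map_add, Polynomial.coeff_coe, hrm0, add_zero,
      PowerSeries.coeff_mul, Finset.Nat.sum_antidiagonal_eq_sum_range_succ
        (fun i j => PowerSeries.coeff i g * PowerSeries.coeff j q),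
      Finset.sum_range_succ, Nat.sub_self] at h3
    have h4 : ‖∑ i ∈ Finset.range m0, PowerSeries.coeff i g * PowerSeries.coeff (m0 - i) q‖
        ≤ ‖ϖ‖ := by
      refine IsUltrametricDist.norm_sum_le_of_forall_le_of_nonneg (norm_nonneg _) fun i hi => ?_
      rw [norm_mul']
      calc ‖PowerSeries.coeff i g‖ * ‖PowerSeries.coeff (m0 - i) q‖ ≤ ‖ϖ‖ * 1 :=
            mul_le_mul (h2 i (Finset.mem_range.1 hi)) (Ob_norm_le_one _) (norm_nonneg _)
              (norm_nonneg _)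
        _ = ‖ϖ‖ := mul_one _
    have h5 : ‖PowerSeries.coeff m0 g * PowerSeries.coeff 0 q‖ = 1 := by
      have h6 : PowerSeries.coeff m0 g * PowerSeries.coeff 0 q = 1 -
          ∑ i ∈ Finset.range m0, PowerSeries.coeff i g * PowerSeries.coeff (m0 - i) q := by
        rw [eq_sub_iff_add_eq, add_comm]; exact h3.symm
      rw [h6]
      refine le_antisymm (Ob_norm_le_one _) ?_
      by_contra hlt'
      push Not at hlt'
      have h7 : (1 : Ob K) = (1 - ∑ i ∈ Finset.range m0,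
          PowerSeries.coeff i g * PowerSeries.coeff (m0 - i) q) +
          ∑ i ∈ Finset.range m0, PowerSeries.coeff i g * PowerSeries.coeff (m0 - i) q := by ring
      have h8 : ‖(1 : Ob K)‖ < 1 := by
        conv_lhs => rw [h7]
        exact (IsUltrametricDist.norm_add_le_max _ _).trans_lt (max_lt hlt' (h4.trans_lt h1))
      have h9 : ‖(1 : Ob K)‖ = 1 := by
        change ‖((1 : Ob K) : K)‖ = 1
        simp
      rw [h9] at h8
      exact lt_irrefl _ h8
    rw [norm_mul', hm0, one_mul, PowerSeries.coeff_zero_eq_constantCoeff_apply] at h5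
    exact h5
  refine ⟨↑hq.unit⁻¹, Polynomial.X ^ m0 - r, Units.isUnit _, Polynomial.monic_X_pow_sub ?_, ?_,
    fun m hm => ?_, ?_⟩
  · exact hdeg
  · apply Polynomial.natDegree_eq_of_degree_eq_some
    rw [Polynomial.degree_sub_eq_left_of_degree_lt, Polynomial.degree_X_pow]
    rwa [Polynomial.degree_X_pow]
  · rw [Polynomial.coeff_sub, Polynomial.coeff_X_pow, if_neg hm.ne, zero_sub, norm_neg]
    exact (hrI m hm).trans_lt h1
  · have h3 : ((Polynomial.X ^ m0 - r : Polynomial (Ob K)) : PowerSeries (Ob K)) = g * q := by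
      rw [Polynomial.coe_sub, Polynomial.coe_pow, Polynomial.coe_X, heq]
      ring
    rw [h3, mul_comm g q, ← mul_assoc]
    rw [show (↑hq.unit⁻¹ : PowerSeries (Ob K)) * q = 1 from hq.val_inv_mul, one_mul]

namespace CoRootAux

theorem tn1 {x : Ob K} (hx : ‖x‖ < 1) : ∀ _ : Unit, IsTopologicallyNilpotent x :=
  fun _ => (Ob_tn_iff x).2 hx

theorem hasSum_ev₁ {x : Ob K} (hx : ‖x‖ < 1) (f : PowerSeries (Ob K)) :
    HasSum (fun k : ℕ => PowerSeries.coeff k f * x ^ k) (ev₁ x f) := by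
  have h := hasSum_ev (σ := Unit) (a := fun _ : Unit => x) (fun _ => hx) f
  have h2 := (Equiv.hasSum_iff (Finsupp.uniqueEquiv ()).symm).2 h
  convert h2 using 1
  funext k
  have e : (Finsupp.uniqueEquiv ()).symm k = Finsupp.single () k := by
    ext; simp
  rw [Function.comp_apply, e]
  simp only [Finsupp.prod_single_index (h := fun _ e => x ^ e) (pow_zero x)]
  rfl

theorem ev₁_poly {x : Ob K} (hx : ‖x‖ < 1) (P : Polynomial (Ob K)) :
    ev₁ x (P : PowerSeries (Ob K)) = P.eval x := by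
  have h1 := hasSum_ev₁ hx (P : PowerSeries (Ob K))
  have h2 : HasSum (fun k : ℕ => PowerSeries.coeff k (P : PowerSeries (Ob K)) * x ^ k)
      (∑ k ∈ Finset.range (P.natDegree + 1),
        PowerSeries.coeff k (P : PowerSeries (Ob K)) * x ^ k) := by
    refine hasSum_sum_of_ne_finset_zero fun k hk => ?_
    rw [Polynomial.coeff_coe, Polynomial.coeff_eq_zero_of_natDegree_lt, zero_mul]
    rw [Finset.mem_range] at hk
    omega
  rw [h1.unique h2, Polynomial.eval_eq_sum_range]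
  simp only [Polynomial.coeff_coe]

theorem ev₁_mul {x : Ob K} (hx : ‖x‖ < 1) (f g : PowerSeries (Ob K)) :
    ev₁ x (f * g) = ev₁ x f * ev₁ x g := ev_mul (tn1 hx) f g

/-- roots of a distinguished polynomial have norm `< 1` -/
theorem norm_root_lt {P : Polynomial (Ob K)} (hP : P.Monic) (hd : P.natDegree ≠ 0)
    (hlt : ∀ m < P.natDegree, ‖P.coeff m‖ < 1) {x : Ob K} (hx : P.eval x = 0) : ‖x‖ < 1 := by
  obtain ⟨ϖ, -, h1, h2⟩ := exists_bound P.natDegree (fun m => P.coeff m) hlt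
  rw [Polynomial.eval_eq_sum_range, Finset.sum_range_succ, hP.coeff_natDegree, one_mul] at hx
  have h3 : x ^ P.natDegree = -∑ i ∈ Finset.range P.natDegree, P.coeff i * x ^ i := by
    rw [eq_neg_iff_add_eq_zero, add_comm]; exact hx
  have h4 : ‖x‖ ^ P.natDegree ≤ ‖ϖ‖ := by
    rw [← norm_pow', h3, norm_neg]
    refine IsUltrametricDist.norm_sum_le_of_forall_le_of_nonneg (norm_nonneg _) fun i hi => ?_
    rw [norm_mul']
    calc ‖P.coeff i‖ * ‖x ^ i‖ ≤ ‖ϖ‖ * 1 :=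
          mul_le_mul (h2 i (Finset.mem_range.1 hi)) (Ob_norm_le_one _) (norm_nonneg _)
            (norm_nonneg _)
      _ = ‖ϖ‖ := mul_one _
  exact (pow_lt_one_iff_of_nonneg (norm_nonneg _) hd).1 (h4.trans_lt h1)

/-- monic polynomials over the ball split -/
theorem card_roots_eq (P : Polynomial (Ob K)) (hP : P.Monic) :
    P.roots.card = P.natDegree := by
  induction hd : P.natDegree generalizing P with
  | zero =>
    have : P = 1 := hP.natDegree_eq_zero.1 hd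
    rw [this]; simp
  | succ d ih =>
    obtain ⟨a, ha⟩ := Ob_exists_root P hP (by omega)
    obtain ⟨Q, hQ⟩ := Polynomial.dvd_iff_isRoot.2 ha
    have hQm : Q.Monic := (Polynomial.monic_X_sub_C a).of_mul_monic_left (hQ ▸ hP)
    have hdeg : Q.natDegree = d := by
      have := (Polynomial.monic_X_sub_C a).natDegree_mul hQm
      rw [← hQ, hd, Polynomial.natDegree_X_sub_C] at this
      omega
    have hne : (Polynomial.X - Polynomial.C a) * Q ≠ 0 := hQ ▸ hP.ne_zero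
    rw [hQ, Polynomial.roots_mul hne, Polynomial.roots_X_sub_C, Multiset.card_add,
      Multiset.card_singleton, ih Q hQm hdeg]
    omega

end CoRootAux

theorem exists_root (g : PowerSeries (Ob K)) (m0 : ℕ) (h0 : 1 ≤ m0)
    (hlt : ∀ m < m0, ‖PowerSeries.coeff m g‖ < 1) (hm0 : ‖PowerSeries.coeff m0 g‖ = 1) :
    ∃ x : Ob K, ‖x‖ < 1 ∧ ev₁ x g = 0 := by
  obtain ⟨q, P, hq, hP, hd, hc, rfl⟩ := exists_weierstrass g m0 hlt hm0
  obtain ⟨x, hx⟩ := Ob_exists_root P hP (by omega)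
  have hx1 : ‖x‖ < 1 := norm_root_lt hP (by omega) (by rw [hd]; exact hc) hx
  exact ⟨x, hx1, by rw [ev₁_mul hx1, ev₁_poly hx1, hx, mul_zero]⟩

/-- if all zeros are simple there are exactly `m0` of them -/
theorem card_roots (g : PowerSeries (Ob K)) (m0 : ℕ)
    (hlt : ∀ m < m0, ‖PowerSeries.coeff m g‖ < 1) (hm0 : ‖PowerSeries.coeff m0 g‖ = 1)
    (hs : ∀ x : Ob K, ‖x‖ < 1 → ev₁ x g = 0 → ev₁ x (PowerSeries.derivativeFun g) ≠ 0) :
    ∃ s : Finset (Ob K), s.card = m0 ∧ ∀ x, x ∈ s ↔ (‖x‖ < 1 ∧ ev₁ x g = 0) := by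
  classical
  obtain ⟨q, P, hq, hP, hd, hc, rfl⟩ := exists_weierstrass g m0 hlt hm0
  have hne : P ≠ 0 := hP.ne_zero
  have hunit : ∀ x : Ob K, ‖x‖ < 1 → IsUnit (ev₁ x q) := by
    intro x hx
    have := hq.map (evHom (tn1 hx))
    rwa [evHom_apply] at this
  have hroot : ∀ x : Ob K, P.eval x = 0 → ‖x‖ < 1 := by
    intro x hx
    rcases Nat.eq_zero_or_pos m0 with h0 | h0
    · have : P = 1 := hP.natDegree_eq_zero.1 (hd.trans h0)
      rw [this, Polynomial.eval_one] at hx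
      exact absurd hx one_ne_zero
    · exact norm_root_lt hP (by omega) (by rw [hd]; exact hc) hx
  have hnodup : P.roots.Nodup := by
    rw [Multiset.nodup_iff_count_le_one]
    intro a
    rw [Polynomial.count_roots]
    by_contra hlt'
    push Not at hlt'
    have hr := (Polynomial.one_lt_rootMultiplicity_iff_isRoot hne).1 hlt'
    obtain ⟨hr1, hr2⟩ := hr
    have ha : P.eval a = 0 := hr1
    have ha' : P.derivative.eval a = 0 := hr2
    have ha1 := hroot a ha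
    refine hs a ha1 (by rw [ev₁_mul ha1, ev₁_poly ha1, ha, mul_zero]) ?_
    have hder : PowerSeries.derivativeFun (q * (P : PowerSeries (Ob K))) =
        q * ((Polynomial.derivative P : Polynomial (Ob K)) : PowerSeries (Ob K)) +
          (P : PowerSeries (Ob K)) * PowerSeries.derivativeFun q := by
      have hdf : ∀ f : PowerSeries (Ob K),
          PowerSeries.derivativeFun f = PowerSeries.derivative (Ob K) f := fun _ => rfl
      rw [hdf, hdf, Derivation.leibniz, PowerSeries.derivative_coe]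
      simp only [smul_eq_mul]
    rw [hder]
    have : ev₁ a (q * ((Polynomial.derivative P : Polynomial (Ob K)) : PowerSeries (Ob K)) +
          (P : PowerSeries (Ob K)) * PowerSeries.derivativeFun q) =
        ev₁ a (q * ((Polynomial.derivative P : Polynomial (Ob K)) : PowerSeries (Ob K))) +
        ev₁ a ((P : PowerSeries (Ob K)) * PowerSeries.derivativeFun q) := ev_add (tn1 ha1) _ _
    rw [this, ev₁_mul ha1, ev₁_mul ha1, ev₁_poly ha1, ev₁_poly ha1, ha, ha', mul_zero, zero_mul,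
      add_zero]
  refine ⟨P.roots.toFinset, ?_, fun x => ?_⟩
  · rw [Multiset.toFinset_card_of_nodup hnodup, card_roots_eq P hP, hd]
  · rw [Multiset.mem_toFinset, Polynomial.mem_roots hne, Polynomial.IsRoot.def]
    constructor
    · intro hx
      have hx1 := hroot x hx
      exact ⟨hx1, by rw [ev₁_mul hx1, ev₁_poly hx1, hx, mul_zero]⟩
    · rintro ⟨hx1, hx⟩
      rw [ev₁_mul hx1, ev₁_poly hx1] at hx
      exact (hunit x hx1).mul_right_eq_zero.1 hx

/-- solvability of `f(x) = y` (rescale `f(sx) - y`, divide by a coefficient of maximal norm) -/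
theorem exists_ev_eq (f : PowerSeries (Ob K)) (h0 : PowerSeries.constantCoeff f = 0) (m : ℕ)
    (hm : 1 ≤ m) (y : Ob K) (hy : ‖y‖ < ‖PowerSeries.coeff m f‖) :
    ∃ x : Ob K, ‖x‖ < 1 ∧ ev₁ x f = y := by
  classical
  have hfm : 0 < ‖PowerSeries.coeff m f‖ := (norm_nonneg _).trans_lt hy
  -- the scaling factor
  obtain ⟨s, hs1, hs⟩ : ∃ s : Ob K, ‖s‖ < 1 ∧ ‖y‖ < ‖PowerSeries.coeff m f‖ * ‖s‖ ^ m := by
    obtain ⟨π, hπ0, hπ1⟩ := NormedField.exists_norm_lt_one K
    set ρ := ‖y‖ / ‖PowerSeries.coeff m f‖ with hρ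
    have hρ0 : 0 ≤ ρ := by positivity
    have hρ1 : ρ < 1 := (div_lt_one hfm).2 hy
    obtain ⟨N, hN⟩ := exists_pow_lt_of_lt_one (pow_pos hπ0 m) hρ1
    have hN0 : 0 < N := by
      rcases Nat.eq_zero_or_pos N with h | h
      · rw [h, pow_zero] at hN
        exact absurd hN (not_lt.2 (pow_le_one₀ hπ0.le hπ1.le))
      · exact h
    obtain ⟨z, hz⟩ := IsAlgClosed.exists_pow_nat_eq π hN0
    have hzN : ‖z‖ ^ N = ‖π‖ := by rw [← norm_pow, hz]
    have hz1 : ‖z‖ < 1 := (pow_lt_one_iff_of_nonneg (norm_nonneg _) hN0.ne').1 (by rw [hzN]; exact hπ1)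
    refine ⟨⟨z, hz1.le⟩, hz1, ?_⟩
    have h1 : ρ ^ N < (‖z‖ ^ m) ^ N := by
      rw [← pow_mul, mul_comm m N, pow_mul, hzN]
      exact hN
    have h2 : ρ < ‖z‖ ^ m := lt_of_pow_lt_pow_left₀ N (by positivity) h1
    rw [hρ, div_lt_iff₀ hfm, mul_comm] at h2
    exact h2
  let c : ℕ → Ob K := fun k => if k = 0 then -y else PowerSeries.coeff k f * s ^ k
  have hc0 : c 0 = -y := if_pos rfl
  have hck : ∀ k, k ≠ 0 → c k = PowerSeries.coeff k f * s ^ k := fun k hk => if_neg hk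
  have hcm : ‖y‖ < ‖c m‖ := by
    rw [hck m (by omega), norm_mul', norm_pow']
    exact hs
  have hcpos : 0 < ‖c m‖ := (norm_nonneg _).trans_lt hcm
  have hcle : ∀ k, k ≠ 0 → ‖c k‖ ≤ ‖s‖ ^ k := by
    intro k hk
    rw [hck k hk, norm_mul', norm_pow']
    calc ‖PowerSeries.coeff k f‖ * ‖s‖ ^ k ≤ 1 * ‖s‖ ^ k :=
          mul_le_mul_of_nonneg_right (Ob_norm_le_one _) (by positivity)
      _ = ‖s‖ ^ k := one_mul _
  obtain ⟨K0, hK0⟩ := exists_pow_lt_of_lt_one hcpos hs1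
  have hbig : ∀ k, K0 ≤ k → k ≠ 0 → ‖c k‖ < ‖c m‖ := fun k hk hk0 =>
    (hcle k hk0).trans_lt ((pow_le_pow_of_le_one (norm_nonneg _) hs1.le hk).trans_lt hK0)
  obtain ⟨m1, -, hm1⟩ := Finset.exists_max_image (Finset.range (K0 + m + 1)) (fun k => ‖c k‖)
    ⟨0, Finset.mem_range.2 (by omega)⟩
  have hmax : ∀ k, ‖c k‖ ≤ ‖c m1‖ := by
    intro k
    rcases lt_or_ge k (K0 + m + 1) with h | h
    · exact hm1 k (Finset.mem_range.2 h)
    · exact (hbig k (by omega) (by omega)).le.trans (hm1 m (Finset.mem_range.2 (by omega)))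
  have hex : ∃ k, ‖c k‖ = ‖c m1‖ := ⟨m1, rfl⟩
  set m0 := Nat.find hex with hm0def
  have hm0 : ‖c m0‖ = ‖c m1‖ := Nat.find_spec hex
  have hlt : ∀ k < m0, ‖c k‖ < ‖c m0‖ := by
    intro k hk
    rw [hm0]
    exact lt_of_le_of_ne (hmax k) (Nat.find_min hex hk)
  have hm01 : 1 ≤ m0 := by
    by_contra h
    have h1 : m0 = 0 := by omega
    rw [h1, hc0, norm_neg] at hm0
    have := hmax m
    rw [← hm0] at this
    exact absurd hcm (not_lt.2 this)
  set d := c m0 with hd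
  have hdpos : 0 < ‖d‖ := by
    rw [hd, hm0]
    exact hcpos.trans_le (hmax m)
  have hd0 : d ≠ 0 := norm_pos_iff.1 hdpos
  have hdvd : ∀ k, ∃ g : Ob K, c k = d * g := fun k =>
    (dvd_iff hd0).2 (by rw [hd, hm0]; exact hmax k)
  choose g hg using hdvd
  have hgn : ∀ k, ‖d‖ * ‖g k‖ = ‖c k‖ := fun k => by rw [hg k, norm_mul']
  obtain ⟨z, hz1, hz⟩ := exists_root (PowerSeries.mk g) m0 hm01
    (fun k hk => by
      rw [PowerSeries.coeff_mk]
      by_contra h
      push Not at h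
      have h1 := hgn k
      have h2 := hlt k hk
      rw [← h1] at h2
      have h3 : ‖d‖ * 1 ≤ ‖d‖ * ‖g k‖ := mul_le_mul_of_nonneg_left h hdpos.le
      rw [mul_one] at h3
      exact absurd h2 (not_lt.2 h3))
    (by
      rw [PowerSeries.coeff_mk]
      have h1 := hgn m0
      rw [← hd] at h1
      exact (mul_right_eq_self₀.1 h1).resolve_right hdpos.ne')
  have hx1 : ‖s * z‖ < 1 := by
    rw [norm_mul']
    calc ‖s‖ * ‖z‖ ≤ ‖s‖ * 1 := mul_le_mul_of_nonneg_left hz1.le (norm_nonneg _)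
      _ = ‖s‖ := mul_one _
      _ < 1 := hs1
  refine ⟨s * z, hx1, ?_⟩
  have H1 := hasSum_ev₁ hx1 f
  have H2 := (hasSum_ev₁ hz1 (PowerSeries.mk g)).mul_left d
  rw [hz, mul_zero] at H2
  have H3 : HasSum (fun k : ℕ => if k = 0 then y else 0) y := hasSum_ite_eq 0 y
  have H4 := H1.sub H3
  have e : (fun k => PowerSeries.coeff k f * (s * z) ^ k - if k = 0 then y else 0) =
      fun k => d * (PowerSeries.coeff k (PowerSeries.mk g) * z ^ k) := by
    funext k
    rw [PowerSeries.coeff_mk, ← mul_assoc, ← hg k]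
    rcases Nat.eq_zero_or_pos k with h | h
    · subst h
      rw [hc0, if_pos rfl, pow_zero, pow_zero, mul_one, mul_one,
        PowerSeries.coeff_zero_eq_constantCoeff_apply, h0, zero_sub]
    · rw [hck k h.ne', if_neg h.ne', sub_zero, mul_pow, mul_assoc]
  rw [e] at H4
  exact sub_eq_zero.1 (H4.unique H2)

end Crest.Agent.R227
end
end

-- ▼ part R227/ESysEx
section

/-! # R227 / ESysEx : existence and uniqueness of the points `E_l(α)` (task ESYS) -/

set_option autoImplicit false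
set_option linter.unusedSectionVars false

noncomputable section

namespace Crest.Agent.R227

open Crest.LubinTate MvPowerSeries Topology Filter

variable (p : ℕ) [Fact p.Prime] (n h : ℕ)

variable {K : Type} [NontriviallyNormedField K] [IsUltrametricDist K] [CompleteSpace K]
  [CharP K p]

namespace ESysExAux

/-- the subgroup of points of norm `≤ r` -/
def Nb {K : Type} [NontriviallyNormedField K] [IsUltrametricDist K] [CompleteSpace K]
    (F : FormalGroup (Ob K)) [F.IsComm] (r : ℝ) (hr : 0 ≤ r) :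
    AddSubgroup (FPt F) where
  carrier := {x | ‖x.val‖ ≤ r}
  add_mem' := fun {a b} ha hb =>
    FPt.add_mem F a b (normIdeal K r hr) (isClosed_normIdeal r hr) ha hb
  zero_mem' := by simpa using hr
  neg_mem' := fun {a} ha => by
    have h1 := (FPt.sub_mem_iff F 0 a (normIdeal K r hr) (isClosed_normIdeal r hr)).2 (by
      rw [mem_normIdeal, FPt.val_zero, zero_sub, norm_neg]
      exact ha)
    rwa [zero_sub] at h1

omit [CharP K p] in
theorem mem_Nb {F : FormalGroup (Ob K)} [F.IsComm] {r : ℝ} (hr : 0 ≤ r) (x : FPt F) :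
    x ∈ Nb F r hr ↔ ‖x.val‖ ≤ r := Iff.rfl

theorem sub_mem_Nb {F : FormalGroup (Ob K)} [F.IsComm] {r : ℝ} (hr : 0 ≤ r) (x y : FPt F) :
    x - y ∈ Nb F r hr ↔ ‖x.val - y.val‖ ≤ r :=
  FPt.sub_mem_iff F x y (normIdeal K r hr) (isClosed_normIdeal r hr)

theorem Nb_mono {F : FormalGroup (Ob K)} [F.IsComm] {r s : ℝ} (hr : 0 ≤ r) (hs : 0 ≤ s)
    (h : r ≤ s) : Nb F r hr ≤ Nb F s hs := fun _ hx => le_trans hx h

variable {p n h}

omit [CompleteSpace K] in
theorem val_lt_one {F : FormalGroup (Ob K)} (P : FPt F) : ‖P.val‖ < 1 :=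
  (Ob_tn_iff _).1 P.tn










/-- the radii -/
theorem tendsto_rad (h1 : 1 ≤ h) (ρ : ℝ) (h0 : 0 ≤ ρ) (hρ : ρ < 1) :
    Tendsto (fun m : ℕ => ρ ^ p ^ (h * m)) atTop (𝓝 0) := by
  have hp1 : 1 < p := (Fact.out : p.Prime).one_lt
  refine squeeze_zero (fun m => pow_nonneg h0 _) (fun m => ?_)
    (tendsto_pow_atTop_nhds_zero_of_lt_one h0 hρ)
  refine pow_le_pow_of_le_one h0 hρ.le ?_
  calc m ≤ h * m := Nat.le_mul_of_pos_left m h1
    _ ≤ p ^ (h * m) := (Nat.lt_pow_self hp1).le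

theorem rad_antitone (ρ : ℝ) (h0 : 0 ≤ ρ) (hρ : ρ < 1) {m k : ℕ} (hmk : m ≤ k) :
    ρ ^ p ^ (h * k) ≤ ρ ^ p ^ (h * m) := by
  have hp1 : 0 < p := (Fact.out : p.Prime).pos
  exact pow_le_pow_of_le_one h0 hρ.le (Nat.pow_le_pow_right hp1 (Nat.mul_le_mul_left h hmk))

theorem exists_lim (h1 : 1 ≤ h) (ρ : ℝ) (h0 : 0 ≤ ρ) (hρ : ρ < 1)
    {F : FormalGroup (Ob K)} [F.IsComm] (a : ℕ → FPt F)
    (ha : ∀ m, a (m + 1) - a m ∈ Nb F (ρ ^ p ^ (h * m)) (pow_nonneg h0 _)) :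
    ∃ E : FPt F, ∀ m, a m - E ∈ Nb F (ρ ^ p ^ (h * m)) (pow_nonneg h0 _) := by
  have h2 : ∀ m k, a (m + k) - a m ∈ Nb F (ρ ^ p ^ (h * m)) (pow_nonneg h0 _) := by
    intro m k
    induction k with
    | zero => simpa using (Nb F (ρ ^ p ^ (h * m)) (pow_nonneg h0 _)).zero_mem
    | succ k ih =>
      have h3 := Nb_mono (pow_nonneg h0 _) (pow_nonneg h0 _)
        (rad_antitone (p := p) (h := h) ρ h0 hρ (Nat.le_add_right m k)) (ha (m + k))
      have h4 := add_mem h3 ih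
      rwa [sub_add_sub_cancel] at h4
  have h3 : ∀ m k, m ≤ k → ‖(a k).val - (a m).val‖ ≤ ρ ^ p ^ (h * m) := by
    intro m k hmk
    obtain ⟨c, rfl⟩ := Nat.exists_eq_add_of_le hmk
    exact (sub_mem_Nb _ _ _).1 (h2 m c)
  have hcau : CauchySeq (fun k => (a k).val) := by
    refine cauchySeq_of_le_tendsto_0' (fun m => ρ ^ p ^ (h * m)) (fun m k hmk => ?_)
      (tendsto_rad (p := p) h1 ρ h0 hρ)
    rw [dist_comm, dist_eq_norm]
    exact h3 m k hmk
  obtain ⟨x, hx⟩ := cauchySeq_tendsto_of_complete hcau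
  have h4 : ∀ m, ‖(a m).val - x‖ ≤ ρ ^ p ^ (h * m) := by
    intro m
    have h5 : Tendsto (fun k => ‖(a m).val - (a k).val‖) atTop (𝓝 ‖(a m).val - x‖) :=
      (tendsto_const_nhds.sub hx).norm
    refine le_of_tendsto h5 ?_
    filter_upwards [eventually_ge_atTop m] with k hk
    rw [norm_sub_rev]
    exact h3 m k hk
  have h5 : ‖x‖ < 1 := by
    have h6 : ‖(a 0).val + -((a 0).val - x)‖ ≤ max ‖(a 0).val‖ ‖-((a 0).val - x)‖ :=
      IsUltrametricDist.norm_add_le_max _ _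
    rw [← sub_eq_add_neg, sub_sub_cancel, norm_neg] at h6
    have h7 := h4 0
    rw [Nat.mul_zero, pow_zero, pow_one] at h7
    exact h6.trans_lt (max_lt (val_lt_one _) (h7.trans_lt hρ))
  refine ⟨⟨x, (Ob_tn_iff _).2 h5⟩, fun m => ?_⟩
  rw [sub_mem_Nb]
  exact h4 m

theorem eq_of_forall_mem (h1 : 1 ≤ h) (ρ : ℝ) (h0 : 0 ≤ ρ) (hρ : ρ < 1)
    {F : FormalGroup (Ob K)} [F.IsComm] (x y : FPt F)
    (hxy : ∀ m, x - y ∈ Nb F (ρ ^ p ^ (h * m)) (pow_nonneg h0 _)) : x = y := by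
  rw [← sub_eq_zero]
  have h2 : ‖(x - y).val‖ ≤ 0 :=
    ge_of_tendsto' (tendsto_rad (p := p) h1 ρ h0 hρ) fun m => hxy m
  exact FPt.ext (norm_le_zero_iff.1 h2)

end ESysExAux


end Crest.Agent.R227
end
end

-- ▼ part R227/CoTate1
section

/-! # R227 / CoTate1 : surjectivity of `ρ`, lower bound for the lattice (part of task COTATE) -/

set_option autoImplicit false
set_option linter.unusedSectionVars false

noncomputable section

namespace Crest.Agent.R227

open Crest.LubinTate MvPowerSeries Topology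

variable {p : ℕ} [Fact p.Prime] {n h : ℕ}
variable {K : Type} [NontriviallyNormedField K] [IsUltrametricDist K] [CompleteSpace K]
  [IsAlgClosed K] [CharP K p]

namespace CoTate1Aux

theorem norm_eq_one_of_sub_lt {a : Ob K} (ha : ‖a - 1‖ < 1) : ‖a‖ = 1 := by
  refine le_antisymm (Ob_norm_le_one a) ?_
  by_contra hlt
  push Not at hlt
  have h1 : ‖a + -(a - 1)‖ ≤ max ‖a‖ ‖-(a - 1)‖ := IsUltrametricDist.norm_add_le_max _ _
  have h2 : a + -(a - 1) = 1 := by ring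
  rw [h2, norm_neg] at h1
  have h3 : ‖(1 : Ob K)‖ = 1 := norm_one (α := K)
  rw [h3] at h1
  exact absurd (h1.trans_lt (max_lt hlt ha)) (lt_irrefl _)

theorem norm_lead {P : HPoint p n h K} {i : ℕ} {V : PowerSeries (Ob K)} (hV : IsVi P i V) :
    ‖PowerSeries.coeff (p ^ ((n - h) * i)) V‖ = 1 := by
  refine norm_eq_one_of_sub_lt ?_
  have h1 := hV.near (p ^ ((n - h) * i))
  rw [if_pos rfl] at h1
  exact h1.trans_lt P.c_lt_one

theorem norm_lower {P : HPoint p n h K} {i : ℕ} {V : PowerSeries (Ob K)} (hV : IsVi P i V)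
    (m : ℕ) (hm : m < p ^ ((n - h) * i)) : ‖PowerSeries.coeff m V‖ < 1 := by
  have h1 := hV.near m
  rw [if_neg hm.ne, sub_zero] at h1
  exact h1.trans_lt P.c_lt_one

theorem norm_fz_lt (k : ℕ) {x : Ob K} (hx : ‖x‖ < 1) : ‖fz p (-(k : ℤ)) x‖ < 1 := by
  have h1 := norm_fz_neg (p := p) k x
  by_contra h2
  push Not at h2
  have h3 : (1 : ℝ) ≤ ‖fz p (-(k : ℤ)) x‖ ^ p ^ k := one_le_pow₀ h2
  rw [h1] at h3
  exact absurd hx (not_lt.2 h3)

/-- `F(m)` is `p`-divisible -/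
theorem exists_smul_eq (h1 : 1 ≤ h) (hh : h < n) (P : HPoint p n h K) (y : FPt P.F) :
    ∃ a : FPt P.F, p • a = y := by
  obtain ⟨V, hV⟩ := exists_Vi h1 hh P 1
  have hm0 : 1 ≤ p ^ ((n - h) * 1) := Nat.one_le_pow _ _ (Fact.out : p.Prime).pos
  obtain ⟨x, hx, hxy⟩ := exists_ev_eq V hV.hom.1 _ hm0 y.val
    (by rw [norm_lead hV]; exact FPt.norm_lt _ _)
  refine ⟨mkPt P.F (fz p (-((h * 1 : ℕ) : ℤ)) x) (norm_fz_lt _ hx), ?_⟩
  apply FPt.ext
  have e1 := hV.ev (mkPt P.F (fz p (-((h * 1 : ℕ) : ℤ)) x) (norm_fz_lt _ hx))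
  rw [mkPt_val, fz_neg_pow, hxy, pow_one] at e1
  exact e1

/-- a sequence of `p`-divisions -/
def divSeq (h1 : 1 ≤ h) (hh : h < n) (P : HPoint p n h K) (y : FPt P.F) : ℕ → FPt P.F
  | 0 => y
  | i + 1 => Classical.choose (exists_smul_eq h1 hh P (divSeq h1 hh P y i))

theorem smul_divSeq (h1 : 1 ≤ h) (hh : h < n) (P : HPoint p n h K) (y : FPt P.F) (i : ℕ) :
    p • divSeq h1 hh P y (i + 1) = divSeq h1 hh P y i :=
  Classical.choose_spec (exists_smul_eq h1 hh P (divSeq h1 hh P y i))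

theorem pow_smul_divSeq (h1 : 1 ≤ h) (hh : h < n) (P : HPoint p n h K) (y : FPt P.F) (i : ℕ) :
    p ^ i • divSeq h1 hh P y i = y := by
  induction i with
  | zero => rw [pow_zero, one_nsmul]; rfl
  | succ i ih => rw [pow_succ, mul_nsmul', smul_divSeq, ih]

end CoTate1Aux

open CoTate1Aux in
/-- `ρ` is surjective: choose `y = y_0`, `p y_{i+1} = y_i`, then `z = lim y_i^{q^i}`. -/
theorem IsRho.surjective {P : HPoint p n h K} {ρ : FPt (HO p n n (Ob K)) →+ FPt P.F}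
    (h1 : 1 ≤ h) (hh : h < n) (hρ : IsRho P ρ) : Function.Surjective ρ := by
  intro y
  have hn : 1 ≤ n := h1.trans hh.le
  let Y := divSeq h1 hh P y
  let Z : ℕ → FPt (HO p n n (Ob K)) := fun i => ⟨(Y i).val, (Y i).tn⟩
  have hZ : ∀ i, ‖((p ^ 1) • Z (i + 1)).val - (Z i).val‖ ≤ P.c := by
    intro i
    have e1 := norm_smul_sub_pow_le h1 hh P (Y (i + 1))
    have e2 : (p ^ 1) • Y (i + 1) = Y i := by rw [pow_one]; exact smul_divSeq h1 hh P y i
    rw [e2] at e1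
    rw [HO_pow_smul hn le_rfl, nfr_val, fz_natCast, Nat.mul_one, norm_sub_rev]
    exact e1
  obtain ⟨z, hz⟩ := ESysExAux.exists_lim (p := p) hn P.c P.c_nonneg P.c_lt_one
    (fun i => (p ^ i) • Z i) (fun i => by
      have e1 : (p ^ (i + 1)) • Z (i + 1) - (p ^ i) • Z i =
          (p ^ i) • ((p ^ 1) • Z (i + 1) - Z i) := by
        rw [nsmul_sub, ← mul_nsmul', ← pow_add]
      rw [e1, ESysExAux.mem_Nb, HO_pow_smul hn le_rfl, nfr_val, norm_fz_natCast]
      refine pow_le_pow_left₀ (norm_nonneg _) ?_ _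
      rw [FPt.norm_sub]
      exact hZ i)
  refine ⟨z, ?_⟩
  refine ESysExAux.eq_of_forall_mem (p := p) h1 P.c P.c_nonneg P.c_lt_one _ _ fun i => ?_
  have e1 : ρ z - y = (p ^ i) • (ρ (Z i) - Y i) - ρ ((p ^ i) • Z i - z) := by
    rw [nsmul_sub, map_sub, map_nsmul, pow_smul_divSeq h1 hh P y i]
    abel
  rw [e1]
  refine sub_mem ?_ ?_
  · rw [ESysExAux.mem_Nb]
    refine (norm_pow_smul_le h1 hh P i _).trans (pow_le_pow_left₀ (norm_nonneg _) ?_ _)
    rw [FPt.norm_sub]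
    exact hρ.near (Z i)
  · rw [ESysExAux.mem_Nb]
    exact hρ.norm_le h1 hh i _ ((ESysExAux.mem_Nb _ _).1 (hz i))

open CoTate1Aux in
/-- lower bound for integral combinations not divisible by `p` -/
theorem IsTBasis.lower {P : HPoint p n h K} {ρ : FPt (HO p n n (Ob K)) →+ FPt P.F}
    {t : Fin (n - h) → FPt (HO p n n (Ob K))} (h1 : 1 ≤ h) (hh : h < n) (hρ : IsRho P ρ)
    (ht : IsTBasis P ρ t) :
    ∃ δ : ℝ, 0 < δ ∧ ∀ m : Fin (n - h) → ℤ, (∃ l, ¬ (p : ℤ) ∣ m l) →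
      δ ≤ ‖(∑ l, m l • t l).val‖ := by
  classical
  have hn : 1 ≤ n := h1.trans hh.le
  have hp : p ≠ 0 := (Fact.out : p.Prime).ne_zero
  obtain ⟨V, hV⟩ := exists_Vi h1 hh P 1
  obtain ⟨s, -, hs⟩ := card_roots V (p ^ ((n - h) * 1)) (norm_lower hV) (norm_lead hV)
    (fun x hx _ => hV.deriv_ne x hx)
  -- lower bound for the nonzero roots
  obtain ⟨d, hd0, hd⟩ : ∃ d : ℝ, 0 < d ∧ ∀ x ∈ s, x ≠ 0 → d ≤ ‖x‖ := by
    rcases (s.filter (fun x => x ≠ 0)).eq_empty_or_nonempty with he | hne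
    · refine ⟨1, one_pos, fun x hx hx0 => ?_⟩
      have : x ∈ s.filter (fun x => x ≠ 0) := Finset.mem_filter.2 ⟨hx, hx0⟩
      rw [he] at this
      exact absurd this (Finset.notMem_empty _)
    · obtain ⟨x0, hx0, hmin⟩ := Finset.exists_min_image _ (fun x : Ob K => ‖x‖) hne
      refine ⟨‖x0‖, norm_pos_iff.2 (Finset.mem_filter.1 hx0).2, fun x hx hxn => ?_⟩
      exact hmin x (Finset.mem_filter.2 ⟨hx, hxn⟩)
  have hlim := (ESysExAux.tendsto_rad (p := p) h1 P.c P.c_nonneg P.c_lt_one).pow (p ^ (h * 1))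
  rw [zero_pow (pow_ne_zero _ hp)] at hlim
  obtain ⟨i, hi⟩ := ((hlim.eventually (gt_mem_nhds hd0))).exists
  refine ⟨(P.c ^ p ^ (n * i)) ^ p ^ (n * 1), pow_pos (pow_pos (P.c_pos h1 hh) _) _, ?_⟩
  intro m hm
  by_contra hlt
  push Not at hlt
  set z := ∑ l, m l • t l with hz
  have hρz : ρ z = 0 := by
    rw [hz, map_sum]
    exact Finset.sum_eq_zero fun l _ => by rw [map_zsmul, ht.mem l, zsmul_zero]
  set w := nfr (-((n * 1 : ℕ) : ℤ)) z with hw
  have hpw : (p ^ 1) • w = z := HO_smul_nfr (p := p) (K := K) hn 1 z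
  have hwn : ‖w.val‖ ≤ P.c ^ p ^ (n * i) := by
    have e1 := norm_fz_neg (p := p) (n * 1) z.val
    refine (pow_le_pow_iff_left₀ (norm_nonneg _) (pow_nonneg P.c_nonneg _)
      (pow_ne_zero (n * 1) hp)).1 ?_
    rw [hw, nfr_val, e1]
    exact hlt.le
  have hρw : ‖(ρ w).val‖ ≤ P.c ^ p ^ (h * i) := hρ.norm_le h1 hh i w hwn
  set κ := (ρ w).val ^ p ^ (h * 1) with hκ
  have hκn : ‖κ‖ < d := by
    have e1 : ‖κ‖ = ‖(ρ w).val‖ ^ p ^ (h * 1) := norm_pow ((ρ w).val : K) _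
    rw [e1]
    exact (pow_le_pow_left₀ (norm_nonneg _) hρw _).trans_lt hi
  have hκlt : ‖κ‖ < 1 := by
    have e1 : ‖κ‖ = ‖(ρ w).val‖ ^ p ^ (h * 1) := norm_pow ((ρ w).val : K) _
    rw [e1]
    exact pow_lt_one₀ (norm_nonneg _) (FPt.norm_lt _ _) (pow_ne_zero _ hp)
  have hκV : ev₁ κ V = 0 := by
    have e1 := hρ.eq_V h1 hh 1 hV z
    rw [hρz, FPt.val_zero] at e1
    exact e1.symm
  have hκ0 : κ = 0 := by
    by_contra hne
    exact absurd (hd κ ((hs κ).2 ⟨hκlt, hκV⟩) hne) (not_le.2 hκn)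
  have hρw0 : ρ w = 0 := by
    apply FPt.ext
    have e1 : ((ρ w).val : K) ^ p ^ (h * 1) = 0 := by
      have := congrArg (fun x : Ob K => (x : K)) hκ0
      simpa [hκ] using this
    exact Subtype.ext (pow_eq_zero_iff (pow_ne_zero _ hp) |>.1 e1)
  obtain ⟨l, hl⟩ := hm
  refine hl (ht.indep m ⟨w, hρw0, ?_⟩ l)
  rw [← hz, natCast_zsmul, ← hpw, pow_one]

end Crest.Agent.R227
end
end

-- ▼ part R227/CoTate2
section

/-! # R227 / CoTate2 : level points (part of task COTATE) -/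

set_option autoImplicit false
set_option linter.unusedSectionVars false
set_option linter.unusedVariables false

noncomputable section

namespace Crest.Agent.R227

open Crest.LubinTate MvPowerSeries Topology

variable {p : ℕ} [Fact p.Prime] {n h : ℕ}
variable {K : Type} [NontriviallyNormedField K] [IsUltrametricDist K] [CompleteSpace K]
  [IsAlgClosed K] [CharP K p]

variable {P : HPoint p n h K} {ρ : FPt (HO p n n (Ob K)) →+ FPt P.F}
variable {t : Fin (n - h) → FPt (HO p n n (Ob K))}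

namespace CoTate2Aux


theorem pow_smul_nfr (hn : 1 ≤ n) (i : ℕ) (z : FPt (HO p n n (Ob K))) :
    (p ^ i) • nfr (-((n * i : ℕ) : ℤ)) z = z := HO_smul_nfr (p := p) (K := K) hn i z



end CoTate2Aux

open CoTate2Aux




namespace CoTate2Aux

/-- `p T` in `T = ker ρ` -/
def pT (ρ : FPt (HO p n n (Ob K)) →+ FPt P.F) : AddSubgroup ρ.ker :=
  (nsmulAddMonoidHom p : ρ.ker →+ ρ.ker).range

/-- `κ(t) = ρ(t^{1/q})^Q` -/
def kmap (ρ : FPt (HO p n n (Ob K)) →+ FPt P.F) (t : ρ.ker) : Ob K :=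
  (ρ (nfr (-((n * 1 : ℕ) : ℤ)) t.1)).val ^ p ^ (h * 1)

theorem kmap_eq_iff (hn : 1 ≤ n) (a b : ρ.ker) :
    kmap ρ a = kmap ρ b ↔ (QuotientAddGroup.mk a : ρ.ker ⧸ pT ρ) = QuotientAddGroup.mk b := by
  rw [QuotientAddGroup.eq]
  constructor
  · intro hab
    have e1 : (ρ (nfr (-((n * 1 : ℕ) : ℤ)) a.1)).val = (ρ (nfr (-((n * 1 : ℕ) : ℤ)) b.1)).val := by
      rw [kmap, kmap, ← fz_natCast, ← fz_natCast] at hab
      exact (fz p ((h * 1 : ℕ) : ℤ) : Ob K ≃+* Ob K).injective hab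
    have e2 := FPt.ext e1
    have hw : nfr (-((n * 1 : ℕ) : ℤ)) (-a.1 + b.1) ∈ ρ.ker := by
      rw [AddMonoidHom.mem_ker, map_add, map_neg, map_add, map_neg, e2, neg_add_cancel]
    refine ⟨⟨_, hw⟩, Subtype.ext ?_⟩
    have := pow_smul_nfr hn 1 (-a.1 + b.1)
    rw [pow_one] at this
    exact this
  · rintro ⟨w, hw⟩
    have hw' : p • w.1 = -a.1 + b.1 := congrArg Subtype.val hw
    have e1 : b.1 = a.1 + p • w.1 := by rw [hw']; abel
    have e2 : nfr (-((n * 1 : ℕ) : ℤ)) (p • w.1) = w.1 := by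
      rw [show p • w.1 = (p ^ 1) • w.1 by rw [pow_one], HO_pow_smul hn le_rfl, ← nfr_add,
        neg_add_cancel, nfr_zero]
    have hw0 : ρ w.1 = 0 := w.2
    rw [kmap, kmap, e1, map_add, map_add, e2, hw0, add_zero]

theorem range_kmap (h1 : 1 ≤ h) (hh : h < n) (hρ : IsRho P ρ) {V : PowerSeries (Ob K)}
    (hV : IsVi P 1 V) : Set.range (kmap ρ) = {x : Ob K | ‖x‖ < 1 ∧ ev₁ x V = 0} := by
  have hn : 1 ≤ n := h1.trans hh.le
  have hp : p ≠ 0 := (Fact.out : p.Prime).ne_zero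
  ext x
  constructor
  · rintro ⟨t, rfl⟩
    refine ⟨?_, ?_⟩
    · have e1 : ‖kmap ρ t‖ = ‖(ρ (nfr (-((n * 1 : ℕ) : ℤ)) t.1)).val‖ ^ p ^ (h * 1) :=
        norm_pow ((ρ (nfr (-((n * 1 : ℕ) : ℤ)) t.1)).val : K) _
      rw [e1]
      exact pow_lt_one₀ (norm_nonneg _) (FPt.norm_lt _ _) (pow_ne_zero _ hp)
    · have e1 := hρ.eq_V h1 hh 1 hV t.1
      have e2 : ρ t.1 = 0 := t.2
      rw [e2, FPt.val_zero] at e1
      exact e1.symm
  · rintro ⟨hx, hxV⟩
    let a : FPt P.F := mkPt P.F (fz p (-((h * 1 : ℕ) : ℤ)) x) (CoTate1Aux.norm_fz_lt _ hx)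
    have ha : (p ^ 1) • a = 0 := by
      apply FPt.ext
      have e1 := hV.ev a
      rw [mkPt_val, fz_neg_pow, hxV] at e1
      exact e1
    obtain ⟨w, hw⟩ := hρ.surjective h1 hh a
    have ht : (p ^ 1) • w ∈ ρ.ker := by
      rw [AddMonoidHom.mem_ker, map_nsmul, hw, ha]
    refine ⟨⟨(p ^ 1) • w, ht⟩, ?_⟩
    have e2 : nfr (-((n * 1 : ℕ) : ℤ)) ((p ^ 1) • w) = w := by
      rw [HO_pow_smul hn le_rfl, ← nfr_add, neg_add_cancel, nfr_zero]
    rw [kmap, e2, hw, mkPt_val, fz_neg_pow]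

theorem card_quot (h1 : 1 ≤ h) (hh : h < n) (hρ : IsRho P ρ) :
    Nat.card (ρ.ker ⧸ pT ρ) = p ^ (n - h) := by
  have hn : 1 ≤ n := h1.trans hh.le
  obtain ⟨V, hV⟩ := exists_Vi h1 hh P 1
  obtain ⟨s, hs1, hs⟩ := card_roots V (p ^ ((n - h) * 1)) (CoTate1Aux.norm_lower hV)
    (CoTate1Aux.norm_lead hV) (fun x hx _ => hV.deriv_ne x hx)
  let f : ρ.ker ⧸ pT ρ → Ob K := Quotient.lift (s := QuotientAddGroup.leftRel (pT ρ)) (kmap ρ)
    (fun a b hab => (kmap_eq_iff hn a b).2 (Quotient.sound hab))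
  have hf : ∀ a : ρ.ker, f (QuotientAddGroup.mk a) = kmap ρ a := fun a => rfl
  have hinj : Function.Injective f := by
    intro a b hab
    obtain ⟨a, rfl⟩ := QuotientAddGroup.mk_surjective a
    obtain ⟨b, rfl⟩ := QuotientAddGroup.mk_surjective b
    rw [hf, hf] at hab
    exact (kmap_eq_iff hn a b).1 hab
  have hrange : Set.range f = (s : Set (Ob K)) := by
    have e1 : Set.range f = Set.range (kmap ρ) := by
      ext x
      constructor
      · rintro ⟨a, rfl⟩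
        obtain ⟨a, rfl⟩ := QuotientAddGroup.mk_surjective a
        exact ⟨a, rfl⟩
      · rintro ⟨a, rfl⟩
        exact ⟨QuotientAddGroup.mk a, rfl⟩
    rw [e1, range_kmap h1 hh hρ hV]
    ext x
    exact (hs x).symm
  rw [Nat.card_congr (Equiv.ofInjective f hinj), hrange, Nat.card_coe_set_eq, Set.ncard_coe_finset,
    hs1, Nat.mul_one]

end CoTate2Aux

namespace CoTate2Aux

theorem exists_indep₀ {G : Type} [AddCommGroup G] [Module (ZMod p) G] (r : ℕ)
    (hcard : Nat.card G = p ^ r) :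
    ∃ b : Fin r → G, ∀ a : Fin r → ℤ, ∑ l, a l • b l = 0 → ∀ l, (p : ℤ) ∣ a l := by
  have hp : p.Prime := Fact.out
  have hfin : Finite G := Nat.finite_of_card_ne_zero (by
    rw [hcard]; exact pow_ne_zero _ hp.ne_zero)
  have hmf : Module.Finite (ZMod p) G := Module.Finite.of_finite
  have hdim : Module.finrank (ZMod p) G = r := by
    have e1 := Module.natCard_eq_pow_finrank (K := ZMod p) (V := G)
    rw [hcard, Nat.card_zmod] at e1
    exact (Nat.pow_right_injective hp.two_le e1).symm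
  let b := Module.finBasisOfFinrankEq (ZMod p) G hdim
  refine ⟨fun l => b l, fun a ha => ?_⟩
  have e5 : ∑ l, ((a l : ℤ) : ZMod p) • b l = 0 := by
    rw [← ha]
    exact Finset.sum_congr rfl fun l _ => Int.cast_smul_eq_zsmul (ZMod p) (a l) (b l)
  have e6 := Fintype.linearIndependent_iff.1 b.linearIndependent _ e5
  intro l
  exact (ZMod.intCast_zmod_eq_zero_iff_dvd _ _).1 (e6 l)

theorem exists_indep {G : Type} [AddCommGroup G] (r : ℕ) (hG : ∀ x : G, p • x = 0)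
    (hcard : Nat.card G = p ^ r) :
    ∃ b : Fin r → G, ∀ a : Fin r → ℤ, ∑ l, a l • b l = 0 → ∀ l, (p : ℤ) ∣ a l := by
  let _ : Module (ZMod p) G := AddCommGroup.zmodModule hG
  exact exists_indep₀ r hcard

end CoTate2Aux

theorem exists_tbasis (h1 : 1 ≤ h) (hh : h < n) (hρ : IsRho P ρ) : ∃ t, IsTBasis P ρ t := by
  obtain ⟨b, hb⟩ := exists_indep (p := p) (G := ρ.ker ⧸ pT ρ) (n - h) (by
    intro x
    obtain ⟨x, rfl⟩ := QuotientAddGroup.mk_surjective x
    rw [← QuotientAddGroup.mk_nsmul, QuotientAddGroup.eq_zero_iff]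
    exact ⟨x, rfl⟩) (card_quot h1 hh hρ)
  have hsur : ∀ l, ∃ t : ρ.ker, (QuotientAddGroup.mk t : ρ.ker ⧸ pT ρ) = b l := fun l =>
    QuotientAddGroup.mk_surjective (b l)
  choose t ht using hsur
  refine ⟨fun l => (t l).1, fun l => (t l).2, ?_⟩
  rintro a ⟨z, hz0, hz⟩
  have e1 : ∑ l, a l • t l = p • (⟨z, hz0⟩ : ρ.ker) := by
    apply Subtype.ext
    have : ((∑ l, a l • t l : ρ.ker) : FPt (HO p n n (Ob K))) = ∑ l, a l • (t l).1 := by
      rw [AddSubgroup.val_finsetSum]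
      rfl
    rw [this, hz, natCast_zsmul]
    rfl
  refine hb a ?_
  have e3 := congrArg (QuotientAddGroup.mk' (pT ρ)) e1
  rw [map_sum] at e3
  have e4 : (QuotientAddGroup.mk' (pT ρ)) (p • (⟨z, hz0⟩ : ρ.ker)) = 0 := by
    rw [QuotientAddGroup.mk'_apply, QuotientAddGroup.eq_zero_iff]
    exact ⟨_, rfl⟩
  rw [e4] at e3
  rw [← e3]
  refine Finset.sum_congr rfl fun l _ => ?_
  rw [map_zsmul, QuotientAddGroup.mk'_apply, ht l]

end Crest.Agent.R227
end
end

-- ▼ part R227/CoTate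

/-! # R227 / CoTate : surjectivity of `ρ`, the kernel `T` of `ρ` (task COTATE)

`T / pT ≃ ker V` by `t ↦ ρ(t^{1/q})^Q`; `ker V` is an `F_p`-vector space with exactly `p^{n-h}`
elements (`card_roots`, `IsVi.deriv_ne`).

* `CoTate1.lean` : `IsRho.surjective`, `IsTBasis.lower`.
* `CoTate2.lean` : `exists_tbasis`, `IsTBasis.indep_pow`, `IsTBasis.level_zero`,
  `IsTBasis.level_inj`.
-/
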