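import Crest.Agent.R227.Defs
import Crest.Agent.R227.Ball

-- ▼ part R227/Ev
section

/-!
# R227 / Ev : evaluation of power series at topologically nilpotent elements (task EV)
-/

set_option autoImplicit false
set_option linter.unusedSectionVars false

noncomputable section

namespace Crest.Agent.R227

open MvPowerSeries Topology

/-! ## Evaluation -/

section ev

variable {S : Type*} [CommRing S] [UniformSpace S]

/-- evaluation of `f ∈ S[[X_σ]]` at `a : σ → S` (meaningful if the `a i` are topologically
nilpotent and `S` is a complete linearly topologised ring). -/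
def ev {σ : Type*} (a : σ → S) (f : MvPowerSeries σ S) : S :=
  MvPowerSeries.eval₂ (RingHom.id S) a f

variable [IsUniformAddGroup S] [IsTopologicalRing S] [IsLinearTopology S S] [CompleteSpace S]
  [T2Space S]

variable {σ : Type*} [Finite σ] {a : σ → S} (ha : ∀ i, IsTopologicallyNilpotent (a i))

include ha in
theorem hasEval_of_tn : HasEval a :=
  ⟨ha, by rw [Filter.cofinite_eq_bot]; exact Filter.tendsto_bot⟩

/-- evaluation as a ring homomorphism -/
def evHom {σ : Type*} [Finite σ] {a : σ → S} (ha : ∀ i, IsTopologicallyNilpotent (a i)) :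
    MvPowerSeries σ S →+* S :=
  MvPowerSeries.eval₂Hom (φ := RingHom.id S) continuous_id (hasEval_of_tn ha)

theorem evHom_apply (f : MvPowerSeries σ S) : evHom ha f = ev a f := by
  rw [evHom, coe_eval₂Hom, ev]

include ha in
theorem ev_add (f g : MvPowerSeries σ S) : ev a (f + g) = ev a f + ev a g := by
  simp only [← evHom_apply ha, map_add]

include ha in
theorem ev_mul (f g : MvPowerSeries σ S) : ev a (f * g) = ev a f * ev a g := by
  simp only [← evHom_apply ha, map_mul]


include ha in
theorem ev_sub (f g : MvPowerSeries σ S) : ev a (f - g) = ev a f - ev a g := by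
  simp only [← evHom_apply ha, map_sub]

include ha in
theorem ev_pow (f : MvPowerSeries σ S) (k : ℕ) : ev a (f ^ k) = ev a f ^ k := by
  simp only [← evHom_apply ha, map_pow]

include ha in
theorem ev_zero : ev a (0 : MvPowerSeries σ S) = 0 := by
  simp only [← evHom_apply ha, map_zero]

include ha in
theorem ev_one : ev a (1 : MvPowerSeries σ S) = 1 := by
  simp only [← evHom_apply ha, map_one]

include ha in
theorem ev_C (c : S) : ev a (C c : MvPowerSeries σ S) = c := by
  rw [ev, eval₂_C, RingHom.id_apply]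

include ha in
theorem ev_X (i : σ) : ev a (X i : MvPowerSeries σ S) = a i := by
  rw [ev, eval₂_X]

include ha in
/-- evaluation of polynomials -/
theorem ev_coe (f : MvPolynomial σ S) : ev a (f : MvPowerSeries σ S) = MvPolynomial.eval a f := by
  rw [ev, eval₂_coe, MvPolynomial.eval₂_id]

section cont

open scoped MvPowerSeries.WithPiTopology

include ha in
theorem continuous_ev : Continuous (fun f : MvPowerSeries σ S => ev a f) :=
  continuous_eval₂ (φ := RingHom.id S) continuous_id (hasEval_of_tn ha)

include ha in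
theorem hasSum_ev' (f : MvPowerSeries σ S) :
    HasSum (fun d : σ →₀ ℕ => coeff d f * (d.prod fun i e => a i ^ e)) (ev a f) :=
  hasSum_eval₂ (φ := RingHom.id S) continuous_id (hasEval_of_tn ha) f

/-- a continuous map on power series is determined by its values on polynomials -/
theorem eq_of_eq_on_poly {T : Type*} [TopologicalSpace T] [T2Space T] {u v : MvPowerSeries σ S → T}
    (hu : Continuous u) (hv : Continuous v) (h : ∀ f : MvPolynomial σ S, u f = v f) : u = v := by
  refine Continuous.ext_on (WithPiTopology.denseRange_toMvPowerSeries (σ := σ) (R := S)) hu hv ?_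
  rintro _ ⟨f, rfl⟩
  exact h f

/-- substitution of series without constant term is continuous -/
theorem continuous_subst_pi {σ τ : Type*} [Finite τ] (g : τ → MvPowerSeries σ S)
    (hg : HasSubst g) :
    Continuous (fun f : MvPowerSeries τ S => MvPowerSeries.subst g f) := by
  refine continuous_pi fun e => ?_
  have hfin := coeff_subst_finite (R := S) hg (fun _ => (1 : S) : MvPowerSeries τ S) e
  have hfin' : {d : τ →₀ ℕ | coeff e (d.prod fun s e => g s ^ e) ≠ 0}.Finite := by
    refine hfin.subset ?_
    intro d hd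
    simp only [Function.mem_support]
    change coeff d (fun _ => (1 : S) : MvPowerSeries τ S) • _ ≠ 0
    have : coeff d (fun _ => (1 : S) : MvPowerSeries τ S) = 1 := rfl
    rw [this, one_smul]
    exact hd
  have key : (fun f : MvPowerSeries τ S => coeff e (MvPowerSeries.subst g f)) =
      fun f : MvPowerSeries τ S => ∑ d ∈ hfin'.toFinset,
        coeff d f * coeff e (d.prod fun s e => g s ^ e) := by
    funext f
    rw [coeff_subst hg, finsum_eq_sum_of_support_subset (s := hfin'.toFinset)]
    · simp only [smul_eq_mul]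
    · intro d hd
      simp only [Function.mem_support] at hd
      simp only [Set.Finite.coe_toFinset, Set.mem_ofPred_eq]
      intro h0
      exact hd (by rw [h0, smul_zero])
  change Continuous (fun f : MvPowerSeries τ S => coeff e (MvPowerSeries.subst g f))
  rw [key]
  refine continuous_finsetSum _ fun d _ => ?_
  exact (WithPiTopology.continuous_coeff S d).mul continuous_const

end cont

include ha in
/-- the value of a series without constant term is topologically nilpotent; more generally if the
constant coefficient is topologically nilpotent -/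
theorem ev_tn (f : MvPowerSeries σ S) (hf : IsTopologicallyNilpotent (constantCoeff f)) :
    IsTopologicallyNilpotent (ev a f) := by
  have h1 : ev a f = ev a (f - C (constantCoeff f)) + constantCoeff f := by
    rw [ev_sub ha, ev_C ha, sub_add_cancel]
  rw [h1]
  refine IsTopologicallyNilpotent.add ?_ hf
  let _ := MvPowerSeries.WithPiTopology.instTopologicalSpace (σ := σ) (R := S)
  have h2 : IsTopologicallyNilpotent (f - C (constantCoeff f)) :=
    WithPiTopology.isTopologicallyNilpotent_of_constantCoeff_zero (by simp)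
  have h3 := h2.map (φ := evHom ha) (by
    have : (evHom ha : MvPowerSeries σ S → S) = fun f => ev a f := by
      funext f; rw [evHom_apply]
    rw [this]; exact continuous_ev ha)
  rwa [evHom_apply] at h3

include ha in
/-- evaluation commutes with substitution -/
theorem ev_subst {τ : Type*} [Finite τ] (g : τ → MvPowerSeries σ S)
    (hg : ∀ i, constantCoeff (g i) = 0) (f : MvPowerSeries τ S) :
    ev a (MvPowerSeries.subst g f) = ev (fun i => ev a (g i)) f := by
  have hgs : HasSubst g := hasSubst_of_constantCoeff_zero hg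
  have hb : ∀ i, IsTopologicallyNilpotent (ev a (g i)) := fun i =>
    ev_tn ha (g i) (by rw [hg i]; exact IsTopologicallyNilpotent.zero)
  let _ := MvPowerSeries.WithPiTopology.instTopologicalSpace (σ := τ) (R := S)
  let _ := MvPowerSeries.WithPiTopology.instTopologicalSpace (σ := σ) (R := S)
  have h1 : Continuous (fun f : MvPowerSeries τ S => ev a (MvPowerSeries.subst g f)) :=
    (continuous_ev ha).comp (continuous_subst_pi g hgs)
  have h2 := eq_of_eq_on_poly h1 (continuous_ev hb) (fun p => by
    rw [ev_coe hb, subst_coe]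
    induction p using MvPolynomial.induction_on with
    | C c =>
      rw [MvPolynomial.algHom_C, MvPolynomial.eval_C, MvPowerSeries.algebraMap_apply]
      exact ev_C ha _
    | add p q hp hq => rw [map_add, map_add, ev_add ha, hp, hq]
    | mul_X p i hp => rw [map_mul, map_mul, ev_mul ha, hp, MvPolynomial.aeval_X,
        MvPolynomial.eval_X])
  exact congrFun h2 f

include ha in
/-- evaluation commutes with continuous ring homomorphisms -/
theorem map_ev {S' : Type*} [CommRing S'] [UniformSpace S'] [IsUniformAddGroup S']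
    [IsTopologicalRing S'] [IsLinearTopology S' S'] [CompleteSpace S'] [T2Space S']
    (φ : S →+* S') (hφ : Continuous φ) (f : MvPowerSeries σ S) :
    φ (ev a f) = ev (fun i => φ (a i)) (f.map φ) := by
  have hb : ∀ i, IsTopologicallyNilpotent (φ (a i)) := fun i => (ha i).map hφ
  let _ := MvPowerSeries.WithPiTopology.instTopologicalSpace (σ := σ) (R := S)
  let _ := MvPowerSeries.WithPiTopology.instTopologicalSpace (σ := σ) (R := S')
  have hm : Continuous (fun f : MvPowerSeries σ S => f.map φ) := by
    refine continuous_pi fun e => ?_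
    have : (fun f : MvPowerSeries σ S => coeff e (f.map φ)) =
        fun f : MvPowerSeries σ S => φ (coeff e f) := by
      funext f; rw [coeff_map]
    change Continuous (fun f : MvPowerSeries σ S => coeff e (f.map φ))
    rw [this]
    exact hφ.comp (WithPiTopology.continuous_coeff S e)
  have h2 := eq_of_eq_on_poly (hφ.comp (continuous_ev ha)) ((continuous_ev hb).comp hm) (fun p => by
    simp only [Function.comp_apply]
    rw [ev_coe ha]
    induction p using MvPolynomial.induction_on with
    | C c => simp [ev_C hb]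
    | add p q hp hq =>
      rw [map_add, map_add, MvPolynomial.coe_add, map_add, ev_add hb, hp, hq]
    | mul_X p i hp =>
      rw [map_mul, map_mul, MvPolynomial.coe_mul, map_mul, ev_mul hb, hp, MvPolynomial.coe_X,
        map_X, ev_X hb, MvPolynomial.eval_X])
  exact congrFun h2 f

include ha in
/-- `f(a) - f(b)` lies in any closed ideal containing all `a i - b i`. -/
theorem ev_sub_ev_mem {b : σ → S} (hb : ∀ i, IsTopologicallyNilpotent (b i)) (I : Ideal S)
    (hI : IsClosed (I : Set S)) (hab : ∀ i, a i - b i ∈ I) (f : MvPowerSeries σ S) :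
    ev a f - ev b f ∈ I := by
  let _ := MvPowerSeries.WithPiTopology.instTopologicalSpace (σ := σ) (R := S)
  have hc : Continuous (fun f : MvPowerSeries σ S => ev a f - ev b f) :=
    (continuous_ev ha).sub (continuous_ev hb)
  have hcl : IsClosed {f : MvPowerSeries σ S | ev a f - ev b f ∈ I} := hI.preimage hc
  have hd := (WithPiTopology.denseRange_toMvPowerSeries (σ := σ) (R := S))
  have : f ∈ closure (Set.range (MvPolynomial.toMvPowerSeries (σ := σ) (R := S))) := hd f
  refine closure_minimal ?_ hcl this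
  rintro _ ⟨p, rfl⟩
  change ev a (p : MvPowerSeries σ S) - ev b (p : MvPowerSeries σ S) ∈ I
  rw [ev_coe ha, ev_coe hb, ← Ideal.Quotient.eq]
  have hab' : (fun i => Ideal.Quotient.mk I (a i)) = fun i => Ideal.Quotient.mk I (b i) := by
    funext i; exact Ideal.Quotient.eq.mpr (hab i)
  rw [← MvPolynomial.eval₂_id, ← MvPolynomial.eval₂_id, ← MvPolynomial.coe_eval₂Hom,
    ← MvPolynomial.coe_eval₂Hom]
  rw [MvPolynomial.map_eval₂Hom, MvPolynomial.map_eval₂Hom, hab']

include ha in
/-- if all coefficients of `f` lie in a closed ideal, so does `f(a)` -/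
theorem ev_mem_of_coeff (I : Ideal S) (hI : IsClosed (I : Set S)) (f : MvPowerSeries σ S)
    (hf : ∀ d, coeff d f ∈ I) : ev a f ∈ I := by
  have hs := hasSum_ev' ha f
  refine hI.mem_of_tendsto hs (Filter.Eventually.of_forall fun s => ?_)
  exact I.sum_mem fun d _ => I.mul_mem_right _ (hf d)

/-- one variable version -/
abbrev ev₁ {S : Type*} [CommRing S] [UniformSpace S] (a : S) (f : PowerSeries S) : S :=
  ev (fun _ : Unit => a) f

/-- evaluating a one-variable substitution -/
theorem ev₁_subst {a : S} (ha : IsTopologicallyNilpotent a) (g : PowerSeries S)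
    (hg : PowerSeries.constantCoeff g = 0) (f : PowerSeries S) :
    ev₁ a (PowerSeries.subst g f) = ev₁ (ev₁ a g) f := by
  exact ev_subst (a := fun _ : Unit => a) (fun _ => ha) (fun _ : Unit => g) (fun _ => hg) f

include ha in
theorem ev_subst₁ (g : MvPowerSeries σ S)
    (hg : constantCoeff g = 0) (f : PowerSeries S) :
    ev a (PowerSeries.subst g f) = ev₁ (ev a g) f := by
  exact ev_subst ha (fun _ : Unit => g) (fun _ => hg) f

end ev

end Crest.Agent.R227
end
end

-- ▼ part R227/Est

/-!
# R227 / Est : norm estimates for evaluation on the ball (task EST)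
-/

set_option autoImplicit false

noncomputable section

namespace Crest.Agent.R227

open MvPowerSeries Topology

/-! ## estimates on the ball -/

section est

variable {K : Type*} [NormedField K] [IsUltrametricDist K] [CompleteSpace K]

/-- the ideal of elements of norm `≤ r` -/
def normIdeal (K : Type*) [NormedField K] [IsUltrametricDist K] (r : ℝ) (hr : 0 ≤ r) :
    Ideal (Ob K) where
  carrier := {x | ‖(x : K)‖ ≤ r}
  add_mem' := by
    intro a b ha hb
    simp only [Set.mem_ofPred_eq, Subring.coe_add] at *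
    exact (IsUltrametricDist.norm_add_le_max _ _).trans (max_le ha hb)
  zero_mem' := by simpa using hr
  smul_mem' := by
    intro c x hx
    simp only [Set.mem_ofPred_eq, smul_eq_mul, Subring.coe_mul, norm_mul] at *
    have hc : ‖(c : K)‖ ≤ 1 := c.2
    calc ‖(c : K)‖ * ‖(x : K)‖ ≤ 1 * r := mul_le_mul hc hx (norm_nonneg _) zero_le_one
      _ = r := one_mul r

omit [CompleteSpace K] in
theorem mem_normIdeal (r : ℝ) (hr : 0 ≤ r) (x : Ob K) : x ∈ normIdeal K r hr ↔ ‖x‖ ≤ r :=
  Iff.rfl

omit [CompleteSpace K] in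
theorem isClosed_normIdeal (r : ℝ) (hr : 0 ≤ r) :
    IsClosed (normIdeal K r hr : Set (Ob K)) := by
  have : (normIdeal K r hr : Set (Ob K)) = (fun x : Ob K => ‖x‖) ⁻¹' Set.Iic r := by
    ext x; rfl
  rw [this]
  exact isClosed_Iic.preimage continuous_norm

omit [CompleteSpace K] in
theorem Ob_norm_le_one (x : Ob K) : ‖x‖ ≤ 1 := x.2

variable {σ : Type*} [Finite σ] {a : σ → Ob K} (ha : ∀ i, ‖a i‖ < 1)

include ha in
theorem norm_ev_sub_le {b : σ → Ob K} (hb : ∀ i, ‖b i‖ < 1) (r : ℝ)
    (hr : 0 ≤ r) (hab : ∀ i, ‖a i - b i‖ ≤ r) (f : MvPowerSeries σ (Ob K)) :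
    ‖ev a f - ev b f‖ ≤ r := by
  rw [← mem_normIdeal r hr]
  exact ev_sub_ev_mem (fun i => (Ob_tn_iff _).2 (ha i)) (fun i => (Ob_tn_iff _).2 (hb i)) _
    (isClosed_normIdeal r hr) (fun i => (mem_normIdeal r hr _).2 (hab i)) f

include ha in
/-- the value is the sum of the series -/
theorem hasSum_ev (f : MvPowerSeries σ (Ob K)) :
    HasSum (fun d : σ →₀ ℕ => coeff d f * (d.prod fun i e => a i ^ e)) (ev a f) :=
  hasSum_eval₂ (φ := RingHom.id (Ob K)) continuous_id
    (hasEval_of_tn fun i => (Ob_tn_iff _).2 (ha i)) f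

/-- if all coefficients of degree `< D` vanish then `‖f(a)‖ ≤ r ^ D`. -/
theorem norm_ev_le_pow (ha : ∀ i, ‖a i‖ < 1) (r : ℝ) (hr : 0 ≤ r) (har : ∀ i, ‖a i‖ ≤ r) (D : ℕ)
    (f : MvPowerSeries σ (Ob K)) (hf : ∀ d : σ →₀ ℕ, d.degree < D → coeff d f = 0) :
    ‖ev a f‖ ≤ r ^ D := by
  have hrD : 0 ≤ r ^ D := pow_nonneg hr D
  rcases le_or_gt 1 r with h1 | h1
  · exact (Ob_norm_le_one _).trans (one_le_pow₀ h1)
  rw [← mem_normIdeal _ hrD]
  refine (isClosed_normIdeal _ hrD).mem_of_tendsto (hasSum_ev ha f)
    (Filter.Eventually.of_forall fun s => ?_)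
  refine Ideal.sum_mem _ fun d _ => ?_
  rcases lt_or_ge d.degree D with hd | hd
  · rw [hf d hd, zero_mul]; exact Ideal.zero_mem _
  · refine Ideal.mul_mem_left _ _ ?_
    rw [mem_normIdeal]
    have key : ‖(d.prod fun i e => a i ^ e)‖ ≤ r ^ d.degree := by
      have h2 : ‖(d.prod fun i e => a i ^ e)‖ = d.prod fun i e => ‖a i‖ ^ e := by
        change ‖((d.prod fun i e => a i ^ e : Ob K) : K)‖ = _
        rw [Finsupp.prod, Finsupp.prod, ← Subring.coe_subtype, map_prod, norm_prod]
        refine Finset.prod_congr rfl fun i _ => ?_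
        rw [map_pow, norm_pow]
        rfl
      rw [h2, Finsupp.degree_apply, ← Finset.prod_pow_eq_pow_sum]
      exact Finset.prod_le_prod (fun i _ => pow_nonneg (norm_nonneg _) _)
        fun i _ => pow_le_pow_left₀ (norm_nonneg _) (har i) _
    exact key.trans (pow_le_pow_of_le_one hr h1.le hd)

include ha in
theorem norm_ev_le_of_coeff (r : ℝ) (hr : 0 ≤ r) (f : MvPowerSeries σ (Ob K))
    (hf : ∀ d : σ →₀ ℕ, ‖coeff d f‖ ≤ r) : ‖ev a f‖ ≤ r := by
  rw [← mem_normIdeal r hr]
  exact ev_mem_of_coeff (fun i => (Ob_tn_iff _).2 (ha i)) _ (isClosed_normIdeal r hr) f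
    fun d => (mem_normIdeal r hr _).2 (hf d)


theorem infinite_Ob {K : Type*} [NontriviallyNormedField K] [IsUltrametricDist K] :
    Infinite (Ob K) := by
  obtain ⟨x, hx0, hx1⟩ := NormedField.exists_norm_lt_one K
  let y : Ob K := ⟨x, hx1.le⟩
  refine Infinite.of_injective (fun n : ℕ => y ^ n) fun m n hmn => ?_
  have h : ‖x‖ ^ m = ‖x‖ ^ n := by
    have := congrArg (fun z : Ob K => ‖(z : K)‖) hmn
    simpa [y, Subring.coe_pow, norm_pow] using this
  exact (pow_right_injective₀ hx0 hx1.ne) h

theorem eval_const_mul_of_isHomogeneous {R : Type*} [CommRing R] {σ : Type*} [Finite σ]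
    (P : MvPolynomial σ R) (D : ℕ) (hP : ∀ d : σ →₀ ℕ, MvPolynomial.coeff d P ≠ 0 → d.degree = D)
    (t : R) (b : σ → R) :
    MvPolynomial.eval (fun i => t * b i) P = t ^ D * MvPolynomial.eval b P := by
  rw [MvPolynomial.eval_eq, MvPolynomial.eval_eq, Finset.mul_sum]
  refine Finset.sum_congr rfl fun d hd => ?_
  have := hP d (MvPolynomial.mem_support_iff.1 hd)
  simp only [mul_pow, Finset.prod_mul_distrib]
  rw [Finset.prod_pow_eq_pow_sum, ← this, Finsupp.degree_apply]
  ring

/-- if `f` vanishes at all points of the open unit polydisc then `f = 0` (`K` nontrivially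
normed). -/
theorem eq_zero_of_ev_eq_zero {K : Type*} [NontriviallyNormedField K] [IsUltrametricDist K]
    [CompleteSpace K] {σ : Type*} [Finite σ] (f : MvPowerSeries σ (Ob K))
    (hf : ∀ a : σ → Ob K, (∀ i, ‖a i‖ < 1) → ev a f = 0) : f = 0 := by
  classical
  by_contra hne
  obtain ⟨d0, hd0⟩ : ∃ d, coeff d f ≠ 0 := by
    by_contra h; push Not at h; exact hne (MvPowerSeries.ext fun d => by simpa using h d)
  have hex : ∃ D : ℕ, ∃ d : σ →₀ ℕ, d.degree = D ∧ coeff d f ≠ 0 := ⟨_, d0, rfl, hd0⟩
  let D := Nat.find hex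
  obtain ⟨d1, hd1, hd1'⟩ := Nat.find_spec hex
  have hmin : ∀ d : σ →₀ ℕ, d.degree < D → coeff d f = 0 := by
    intro d hd
    by_contra h
    exact Nat.find_min hex hd ⟨d, rfl, h⟩
  let P : MvPolynomial σ (Ob K) := truncTotal (D + 1) f
  have hPcoeff : ∀ d : σ →₀ ℕ, MvPolynomial.coeff d P = if d.degree < D + 1 then coeff d f else 0 :=
    fun d => coeff_truncTotal_eq_ite f
  have hPhom : ∀ d : σ →₀ ℕ, MvPolynomial.coeff d P ≠ 0 → d.degree = D := by
    intro d hd
    rw [hPcoeff] at hd
    split_ifs at hd with h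
    · by_contra hne'
      exact hd (hmin d (by omega))
    · exact absurd rfl hd
  have hPne : P ≠ 0 := by
    intro h
    have := hPcoeff d1
    rw [h, if_pos (by rw [hd1]; exact Nat.lt_succ_self _)] at this
    exact hd1' (by simpa using this.symm)
  have := infinite_Ob (K := K)
  obtain ⟨b, hb⟩ : ∃ b : σ → Ob K, MvPolynomial.eval b P ≠ 0 := by
    by_contra h
    push Not at h
    exact hPne (MvPolynomial.funext fun x => by simpa using h x)
  set c : Ob K := MvPolynomial.eval b P with hc
  have hcpos : 0 < ‖(c : K)‖ := norm_pos_iff.2 fun h => hb (Subtype.ext h)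
  obtain ⟨t, ht0, htc⟩ := NormedField.exists_norm_lt K (show 0 < ‖(c : K)‖ from hcpos)
  have ht1 : ‖t‖ < 1 := htc.trans_le (Ob_norm_le_one c)
  let t' : Ob K := ⟨t, ht1.le⟩
  have ht' : ‖t'‖ = ‖t‖ := rfl
  have htb : ∀ i, ‖t' * b i‖ ≤ ‖t‖ := by
    intro i
    change ‖((t' * b i : Ob K) : K)‖ ≤ _
    rw [Subring.coe_mul, norm_mul]
    calc ‖t‖ * ‖(b i : K)‖ ≤ ‖t‖ * 1 := mul_le_mul_of_nonneg_left (b i).2 (norm_nonneg _)
      _ = ‖t‖ := mul_one _
  have hlt : ∀ i, ‖t' * b i‖ < 1 := fun i => (htb i).trans_lt ht1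
  have htn : ∀ i, IsTopologicallyNilpotent (t' * b i) := fun i => (Ob_tn_iff _).2 (hlt i)
  have h0 := hf (fun i => t' * b i) hlt
  have h1 : ‖ev (fun i => t' * b i) (f - (P : MvPowerSeries σ (Ob K)))‖ ≤ ‖t‖ ^ (D + 1) := by
    refine norm_ev_le_pow hlt ‖t‖ (norm_nonneg _) htb (D + 1) _ fun d hd => ?_
    rw [map_sub, MvPolynomial.coeff_coe, hPcoeff, if_pos hd, sub_self]
  rw [ev_sub htn, h0, zero_sub, norm_neg, ev_coe htn,
    eval_const_mul_of_isHomogeneous P D hPhom] at h1
  have h2 : ‖t‖ ^ D * ‖(c : K)‖ ≤ ‖t‖ ^ (D + 1) := by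
    have h3 : ‖((t' ^ D * MvPolynomial.eval b P : Ob K) : K)‖ ≤ ‖t‖ ^ (D + 1) := h1
    rwa [Subring.coe_mul, Subring.coe_pow, norm_mul, norm_pow] at h3
  rw [pow_succ] at h2
  exact absurd (le_of_mul_le_mul_left h2 (pow_pos ht0 D)) (not_le.2 htc)

end est

end Crest.Agent.R227
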