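import Mathlib

-- ▼ part R227/PtAux
section

/-!
# R227 / PtAux : points of complete local rings (auxiliary commutative algebra)
-/

set_option autoImplicit false

noncomputable section

namespace Crest.Agent.R227.PtAux

open IsLocalRing

/-- one-dimensionality -/
theorem dom_case {D : Type*} [CommRing D] [IsDomain D] [IsNoetherianRing D] [IsLocalRing D]
    (s : D) (hs0 : s ≠ 0) (hcont : ∀ Q : Ideal D, Q.IsPrime → Q ≠ ⊥ → s ∈ Q)
    (Q : Ideal D) (hQ : Q.IsPrime) (hsQ : s ∈ Q) : Q = maximalIdeal D := by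
  classical
  by_contra hne
  have hQlt : Q < maximalIdeal D := lt_of_le_of_ne (le_maximalIdeal hQ.ne_top) hne
  have hfin : (Ideal.span {s}).minimalPrimes.Finite :=
    Ideal.finite_minimalPrimes_of_isNoetherianRing D _
  have hno : ¬ ((maximalIdeal D : Set D) ⊆ ⋃ q ∈ (Ideal.span {s}).minimalPrimes, (q : Set D)) := by
    rw [Ideal.subset_union_prime_finite hfin (f := fun q : Ideal D => q) ⊥ ⊥
      (fun i hi _ _ => hi.1.1)]
    rintro ⟨q, hq, hmq⟩
    have h1 : q = maximalIdeal D := le_antisymm (le_maximalIdeal hq.1.1.ne_top) hmq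
    have h2 : q ≤ Q := by
      refine hq.2 ⟨hQ, ?_⟩ (by rw [h1]; exact hQlt.le)
      rw [Ideal.span_singleton_le_iff_mem]
      exact hsQ
    rw [h1] at h2
    exact absurd (lt_of_lt_of_le hQlt h2) (lt_irrefl _)
  obtain ⟨a, ham, ha⟩ := Set.not_subset.1 hno
  simp only [Set.mem_iUnion, not_exists] at ha
  have ha0 : a ≠ 0 := by
    rintro rfl
    obtain ⟨q, hq⟩ := (Ideal.span {s}).nonempty_minimalPrimes (by
      rw [Ne, Ideal.span_singleton_eq_top]
      intro h
      exact hQ.ne_top (Ideal.eq_top_of_isUnit_mem _ hsQ h))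
    exact ha q hq q.zero_mem
  obtain ⟨r, hr, -⟩ := Ideal.exists_minimalPrimes_le (I := Ideal.span {a}) (J := maximalIdeal D)
    (by rw [Ideal.span_singleton_le_iff_mem]; exact ham)
  have hrprime : r.IsPrime := hr.1.1
  have har : a ∈ r := hr.1.2 (Ideal.mem_span_singleton_self a)
  have hr0 : r ≠ ⊥ := by
    rintro rfl
    exact ha0 har
  have hsr : s ∈ r := hcont r hrprime hr0
  obtain ⟨q, hq, hqr⟩ := Ideal.exists_minimalPrimes_le (I := Ideal.span {s}) (J := r)
    (by rw [Ideal.span_singleton_le_iff_mem]; exact hsr)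
  have hqprime : q.IsPrime := hq.1.1
  have hsq : s ∈ q := hq.1.2 (Ideal.mem_span_singleton_self s)
  have hq0 : q ≠ ⊥ := by
    rintro rfl
    exact hs0 hsq
  have hqr' : q < r := lt_of_le_of_ne hqr (fun h => ha q hq (by rw [h]; exact har))
  have h1 : (⊥ : Ideal D).height + 1 ≤ q.height :=
    Ideal.height_add_one_le_of_lt_of_isPrime (bot_lt_iff_ne_bot.2 hq0)
  have h2 : q.height + 1 ≤ r.height := Ideal.height_add_one_le_of_lt_of_isPrime hqr'
  have h3 : r.height ≤ 1 := Ideal.height_le_one_of_isPrincipal_of_mem_minimalPrimes _ r hr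
  rw [Ideal.height_bot, zero_add] at h1
  have h4 : (1 : ℕ∞) + 1 ≤ 1 := (add_le_add_left h1 1).trans (h2.trans h3)
  exact absurd h4 (by decide)

/-- In a Noetherian local ring, a non-nilpotent (mod `J`) element `s` of the maximal ideal avoids
a prime `P ⊇ J` with `s` a parameter of `A/P`. -/
theorem exists_prime {A : Type*} [CommRing A] [IsNoetherianRing A] [IsLocalRing A]
    (J : Ideal A) (s : A) (hsJ : ∀ N : ℕ, s ^ N ∉ J) :
    ∃ P : Ideal A, P.IsPrime ∧ J ≤ P ∧ s ∉ P ∧ ∃ N : ℕ, maximalIdeal A ^ N ≤ P ⊔ Ideal.span {s} := by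
  classical
  -- maximal ideal disjoint from the powers of `s`
  obtain ⟨P, hJP, hP⟩ := zorn_le_nonempty₀ {P : Ideal A | ∀ N : ℕ, s ^ N ∉ P}
    (fun c hc hc' x hx => by
      refine ⟨sSup c, fun N hN => ?_, fun z hz => le_sSup hz⟩
      obtain ⟨Q, hQ, hNQ⟩ := (Submodule.mem_sSup_of_directed ⟨x, hx⟩ hc'.directedOn).1 hN
      exact hc hQ N hNQ) J hsJ
  have hPdisj : ∀ N : ℕ, s ^ N ∉ P := hP.1
  have hPmax : ∀ Q : Ideal A, P < Q → ∃ N : ℕ, s ^ N ∈ Q := by
    intro Q hQ
    by_contra h
    push Not at h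
    exact (hP.not_prop_of_gt hQ) h
  have hPprime : P.IsPrime := by
    refine ⟨fun h => hPdisj 0 (by rw [h]; trivial), ?_⟩
    intro a b hab
    by_contra h
    push Not at h
    obtain ⟨ha, hb⟩ := h
    have h1 : P < P ⊔ Ideal.span {a} := by
      refine lt_of_le_of_ne le_sup_left (fun h => ha ?_)
      rw [h]
      exact Ideal.mem_sup_right (Ideal.mem_span_singleton_self a)
    have h2 : P < P ⊔ Ideal.span {b} := by
      refine lt_of_le_of_ne le_sup_left (fun h => hb ?_)
      rw [h]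
      exact Ideal.mem_sup_right (Ideal.mem_span_singleton_self b)
    obtain ⟨N1, hN1⟩ := hPmax _ h1
    obtain ⟨N2, hN2⟩ := hPmax _ h2
    apply hPdisj (N1 + N2)
    rw [pow_add]
    have h3 : s ^ N1 * s ^ N2 ∈ (P ⊔ Ideal.span {a}) * (P ⊔ Ideal.span {b}) :=
      Ideal.mul_mem_mul hN1 hN2
    have h4 : (P ⊔ Ideal.span {a}) * (P ⊔ Ideal.span {b}) ≤ P := by
      rw [Ideal.sup_mul, Ideal.mul_sup, Ideal.mul_sup]
      refine sup_le (sup_le Ideal.mul_le_left Ideal.mul_le_left)
        (sup_le Ideal.mul_le_right ?_)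
      rw [Ideal.span_singleton_mul_span_singleton, Ideal.span_singleton_le_iff_mem]
      exact hab
    exact h4 h3
  have hsP : s ∉ P := fun h => hPdisj 1 (by simpa using h)
  refine ⟨P, hPprime, hJP, hsP, ?_⟩
  -- primes strictly above `P` contain `s`
  have hcontain : ∀ Q : Ideal A, Q.IsPrime → P < Q → s ∈ Q := by
    intro Q hQ hPQ
    obtain ⟨N, hN⟩ := hPmax Q hPQ
    exact hQ.mem_of_pow_mem N hN
  -- the maximal ideal is the only prime over `P ⊔ (s)`
  have honly : ∀ Q : Ideal A, Q.IsPrime → P ⊔ Ideal.span {s} ≤ Q → Q = maximalIdeal A := by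
    intro Q hQ hle
    have hPQ : P ≤ Q := le_sup_left.trans hle
    have hsQ : s ∈ Q := hle (Ideal.mem_sup_right (Ideal.mem_span_singleton_self s))
    have hloc : IsLocalRing (A ⧸ P) :=
      IsLocalRing.of_surjective' (Ideal.Quotient.mk P) Ideal.Quotient.mk_surjective
    have hmk : Function.Surjective (Ideal.Quotient.mk P) := Ideal.Quotient.mk_surjective
    have hker : RingHom.ker (Ideal.Quotient.mk P) = P := Ideal.mk_ker
    have hQ' : (Q.map (Ideal.Quotient.mk P)).IsPrime :=
      Ideal.map_isPrime_of_surjective hmk (by rw [hker]; exact hPQ)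
    have h1 := dom_case (Ideal.Quotient.mk P s)
      (by rw [Ne, Ideal.Quotient.eq_zero_iff_mem]; exact hsP)
      (fun Q' hQ'' hne => by
        have h2 : (Q'.comap (Ideal.Quotient.mk P)).IsPrime := Ideal.comap_isPrime _ _
        refine hcontain _ h2 (lt_of_le_of_ne ?_ ?_)
        · intro x hx
          rw [Ideal.mem_comap, Ideal.Quotient.eq_zero_iff_mem.2 hx]
          exact Q'.zero_mem
        · intro h
          apply hne
          rw [← Ideal.map_comap_of_surjective _ hmk Q', ← h, Ideal.map_quotient_self])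
      (Q.map (Ideal.Quotient.mk P)) hQ' (Ideal.mem_map_of_mem _ hsQ)
    have h3 : Q = (Q.map (Ideal.Quotient.mk P)).comap (Ideal.Quotient.mk P) := by
      rw [Ideal.comap_map_of_surjective _ hmk, ← RingHom.ker_eq_comap_bot, hker]
      exact (sup_eq_left.2 hPQ).symm
    rw [h3, h1]
    have h4 : (maximalIdeal (A ⧸ P)).comap (Ideal.Quotient.mk P) ≠ ⊤ :=
      (Ideal.comap_isPrime _ _ : ((maximalIdeal (A ⧸ P)).comap (Ideal.Quotient.mk P)).IsPrime).ne_top
    refine (IsLocalRing.eq_maximalIdeal ?_)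
    exact Ideal.comap_isMaximal_of_surjective _ hmk
  -- conclude by the radical
  have hrad : maximalIdeal A ≤ (P ⊔ Ideal.span {s}).radical := by
    rw [Ideal.radical_eq_sInf]
    refine le_sInf ?_
    rintro Q ⟨hQ1, hQ2⟩
    rw [honly Q hQ2 hQ1]
  exact Ideal.exists_pow_le_of_le_radical_of_fg hrad (IsNoetherian.noetherian _)

/-- the quotient by a power of the maximal ideal is finite -/
theorem finite_quot {A : Type*} [CommRing A] [IsNoetherianRing A] [IsLocalRing A]
    [Finite (ResidueField A)] (I : Ideal A) (N : ℕ) (h : maximalIdeal A ^ N ≤ I) :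
    Finite (A ⧸ I) := by
  have h1 : Finite (A ⧸ maximalIdeal A) := inferInstanceAs (Finite (ResidueField A))
  have h2 : Finite (A ⧸ maximalIdeal A ^ N) :=
    Ideal.finite_quotient_pow (IsNoetherian.noetherian _) N
  exact Finite.of_surjective _ (Ideal.Quotient.factor_surjective h)

theorem mem_pow_smul_top_pi {R : Type*} [CommRing R] (I : Ideal R) (k : ℕ) (x : Fin k → R) :
    x ∈ (I • (⊤ : Submodule R (Fin k → R))) ↔ ∀ i, x i ∈ I := by
  constructor
  · intro hx i
    have h : (I • (⊤ : Submodule R (Fin k → R))).map (LinearMap.proj i) ≤ I := by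
      rw [Submodule.map_smul'']
      refine (smul_mono_right I le_top).trans ?_
      simp
    exact h ⟨x, hx, rfl⟩
  · intro hx
    rw [pi_eq_sum_univ x]
    refine Submodule.sum_mem _ (fun i _ => ?_)
    exact Submodule.smul_mem_smul (hx i) trivial

instance precomplete_pi {R : Type*} [CommRing R] (I : Ideal R) [IsPrecomplete I R] (k : ℕ) :
    IsPrecomplete I (Fin k → R) := by
  constructor
  intro f hf
  have h1 : ∀ i : Fin k, ∃ L : R, ∀ n, f n i ≡ L [SMOD (I ^ n • ⊤ : Submodule R R)] := by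
    intro i
    refine IsPrecomplete.prec ‹_› (f := fun n => f n i) ?_
    intro m n hmn
    have := hf hmn
    rw [SModEq.sub_mem] at this ⊢
    have h2 := (mem_pow_smul_top_pi (I ^ m) k _).1 this i
    simpa using h2
  choose L hL using h1
  refine ⟨L, fun n => ?_⟩
  rw [SModEq.sub_mem, mem_pow_smul_top_pi]
  intro i
  have := hL i n
  rw [SModEq.sub_mem] at this
  simpa using this

/-- Nakayama for complete rings. -/
theorem module_finite_of_complete {R D : Type*} [CommRing R] [CommRing D] [Algebra R D] (π : R)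
    [IsAdicComplete (Ideal.span {π}) R] (hH : IsHausdorff (Ideal.span {π}) D)
    (hfin : Finite (D ⧸ Ideal.span {algebraMap R D π})) : Module.Finite R D := by
  classical
  cases nonempty_fintype (D ⧸ Ideal.span {algebraMap R D π})
  set k := Fintype.card (D ⧸ Ideal.span {algebraMap R D π}) with hk
  let e := (Fintype.equivFin (D ⧸ Ideal.span {algebraMap R D π})).symm
  let b : Fin k → D := fun i => Quotient.out (e i)
  have hb : ∀ i, Ideal.Quotient.mk (Ideal.span {algebraMap R D π}) (b i) = e i := by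
    intro i
    exact Quotient.out_eq' (e i)
  let f : (Fin k → R) →ₗ[R] D := Fintype.linearCombination R b
  have hsurj : Function.Surjective
      ((Submodule.mkQ (Ideal.span {π} • (⊤ : Submodule R D))) ∘ₗ f) := by
    intro y
    obtain ⟨d, rfl⟩ := Submodule.mkQ_surjective _ y
    refine ⟨Pi.single (e.symm (Ideal.Quotient.mk _ d)) 1, ?_⟩
    rw [LinearMap.comp_apply]
    have h1 : f (Pi.single (e.symm (Ideal.Quotient.mk _ d)) 1) =
        b (e.symm (Ideal.Quotient.mk _ d)) := by
      simp [f, Fintype.linearCombination_apply_single]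
    rw [h1]
    have h2 := hb (e.symm (Ideal.Quotient.mk _ d))
    rw [Equiv.apply_symm_apply, Ideal.Quotient.eq, Ideal.mem_span_singleton] at h2
    rw [Submodule.mkQ_apply, Submodule.mkQ_apply, Submodule.Quotient.eq]
    obtain ⟨c, hc⟩ := h2
    rw [hc, ← Algebra.smul_def]
    exact Submodule.smul_mem_smul (Ideal.mem_span_singleton_self π) trivial
  have hf : Function.Surjective f := surjective_of_mkQ_comp_surjective hsurj
  exact Module.Finite.of_surjective f hf

end Crest.Agent.R227.PtAux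
end
end

-- ▼ part R227/PtData

/-!
# R227 / PtData : points of complete local rings, the general statement
-/

set_option autoImplicit false

noncomputable section

namespace Crest.Agent.R227.PtAux

open IsLocalRing

theorem norm_le_one_of_integral {R K : Type*} [CommRing R] [NormedField K] [IsUltrametricDist K]
    (g : R →+* K) (hg1 : ∀ r, ‖g r‖ ≤ 1) (x : K) (q : Polynomial R) (hq : q.Monic)
    (hx : q.eval₂ g x = 0) : ‖x‖ ≤ 1 := by
  by_contra h
  push Not at h
  have hx0 : 0 < ‖x‖ := zero_lt_one.trans h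
  rw [hq.as_sum, Polynomial.eval₂_add, Polynomial.eval₂_pow, Polynomial.eval₂_X,
    Polynomial.eval₂_finsetSum] at hx
  set n := q.natDegree with hn
  have h1 : ∀ i ∈ Finset.range n, ‖Polynomial.eval₂ g x
      (Polynomial.C (q.coeff i) * Polynomial.X ^ i)‖ ≤ ‖x‖ ^ (n - 1) := by
    intro i hi
    rw [Finset.mem_range] at hi
    rw [Polynomial.eval₂_mul, Polynomial.eval₂_C, Polynomial.eval₂_pow, Polynomial.eval₂_X,
      norm_mul, norm_pow]
    calc ‖g (q.coeff i)‖ * ‖x‖ ^ i ≤ 1 * ‖x‖ ^ i := by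
          gcongr
          exact hg1 _
      _ = ‖x‖ ^ i := one_mul _
      _ ≤ ‖x‖ ^ (n - 1) := pow_le_pow_right₀ h.le (by omega)
  have h2 : ‖x ^ n‖ = ‖∑ i ∈ Finset.range n, Polynomial.eval₂ g x
      (Polynomial.C (q.coeff i) * Polynomial.X ^ i)‖ := by
    rw [← norm_neg, eq_neg_of_add_eq_zero_left hx, neg_neg]
  rcases Nat.eq_zero_or_pos n with h0 | h0
  · rw [h0] at h2
    simp at h2
  · have h3 : ‖∑ i ∈ Finset.range n, Polynomial.eval₂ g x
      (Polynomial.C (q.coeff i) * Polynomial.X ^ i)‖ ≤ ‖x‖ ^ (n - 1) :=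
      IsUltrametricDist.norm_sum_le_of_forall_le_of_nonneg (by positivity) h1
    rw [← h2, norm_pow] at h3
    have h4 : ‖x‖ ^ (n - 1) < ‖x‖ ^ n := pow_lt_pow_right₀ h (by omega)
    exact absurd h4 (not_lt.2 h3)

theorem point_of_data {A : Type*} [CommRing A] [IsNoetherianRing A] [IsLocalRing A]
    [Finite (ResidueField A)] (J : Ideal A)
    {R : Type*} [CommRing R] [IsDomain R] (π : R) [IsAdicComplete (Ideal.span {π}) R]
    (hR : ∀ r : R, r ≠ 0 → ∃ N : ℕ, r ∣ π ^ N)
    (f : R →+* A) (hf : f π ∈ maximalIdeal A) (hJ : ∀ N : ℕ, f π ^ N ∉ J)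
    {K : Type*} [NormedField K] [IsUltrametricDist K] [IsAlgClosed K]
    (g : R →+* K) (hg : Function.Injective g) (hg1 : ∀ r, ‖g r‖ ≤ 1) (hgπ : ‖g π‖ < 1) :
    ∃ X : A →+* K, (∀ a ∈ J, X a = 0) ∧ X (f π) = g π ∧ (∀ a, ‖X a‖ ≤ 1) ∧
      ∀ a ∈ maximalIdeal A, ‖X a‖ < 1 := by
  obtain ⟨P, hP, hJP, hsP, N, hN⟩ := exists_prime J (f π) hJ
  have hloc : IsLocalRing (A ⧸ P) :=
    IsLocalRing.of_surjective' (Ideal.Quotient.mk P) Ideal.Quotient.mk_surjective
  let : Algebra R (A ⧸ P) := ((Ideal.Quotient.mk P).comp f).toAlgebra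
  let : Algebra R K := g.toAlgebra
  have halg : ∀ r, algebraMap R (A ⧸ P) r = Ideal.Quotient.mk P (f r) := fun _ => rfl
  -- injectivity
  have hinj : Function.Injective (algebraMap R (A ⧸ P)) := by
    rw [injective_iff_map_eq_zero]
    intro r hr
    by_contra hr0
    obtain ⟨M, c, hc⟩ := hR r hr0
    have h1 : algebraMap R (A ⧸ P) (π ^ M) = 0 := by rw [hc, map_mul, hr, zero_mul]
    rw [map_pow] at h1
    have h3 := eq_zero_of_pow_eq_zero h1
    rw [halg, Ideal.Quotient.eq_zero_iff_mem] at h3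
    exact hsP h3
  -- finiteness
  have hfin : Finite ((A ⧸ P) ⧸ Ideal.span {algebraMap R (A ⧸ P) π}) := by
    have h1 : Finite (A ⧸ (P ⊔ Ideal.span {f π})) := finite_quot _ N hN
    have h2 : Ideal.span {algebraMap R (A ⧸ P) π} =
        (Ideal.span {f π}).map (Ideal.Quotient.mk P) := by
      rw [Ideal.map_span, Set.image_singleton, halg]
    rw [h2]
    exact Finite.of_equiv _ (DoubleQuot.quotQuotEquivQuotSup P (Ideal.span {f π})).symm.toEquiv
  have htop : Ideal.span {algebraMap R (A ⧸ P) π} ≠ ⊤ := by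
    rw [Ne, Ideal.eq_top_iff_one, Ideal.mem_span_singleton]
    rintro ⟨c, hc⟩
    obtain ⟨c', rfl⟩ := Ideal.Quotient.mk_surjective c
    rw [halg, ← map_mul, ← map_one (Ideal.Quotient.mk P), Ideal.Quotient.eq] at hc
    have h1 : (1 : A) ∈ maximalIdeal A := by
      have h2 := add_mem (le_maximalIdeal hP.ne_top hc) (Ideal.mul_mem_right c' _ hf)
      rwa [sub_add_cancel] at h2
    exact (Ideal.ne_top_iff_one _).1 (maximalIdeal.isMaximal A).ne_top h1
  have hH : IsHausdorff (Ideal.span {π}) (A ⧸ P) := by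
    constructor
    intro x hx
    have h1 : x ∈ (⨅ i : ℕ, (Ideal.span {algebraMap R (A ⧸ P) π}) ^ i) := by
      rw [Ideal.mem_iInf]
      intro i
      have h2 := hx i
      rw [SModEq.zero] at h2
      have h3 : ∀ y ∈ (Ideal.span {π} ^ i • (⊤ : Submodule R (A ⧸ P))),
          y ∈ (Ideal.span {algebraMap R (A ⧸ P) π}) ^ i := by
        intro y hy
        refine Submodule.smul_induction_on hy ?_ ?_
        · intro r hr z _
          rw [Ideal.span_singleton_pow, Ideal.mem_span_singleton] at hr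
          obtain ⟨c, rfl⟩ := hr
          rw [Algebra.smul_def, map_mul, map_pow, mul_assoc]
          rw [Ideal.span_singleton_pow]
          exact Ideal.mul_mem_right _ _ (Ideal.mem_span_singleton_self _)
        · intro y z hy hz
          exact add_mem hy hz
      exact h3 x h2
    rw [Ideal.iInf_pow_eq_bot_of_isLocalRing _ htop] at h1
    exact h1
  have hmf : Module.Finite R (A ⧸ P) := module_finite_of_complete π hH hfin
  have hint : Algebra.IsIntegral R (A ⧸ P) := Algebra.IsIntegral.of_finite R (A ⧸ P)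
  have hnt : Nontrivial R := inferInstance
  have halgc : Algebra.IsAlgebraic R (A ⧸ P) := inferInstance
  have htf : Module.IsTorsionFree R (A ⧸ P) :=
    Module.isTorsionFree_iff_algebraMap_injective.2 hinj
  have htf' : Module.IsTorsionFree R K := Module.isTorsionFree_iff_algebraMap_injective.2 hg
  let φ : (A ⧸ P) →ₐ[R] K := IsAlgClosed.lift
  let X : A →+* K := φ.toRingHom.comp (Ideal.Quotient.mk P)
  have hXf : ∀ r, X (f r) = g r := by
    intro r
    change φ (Ideal.Quotient.mk P (f r)) = g r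
    rw [← halg, AlgHom.commutes]
    rfl
  have hXP : ∀ a ∈ P, X a = 0 := by
    intro a ha
    change φ (Ideal.Quotient.mk P a) = 0
    rw [Ideal.Quotient.eq_zero_iff_mem.2 ha, map_zero]
  have hX1 : ∀ a, ‖X a‖ ≤ 1 := by
    intro a
    obtain ⟨q, hq, hq'⟩ := hint.isIntegral (Ideal.Quotient.mk P a)
    refine norm_le_one_of_integral g hg1 _ q hq ?_
    have h1 : φ (Polynomial.eval₂ (algebraMap R (A ⧸ P)) (Ideal.Quotient.mk P a) q) = 0 := by
      rw [hq', map_zero]
    have h2 := Polynomial.hom_eval₂ q (algebraMap R (A ⧸ P)) φ.toRingHom (Ideal.Quotient.mk P a)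
    have h3 : φ.toRingHom.comp (algebraMap R (A ⧸ P)) = g := by
      ext r
      exact hXf r
    rw [h3] at h2
    exact h2.symm.trans h1
  refine ⟨X, fun a ha => hXP a (hJP ha), hXf π, hX1, fun a ha => ?_⟩
  have h1 : a ^ N ∈ P ⊔ Ideal.span {f π} := hN (Ideal.pow_mem_pow ha N)
  obtain ⟨b, hb, c, hc, hbc⟩ := Submodule.mem_sup.1 h1
  obtain ⟨d, rfl⟩ := Ideal.mem_span_singleton.1 hc
  have h2 : X a ^ N = g π * X d := by
    rw [← map_pow, ← hbc, map_add, hXP b hb, zero_add, map_mul, hXf]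
  have h3 : ‖X a‖ ^ N < 1 := by
    rw [← norm_pow, h2, norm_mul]
    calc ‖g π‖ * ‖X d‖ ≤ ‖g π‖ * 1 := by
          gcongr
          exact hX1 d
      _ < 1 := by rw [mul_one]; exact hgπ
  by_contra h4
  push Not at h4
  exact absurd (one_le_pow₀ h4) (not_le.2 h3)

end Crest.Agent.R227.PtAux
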