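import Mathlib
import Crest.Agent.R227.Eval
import Crest.Agent.R227.FPt

-- ▼ part R227/PthPower
section

/-!
Row 227 (S0351): the `p`-th power trick.  A nonzero proper radical ideal of a power series ring
over a perfect field of characteristic `p` is not stable under all partial derivatives.
(helper251)
-/

set_option autoImplicit false

open Finsupp

namespace Crest.Agent.R227
namespace PthPower

variable {κ : Type*} [Field κ] {σ : Type*}

noncomputable section

/-- keep only the monomials whose exponents in `s` are all divisible by `p` -/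
def keep (p : ℕ) (s : Finset σ) (f : MvPowerSeries σ κ) : MvPowerSeries σ κ :=
  fun d => open Classical in if ∀ l ∈ s, p ∣ d l then MvPowerSeries.coeff d f else 0

theorem coeff_keep (p : ℕ) (s : Finset σ) (f : MvPowerSeries σ κ) (d : σ →₀ ℕ) :
    MvPowerSeries.coeff d (keep p s f) =
      open Classical in if ∀ l ∈ s, p ∣ d l then MvPowerSeries.coeff d f else 0 := rfl

/-- the Euler operator `X_l ∂_l` -/
def euler (l : σ) (f : MvPowerSeries σ κ) : MvPowerSeries σ κ :=
  MvPowerSeries.X l * MvPowerSeries.pderiv κ l f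

theorem coeff_euler (l : σ) (f : MvPowerSeries σ κ) (d : σ →₀ ℕ) :
    MvPowerSeries.coeff d (euler l f) = (d l : κ) * MvPowerSeries.coeff d f := by
  classical
  unfold euler
  by_cases h : d l = 0
  · have h1 : ¬ single l 1 ≤ d := by
      intro hle
      have := hle l
      simp at this
      omega
    rw [h, Nat.cast_zero, zero_mul, MvPowerSeries.X_def, MvPowerSeries.coeff_monomial_mul,
      if_neg h1]
  · have h1 : single l 1 ≤ d := by
      rw [Finsupp.single_le_iff]
      omega
    obtain ⟨e, rfl⟩ : ∃ e, d = e + single l 1 := ⟨d - single l 1, (tsub_add_cancel_of_le h1).symm⟩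
    rw [mul_comm, MvPowerSeries.X_def, MvPowerSeries.coeff_add_mul_monomial,
      MvPowerSeries.coeff_pderiv]
    simp
    ring

theorem coeff_euler_iterate (l : σ) (f : MvPowerSeries σ κ) (d : σ →₀ ℕ) (n : ℕ) :
    MvPowerSeries.coeff d ((euler l)^[n] f) = (d l : κ) ^ n * MvPowerSeries.coeff d f := by
  induction n with
  | zero => simp
  | succ n ih => rw [Function.iterate_succ_apply', coeff_euler, ih, pow_succ]; ring

theorem iterate_mem {I : Ideal (MvPowerSeries σ κ)} {l : σ}
    (hst : ∀ f ∈ I, MvPowerSeries.pderiv κ l f ∈ I) {f : MvPowerSeries σ κ} (hf : f ∈ I) (n : ℕ) :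
    (euler l)^[n] f ∈ I := by
  induction n with
  | zero => simpa using hf
  | succ n ih =>
    rw [Function.iterate_succ_apply']
    exact I.mul_mem_left _ (hst _ ih)

variable (p : ℕ) [Fact p.Prime] [CharP κ p]

theorem pow_pred_eq (a : ℕ) : ((a : κ)) ^ (p - 1) = if p ∣ a then 0 else 1 := by
  have hp : p.Prime := Fact.out
  split_ifs with h
  · rw [(CharP.cast_eq_zero_iff κ p a).2 h, zero_pow]
    have := hp.two_le
    omega
  · have h1 : ((a : ZMod p)) ^ (p - 1) = 1 := by
      apply ZMod.pow_card_sub_one_eq_one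
      rwa [Ne, ZMod.natCast_eq_zero_iff]
    have h2 := congrArg (ZMod.castHom (dvd_refl p) κ) h1
    simpa using h2

theorem keep_insert [DecidableEq σ] {l : σ} {s : Finset σ} (f : MvPowerSeries σ κ) :
    keep p (insert l s) f = keep p s f - (euler l)^[p - 1] (keep p s f) := by
  classical
  ext d
  rw [map_sub, coeff_euler_iterate, coeff_keep, coeff_keep, pow_pred_eq p]
  by_cases h1 : ∀ l ∈ s, p ∣ d l
  · by_cases h2 : p ∣ d l
    · have h3 : ∀ x ∈ insert l s, p ∣ d x := by
        intro x hx
        rcases Finset.mem_insert.1 hx with rfl | hx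
        · exact h2
        · exact h1 x hx
      rw [if_pos h3, if_pos h1, if_pos h2]
      ring
    · have h3 : ¬ ∀ x ∈ insert l s, p ∣ d x := fun h => h2 (h l (Finset.mem_insert_self _ _))
      rw [if_neg h3, if_pos h1, if_neg h2]
      ring
  · have h3 : ¬ ∀ x ∈ insert l s, p ∣ d x := fun h =>
      h1 fun x hx => h x (Finset.mem_insert_of_mem hx)
    rw [if_neg h3, if_neg h1]
    ring

theorem keep_mem {I : Ideal (MvPowerSeries σ κ)}
    (hst : ∀ f ∈ I, ∀ l, MvPowerSeries.pderiv κ l f ∈ I) {f : MvPowerSeries σ κ} (hf : f ∈ I)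
    (s : Finset σ) : keep p s f ∈ I := by
  classical
  induction s using Finset.induction_on with
  | empty =>
    have : keep p ∅ f = f := by
      ext d
      rw [coeff_keep, if_pos (by simp)]
    rwa [this]
  | insert l s _ ih =>
    rw [keep_insert p]
    exact I.sub_mem ih (iterate_mem (fun g hg => hst g hg l) ih _)

/-- a series all of whose monomials are `p`-th powers is a `p`-th power -/
theorem exists_root [Fintype σ] [PerfectRing κ p] (f : MvPowerSeries σ κ) :
    ∃ g : MvPowerSeries σ κ, g ^ p = keep p Finset.univ f ∧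
      ∀ e, MvPowerSeries.coeff e g ≠ 0 → MvPowerSeries.coeff (p • e) f ≠ 0 := by
  classical
  have hp : p.Prime := Fact.out
  let g : MvPowerSeries σ κ := fun e => (frobeniusEquiv κ p).symm (MvPowerSeries.coeff (p • e) f)
  have hg : ∀ e, MvPowerSeries.coeff e g
      = (frobeniusEquiv κ p).symm (MvPowerSeries.coeff (p • e) f) := fun e => rfl
  refine ⟨g, ?_, ?_⟩
  · rw [← MvPowerSeries.map_frobenius_expand (p := p) (f := g) (hp := hp.ne_zero)]
    ext d
    rw [MvPowerSeries.coeff_map, coeff_keep]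
    by_cases h : ∀ l ∈ Finset.univ, p ∣ d l
    · rw [if_pos h]
      obtain ⟨e, rfl⟩ : ∃ e : σ →₀ ℕ, d = p • e := by
        refine ⟨Finsupp.equivFunOnFinite.symm fun l => d l / p, ?_⟩
        ext l
        simp only [Finsupp.smul_apply, Finsupp.equivFunOnFinite_symm_apply_apply, smul_eq_mul]
        exact (Nat.mul_div_cancel' (h l (Finset.mem_univ l))).symm
      rw [MvPowerSeries.coeff_expand_smul, hg]
      simp
    · rw [if_neg h]
      push Not at h
      obtain ⟨l, -, hl⟩ := h
      rw [MvPowerSeries.coeff_expand_of_not_dvd _ _ _ hl, map_zero]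
  · intro e he h0
    apply he
    rw [hg, h0, map_zero]

/-- **`p`-th power trick**: a nonzero proper radical ideal of `κ[[X_l]]` is not stable under all
partial derivatives. -/
theorem exists_pderiv_notMem [Finite σ] [PerfectRing κ p] {I : Ideal (MvPowerSeries σ κ)}
    (hrad : I.IsRadical) (h0 : I ≠ ⊥) (h1 : I ≠ ⊤) :
    ∃ f ∈ I, ∃ l, MvPowerSeries.pderiv κ l f ∉ I := by
  classical
  have := Fintype.ofFinite σ
  have hp : p.Prime := Fact.out
  by_contra hcon
  push Not at hcon
  -- minimal degree of a nonzero coefficient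
  have hex : ∃ n : ℕ, ∃ f ∈ I, ∃ d : σ →₀ ℕ, MvPowerSeries.coeff d f ≠ 0 ∧ d.degree = n := by
    obtain ⟨f, hf, hf0⟩ := (Submodule.ne_bot_iff I).1 h0
    have : ∃ d, MvPowerSeries.coeff d f ≠ 0 := by
      by_contra hc
      push Not at hc
      exact hf0 (by ext d; simpa using hc d)
    obtain ⟨d, hd⟩ := this
    exact ⟨_, f, hf, d, hd, rfl⟩
  let n := Nat.find hex
  obtain ⟨f, hf, d, hd, hdn⟩ : ∃ f ∈ I, ∃ d : σ →₀ ℕ, MvPowerSeries.coeff d f ≠ 0 ∧ d.degree = n :=
    Nat.find_spec hex
  have hmin : ∀ g ∈ I, ∀ e : σ →₀ ℕ, e.degree < n → MvPowerSeries.coeff e g = 0 := by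
    intro g hg e he
    by_contra hne
    exact Nat.find_min hex he ⟨g, hg, e, hne, rfl⟩
  -- n > 0
  have hn : 0 < n := by
    rcases Nat.eq_zero_or_pos n with h | h
    · exfalso
      have hd0 : d = 0 := by
        rw [h] at hdn
        exact (Finsupp.degree_eq_zero_iff d).1 hdn
      rw [hd0, MvPowerSeries.coeff_zero_eq_constantCoeff] at hd
      apply h1
      apply Ideal.eq_top_of_isUnit_mem I hf
      rw [MvPowerSeries.isUnit_iff_constantCoeff]
      exact isUnit_iff_ne_zero.2 hd
    · exact h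
  -- all exponents of the monomial `d` are divisible by `p`
  have hdiv : ∀ l, p ∣ d l := by
    intro l
    by_contra hl
    have hl1 : 1 ≤ d l := by
      rcases Nat.eq_zero_or_pos (d l) with h | h
      · exact absurd (h ▸ dvd_zero p) hl
      · exact h
    have hle : single l 1 ≤ d := by rwa [Finsupp.single_le_iff]
    have h2 : MvPowerSeries.coeff (d - single l 1) (MvPowerSeries.pderiv κ l f) = 0 := by
      apply hmin _ (hcon f hf l)
      have : d.degree = (d - single l 1).degree + 1 := by
        conv_lhs => rw [← tsub_add_cancel_of_le hle]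
        rw [map_add, Finsupp.degree_single]
      omega
    rw [MvPowerSeries.coeff_pderiv, tsub_add_cancel_of_le hle] at h2
    have h3 : (((d - single l 1 : σ →₀ ℕ) l : ℕ) : κ) + 1 = (d l : κ) := by
      rw [Finsupp.tsub_apply, Finsupp.single_eq_same, ← Nat.cast_add_one, Nat.sub_add_cancel hl1]
    rw [h3] at h2
    rcases mul_eq_zero.1 h2 with h4 | h4
    · exact hd h4
    · exact hl ((CharP.cast_eq_zero_iff κ p _).1 h4)
  obtain ⟨e, rfl⟩ : ∃ e : σ →₀ ℕ, d = p • e := by
    refine ⟨Finsupp.equivFunOnFinite.symm fun l => d l / p, ?_⟩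
    ext l
    simp only [Finsupp.smul_apply, Finsupp.equivFunOnFinite_symm_apply_apply, smul_eq_mul]
    exact (Nat.mul_div_cancel' (hdiv l)).symm
  obtain ⟨g, hg, -⟩ := exists_root p f
  have hgI : g ∈ I := hrad ⟨p, by rw [hg]; exact keep_mem p hcon hf _⟩
  have hce : MvPowerSeries.coeff e g = 0 := by
    apply hmin g hgI
    have : (p • e).degree = p * e.degree := by
      rw [map_nsmul, smul_eq_mul]
    rw [this] at hdn
    have h2 := hp.two_le
    have h3 : 0 < e.degree := by
      rcases Nat.eq_zero_or_pos e.degree with h | h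
      · rw [h, mul_zero] at hdn; omega
      · exact h
    nlinarith
  have h5 : MvPowerSeries.coeff (p • e) (g ^ p) = 0 := by
    rw [← MvPowerSeries.map_frobenius_expand (p := p) (f := g) (hp := hp.ne_zero),
      MvPowerSeries.coeff_map, MvPowerSeries.coeff_expand_smul, hce, map_zero]
  rw [hg, coeff_keep, if_pos (fun l _ => by simp)] at h5
  exact hd h5

end

end PthPower

/-- same statement as `PthPower.exists_pderiv_notMem` (name used by helper357) -/
theorem exists_pderiv_not_mem {σ κ : Type*} [Field κ] (p : ℕ) [Fact p.Prime] [CharP κ p]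
    [PerfectRing κ p] [Fintype σ] [DecidableEq σ] (I : Ideal (MvPowerSeries σ κ))
    (hrad : I.IsRadical) (hbot : I ≠ ⊥) (htop : I ≠ ⊤) :
    ∃ f ∈ I, ∃ l, MvPowerSeries.pderiv κ l f ∉ I :=
  PthPower.exists_pderiv_notMem p hrad hbot htop

end Crest.Agent.R227
end

-- ▼ part R227/Descent
section

/-!
Row 227 (S0351): Frobenius descent (helper251).

`κ` is a finite field with `Q` elements, `C` an ultrametric normed field containing `κ`.
-/

set_option autoImplicit false

open Finsupp Filter Topology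

namespace Crest.Agent.R227
namespace Descent

section sep

variable {κ C : Type*} [Field κ] [Fintype κ] [NormedField C] [Algebra κ C]

/-- elements `x` with `x ^ Q = x` lie in `κ` -/
theorem mem_range_of_pow_card {x : C} (hx : x ^ Fintype.card κ = x) :
    ∃ a : κ, algebraMap κ C a = x := by
  classical
  by_contra hcon
  push Not at hcon
  have hq : 1 < Fintype.card κ := Fintype.one_lt_card
  let P : Polynomial C := Polynomial.X ^ Fintype.card κ - Polynomial.X
  have hP0 : P ≠ 0 := FiniteField.X_pow_card_sub_X_ne_zero C hq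
  have hdeg : P.natDegree = Fintype.card κ := FiniteField.X_pow_card_sub_X_natDegree_eq C hq
  let S : Finset C := insert x (Finset.univ.image (algebraMap κ C))
  have hS : S ⊆ P.roots.toFinset := by
    intro y hy
    rw [Multiset.mem_toFinset, Polynomial.mem_roots hP0]
    simp only [P, Polynomial.IsRoot.def, Polynomial.eval_sub, Polynomial.eval_pow,
      Polynomial.eval_X]
    rcases Finset.mem_insert.1 hy with rfl | hy
    · rw [hx, sub_self]
    · obtain ⟨a, -, rfl⟩ := Finset.mem_image.1 hy
      rw [← map_pow, FiniteField.pow_card, sub_self]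
  have h1 : S.card = Fintype.card κ + 1 := by
    rw [Finset.card_insert_of_notMem, Finset.card_image_of_injective _ (algebraMap κ C).injective,
      Finset.card_univ]
    simp only [Finset.mem_image, Finset.mem_univ, true_and, not_exists]
    exact hcon
  have h2 : S.card ≤ Fintype.card κ := by
    calc S.card ≤ P.roots.toFinset.card := Finset.card_le_card hS
      _ ≤ Multiset.card P.roots := Multiset.toFinset_card_le _
      _ ≤ P.natDegree := Polynomial.card_roots' P
      _ = _ := hdeg
  omega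

/-- the `κ`-linear map `x ↦ b^(Q-1) x - x^Q` -/
noncomputable def elim (κ : Type*) {C : Type*} [Field κ] [Fintype κ] [NormedField C]
    [Algebra κ C] (b : C) : C →ₗ[κ] C :=
  LinearMap.mulLeft κ (b ^ (Fintype.card κ - 1)) - (FiniteField.frobeniusAlgHom κ C).toLinearMap

theorem elim_apply (b x : C) :
    elim κ b x = b ^ (Fintype.card κ - 1) * x - x ^ Fintype.card κ := rfl

theorem ker_elim {b : C} (hb : b ≠ 0) {x : C} (hx : elim κ b x = 0) :
    ∃ a : κ, x = a • b := by
  rw [elim_apply, sub_eq_zero] at hx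
  have hq : 1 < Fintype.card κ := Fintype.one_lt_card
  have h1 : (x / b) ^ Fintype.card κ = x / b := by
    rw [div_pow, ← hx]
    obtain ⟨n, hn⟩ : ∃ n, Fintype.card κ = n + 1 := ⟨Fintype.card κ - 1, by omega⟩
    rw [hn, Nat.add_sub_cancel, pow_succ]
    field_simp
  obtain ⟨a, ha⟩ := mem_range_of_pow_card (κ := κ) h1
  refine ⟨a, ?_⟩
  rw [Algebra.smul_def, ha]
  field_simp

theorem pow_card_pow_sum {ι : Type*} (s : Finset ι) (f : ι → C) (n : ℕ) :
    (∑ i ∈ s, f i) ^ (Fintype.card κ ^ n) = ∑ i ∈ s, f i ^ (Fintype.card κ ^ n) := by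
  induction n with
  | zero => simp
  | succ n ih =>
    rw [pow_succ, pow_mul, ih]
    have := map_sum (FiniteField.frobeniusAlgHom κ C) (fun i => f i ^ (Fintype.card κ ^ n)) s
    simp only [FiniteField.coe_frobeniusAlgHom] at this
    rw [this]
    refine Finset.sum_congr rfl fun i _ => ?_
    rw [pow_mul]

variable [IsUltrametricDist C]

theorem norm_sub_le_max' (x y : C) : ‖x - y‖ ≤ max ‖x‖ ‖y‖ := by
  rw [sub_eq_add_neg, ← norm_neg y]
  exact IsUltrametricDist.norm_add_le_max x (-y)

/-- **separation of Frobenius powers** -/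
theorem sep : ∀ (m : ℕ) (b g : Fin m → C) (_ : LinearIndependent κ b) (K δ : ℝ) (s₀ : ℕ),
    0 ≤ K → 0 ≤ δ →
    (∀ s, s₀ ≤ s → ‖∑ j, b j * g j ^ (Fintype.card κ ^ s)‖ ≤ K * δ ^ (Fintype.card κ ^ s)) →
    ∀ j, ‖g j‖ ≤ δ := by
  intro m
  induction m with
  | zero => intro b g _ K δ s₀ _ _ _ j; exact j.elim0
  | succ m ih =>
    intro b g hb K δ s₀ hK hδ h
    set Q := Fintype.card κ with hQ
    have hq : 1 < Q := Fintype.one_lt_card
    rw [linearIndependent_finSucc] at hb
    obtain ⟨hb1, hb2⟩ := hb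
    have hb0 : b 0 ≠ 0 := by
      intro h0
      exact hb2 (h0 ▸ Submodule.zero_mem _)
    -- eliminate `b 0`
    have hind : LinearIndependent κ (fun j : Fin m => elim κ (b 0) (b j.succ)) := by
      have : LinearIndependent κ (elim κ (b 0) ∘ Fin.tail b) := by
        apply hb1.map
        rw [Submodule.disjoint_def]
        intro x hx1 hx2
        obtain ⟨a, rfl⟩ := ker_elim hb0 hx2
        rcases eq_or_ne a 0 with rfl | ha
        · simp
        · exfalso
          apply hb2
          have := Submodule.smul_mem _ a⁻¹ hx1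
          rwa [smul_smul, inv_mul_cancel₀ ha, one_smul] at this
      exact this
    let K' := max (‖b 0‖ ^ (Q - 1) * K) (K ^ Q)
    have hK' : 0 ≤ K' := le_max_of_le_right (pow_nonneg hK _)
    have key : ∀ j : Fin m, ‖g j.succ‖ ≤ δ := by
      apply ih (fun j => elim κ (b 0) (b j.succ)) (fun j => g j.succ) hind K' δ (s₀ + 1) hK' hδ
      intro s hs
      obtain ⟨t, rfl⟩ : ∃ t, s = t + 1 := ⟨s - 1, by omega⟩
      have ht : s₀ ≤ t := by omega
      have h1 := h (t + 1) (by omega)
      have h2 := h t ht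
      have e1 : ∑ j : Fin m, elim κ (b 0) (b j.succ) * g j.succ ^ Q ^ (t + 1)
          = b 0 ^ (Q - 1) * (∑ j, b j * g j ^ Q ^ (t + 1)) - (∑ j, b j * g j ^ Q ^ t) ^ Q := by
        have e2 : (∑ j, b j * g j ^ Q ^ t) ^ Q = ∑ j, b j ^ Q * g j ^ Q ^ (t + 1) := by
          have := pow_card_pow_sum (κ := κ) Finset.univ (fun j => b j * g j ^ Q ^ t) 1
          rw [pow_one] at this
          rw [this]
          refine Finset.sum_congr rfl fun j _ => ?_
          rw [mul_pow, ← pow_mul, pow_succ]
        rw [e2, Finset.mul_sum, ← Finset.sum_sub_distrib, Fin.sum_univ_succ]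
        have e3 : b 0 ^ (Q - 1) * (b 0 * g 0 ^ Q ^ (t + 1)) - b 0 ^ Q * g 0 ^ Q ^ (t + 1) = 0 := by
          rw [← mul_assoc, ← pow_succ, Nat.sub_add_cancel hq.le, sub_self]
        rw [e3, zero_add]
        refine Finset.sum_congr rfl fun j _ => ?_
        rw [elim_apply]
        ring
      rw [e1]
      refine (norm_sub_le_max' _ _).trans ?_
      apply max_le
      · rw [norm_mul, norm_pow]
        calc ‖b 0‖ ^ (Q - 1) * ‖∑ j, b j * g j ^ Q ^ (t + 1)‖
            ≤ ‖b 0‖ ^ (Q - 1) * (K * δ ^ Q ^ (t + 1)) := by gcongr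
          _ = (‖b 0‖ ^ (Q - 1) * K) * δ ^ Q ^ (t + 1) := by ring
          _ ≤ K' * δ ^ Q ^ (t + 1) := by
            gcongr
            exact le_max_left _ _
      · rw [norm_pow]
        calc ‖∑ j, b j * g j ^ Q ^ t‖ ^ Q ≤ (K * δ ^ Q ^ t) ^ Q := by gcongr
          _ = K ^ Q * δ ^ Q ^ (t + 1) := by rw [mul_pow, ← pow_mul, pow_succ]
          _ ≤ K' * δ ^ Q ^ (t + 1) := by
            gcongr
            exact le_max_right _ _
    -- now the index `0`
    have h0 : ‖g 0‖ ≤ δ := by
      by_contra hlt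
      push Not at hlt
      let K₂ := max K (∑ j : Fin m, ‖b j.succ‖)
      have hK₂ : 0 ≤ K₂ := le_max_of_le_left hK
      have h3 : ∀ s, s₀ ≤ s → ‖b 0‖ * ‖g 0‖ ^ (Q ^ s) ≤ K₂ * δ ^ (Q ^ s) := by
        intro s hs
        have e : b 0 * g 0 ^ (Q ^ s)
            = (∑ j, b j * g j ^ (Q ^ s)) - ∑ j : Fin m, b j.succ * g j.succ ^ (Q ^ s) := by
          rw [Fin.sum_univ_succ]; ring
        rw [← norm_pow, ← norm_mul, e]
        refine (norm_sub_le_max' _ _).trans (max_le ?_ ?_)
        · refine (h s hs).trans ?_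
          gcongr
          exact le_max_left _ _
        · refine (norm_sum_le _ _).trans ?_
          calc ∑ j : Fin m, ‖b j.succ * g j.succ ^ (Q ^ s)‖
              ≤ ∑ j : Fin m, ‖b j.succ‖ * δ ^ (Q ^ s) := by
                apply Finset.sum_le_sum
                intro j _
                rw [norm_mul, norm_pow]
                gcongr
                exact key j
            _ = (∑ j : Fin m, ‖b j.succ‖) * δ ^ (Q ^ s) := by rw [Finset.sum_mul]
            _ ≤ K₂ * δ ^ (Q ^ s) := by
              gcongr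
              exact le_max_right _ _
      have hb0' : 0 < ‖b 0‖ := norm_pos_iff.2 hb0
      have hg0 : 0 < ‖g 0‖ := lt_of_le_of_lt hδ hlt
      -- ‖b 0‖ ≤ K₂ (δ/‖g 0‖)^(Q^s) → 0
      have h4 : ∀ s, s₀ ≤ s → ‖b 0‖ ≤ K₂ * (δ / ‖g 0‖) ^ (Q ^ s) := by
        intro s hs
        have := h3 s hs
        rw [div_pow, ← mul_div_assoc, le_div_iff₀ (pow_pos hg0 _)]
        exact this
      have hr : δ / ‖g 0‖ < 1 := (div_lt_one hg0).2 hlt
      have hr0 : 0 ≤ δ / ‖g 0‖ := div_nonneg hδ hg0.le
      have h5 : Tendsto (fun s : ℕ => K₂ * (δ / ‖g 0‖) ^ (Q ^ s)) atTop (𝓝 (K₂ * 0)) := by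
        apply Tendsto.const_mul
        exact (tendsto_pow_atTop_nhds_zero_of_lt_one hr0 hr).comp
          (tendsto_pow_atTop_atTop_of_one_lt hq)
      rw [mul_zero] at h5
      have h6 : ‖b 0‖ ≤ 0 := by
        apply ge_of_tendsto h5
        filter_upwards [eventually_ge_atTop s₀] with s hs using h4 s hs
      linarith
    intro j
    refine Fin.cases h0 (fun i => key i) j

/-- **polynomial descent**: if a polynomial `P` over `C` is small at all `e ^ (Q ^ s)`, then some
polynomial over `κ` is small at `e`. -/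
theorem desc_poly {σ : Type*} (EE : Set (σ → C)) (δ : (σ → C) → ℝ) (hδ : ∀ e, 0 ≤ δ e)
    (P : MvPolynomial σ C) (I₀ : σ →₀ ℕ) (hI₀ : P.coeff I₀ ≠ 0)
    (h : ∀ e ∈ EE, ∃ K : ℝ, 0 ≤ K ∧ ∃ s₀ : ℕ, ∀ s, s₀ ≤ s →
      ‖MvPolynomial.eval (fun l => e l ^ (Fintype.card κ ^ s)) P‖
        ≤ K * δ e ^ (Fintype.card κ ^ s)) :
    ∃ G : MvPolynomial σ κ, G.coeff I₀ ≠ 0 ∧ G.support ⊆ P.support ∧
      ∀ e ∈ EE, ‖MvPolynomial.aeval e G‖ ≤ δ e := by
  classical
  let W : Submodule κ C := Submodule.span κ (P.support.image P.coeff : Set C)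
  have hW : Module.Finite κ W := by
    apply Module.Finite.span_of_finite
    exact Finset.finite_toSet _
  let b := Module.finBasis κ W
  have hmem : ∀ I ∈ P.support, P.coeff I ∈ W := fun I hI =>
    Submodule.subset_span (by simpa using ⟨I, (MvPolynomial.mem_support_iff.1 hI), rfl⟩)
  let c : (σ →₀ ℕ) → W := fun I => if hI : I ∈ P.support then ⟨P.coeff I, hmem I hI⟩ else 0
  have hc : ∀ I ∈ P.support, ((c I : W) : C) = P.coeff I := fun I hI => by
    simp only [c, dif_pos hI]
  let G : Fin (Module.finrank κ W) → MvPolynomial σ κ := fun j =>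
    ∑ I ∈ P.support, MvPolynomial.monomial I (b.repr (c I) j)
  have hG : ∀ j I, I ∈ P.support → (G j).coeff I = b.repr (c I) j := by
    intro j I hI
    simp only [G, MvPolynomial.coeff_sum, MvPolynomial.coeff_monomial]
    rw [Finset.sum_ite_eq' P.support I, if_pos hI]
  have hG' : ∀ j I, I ∉ P.support → (G j).coeff I = 0 := by
    intro j I hI
    simp only [G, MvPolynomial.coeff_sum, MvPolynomial.coeff_monomial]
    rw [Finset.sum_ite_eq' P.support I, if_neg hI]
  have hsupp : ∀ j, (G j).support ⊆ P.support := by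
    intro j I hI
    by_contra hcon
    exact (MvPolynomial.mem_support_iff.1 hI) (hG' j I hcon)
  -- evaluation
  have hcexp : ∀ I ∈ P.support, P.coeff I = ∑ j, (b.repr (c I) j) • ((b j : W) : C) := by
    intro I hI
    rw [← hc I hI]
    have := congrArg (fun w : W => (w : C)) (b.sum_repr (c I))
    simp only [AddSubmonoidClass.coe_finset_sum, SetLike.val_smul] at this
    exact this.symm
  have heval : ∀ (e : σ → C) (s : ℕ),
      MvPolynomial.eval (fun l => e l ^ (Fintype.card κ ^ s)) P
        = ∑ j, ((b j : W) : C) * (MvPolynomial.aeval e (G j)) ^ (Fintype.card κ ^ s) := by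
    intro e s
    have e1 : ∀ j, (MvPolynomial.aeval e (G j)) ^ (Fintype.card κ ^ s)
        = ∑ I ∈ P.support, algebraMap κ C (b.repr (c I) j)
            * I.prod fun l k => (e l ^ (Fintype.card κ ^ s)) ^ k := by
      intro j
      simp only [G, map_sum, MvPolynomial.aeval_monomial]
      rw [pow_card_pow_sum]
      refine Finset.sum_congr rfl fun I _ => ?_
      rw [mul_pow, ← map_pow, FiniteField.pow_card_pow]
      congr 1
      rw [Finsupp.prod, Finsupp.prod, ← Finset.prod_pow]
      refine Finset.prod_congr rfl fun l _ => ?_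
      rw [← pow_mul, ← pow_mul, mul_comm]
    rw [MvPolynomial.eval_eq]
    simp only [e1, Finset.mul_sum]
    rw [Finset.sum_comm]
    refine Finset.sum_congr rfl fun I hI => ?_
    rw [hcexp I hI, Finset.sum_mul]
    refine Finset.sum_congr rfl fun j _ => ?_
    rw [Algebra.smul_def, Finsupp.prod]
    ring
  have hind : LinearIndependent κ (fun j => ((b j : W) : C)) :=
    b.linearIndependent.map' W.subtype (Submodule.ker_subtype W)
  -- choose `j`
  have hI₀' : I₀ ∈ P.support := MvPolynomial.mem_support_iff.2 hI₀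
  obtain ⟨j, hj⟩ : ∃ j, b.repr (c I₀) j ≠ 0 := by
    by_contra hcon
    push Not at hcon
    apply hI₀
    rw [hcexp I₀ hI₀']
    simp [hcon]
  refine ⟨G j, ?_, hsupp j, ?_⟩
  · rw [hG j I₀ hI₀']
    exact hj
  · intro e he
    obtain ⟨K, hK, s₀, hs⟩ := h e he
    refine sep _ (fun j => ((b j : W) : C)) (fun j => MvPolynomial.aeval e (G j)) hind K (δ e) s₀ hK
      (hδ e) ?_ j
    intro s hss
    rw [← heval]
    exact hs s hss

/-- **descent, compactness step** -/
theorem desc_compact {σ : Type*} [Finite σ] (EE : Set (σ → C)) (δ : (σ → C) → ℝ)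
    (hδ : ∀ e, 0 ≤ δ e) (I₀ : σ →₀ ℕ)
    (h : ∀ N : ℕ, ∃ D : ℕ, N ≤ D ∧ ∃ P : MvPolynomial σ C, P.coeff I₀ ≠ 0 ∧
      ∀ e ∈ EE, ∃ K : ℝ, 0 ≤ K ∧ ∃ s₀ : ℕ, ∀ s, s₀ ≤ s →
        ‖MvPolynomial.eval (fun l => e l ^ (Fintype.card κ ^ s)) P‖
          ≤ K * (δ e ^ D) ^ (Fintype.card κ ^ s)) :
    ∃ G : MvPowerSeries σ κ, MvPowerSeries.coeff I₀ G ≠ 0 ∧
      ∀ N : ℕ, ∃ D : ℕ, N ≤ D ∧ ∃ G' : MvPolynomial σ κ,
        (∀ I : σ →₀ ℕ, I.degree < N → MvPowerSeries.coeff I G = G'.coeff I) ∧
        ∀ e ∈ EE, ‖MvPolynomial.aeval e G'‖ ≤ δ e ^ D := by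
  classical
  choose D hD P hP hPe using h
  have hex : ∀ N, ∃ G : MvPolynomial σ κ, G.coeff I₀ ≠ 0 ∧ G.support ⊆ (P N).support ∧
      ∀ e ∈ EE, ‖MvPolynomial.aeval e G‖ ≤ δ e ^ D N := fun N =>
    desc_poly EE (fun e => δ e ^ D N) (fun e => pow_nonneg (hδ e) _) (P N) I₀ (hP N) (hPe N)
  choose G hG _ hGe using hex
  let u : Ultrafilter ℕ := Filter.hyperfilter ℕ
  have hu : (u : Filter ℕ) ≤ atTop := Nat.hyperfilter_le_atTop
  have hlim : ∀ I : σ →₀ ℕ, ∃ a : κ, ∀ᶠ N in (u : Filter ℕ), (G N).coeff I = a := by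
    intro I
    obtain ⟨a, ha⟩ := Ultrafilter.eq_pure_of_finite (u.map fun N => (G N).coeff I)
    refine ⟨a, ?_⟩
    have : ({a} : Set κ) ∈ (u.map fun N => (G N).coeff I) := by
      rw [ha]; exact Set.mem_singleton a
    exact this
  choose a ha using hlim
  refine ⟨a, ?_, ?_⟩
  · obtain ⟨N, hN⟩ := (ha I₀).exists
    show a I₀ ≠ 0
    rw [← hN]
    exact hG N
  · intro N
    have hfin : {I : σ →₀ ℕ | I.degree < N}.Finite :=
      (Finsupp.finite_of_degree_le N).subset fun I (hI : I.degree < N) => (hI.le : I.degree ≤ N)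
    have h1 : ∀ᶠ M in (u : Filter ℕ), ∀ I ∈ {I : σ →₀ ℕ | I.degree < N}, (G M).coeff I = a I := by
      rw [Filter.eventually_all_finite hfin]
      exact fun I _ => ha I
    have h2 : ∀ᶠ M in (u : Filter ℕ), N ≤ M := hu (eventually_ge_atTop N)
    obtain ⟨M, hM1, hM2⟩ := (h1.and h2).exists
    exact ⟨D M, hM2.trans (hD M), G M, fun I hI => (hM1 I hI).symm, hGe M⟩

end sep

end Descent
end Crest.Agent.R227
end

-- ▼ part R227/DescEv
section

/-!
Row 227 (S0351): Frobenius descent for evaluation of power series on the ball (helper251).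
-/

set_option autoImplicit false

noncomputable section

open Filter Topology

namespace Crest.Agent.R227
namespace Descent

open MvPowerSeries

variable {K : Type*} [NormedField K] [IsUltrametricDist K] [CompleteSpace K]
variable {κ : Type*} [Field κ] [Fintype κ] (ι : κ →+* Ob K)
variable {σ : Type*} [Finite σ]

/-- sup norm of a point of the polydisc -/
def supn {σ : Type*} {K : Type*} [NormedField K] [IsUltrametricDist K] (e : σ → Ob K) : ℝ :=
  ⨆ l, ‖(e l : K)‖

theorem norm_le_supn (e : σ → Ob K) (l : σ) : ‖(e l : K)‖ ≤ supn e :=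
  le_ciSup (f := fun l => ‖(e l : K)‖) (Set.finite_range _).bddAbove l

omit [CompleteSpace K] [Finite σ] in
theorem supn_nonneg (e : σ → Ob K) : 0 ≤ supn e := Real.iSup_nonneg fun _ => norm_nonneg _

omit [CompleteSpace K] in
theorem supn_lt_one {e : σ → Ob K} (he : ∀ l, ‖e l‖ < 1) : supn e < 1 := by
  rcases isEmpty_or_nonempty σ with h | h
  · unfold supn
    rw [Real.iSup_of_isEmpty]
    exact zero_lt_one
  · obtain ⟨l, hl⟩ := exists_eq_ciSup_of_finite (f := fun l => ‖(e l : K)‖)
    unfold supn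
    rw [← hl]
    exact he l


/-- **descent**: from good approximations over `K` (at all `Q^s`-powers) to a series over `κ`
vanishing on `EE`. -/
theorem desc_gen (EE : Set (σ → Ob K)) (hEE : ∀ e ∈ EE, ∀ l, ‖e l‖ < 1) (I₀ : σ →₀ ℕ)
    (h : ∀ N : ℕ, ∃ D : ℕ, N ≤ D ∧ ∃ P : MvPolynomial σ K, P.coeff I₀ ≠ 0 ∧
      ∀ e ∈ EE, ∃ B : ℝ, 0 ≤ B ∧ ∃ s₀ : ℕ, ∀ s, s₀ ≤ s →
        ‖MvPolynomial.eval (fun l => (e l : K) ^ (Fintype.card κ ^ s)) P‖
          ≤ B * (supn e ^ D) ^ (Fintype.card κ ^ s)) :
    ∃ G : MvPowerSeries σ κ, coeff I₀ G ≠ 0 ∧ ∀ e ∈ EE, ev e (G.map ι) = 0 := by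
  letI : Algebra κ K := ((Ob K).subtype.comp ι).toAlgebra
  have halg : ∀ a : κ, algebraMap κ K a = (ι a : K) := fun a => rfl
  let EE' : Set (σ → K) := {x | ∃ e ∈ EE, x = fun l => (e l : K)}
  let δ : (σ → K) → ℝ := fun x => ⨆ l, ‖x l‖
  have hδ : ∀ x, 0 ≤ δ x := fun x => Real.iSup_nonneg fun _ => norm_nonneg _
  obtain ⟨G, hG, hG'⟩ := desc_compact (κ := κ) EE' δ hδ I₀ (by
    intro N
    obtain ⟨D, hD, P, hP, hPe⟩ := h N
    refine ⟨D, hD, P, hP, ?_⟩
    rintro _ ⟨e, he, rfl⟩
    exact hPe e he)
  refine ⟨G, hG, fun e he => ?_⟩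
  have hlt := hEE e he
  have htn : ∀ l, IsTopologicallyNilpotent (e l) := fun l => (Ob_tn_iff _).2 (hlt l)
  have hs1 := supn_lt_one hlt
  have hs0 := supn_nonneg e
  have key : ∀ N : ℕ, ‖ev e (G.map ι)‖ ≤ supn e ^ N := by
    intro N
    obtain ⟨D, hD, G', hGG, hGe⟩ := hG' N
    have e1 : ev e (G.map ι) = ev e (G.map ι - ((G'.map ι : MvPolynomial σ (Ob K)) :
        MvPowerSeries σ (Ob K))) + ev e ((G'.map ι : MvPolynomial σ (Ob K)) :
        MvPowerSeries σ (Ob K)) := by
      rw [ev_sub htn]; ring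
    rw [e1]
    have b1 : ‖ev e (G.map ι - ((G'.map ι : MvPolynomial σ (Ob K)) :
        MvPowerSeries σ (Ob K)))‖ ≤ supn e ^ N := by
      refine norm_ev_le_pow hlt (supn e) hs0 (norm_le_supn e) N _ fun d hd => ?_
      rw [map_sub, coeff_map, MvPolynomial.coeff_coe, MvPolynomial.coeff_map, hGG d hd, sub_self]
    have b2 : ‖ev e ((G'.map ι : MvPolynomial σ (Ob K)) : MvPowerSeries σ (Ob K))‖
        ≤ supn e ^ N := by
      rw [ev_coe htn]
      have h1 := hGe (fun l => (e l : K)) ⟨e, he, rfl⟩
      have h2 : ((MvPolynomial.eval e (G'.map ι) : Ob K) : K)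
          = MvPolynomial.aeval (fun l => (e l : K)) G' := by
        rw [MvPolynomial.eval_map, MvPolynomial.aeval_def]
        have := MvPolynomial.eval₂_comp_left (Ob K).subtype ι e G'
        exact this
      have h3 : ‖MvPolynomial.eval e (G'.map ι)‖ = ‖MvPolynomial.aeval (fun l => (e l : K)) G'‖ := by
        rw [← h2]; rfl
      rw [h3]
      exact h1.trans (pow_le_pow_of_le_one hs0 hs1.le hD)
    have h4 : ‖(ev e (G.map ι - ((G'.map ι : MvPolynomial σ (Ob K)) :
        MvPowerSeries σ (Ob K))) + ev e ((G'.map ι : MvPolynomial σ (Ob K)) :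
        MvPowerSeries σ (Ob K)) : Ob K)‖ ≤ max _ _ :=
      IsUltrametricDist.norm_add_le_max
        ((ev e (G.map ι - ((G'.map ι : MvPolynomial σ (Ob K)) :
        MvPowerSeries σ (Ob K))) : Ob K) : K) ((ev e ((G'.map ι : MvPolynomial σ (Ob K)) :
        MvPowerSeries σ (Ob K)) : Ob K) : K)
    exact h4.trans (max_le b1 b2)
  have h0 : ‖ev e (G.map ι)‖ ≤ 0 :=
    ge_of_tendsto' (tendsto_pow_atTop_nhds_zero_of_lt_one hs0 hs1) key
  exact norm_le_zero_iff.1 h0

/-- **exact descent**: if a series `F` over the ball vanishes on a set stable under `x ↦ x^Q`, then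
for every nonzero coefficient `I₀` of `F` there is a series over `κ` with nonzero coefficient `I₀`
vanishing on the set. -/
theorem desc_exact (EE : Set (σ → Ob K)) (hEE : ∀ e ∈ EE, ∀ l, ‖e l‖ < 1)
    (hfrob : ∀ e ∈ EE, (fun l => e l ^ Fintype.card κ) ∈ EE)
    (F : MvPowerSeries σ (Ob K)) (I₀ : σ →₀ ℕ) (hI₀ : coeff I₀ F ≠ 0)
    (hF : ∀ e ∈ EE, ev e F = 0) :
    ∃ G : MvPowerSeries σ κ, coeff I₀ G ≠ 0 ∧ ∀ e ∈ EE, ev e (G.map ι) = 0 := by
  classical
  apply desc_gen ι EE hEE I₀
  intro N
  let D := max N (I₀.degree + 1)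
  let P₀ : MvPolynomial σ (Ob K) := truncTotal D F
  have hP₀ : ∀ d : σ →₀ ℕ, MvPolynomial.coeff d P₀ = if d.degree < D then coeff d F else 0 :=
    fun d => coeff_truncTotal_eq_ite F
  refine ⟨D, le_max_left _ _, P₀.map (Ob K).subtype, ?_, ?_⟩
  · rw [MvPolynomial.coeff_map, hP₀, if_pos (lt_of_lt_of_le (Nat.lt_succ_self _) (le_max_right _ _))]
    intro h0
    exact hI₀ (Subtype.ext h0)
  · intro e he
    refine ⟨1, zero_le_one, 0, fun s _ => ?_⟩
    have hpow : ∀ s : ℕ, (fun l => e l ^ Fintype.card κ ^ s) ∈ EE := by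
      intro s
      induction s with
      | zero => simpa using he
      | succ s ih =>
        have := hfrob _ ih
        have h2 : (fun l => e l ^ Fintype.card κ ^ (s + 1))
            = fun l => (e l ^ Fintype.card κ ^ s) ^ Fintype.card κ := by
          funext l; rw [← pow_mul, pow_succ]
        rw [h2]; exact this
    have hes := hpow s
    have hlt := hEE _ hes
    have htn : ∀ l, IsTopologicallyNilpotent (e l ^ Fintype.card κ ^ s) :=
      fun l => (Ob_tn_iff _).2 (hlt l)
    have h1 := hF _ hes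
    have h2 : ‖ev (fun l => e l ^ Fintype.card κ ^ s) (F - (P₀ : MvPowerSeries σ (Ob K)))‖
        ≤ (supn e ^ (Fintype.card κ ^ s)) ^ D := by
      refine norm_ev_le_pow hlt _ (pow_nonneg (supn_nonneg e) _) (fun l => ?_) D _ fun d hd => ?_
      · have : ‖(e l ^ Fintype.card κ ^ s : Ob K)‖ = ‖(e l : K)‖ ^ (Fintype.card κ ^ s) := by
          change ‖((e l ^ Fintype.card κ ^ s : Ob K) : K)‖ = _
          rw [Subring.coe_pow, norm_pow]
        rw [this]
        exact pow_le_pow_left₀ (norm_nonneg _) (norm_le_supn e l) _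
      · rw [map_sub, MvPolynomial.coeff_coe, hP₀, if_pos hd, sub_self]
    rw [ev_sub htn, h1, zero_sub, norm_neg, ev_coe htn] at h2
    have h3 : MvPolynomial.eval (fun l => (e l : K) ^ (Fintype.card κ ^ s))
        (P₀.map (Ob K).subtype)
        = ((MvPolynomial.eval (fun l => e l ^ Fintype.card κ ^ s) P₀ : Ob K) : K) := by
      rw [MvPolynomial.eval_map]
      have := MvPolynomial.eval₂_comp_left (Ob K).subtype (RingHom.id (Ob K))
        (fun l => e l ^ Fintype.card κ ^ s) P₀
      rw [MvPolynomial.eval₂_id] at this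
      rw [RingHom.comp_id] at this
      exact this.symm
    rw [h3, one_mul, ← pow_mul, mul_comm D, pow_mul]
    exact h2

end Descent
end Crest.Agent.R227
end
end

-- ▼ part R227/Translate

/-!
Row 227 (S0351): translation of series by points, chain rule for the linear part, and the
existence of a series with nonzero linear part in the vanishing ideal (helper251).
-/

set_option autoImplicit false

noncomputable section

open Filter Topology

namespace Crest.Agent.R227
namespace Circuit

open Crest.LubinTate MvPowerSeries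
open scoped MvPowerSeries.WithPiTopology

variable {K : Type*} [NormedField K] [IsUltrametricDist K] [CompleteSpace K]
variable {σ : Type*} [Finite σ]

omit [CompleteSpace K] [Finite σ] in
theorem coeff_single_mul (l : σ) (u v : MvPowerSeries σ (Ob K)) :
    coeff (Finsupp.single l 1) (u * v)
      = coeff (Finsupp.single l 1) u * constantCoeff v
        + constantCoeff u * coeff (Finsupp.single l 1) v := by
  classical
  rw [coeff_mul, Finsupp.antidiagonal_single]
  simp only [Finset.sum_map, Function.Embedding.coe_prodMap, Prod.map,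
    Finset.Nat.antidiagonal_succ, Finset.Nat.antidiagonal_zero]
  simp
  ring

theorem continuous_map_C {τ : Type*} :
    Continuous (fun f : MvPowerSeries τ (Ob K) =>
      f.map (C : Ob K →+* MvPowerSeries σ (Ob K))) := by
  refine continuous_pi fun e => ?_
  have : (fun f : MvPowerSeries τ (Ob K) =>
      coeff e (f.map (C : Ob K →+* MvPowerSeries σ (Ob K))))
      = fun f => (C : Ob K →+* MvPowerSeries σ (Ob K)) (coeff e f) := by
    funext f; rw [coeff_map]
  change Continuous (fun f : MvPowerSeries τ (Ob K) =>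
      coeff e (f.map (C : Ob K →+* MvPowerSeries σ (Ob K))))
  rw [this]
  exact (WithPiTopology.continuous_C (σ := σ) (R := Ob K)).comp
    (WithPiTopology.continuous_coeff (Ob K) e)

omit [CompleteSpace K] in
theorem continuous_pderiv {τ : Type*} (k : τ) :
    Continuous (fun f : MvPowerSeries τ (Ob K) => pderiv (Ob K) k f) := by
  refine continuous_pi fun e => ?_
  have : (fun f : MvPowerSeries τ (Ob K) => coeff e (pderiv (Ob K) k f))
      = fun f => coeff (e + Finsupp.single k 1) f * ((e k : Ob K) + 1) := by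
    funext f; rw [coeff_pderiv]
  change Continuous (fun f : MvPowerSeries τ (Ob K) => coeff e (pderiv (Ob K) k f))
  rw [this]
  exact (WithPiTopology.continuous_coeff (Ob K) _).mul continuous_const

/-- constant coefficient of an evaluation -/
theorem constantCoeff_ev {τ : Type*} [Finite τ] (T : τ → MvPowerSeries σ (Ob K))
    (hT : ∀ k, ‖constantCoeff (T k)‖ < 1) (f : MvPowerSeries τ (Ob K)) :
    constantCoeff (ev T (f.map (C : Ob K →+* MvPowerSeries σ (Ob K))))
      = ev (fun k => constantCoeff (T k)) f := by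
  have h0 : ∀ i : σ, ‖(0 : Ob K)‖ < 1 := fun _ => by simp
  have h := ev_ev T hT (a := fun _ => (0 : Ob K)) h0 f
  have h1 : ∀ u : MvPowerSeries σ (Ob K), ev (fun _ => (0 : Ob K)) u = constantCoeff u := by
    intro u
    have hc : Continuous (constantCoeff : MvPowerSeries σ (Ob K) →+* Ob K) :=
      WithPiTopology.continuous_constantCoeff (Ob K)
    have h2 := eq_of_eq_on_poly (S := Ob K) (σ := σ) (continuous_ev (a := fun _ : σ => (0 : Ob K))
      (fun i => (Ob_tn_iff _).2 (h0 i))) hc (fun q => by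
        rw [ev_coe (fun i => (Ob_tn_iff _).2 (h0 i))]
        induction q using MvPolynomial.induction_on with
        | C c => simp
        | add p q hp hq => rw [map_add, hp, hq, MvPolynomial.coe_add, map_add]
        | mul_X p i hp => simp)
    exact congrFun h2 u
  rw [h1] at h
  rw [h]
  congr 1
  funext k
  rw [h1]

/-- **chain rule** for the linear part of an evaluation -/
theorem coeff_single_ev {τ : Type*} [Fintype τ] (T : τ → MvPowerSeries σ (Ob K))
    (hT : ∀ k, ‖constantCoeff (T k)‖ < 1) (l : σ) (f : MvPowerSeries τ (Ob K)) :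
    coeff (Finsupp.single l 1) (ev T (f.map (C : Ob K →+* MvPowerSeries σ (Ob K))))
      = ∑ k, ev (fun k => constantCoeff (T k)) (pderiv (Ob K) k f)
          * coeff (Finsupp.single l 1) (T k) := by
  classical
  have hTt : ∀ k, IsTopologicallyNilpotent (T k) := fun k => (ps_tn_iff _).2 (hT k)
  have hct : ∀ k, IsTopologicallyNilpotent (constantCoeff (T k)) :=
    fun k => (Ob_tn_iff _).2 (hT k)
  have hu : Continuous (fun f : MvPowerSeries τ (Ob K) => coeff (Finsupp.single l 1)
      (ev T (f.map (C : Ob K →+* MvPowerSeries σ (Ob K))))) :=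
    (WithPiTopology.continuous_coeff (Ob K) _).comp ((continuous_ev hTt).comp continuous_map_C)
  have hv : Continuous (fun f : MvPowerSeries τ (Ob K) =>
      ∑ k, ev (fun k => constantCoeff (T k)) (pderiv (Ob K) k f)
          * coeff (Finsupp.single l 1) (T k)) := by
    refine continuous_finsetSum _ fun k _ => Continuous.mul ?_ continuous_const
    exact (continuous_ev hct).comp (continuous_pderiv k)
  have h2 := eq_of_eq_on_poly hu hv (fun q => by
    induction q using MvPolynomial.induction_on with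
    | C c =>
      rw [MvPolynomial.coe_C, map_C, ev_C hTt]
      simp only [pderiv_C, ev_zero hct, zero_mul, Finset.sum_const_zero]
      rw [coeff_C, if_neg (by simp)]
    | add p q hp hq =>
      rw [MvPolynomial.coe_add, map_add, ev_add hTt, map_add, hp, hq, ← Finset.sum_add_distrib]
      refine Finset.sum_congr rfl fun k _ => ?_
      rw [map_add, ev_add hct, add_mul]
    | mul_X p i hp =>
      rw [MvPolynomial.coe_mul, MvPolynomial.coe_X, map_mul, map_X, ev_mul hTt, ev_X hTt,
        coeff_single_mul, hp, constantCoeff_ev T hT]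
      have e1 : ∀ k, ev (fun k => constantCoeff (T k))
          (pderiv (Ob K) k ((p : MvPowerSeries τ (Ob K)) * X i))
          = ev (fun k => constantCoeff (T k)) (pderiv (Ob K) k (p : MvPowerSeries τ (Ob K)))
              * constantCoeff (T i)
            + if k = i then ev (fun k => constantCoeff (T k)) (p : MvPowerSeries τ (Ob K))
              else 0 := by
        intro k
        rw [Derivation.leibniz, smul_eq_mul, smul_eq_mul, ev_add hct, ev_mul hct, ev_mul hct,
          ev_X hct]
        split_ifs with hki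
        · subst hki
          rw [pderiv_X_self, ev_one hct]
          ring
        · rw [pderiv_X_of_ne (fun h => hki h.symm), ev_zero hct]
          ring
      simp only [e1, add_mul, Finset.sum_add_distrib, ite_mul, zero_mul, Finset.sum_ite_eq',
        Finset.mem_univ, if_true]
      rw [Finset.sum_mul]
      congr 1
      refine Finset.sum_congr rfl fun k _ => ?_
      ring)
  exact congrFun h2 f

/-! ### translation by a point -/

variable (F : FormalGroup (Ob K))

/-- the generic point translated by `e₀` -/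
def trans (e₀ : σ → Ob K) (l : σ) : MvPowerSeries σ (Ob K) :=
  ev ![C (e₀ l), X l] (F.toPowerSeries.map (C : Ob K →+* MvPowerSeries σ (Ob K)))

omit [Finite σ] [CompleteSpace K] in
theorem cc_pair {e : Ob K} (he : ‖e‖ < 1) (l : σ) : ∀ k : Fin 2,
    ‖constantCoeff ((![C e, X l] : Fin 2 → MvPowerSeries σ (Ob K)) k)‖ < 1 := by
  intro k
  fin_cases k
  · simpa using he
  · simp

omit [Finite σ] [CompleteSpace K] in
theorem cc_pair' (e : Ob K) (l : σ) :
    (fun k : Fin 2 => constantCoeff ((![C e, X l] : Fin 2 → MvPowerSeries σ (Ob K)) k))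
      = ![e, 0] := by
  funext k
  fin_cases k <;> simp

theorem constantCoeff_trans {e₀ : σ → Ob K} (he : ∀ l, ‖e₀ l‖ < 1) (l : σ) :
    constantCoeff (trans F e₀ l) = e₀ l := by
  unfold trans
  rw [constantCoeff_ev _ (cc_pair (he l) l), cc_pair']
  exact FPtAux.padd_zero F ((Ob_tn_iff _).2 (he l))

theorem ev_trans {e₀ a : σ → Ob K} (he : ∀ l, ‖e₀ l‖ < 1) (ha : ∀ l, ‖a l‖ < 1) (l : σ) :
    ev a (trans F e₀ l) = padd F (e₀ l) (a l) := by
  unfold trans
  rw [ev_ev _ (cc_pair (he l) l) ha]
  unfold padd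
  congr 1
  funext k
  have hat : ∀ i, IsTopologicallyNilpotent (a i) := fun i => (Ob_tn_iff _).2 (ha i)
  fin_cases k
  · simpa using ev_C hat (e₀ l)
  · simpa using ev_X hat l

/-- the series translated by `e₀` -/
def translate (e₀ : σ → Ob K) (f : MvPowerSeries σ (Ob K)) : MvPowerSeries σ (Ob K) :=
  ev (trans F e₀) (f.map (C : Ob K →+* MvPowerSeries σ (Ob K)))

theorem ev_translate {e₀ a : σ → Ob K} (he : ∀ l, ‖e₀ l‖ < 1) (ha : ∀ l, ‖a l‖ < 1)
    (f : MvPowerSeries σ (Ob K)) :
    ev a (translate F e₀ f) = ev (fun l => padd F (e₀ l) (a l)) f := by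
  unfold translate
  rw [ev_ev _ (fun l => by rw [constantCoeff_trans F he]; exact he l) ha]
  congr 1
  funext l
  exact ev_trans F he ha l

theorem coeff_translate {e₀ : σ → Ob K} (he : ∀ l, ‖e₀ l‖ < 1) (f : MvPowerSeries σ (Ob K))
    (l : σ) : ∃ u : Ob K, u ≠ 0 ∧
      coeff (Finsupp.single l 1) (translate F e₀ f) = ev e₀ (pderiv (Ob K) l f) * u := by
  classical
  have := Fintype.ofFinite σ
  refine ⟨ev ![e₀ l, 0] (pderiv (Ob K) 1 F.toPowerSeries), ?_, ?_⟩
  · have h1 : ‖ev ![e₀ l, 0] (pderiv (Ob K) 1 F.toPowerSeries)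
        - ev ![(0 : Ob K), 0] (pderiv (Ob K) 1 F.toPowerSeries)‖ ≤ ‖e₀ l‖ := by
      apply norm_ev_sub_le
      · intro i; fin_cases i
        · simpa using he l
        · simp
      · intro i; fin_cases i <;> simp
      · exact norm_nonneg _
      · intro i; fin_cases i <;> simp
    have h2 : ev ![(0 : Ob K), 0] (pderiv (Ob K) 1 F.toPowerSeries) = 1 := by
      have h3 := constantCoeff_ev (σ := σ) (K := K) (τ := Fin 2)
        (fun _ => (0 : MvPowerSeries σ (Ob K))) (by simp) (pderiv (Ob K) 1 F.toPowerSeries)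
      have h4 : (fun k : Fin 2 => constantCoeff ((fun _ => (0 : MvPowerSeries σ (Ob K))) k))
          = ![(0 : Ob K), 0] := by
        funext k; fin_cases k <;> simp
      rw [h4] at h3
      rw [← h3]
      have h5 : ev (fun _ : Fin 2 => (0 : MvPowerSeries σ (Ob K)))
          ((pderiv (Ob K) 1 F.toPowerSeries).map (C : Ob K →+* MvPowerSeries σ (Ob K)))
          = C (constantCoeff (pderiv (Ob K) 1 F.toPowerSeries)) := by
        rw [ev_eq_subst _ (by simp)]
        have := MvPowerSeries.subst_zero_of_constantCoeff_zero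
          (σ := Fin 2) (τ := σ) (R := Ob K) (S := Ob K)
          (f := pderiv (Ob K) 1 F.toPowerSeries
            - C (constantCoeff (pderiv (Ob K) 1 F.toPowerSeries))) (by simp)
        have hs : HasSubst (0 : Fin 2 → MvPowerSeries σ (Ob K)) :=
          hasSubst_of_constantCoeff_zero (by simp)
        have h6 : MvPowerSeries.subst (0 : Fin 2 → MvPowerSeries σ (Ob K))
            (pderiv (Ob K) 1 F.toPowerSeries)
            - MvPowerSeries.subst (0 : Fin 2 → MvPowerSeries σ (Ob K))
              (C (constantCoeff (pderiv (Ob K) 1 F.toPowerSeries))) = 0 := by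
          rw [← this, ← coe_substAlgHom hs, map_sub]
        rw [sub_eq_zero] at h6
        have h7 : (fun _ : Fin 2 => (0 : MvPowerSeries σ (Ob K))) = 0 := rfl
        rw [h7, h6, ← coe_substAlgHom hs]
        have := AlgHom.commutes (substAlgHom (R := Ob K) hs)
          (constantCoeff (pderiv (Ob K) 1 F.toPowerSeries))
        simpa [MvPowerSeries.algebraMap_apply] using this
      rw [h5, constantCoeff_C, ← coeff_zero_eq_constantCoeff_apply, coeff_pderiv, zero_add,
        F.lin_coeff_Y]
      simp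
    intro h0
    rw [h0, h2, zero_sub, norm_neg] at h1
    have h3 : ‖(1 : Ob K)‖ = 1 := by
      change ‖((1 : Ob K) : K)‖ = 1
      simp
    rw [h3] at h1
    exact absurd (he l) (not_lt.2 h1)
  · unfold translate
    rw [coeff_single_ev _ (fun l => by rw [constantCoeff_trans F he]; exact he l)]
    have h1 : (fun k => constantCoeff (trans F e₀ k)) = e₀ := by
      funext k; exact constantCoeff_trans F he k
    rw [h1]
    have h2 : ∀ k, coeff (Finsupp.single l 1) (trans F e₀ k)
        = if k = l then ev ![e₀ l, 0] (pderiv (Ob K) 1 F.toPowerSeries) else 0 := by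
      intro k
      unfold trans
      rw [coeff_single_ev _ (cc_pair (he k) k), cc_pair', Fin.sum_univ_two]
      have e1 : coeff (Finsupp.single l 1)
          ((![C (e₀ k), X k] : Fin 2 → MvPowerSeries σ (Ob K)) 0) = 0 := by
        simp only [Matrix.cons_val_zero]
        rw [coeff_C, if_neg (by simp)]
      have e2 : coeff (Finsupp.single l 1)
          ((![C (e₀ k), X k] : Fin 2 → MvPowerSeries σ (Ob K)) 1) = if k = l then 1 else 0 := by
        simp only [Matrix.cons_val_one, Matrix.cons_val_fin_one]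
        rw [coeff_X]
        by_cases hkl : k = l
        · subst hkl; simp
        · rw [if_neg, if_neg hkl]
          intro h
          exact hkl ((Finsupp.single_left_inj (one_ne_zero)).1 h).symm
      rw [e1, e2, mul_zero, zero_add]
      split_ifs with hkl
      · subst hkl; rw [mul_one]
      · rw [mul_zero]
    simp only [h2, mul_ite, mul_zero, Finset.sum_ite_eq', Finset.mem_univ, if_true]

end Circuit
end Crest.Agent.R227
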