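import Crest.Agent.R227.TopDefs
import Crest.Agent.R227.LTComplete
import Crest.Agent.R227.PField
import Crest.Agent.R227.PtData
import Crest.Agent.R227.CoAct
import Crest.Agent.R227.CoTate
import Crest.Agent.R227.D0Cont
import Crest.Agent.R227.IFT
import Crest.Agent.R227.VFacts
import Crest.Agent.R227.D0Tay
import Crest.Agent.R227.Translate
import Crest.Agent.R227.Est

-- ▼ part R227/PointsP
section

/-!
# R227 / PointsP (task POINTSP)
-/

set_option autoImplicit false

noncomputable section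

namespace Crest.Agent.R227

open Crest.LubinTate MvPowerSeries Topology

variable (p : ℕ) [Fact p.Prime] (n : ℕ)

namespace PtRed

/-- the special fibre `k[[u_1, …, u_{n-1}]]` -/
abbrev B : Type := MvPowerSeries (Fin (n - 1)) (GaloisField p n)

/-- reduction mod `p` -/
def red : LTRing p n →+* B p n := MvPowerSeries.map WittVector.constantCoeff

theorem red_surj : Function.Surjective (red p n) := by
  intro b
  choose w hw using fun e => WittVector.constantCoeff_surjective p (MvPowerSeries.coeff e b)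
  refine ⟨fun e => w e, ?_⟩
  ext e
  rw [red, MvPowerSeries.coeff_map]
  exact hw e

theorem ker_red (a : LTRing p n) (ha : red p n a = 0) : (p : LTRing p n) ∣ a := by
  have h1 : ∀ e, ∃ w : WittVector p (GaloisField p n), MvPowerSeries.coeff e a = p * w := by
    intro e
    have h2 : MvPowerSeries.coeff e a ∈
        RingHom.ker (WittVector.constantCoeff : WittVector p (GaloisField p n) →+* _) := by
      rw [RingHom.mem_ker]
      have := congrArg (MvPowerSeries.coeff e) ha
      rwa [red, MvPowerSeries.coeff_map, map_zero] at this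
    rw [WittVector.ker_constantCoeff, Ideal.mem_span_singleton] at h2
    exact h2
  choose w hw using h1
  refine ⟨fun e => w e, ?_⟩
  refine MvPowerSeries.ext (fun e => ?_)
  have h3 : (p : LTRing p n) = MvPowerSeries.C (p : WittVector p (GaloisField p n)) := by
    rw [map_natCast]
  rw [h3, MvPowerSeries.coeff_C_mul]
  exact hw e

theorem constantCoeff_red (a : LTRing p n) :
    MvPowerSeries.constantCoeff (red p n a) = LTRing.residue p n a := by
  rw [red, MvPowerSeries.constantCoeff_map]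
  rfl

theorem mem_maximalIdeal_B (b : B p n) :
    b ∈ IsLocalRing.maximalIdeal (B p n) ↔ MvPowerSeries.constantCoeff b = 0 := by
  rw [IsLocalRing.mem_maximalIdeal, mem_nonunits_iff, MvPowerSeries.isUnit_iff_constantCoeff,
    isUnit_iff_ne_zero, not_not]

instance finite_residueField_B : Finite (IsLocalRing.ResidueField (B p n)) := by
  have h1 : Finite (B p n ⧸ RingHom.ker (MvPowerSeries.constantCoeff : B p n →+* _)) :=
    Finite.of_injective _ (RingHom.kerLift_injective _)
  have h2 : RingHom.ker (MvPowerSeries.constantCoeff : B p n →+* _) =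
      IsLocalRing.maximalIdeal (B p n) := by
    ext b
    rw [mem_maximalIdeal_B, RingHom.mem_ker]
  rw [h2] at h1
  exact h1

end PtRed

open PtRed

/-- Characteristic `p` points. -/
theorem exists_point_p (hn : 1 ≤ n) (J : Ideal (LTRing p n)) (hJ : J.IsRadical)
    (hp : (p : LTRing p n) ∈ J) (s : LTRing p n) (hs : s ∉ J) (hsm : LTRing.residue p n s = 0) :
    ∃ (K : Type) (_ : NontriviallyNormedField K) (_ : IsUltrametricDist K)
      (_ : CompleteSpace K) (_ : IsAlgClosed K) (_ : CharP K p)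
      (X : LTRing p n →+* Ob K), (∀ a ∈ J, X a = 0) ∧ X s ≠ 0 ∧
      ∀ a, LTRing.residue p n a = 0 → ‖X a‖ < 1 := by
  obtain ⟨K, i1, i2, i3, i4, i5, ι, hι1, hι2⟩ := exists_pfield p (ZMod p)
  have hs0 : MvPowerSeries.constantCoeff (red p n s) = 0 := by
    rw [constantCoeff_red, hsm]
  have hsub : PowerSeries.HasSubst (red p n s) := PowerSeries.HasSubst.of_constantCoeff_zero hs0
  let f : PowerSeries (ZMod p) →+* B p n := (PowerSeries.substAlgHom hsub).toRingHom
  have hfX : f PowerSeries.X = red p n s := by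
    change PowerSeries.substAlgHom hsub PowerSeries.X = red p n s
    exact PowerSeries.substAlgHom_X hsub
  have hinj : Function.Injective
      (ι.comp (HahnSeries.ofPowerSeries ℤ (ZMod p))) := by
    rw [RingHom.coe_comp]
    exact ι.injective.comp HahnSeries.ofPowerSeries_injective
  obtain ⟨X, hX1, hX2, hX3, hX4⟩ := PtAux.point_of_data (J.map (red p n))
    (R := PowerSeries (ZMod p)) PowerSeries.X
    (fun r hr => ⟨r.order.toNat, PowerSeries.Inv_divided_by_X_pow_order hr, by
      have h1 := PowerSeries.X_pow_order_mul_divXPowOrder (f := r)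
      calc (PowerSeries.X ^ r.order.toNat : PowerSeries (ZMod p))
          = PowerSeries.X ^ r.order.toNat * (PowerSeries.divXPowOrder r *
              PowerSeries.Inv_divided_by_X_pow_order hr) := by
            rw [PowerSeries.Inv_divided_by_X_pow_order_rightInv, mul_one]
        _ = r * PowerSeries.Inv_divided_by_X_pow_order hr := by rw [← mul_assoc, h1]⟩)
    f (by rw [hfX, mem_maximalIdeal_B, hs0])
    (fun N h => by
      rw [hfX, ← map_pow, Ideal.mem_map_iff_of_surjective _ (red_surj p n)] at h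
      obtain ⟨j, hj, hj'⟩ := h
      have h1 : (p : LTRing p n) ∣ s ^ N - j := by
        apply ker_red
        rw [map_sub, hj', sub_self]
      have h2 : s ^ N ∈ J := by
        have := add_mem (J.mem_of_dvd h1 hp) hj
        rwa [sub_add_cancel] at this
      exact hs (hJ ⟨N, h2⟩))
    (K := K) (ι.comp (HahnSeries.ofPowerSeries ℤ (ZMod p))) hinj (fun r => hι1 r) hι2
  refine ⟨K, i1, i2, i3, i4, i5, (X.comp (red p n)).codRestrict (Ob K) (fun a => hX3 _), ?_, ?_, ?_⟩
  · intro a ha
    exact Subtype.ext (hX1 _ (Ideal.mem_map_of_mem _ ha))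
  · intro h
    have h1 : X (red p n s) = 0 := congrArg Subtype.val h
    rw [← hfX, hX2] at h1
    have h2 := (map_eq_zero_iff _ hinj).1 h1
    exact PowerSeries.X_ne_zero h2
  · intro a ha
    refine hX4 _ ?_
    rw [mem_maximalIdeal_B, constantCoeff_red, ha]

end Crest.Agent.R227
end
end

-- ▼ part R227/CoOrb
section

/-! # R227 / CoOrb : orbit points (task COORB) -/

set_option autoImplicit false
set_option linter.unusedSectionVars false

noncomputable section

namespace Crest.Agent.R227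

open Crest.LubinTate MvPowerSeries Topology

variable {p : ℕ} [Fact p.Prime] {n h : ℕ}
variable {K : Type} [NontriviallyNormedField K] [IsUltrametricDist K] [CompleteSpace K]
  [IsAlgClosed K] [CharP K p]

variable {ι : GaloisField p n →+* Ob K} {M : ℕ}

theorem orb_ev₁_X {a : Ob K} (ha : IsTopologicallyNilpotent a) :
    ev₁ a (PowerSeries.X : PowerSeries (Ob K)) = a :=
  ev_X (a := fun _ : Unit => a) (fun _ => ha) ()

theorem Orb.refl (hn : 1 ≤ n) (x : Mk p n h K ι) : Orb M x x := by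
  have hid : (H1 p n).map (AlgHom.id (WittVector p (GaloisField p n)) (LTRing p n)).toRingHom =
      H1 p n := by
    rw [H1, hz_map]; rfl
  refine ⟨PowerSeries.X, ⟨⟨IsFGHom.id _, ?_⟩, fun i _ => rfl, ?_, ?_⟩⟩
  · rw [PowerSeries.coeff_one_X]; exact isUnit_one
  · refine ⟨AlgHom.id _ _, ⟨rfl, PowerSeries.X, ?_, PowerSeries.map_X _⟩, fun a => rfl,
      PowerSeries.X, IsFGHom.id _, ?_, ?_, ?_⟩
    · rw [hid]; exact IsFGHom.id _
    · rw [PowerSeries.coeff_one_X]; exact isUnit_one
    · intro m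
      have : PowerSeries.coeff m (PowerSeries.X : PowerSeries (Ob K)) -
          ι (PowerSeries.coeff m (PowerSeries.X : PowerSeries (GaloisField p n))) = 0 := by
        rw [← PowerSeries.coeff_map, PowerSeries.map_X, sub_self]
      rw [this, norm_zero]
      exact x.P.c_nonneg
    · intro z gz hz
      rw [PowerSeries.map_X, orb_ev₁_X z.tn] at hz
      apply FPt.ext
      rw [FPt.hom_val, orb_ev₁_X (x.ρ z).tn, FPt.ext hz]
  · intro l
    rw [PowerSeries.map_X, orb_ev₁_X (x.t l).tn]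


theorem orb_ev₁_comp {a : Ob K} (ha : IsTopologicallyNilpotent a)
    {g₂ : PowerSeries (GaloisField p n)} (hg₂ : PowerSeries.constantCoeff g₂ = 0)
    (g₁ : PowerSeries (GaloisField p n)) :
    ev₁ a (PowerSeries.map ι (PowerSeries.subst g₂ g₁ : PowerSeries (GaloisField p n))) =
      ev₁ (ev₁ a (PowerSeries.map ι g₂)) (PowerSeries.map ι g₁) := by
  rw [CoVAux.psubst_one_eq_map ι hg₂, ev₁_subst ha]
  rw [← PowerSeries.coeff_zero_eq_constantCoeff_apply, PowerSeries.coeff_map,
    PowerSeries.coeff_zero_eq_constantCoeff_apply, hg₂, map_zero]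

theorem orb_c_le {P P' : HPoint p n h K}
    (φ : LTRing p n →ₐ[WittVector p (GaloisField p n)] LTRing p n)
    (hφ : (LTRing.residue p n).comp φ.toRingHom = LTRing.residue p n)
    (hX : ∀ a, P'.X a = P.X (φ a)) : P'.c ≤ P.c := by
  refine ciSup_le fun j => ?_
  split_ifs with hj
  · rw [hX]
    apply P.norm_X_le_c (by omega)
    have h1 := RingHom.congr_fun hφ (upt p n j)
    rw [RingHom.comp_apply] at h1
    exact h1.trans (CoBase.residue_upt hj.1 hj.2)
  · exact P.c_nonneg

/-- composition of stabilizer maps -/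
theorem Orb.trans {x y w : Mk p n h K ι} (hxy : Orb M x y) (hyw : Orb M y w) :
    Orb M x w := by
  obtain ⟨g₁, haut₁, hM₁, ⟨φ₁, ⟨hr₁, θ₁, hθ₁, hθr₁⟩, hX₁, lam₁, hl₁, hu₁, hc₁, hρ₁⟩, hb₁⟩ := hxy
  obtain ⟨g₂, haut₂, hM₂, ⟨φ₂, ⟨hr₂, θ₂, hθ₂, hθr₂⟩, hX₂, lam₂, hl₂, hu₂, hc₂, hρ₂⟩, hb₂⟩ := hyw
  have hs₂ : PowerSeries.HasSubst g₂ := PowerSeries.HasSubst.of_constantCoeff_zero' haut₂.1.1
  have hcc : y.P.c ≤ x.P.c := orb_c_le φ₁ hr₁ hX₁
  refine ⟨PowerSeries.subst g₂ g₁, ⟨⟨IsFGHom.comp haut₂.1 haut₁.1, ?_⟩, ?_,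
    ⟨φ₁.comp φ₂, ⟨?_, PowerSeries.subst (PowerSeries.map φ₁.toRingHom θ₂) θ₁, ?_, ?_⟩, ?_,
    PowerSeries.subst lam₂ lam₁, IsFGHom.comp hl₂ hl₁, ?_, ?_, ?_⟩, ?_⟩⟩
  · rw [D0Cont.coeff_one_subst haut₂.1.1]
    exact haut₁.2.mul haut₂.2
  · intro i hi
    -- `g₁ = X + X^M q`
    obtain ⟨q, hq⟩ : (PowerSeries.X : PowerSeries (GaloisField p n)) ^ M ∣ g₁ - PowerSeries.X := by
      rw [PowerSeries.X_pow_dvd_iff]
      intro m hm
      rw [map_sub, hM₁ m hm, sub_self]
    have hq' : g₁ = PowerSeries.X + PowerSeries.X ^ M * q := by rw [← hq]; ring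
    obtain ⟨g', hg'⟩ := PowerSeries.X_dvd_iff.2 haut₂.1.1
    have e : (PowerSeries.subst g₂ g₁ : PowerSeries (GaloisField p n)) =
        g₂ + PowerSeries.X ^ M * (g' ^ M * PowerSeries.subst g₂ q) := by
      conv_lhs => rw [hq']
      rw [PowerSeries.subst_add hs₂, PowerSeries.subst_mul hs₂, PowerSeries.subst_pow hs₂,
        PowerSeries.subst_X hs₂]
      conv_lhs => rw [show g₂ ^ M = PowerSeries.X ^ M * g' ^ M by rw [hg', mul_pow]]
      rw [mul_assoc]
    rw [e, map_add, hM₂ i hi, PowerSeries.coeff_X_pow_mul', if_neg (by omega), add_zero]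
  · ext a
    have e1 := RingHom.congr_fun hr₁ (φ₂ a)
    have e2 := RingHom.congr_fun hr₂ a
    simp only [RingHom.comp_apply] at e1 e2 ⊢
    exact e1.trans e2
  · have h := IsFGHom.map φ₁.toRingHom hθ₂
    have e : ((H1 p n).map φ₂.toRingHom).map φ₁.toRingHom =
        (H1 p n).map (φ₁.comp φ₂).toRingHom := LT.map_map _ _ _
    rw [e] at h
    exact IsFGHom.comp h hθ₁
  · have hs : PowerSeries.HasSubst (PowerSeries.map φ₁.toRingHom θ₂) := by
      refine PowerSeries.HasSubst.of_constantCoeff_zero' ?_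
      rw [← PowerSeries.coeff_zero_eq_constantCoeff_apply, PowerSeries.coeff_map,
        PowerSeries.coeff_zero_eq_constantCoeff_apply, hθ₂.1, map_zero]
    have e3 := PowerSeries.map_subst hs (h := LTRing.residue p n) θ₁
    have e4 : PowerSeries.map (LTRing.residue p n) (PowerSeries.map φ₁.toRingHom θ₂) = g₂ := by
      rw [← hθr₂]
      ext m
      simp only [PowerSeries.coeff_map]
      exact RingHom.congr_fun hr₁ _
    calc PowerSeries.map (LTRing.residue p n)
          (PowerSeries.subst (PowerSeries.map φ₁.toRingHom θ₂) θ₁)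
        = PowerSeries.subst (PowerSeries.map (LTRing.residue p n)
            (PowerSeries.map φ₁.toRingHom θ₂)) (PowerSeries.map (LTRing.residue p n) θ₁) := e3
      _ = PowerSeries.subst g₂ g₁ := by rw [e4, hθr₁]
  · intro a
    rw [hX₂, hX₁]; rfl
  · rw [CoVAux.coeff_one_subst hl₂.1]
    exact hu₂.mul hu₁
  · intro m
    rw [← mem_normIdeal x.P.c x.P.c_nonneg, ← Ideal.Quotient.mk_eq_mk_iff_sub_mem,
      ← PowerSeries.coeff_map, ← PowerSeries.coeff_map, ← PowerSeries.coeff_map,
      CoVAux.psubst_one_eq_map _ hl₂.1, CoVAux.psubst_one_eq_map _ haut₂.1.1,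
      CoVAux.psubst_one_eq_map]
    · have e1 : PowerSeries.map (Ideal.Quotient.mk (normIdeal K x.P.c x.P.c_nonneg)) lam₁ =
          PowerSeries.map (Ideal.Quotient.mk (normIdeal K x.P.c x.P.c_nonneg))
            (PowerSeries.map ι g₁) := by
        ext j
        rw [PowerSeries.coeff_map, PowerSeries.coeff_map, PowerSeries.coeff_map,
          Ideal.Quotient.mk_eq_mk_iff_sub_mem]
        exact hc₁ j
      have e2 : PowerSeries.map (Ideal.Quotient.mk (normIdeal K x.P.c x.P.c_nonneg)) lam₂ =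
          PowerSeries.map (Ideal.Quotient.mk (normIdeal K x.P.c x.P.c_nonneg))
            (PowerSeries.map ι g₂) := by
        ext j
        rw [PowerSeries.coeff_map, PowerSeries.coeff_map, PowerSeries.coeff_map,
          Ideal.Quotient.mk_eq_mk_iff_sub_mem]
        exact (hc₂ j).trans hcc
      rw [e1, e2]
    · rw [← PowerSeries.coeff_zero_eq_constantCoeff_apply, PowerSeries.coeff_map,
        PowerSeries.coeff_zero_eq_constantCoeff_apply, haut₂.1.1, map_zero]
  · intro z gz hgz
    rw [orb_ev₁_comp z.tn haut₂.1.1] at hgz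
    have h1 := hρ₂ z (actHom ι haut₂.1 z) rfl
    have h2 := hρ₁ (actHom ι haut₂.1 z) gz hgz
    rw [h2, h1]
    apply FPt.ext
    rw [FPt.hom_val, FPt.hom_val, FPt.hom_val, ev₁_subst (w.ρ z).tn _ hl₂.1]
  · intro l
    rw [orb_ev₁_comp (w.t l).tn haut₂.1.1, ← hb₂, ← hb₁]


/-- Existence of the orbit point for every automorphism `g ≡ X mod X^M`. -/
theorem exists_orbBy (hn : 1 ≤ n) (hU : IsUniversalDeformation p n (Fn p n) (H1 p n))
    (h1 : 1 ≤ h) (hh : h < n) (hM : 1 ≤ M) (x : Mk p n h K ι) (g : PowerSeries (GaloisField p n))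
    (hg : IsFGAut (Fn p n) g)
    (hgM : ∀ i : ℕ, i < M → PowerSeries.coeff i g = PowerSeries.coeff i PowerSeries.X) :
    ∃ y, OrbBy M g x y := by
  obtain ⟨φ, hφ⟩ := exists_stab p n hn hU g hg
  have hφ' := hφ
  obtain ⟨hr, θ, hθ, hθr⟩ := hφ
  have hmapII := fun j hj => map_II p n hn g φ hg.2 hφ' j hj
  -- the point
  have hres : ∀ a, LTRing.residue p n (φ a) = LTRing.residue p n a :=
    fun a => RingHom.congr_fun hr a
  obtain ⟨P, hPX'⟩ : ∃ P : HPoint p n h K, P.X = x.P.X.comp φ.toRingHom := ⟨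
    { X := x.P.X.comp φ.toRingHom
      small := fun a ha => x.P.small _ ((hres a).trans ha)
      kill := fun a ha => x.P.kill _ (by
        rw [← hmapII h hh.le]; exact Ideal.mem_map_of_mem _ ha)
      ne := by
        intro h0
        apply x.P.ne
        have h2 : ∀ a ∈ II p n (h + 1), x.P.X (φ a) = 0 := by
          intro a ha
          rw [II_succ, Submodule.mem_sup] at ha
          obtain ⟨b, hb, c, hc, rfl⟩ := ha
          obtain ⟨d, rfl⟩ := Ideal.mem_span_singleton'.1 hc
          have h3 : x.P.X (φ b) = 0 := x.P.kill _ (by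
            rw [← hmapII h hh.le]; exact Ideal.mem_map_of_mem _ hb)
          have h4 : x.P.X (φ (uu p n h)) = 0 := h0
          rw [map_add, map_add, h3, map_mul, map_mul, h4, mul_zero, add_zero]
        have h5 : uu p n h ∈ Ideal.map φ.toRingHom (II p n (h + 1)) := by
          rw [hmapII (h + 1) hh]
          exact Ideal.subset_span ⟨h, Nat.lt_succ_self h, rfl⟩
        have h6 : Ideal.map φ.toRingHom (II p n (h + 1)) ≤ RingHom.ker x.P.X := by
          rw [Ideal.map_le_iff_le_comap]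
          intro a ha
          exact h2 a ha
        exact h6 h5 }, rfl⟩
  have hPX : ∀ a, P.X a = x.P.X (φ a) := fun _ => by rw [hPX']; rfl
  have hPι : IsIota P ι := by
    intro w
    rw [hPX]
    have : φ (MvPowerSeries.C w) = MvPowerSeries.C w := φ.commutes w
    rw [this]; exact x.hι w
  have hPc : P.c ≤ x.P.c := orb_c_le φ hr hPX
  obtain ⟨ρ, hρ⟩ := exists_rho h1 hh P
  -- the isomorphism `lam`
  have hFP : ((H1 p n).map φ.toRingHom).map x.P.X = P.F := by
    rw [HPoint.F, hPX']; exact LT.map_map _ _ _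
  have hl : IsFGHom P.F x.P.F (PowerSeries.map x.P.X θ) := by
    have := IsFGHom.map x.P.X hθ
    rwa [hFP] at this
  have hθ1 : IsUnit (PowerSeries.coeff 1 θ) := by
    rw [isUnit_iff_residue_ne_zero, ← PowerSeries.coeff_map, hθr]
    exact hg.2.ne_zero
  have hlu : IsUnit (PowerSeries.coeff 1 (PowerSeries.map x.P.X θ)) := by
    rw [PowerSeries.coeff_map]; exact hθ1.map _
  have hlc : ∀ m, ‖PowerSeries.coeff m (PowerSeries.map x.P.X θ) -
      ι (PowerSeries.coeff m g)‖ ≤ x.P.c := by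
    intro m
    rw [PowerSeries.coeff_map, ← hθr, PowerSeries.coeff_map]
    set a := PowerSeries.coeff m θ
    have e1 : x.P.X (MvPowerSeries.C (MvPowerSeries.constantCoeff a)) =
        ι (LTRing.residue p n a) := x.hι _
    rw [← e1, ← map_sub]
    apply x.P.norm_X_le_c hn
    rw [map_sub, sub_eq_zero]
    rw [LTRing.residue, RingHom.comp_apply, RingHom.comp_apply, MvPowerSeries.constantCoeff_C]
  obtain ⟨e, -, -, he⟩ := exists_act_equiv (K := K) (ι := ι) hg
  have hρρ : x.ρ.comp e.toAddMonoidHom = (FPt.hom hl).comp ρ := by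
    refine rho_unique h1 hh x.P _ _ x.P.c x.P.c_lt_one fun z => ?_
    rw [AddMonoidHom.comp_apply, AddMonoidHom.comp_apply, FPt.hom_val]
    change ‖(x.ρ (e z)).val - _‖ ≤ _
    have n1 : ‖(x.ρ (e z)).val - (e z).val‖ ≤ x.P.c := x.hρ.near _
    have n2 : ‖ev₁ (ρ z).val (PowerSeries.map ι g) - ev₁ z.val (PowerSeries.map ι g)‖ ≤ x.P.c :=
      norm_ev_sub_le (a := fun _ : Unit => (ρ z).val) (fun _ => FPt.norm_lt _ _)
        (b := fun _ : Unit => z.val) (fun _ => FPt.norm_lt _ _) _ x.P.c_nonneg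
        (fun _ => (hρ.near z).trans hPc) _
    have n3 : ‖ev₁ (ρ z).val (PowerSeries.map x.P.X θ - PowerSeries.map ι g)‖ ≤ x.P.c := by
      refine norm_ev_le_of_coeff (a := fun _ : Unit => (ρ z).val) (fun _ => FPt.norm_lt _ _) _
        x.P.c_nonneg _ fun d => ?_
      have hd : d = Finsupp.single () (d ()) := by
        ext; simp
      rw [hd]
      have := hlc (d ())
      rw [← PowerSeries.coeff_map, ← map_sub] at this
      exact this
    have n3' : ev₁ (ρ z).val (PowerSeries.map x.P.X θ - PowerSeries.map ι g) =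
        ev₁ (ρ z).val (PowerSeries.map x.P.X θ) - ev₁ (ρ z).val (PowerSeries.map ι g) :=
      ev_sub (a := fun _ : Unit => (ρ z).val) (fun _ => (ρ z).tn) _ _
    rw [n3'] at n3
    have e2 : (x.ρ (e z)).val - ev₁ (ρ z).val (PowerSeries.map x.P.X θ) =
        ((x.ρ (e z)).val - (e z).val) -
        ((ev₁ (ρ z).val (PowerSeries.map x.P.X θ) - ev₁ (ρ z).val (PowerSeries.map ι g)) +
         (ev₁ (ρ z).val (PowerSeries.map ι g) - ev₁ z.val (PowerSeries.map ι g))) := by
      rw [he z]; ring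
    rw [e2]
    rw [← mem_normIdeal x.P.c x.P.c_nonneg] at n1 n2 n3 ⊢
    exact Ideal.sub_mem _ n1 (Ideal.add_mem _ n3 n2)
  have hρe : ∀ z, x.ρ (e z) = FPt.hom hl (ρ z) := fun z => DFunLike.congr_fun hρρ z
  have hinj : Function.Injective (FPt.hom hl) := by
    obtain ⟨μ, hμ, hμ1, -, -⟩ := IsFGHom.exists_inv hl hlu
    refine Function.LeftInverse.injective (g := FPt.hom hμ) fun a => ?_
    apply FPt.ext
    rw [FPt.hom_val, FPt.hom_val, ← ev₁_subst a.tn _ hl.1, hμ1, orb_ev₁_X a.tn]
  let y : Mk p n h K ι :=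
    { P := P
      hι := hPι
      ρ := ρ
      hρ := hρ
      t := fun l => e.symm (x.t l)
      ht :=
        { mem := fun l => hinj (by
            rw [← hρe, AddEquiv.apply_symm_apply, x.ht.mem, map_zero])
          indep := by
            rintro a ⟨z, hz0, hz⟩
            refine x.ht.indep a ⟨e z, by rw [hρe, hz0, map_zero], ?_⟩
            have := congrArg e hz
            rw [map_sum, map_zsmul] at this
            rw [← this]
            refine Finset.sum_congr rfl fun l _ => ?_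
            rw [map_zsmul, AddEquiv.apply_symm_apply] } }
  refine ⟨y, ⟨hg, hgM, ⟨φ, hφ', hPX, PowerSeries.map x.P.X θ, hl, hlu, hlc, ?_⟩, ?_⟩⟩
  · intro z gz hgz
    have : gz = e z := FPt.ext (by rw [hgz, he])
    rw [this]
    exact hρe z
  · intro l
    change (x.t l).val = ev₁ (e.symm (x.t l)).val (PowerSeries.map ι g)
    rw [← he, AddEquiv.apply_symm_apply]

theorem Orb.kill {x y : Mk p n h K ι} (hxy : Orb M x y) {f : LTRing p n}
    (hf : ∀ φ, IsStab p n M φ → x.P.X (φ f) = 0) : y.P.X f = 0 := by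
  obtain ⟨g, hg⟩ := hxy
  obtain ⟨φ, hφ, hX, -⟩ := hg.map
  rw [hX]
  exact hf φ ⟨g, hg.aut, hg.cong, hφ⟩

end Crest.Agent.R227
end
end

-- ▼ part R227/Newton
section

/-!
# R227 / Newton : division by `X - α`, Newton expansion, linear parts
-/

set_option autoImplicit false

noncomputable section

namespace Crest.Agent.R227

open MvPowerSeries Topology

section newton

variable {S : Type*} [CommRing S] [UniformSpace S] [IsUniformAddGroup S] [IsTopologicalRing S]
  [IsLinearTopology S S] [CompleteSpace S] [T2Space S]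

/-- `f(X) = f(α) + (X - α) g(X)` -/
theorem div_step {α : S} (hα : IsTopologicallyNilpotent α) (f : PowerSeries S) :
    ∃ g : PowerSeries S, f = PowerSeries.C (ev₁ α f) + (PowerSeries.X - PowerSeries.C α) * g := by
  have h1 : ∀ _ : Unit, IsTopologicallyNilpotent α := fun _ => hα
  set sh : ℕ → PowerSeries S := fun m => PowerSeries.mk fun k => PowerSeries.coeff (m + k) f
    with hsh
  have hrec : ∀ m, sh m = PowerSeries.C (PowerSeries.coeff m f) + PowerSeries.X * sh (m + 1) := by
    intro m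
    ext k
    rcases k with _ | k
    · simp [hsh]
    · rw [map_add, PowerSeries.coeff_succ_X_mul, PowerSeries.coeff_succ_C, zero_add, hsh]
      simp only [PowerSeries.coeff_mk]
      congr 2
      ring
  have hev : ∀ m, ev₁ α (sh m) = PowerSeries.coeff m f + α * ev₁ α (sh (m + 1)) := by
    intro m
    conv_lhs => rw [hrec m]
    have e1 := ev_add h1 (PowerSeries.C (PowerSeries.coeff m f) : PowerSeries S)
      (PowerSeries.X * sh (m + 1))
    have e2 := ev_mul h1 (PowerSeries.X : PowerSeries S) (sh (m + 1))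
    have e3 : ev (fun _ : Unit => α) (PowerSeries.X : PowerSeries S) = α := ev_X h1 ()
    have e4 : ev (fun _ : Unit => α) (PowerSeries.C (PowerSeries.coeff m f) : PowerSeries S) =
      PowerSeries.coeff m f := ev_C h1 _
    refine e1.trans ?_
    refine congrArg₂ (· + ·) e4 (e2.trans ?_)
    exact congrArg₂ (· * ·) e3 rfl
  have hsh0 : sh 0 = f := by
    ext k
    simp [hsh]
  refine ⟨PowerSeries.mk fun m => ev₁ α (sh (m + 1)), ?_⟩
  ext m
  rcases m with _ | m
  · have e := hev 0
    rw [hsh0] at e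
    rw [map_add, sub_mul, map_sub, PowerSeries.coeff_zero_X_mul, PowerSeries.coeff_C_mul,
      PowerSeries.coeff_mk, PowerSeries.coeff_zero_C, e]
    ring
  · rw [map_add, sub_mul, map_sub, PowerSeries.coeff_succ_X_mul, PowerSeries.coeff_C_mul,
      PowerSeries.coeff_mk, PowerSeries.coeff_mk, PowerSeries.coeff_succ_C, hev (m + 1)]
    ring

/-- **Newton expansion** of a power series at topologically nilpotent nodes. -/
theorem exists_newton (α : ℕ → S) (hα : ∀ t, IsTopologicallyNilpotent (α t))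
    (f : PowerSeries S) : ∃ (c : ℕ → S), ∀ N, ∃ g : PowerSeries S,
      f = ∑ t ∈ Finset.range N, PowerSeries.C (c t) *
          ∏ s ∈ Finset.range t, (PowerSeries.X - PowerSeries.C (α s)) +
        (∏ s ∈ Finset.range N, (PowerSeries.X - PowerSeries.C (α s))) * g := by
  choose! q hq using fun (t : ℕ) (f : PowerSeries S) => div_step (hα t) f
  let G : ℕ → PowerSeries S := fun t => Nat.rec f (fun t g => q t g) t
  refine ⟨fun t => ev₁ (α t) (G t), fun N => ⟨G N, ?_⟩⟩
  induction N with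
  | zero => simp [G]
  | succ N ih =>
    rw [Finset.sum_range_succ, Finset.prod_range_succ]
    have h1 : G N = PowerSeries.C (ev₁ (α N) (G N)) +
      (PowerSeries.X - PowerSeries.C (α N)) * G (N + 1) := hq N (G N)
    conv_lhs => rw [ih, h1]
    ring

/-- the Newton coefficients vanish when the nodes are distinct roots -/
theorem newton_coeff_eq_zero [IsDomain S] (N : ℕ) (b : ℕ → S)
    (hb : ∀ t, IsTopologicallyNilpotent (b t)) (hinj : ∀ s < N, ∀ t < N, b s = b t → s = t)
    (f : PowerSeries S) (c : ℕ → S) (g : PowerSeries S)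
    (hroot : ∀ t < N, ev₁ (b t) f = 0)
    (hf : f = ∑ t ∈ Finset.range N, PowerSeries.C (c t) *
          ∏ s ∈ Finset.range t, (PowerSeries.X - PowerSeries.C (b s)) +
        (∏ s ∈ Finset.range N, (PowerSeries.X - PowerSeries.C (b s))) * g) :
    ∀ t < N, c t = 0 := by
  intro t
  induction t using Nat.strong_induction_on with
  | _ t ih =>
    intro ht
    have h1 : ∀ _ : Unit, IsTopologicallyNilpotent (b t) := fun _ => hb t
    have hprod : ∀ M, evHom h1 (∏ s ∈ Finset.range M, (PowerSeries.X - PowerSeries.C (b s)) :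
        PowerSeries S) = ∏ s ∈ Finset.range M, (b t - b s) := by
      intro M
      have e0 : ∀ s, evHom h1 ((PowerSeries.X - PowerSeries.C (b s) : PowerSeries S)) =
          b t - b s := by
        intro s
        have e1 := map_sub (evHom h1) (PowerSeries.X : PowerSeries S) (PowerSeries.C (b s))
        have e3 : evHom h1 (PowerSeries.X : PowerSeries S) = b t := by
          rw [evHom_apply]; exact ev_X h1 ()
        have e4 : evHom h1 (PowerSeries.C (b s) : PowerSeries S) = b s := by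
          rw [evHom_apply]; exact ev_C h1 _
        rw [e3, e4] at e1
        exact e1
      have e2 := map_prod (evHom h1) (fun s => (PowerSeries.X - PowerSeries.C (b s) :
        PowerSeries S)) (Finset.range M)
      refine e2.trans (Finset.prod_congr rfl fun s _ => e0 s)
    have h0 : evHom h1 f = 0 := by
      rw [evHom_apply]; exact hroot t ht
    have hC : ∀ a : S, evHom h1 (PowerSeries.C a : PowerSeries S) = a := by
      intro a
      rw [evHom_apply]; exact ev_C h1 _
    have h2 : evHom h1 f = ∑ s ∈ Finset.range N, c s * ∏ s' ∈ Finset.range s, (b t - b s') +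
        (∏ s ∈ Finset.range N, (b t - b s)) * evHom h1 g := by
      have e := congrArg (evHom h1) hf
      refine e.trans ?_
      have e1 := map_add (evHom h1) (∑ t ∈ Finset.range N, PowerSeries.C (c t) *
          ∏ s ∈ Finset.range t, (PowerSeries.X - PowerSeries.C (b s)) : PowerSeries S)
          ((∏ s ∈ Finset.range N, (PowerSeries.X - PowerSeries.C (b s))) * g)
      refine e1.trans ?_
      have e2 := map_mul (evHom h1) (∏ s ∈ Finset.range N, (PowerSeries.X - PowerSeries.C (b s)) :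
        PowerSeries S) g
      have e3 := map_sum (evHom h1) (fun t => (PowerSeries.C (c t) *
          ∏ s ∈ Finset.range t, (PowerSeries.X - PowerSeries.C (b s)) : PowerSeries S))
          (Finset.range N)
      rw [e2, e3, hprod]
      congr 1
      refine Finset.sum_congr rfl fun s _ => ?_
      have e4 := map_mul (evHom h1) (PowerSeries.C (c s) : PowerSeries S)
        (∏ s' ∈ Finset.range s, (PowerSeries.X - PowerSeries.C (b s')))
      rw [e4, hC, hprod]
    rw [h0, Finset.prod_eq_zero (Finset.mem_range.2 ht) (sub_self _), zero_mul, add_zero,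
      Finset.sum_eq_single t] at h2
    · rcases mul_eq_zero.1 h2.symm with h3 | h3
      · exact h3
      · exfalso
        rw [Finset.prod_eq_zero_iff] at h3
        obtain ⟨s, hs, hs'⟩ := h3
        rw [Finset.mem_range] at hs
        have := hinj t ht s (by omega) (sub_eq_zero.1 hs')
        omega
    · intro s hs hst
      rw [Finset.mem_range] at hs
      rcases Nat.lt_or_ge s t with h | h
      · rw [ih s h hs, zero_mul]
      · rw [Finset.prod_eq_zero (Finset.mem_range.2 (show t < s by omega)) (sub_self _), mul_zero]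
    · intro h
      exact absurd (Finset.mem_range.2 ht) h

end newton

/-- if the nodes are all zero, the Newton coefficients are the coefficients -/
theorem newton_coeff_zero_nodes {S : Type*} [CommRing S] (N : ℕ)
    (f : PowerSeries S) (c : ℕ → S) (g : PowerSeries S)
    (hf : f = ∑ t ∈ Finset.range N, PowerSeries.C (c t) *
          ∏ _s ∈ Finset.range t, (PowerSeries.X - PowerSeries.C (0 : S)) +
        (∏ _s ∈ Finset.range N, (PowerSeries.X - PowerSeries.C (0 : S))) * g) :
    ∀ t < N, PowerSeries.coeff t f = c t := by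
  intro t ht
  simp only [map_zero, sub_zero, Finset.prod_const, Finset.card_range] at hf
  rw [hf, map_add, map_sum, Finset.sum_eq_single t]
  · rw [PowerSeries.coeff_C_mul, PowerSeries.coeff_X_pow_self, mul_one,
      PowerSeries.coeff_X_pow_mul', if_neg (by omega), add_zero]
  · intro s _ hs
    rw [PowerSeries.coeff_C_mul, PowerSeries.coeff_X_pow, if_neg (by omega), mul_zero]
  · intro h
    exact absurd (Finset.mem_range.2 ht) h

section linear

open scoped MvPowerSeries.WithPiTopology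

variable {k : Type*} [CommRing k] {σ τ : Type*} [Finite σ] [Finite τ]

omit [Finite σ] [Finite τ] in
theorem tn_elim_zero [UniformSpace k] [DiscreteUniformity k] :
    ∀ i, IsTopologicallyNilpotent (Sum.elim (X : σ → MvPowerSeries σ k)
      (fun _ : τ => (0 : MvPowerSeries σ k)) i) := by
  rintro (i | i)
  · exact tn_of_const (constantCoeff_X i)
  · exact tn_of_const (map_zero _)

/-- linear part of the specialisation `Z = 0` -/
theorem evA_elim_zero_sub_mem [UniformSpace k] [DiscreteUniformity k]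
    (f : MvPowerSeries (σ ⊕ τ) k) (j : σ) :
    constantCoeff (evA (C : k →+* MvPowerSeries σ k) (tn_elim_zero (k := k) (σ := σ) (τ := τ)) f) =
      constantCoeff f ∧
    coeff (Finsupp.single j 1)
      (evA (C : k →+* MvPowerSeries σ k) (tn_elim_zero (k := k) (σ := σ) (τ := τ)) f) =
      coeff (Finsupp.single (Sum.inl j) 1) f := by
  classical
  have := Fintype.ofFinite σ
  have := Fintype.ofFinite τ
  set e := evA (C : k →+* MvPowerSeries σ k) (tn_elim_zero (k := k) (σ := σ) (τ := τ)) with he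
  have heX : ∀ i : σ, e (X (Sum.inl i)) = X i := fun i => evA_X _ _ _
  have heZ : ∀ i : τ, e (X (Sum.inr i)) = 0 := fun i => evA_X _ _ _
  have heC : ∀ c : k, e (C c) = C c := fun c => evA_C _ _ _
  set f' : MvPowerSeries (σ ⊕ τ) k := f - C (constantCoeff f) -
    ∑ i : σ, C (coeff (Finsupp.single (Sum.inl i) 1) f) * X (Sum.inl i) with hf'
  obtain ⟨A, B, hAB⟩ := exists_decomp_quad f' (by
      simp [hf']) (by
      intro i
      rw [hf', map_sub, map_sub, map_sum, coeff_C, if_neg (by simp), sub_zero,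
        Finset.sum_eq_single i]
      · rw [coeff_C_mul, ift_aux, if_pos rfl, mul_one, sub_self]
      · intro b _ hb
        rw [coeff_C_mul, ift_aux, if_neg (Ne.symm hb), mul_zero]
      · intro h
        exact absurd (Finset.mem_univ _) h)
  have h1 : e f' ∈ ordIdeal σ k 2 := by
    rw [hAB, map_add, map_sum, map_sum]
    refine Ideal.add_mem _ (Ideal.sum_mem _ fun l _ => ?_) (Ideal.sum_mem _ fun q _ => ?_)
    · rw [map_mul, heZ, zero_mul]
      exact Ideal.zero_mem _
    · rw [map_mul, map_mul]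
      refine Ideal.mul_mem_right _ _ ?_
      have hX : ∀ x : σ ⊕ τ, e (X x) ∈ ordIdeal σ k 1 := by
        rintro (i | i)
        · rw [heX]
          exact mem_ordIdeal_one.2 (constantCoeff_X i)
        · rw [heZ]
          exact Ideal.zero_mem _
      exact ordIdeal_mul_mem (hX _) (hX _)
  have h2 : e f = e f' + C (constantCoeff f) +
      ∑ i : σ, C (coeff (Finsupp.single (Sum.inl i) 1) f) * X i := by
    have : f = f' + C (constantCoeff f) +
      ∑ i : σ, C (coeff (Finsupp.single (Sum.inl i) 1) f) * X (Sum.inl i) := by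
      rw [hf']; ring
    conv_lhs => rw [this]
    rw [map_add, map_add, map_sum, heC]
    congr 1
    refine Finset.sum_congr rfl fun i _ => ?_
    rw [map_mul, heC, heX]
  obtain ⟨h3, h4⟩ := mem_ordIdeal_two.1 h1
  constructor
  · rw [h2, map_add, map_add, h3]
    simp
  · rw [h2, map_add, map_add, h4, coeff_C, if_neg (by simp), map_sum, Finset.sum_eq_single j]
    · rw [coeff_C_mul, coeff_X, if_pos rfl]
      ring
    · intro b _ hb
      rw [coeff_C_mul, coeff_X, if_neg, mul_zero]
      intro h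
      exact hb (by
        rw [Finsupp.single_left_inj one_ne_zero] at h
        exact h.symm)
    · intro h
      exact absurd (Finset.mem_univ _) h

end linear

end Crest.Agent.R227
end
end

-- ▼ part R227/Chi
section

/-! # R227 / Chi : Drinfeld-type coordinates (task CHI) -/

set_option autoImplicit false

noncomputable section

namespace Crest.Agent.R227

open Crest.LubinTate MvPowerSeries Topology Filter

namespace ChiAux

section general

variable (p : ℕ) [Fact p.Prime]

/-- `chiEv` commutes with continuous ring homomorphisms -/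
theorem map_chiEv {ι : Type*} [Finite ι] {S S' : Type*} [CommRing S] [UniformSpace S]
    [IsUniformAddGroup S] [IsTopologicalRing S] [IsLinearTopology S S] [CompleteSpace S]
    [T2Space S] [CommRing S'] [UniformSpace S'] [IsUniformAddGroup S'] [IsTopologicalRing S']
    [IsLinearTopology S' S'] [CompleteSpace S'] [T2Space S'] [CharP S p] [CharP S' p]
    (φ : S →+* S') (hφ : Continuous φ) (χ : MvPowerSeries ι (ZMod p)) {y : ι → S}
    (hy : ∀ i, IsTopologicallyNilpotent (y i)) :
    φ (chiEv p χ y) = chiEv p χ (fun i => φ (y i)) := by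
  unfold chiEv
  rw [map_ev hy φ hφ]
  congr 1
  ext d
  simp only [coeff_map]
  rw [← RingHom.comp_apply]
  congr 1
  exact Subsingleton.elim _ _


instance charP_mvps {ι : Type*} {R : Type*} [CommRing R] [CharP R p] :
    CharP (MvPowerSeries ι R) p :=
  charP_of_injective_ringHom (MvPowerSeries.C_injective (σ := ι) (R := R)) p

end general

/-- the ideal of series without constant term and without linear terms in the first set of
variables -/
def linIdeal (σ τ R : Type*) [CommRing R] : Ideal (MvPowerSeries (σ ⊕ τ) R) where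
  carrier := {f | constantCoeff f = 0 ∧ ∀ i : σ, coeff (Finsupp.single (Sum.inl i) 1) f = 0}
  add_mem' := by
    rintro f g ⟨hf, hf'⟩ ⟨hg, hg'⟩
    exact ⟨by rw [map_add, hf, hg, add_zero], fun i => by rw [map_add, hf', hg', add_zero]⟩
  zero_mem' := ⟨map_zero _, fun _ => map_zero _⟩
  smul_mem' := by
    classical
    rintro c f ⟨hf, hf'⟩
    refine ⟨by rw [smul_eq_mul, map_mul, hf, mul_zero], fun i => ?_⟩
    rw [smul_eq_mul, coeff_mul]
    refine Finset.sum_eq_zero fun x hx => ?_
    have hx' := Finset.HasAntidiagonal.mem_antidiagonal.1 hx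
    have h2 : x.2 ≤ Finsupp.single (Sum.inl i) 1 := by
      rw [← hx']
      exact le_add_self
    have h3 : x.2 = 0 ∨ x.2 = Finsupp.single (Sum.inl i) 1 := by
      by_cases h4 : x.2 (Sum.inl i) = 0
      · left
        ext j
        by_cases hj : j = Sum.inl i
        · rw [hj, h4]; rfl
        · have := h2 j
          rw [Finsupp.single_apply, if_neg (Ne.symm hj)] at this
          simpa using this
      · right
        refine le_antisymm h2 ?_
        rw [Finsupp.single_le_iff]
        omega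
    rcases h3 with h3 | h3
    · rw [h3, coeff_zero_eq_constantCoeff_apply, hf, mul_zero]
    · rw [h3, hf' i, mul_zero]


theorem X_inr_mem {σ τ R : Type*} [CommRing R] (l : τ) :
    (X (Sum.inr l) : MvPowerSeries (σ ⊕ τ) R) ∈ linIdeal σ τ R := by
  classical
  refine ⟨constantCoeff_X _, fun i => ?_⟩
  rw [coeff_X, if_neg]
  intro h
  rw [Finsupp.single_left_inj one_ne_zero] at h
  exact absurd h (by simp)

section step

open scoped MvPowerSeries.WithPiTopology

variable (p : ℕ) [Fact p.Prime] (n h : ℕ)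

/-- the argument `V_{U^{Q^m}}(Z_l)` -/
def argZ {S : Type*} [CommRing S] [UniformSpace S] (m : ℕ) (u y : Fin (n - h) → S) :
    Fin (n - h) → S :=
  fun l => ev₁ (y l) (Vz p n h (fun j => u j ^ p ^ (h * m)))

variable {p n h}

section
variable {S S' : Type*} [CommRing S] [UniformSpace S]
    [IsUniformAddGroup S] [IsTopologicalRing S] [IsLinearTopology S S] [CompleteSpace S]
    [T2Space S] [CommRing S'] [UniformSpace S'] [IsUniformAddGroup S'] [IsTopologicalRing S']
    [IsLinearTopology S' S'] [CompleteSpace S'] [T2Space S']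

theorem argZ_tn (m : ℕ) (u y : Fin (n - h) → S) (hy : ∀ i, IsTopologicallyNilpotent (y i)) :
    ∀ i, IsTopologicallyNilpotent (argZ p n h m u y i) := by
  intro i
  refine ev_tn (fun _ => hy i) _ ?_
  have : (MvPowerSeries.constantCoeff (Vz p n h (fun j => u j ^ p ^ (h * m))) : S) = 0 :=
    constantCoeff_Vz p n h _
  rw [this]
  exact IsTopologicallyNilpotent.zero

theorem map_argZ (φ : S →+* S') (hφ : Continuous φ) (m : ℕ) (u y : Fin (n - h) → S)
    (hy : ∀ i, IsTopologicallyNilpotent (y i)) (l : Fin (n - h)) :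
    φ (argZ p n h m u y l) = argZ p n h m (fun i => φ (u i)) (fun i => φ (y i)) l := by
  unfold argZ
  have h1 := map_ev (fun _ : Unit => hy l) φ hφ (Vz p n h (fun j => u j ^ p ^ (h * m)))
  refine h1.trans ?_
  have h2 := Vz_map p n h φ (fun j => u j ^ p ^ (h * m))
  simp only [map_pow] at h2
  exact congrArg (fun f => ev₁ (φ (y l)) f) h2

end

section

variable (k : Type*) [CommRing k] [CharP k p] [UniformSpace k] [DiscreteUniformity k]

/-- the series `χ_i(V_{U^{Q^m}}(Z))`. -/
def PhiT (g : Fin (n - h) → MvPowerSeries (Fin (n - h)) (ZMod p)) (m : ℕ) (i : Fin (n - h)) :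
    MvPowerSeries (Fin (n - h) ⊕ Fin (n - h)) k :=
  chiEv p (g i) (argZ p n h m (fun j => X (Sum.inl j)) (fun l => X (Sum.inr l)))

theorem tn_inr (l : Fin (n - h)) : IsTopologicallyNilpotent
    (X (Sum.inr l) : MvPowerSeries (Fin (n - h) ⊕ Fin (n - h)) k) :=
  tn_of_const (constantCoeff_X _)

theorem tn_elim' {S : Type*} [CommRing S] [UniformSpace S] {u y : Fin (n - h) → S}
    (hu : ∀ i, IsTopologicallyNilpotent (u i)) (hy : ∀ i, IsTopologicallyNilpotent (y i)) :
    ∀ i, IsTopologicallyNilpotent (Sum.elim u y i) := by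
  rintro (i | i)
  · exact hu i
  · exact hy i

theorem evA_PhiT {S : Type*} [CommRing S] [UniformSpace S]
    [IsUniformAddGroup S] [IsTopologicalRing S] [IsLinearTopology S S] [CompleteSpace S]
    [T2Space S] [CharP S p] (φ : k →+* S)
    (g : Fin (n - h) → MvPowerSeries (Fin (n - h)) (ZMod p)) (m : ℕ)
    (i : Fin (n - h)) {u y : Fin (n - h) → S}
    (hu : ∀ i, IsTopologicallyNilpotent (u i)) (hy : ∀ i, IsTopologicallyNilpotent (y i)) :
    evA φ (tn_elim' hu hy) (PhiT k g m i) = chiEv p (g i) (argZ p n h m u y) := by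
  have hc := continuous_evA φ (tn_elim' hu hy)
  have h1 := map_chiEv p (evA φ (tn_elim' hu hy)) hc (g i)
    (argZ_tn (p := p) (n := n) (h := h) m
      (fun j => (X (Sum.inl j) : MvPowerSeries (Fin (n - h) ⊕ Fin (n - h)) k))
      (fun l => X (Sum.inr l)) (tn_inr k))
  refine h1.trans ?_
  congr 1
  funext l
  have h2 := map_argZ (p := p) (n := n) (h := h) (evA φ (tn_elim' hu hy)) hc m
      (fun j => (X (Sum.inl j) : MvPowerSeries (Fin (n - h) ⊕ Fin (n - h)) k))
      (fun l => X (Sum.inr l)) (tn_inr k) l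
  refine h2.trans ?_
  simp only [evA_X, Sum.elim_inl, Sum.elim_inr]

theorem PhiT_mem (g : Fin (n - h) → MvPowerSeries (Fin (n - h)) (ZMod p))
    (hg : ∀ i, constantCoeff (g i) = 0) (m : ℕ) (i : Fin (n - h)) :
    PhiT k g m i ∈ linIdeal (Fin (n - h)) (Fin (n - h)) k := by
  have h1 : ∀ l, argZ p n h m (fun j => (X (Sum.inl j) :
      MvPowerSeries (Fin (n - h) ⊕ Fin (n - h)) k)) (fun l => X (Sum.inr l)) l ∈
      linIdeal (Fin (n - h)) (Fin (n - h)) k := by
    intro l
    exact ev_mem_of_mem (S := MvPowerSeries (Fin (n - h) ⊕ Fin (n - h)) k)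
      (fun _ => tn_inr k l) _ (constantCoeff_Vz p n h _) _ (fun _ => X_inr_mem l)
  have h2 : constantCoeff ((g i).map (ZMod.castHom (dvd_refl p)
      (MvPowerSeries (Fin (n - h) ⊕ Fin (n - h)) k))) = 0 := by
    rw [← coeff_zero_eq_constantCoeff_apply, coeff_map, coeff_zero_eq_constantCoeff_apply,
      hg i, map_zero]
  exact ev_mem_of_mem (S := MvPowerSeries (Fin (n - h) ⊕ Fin (n - h)) k)
    (argZ_tn m _ _ (tn_inr k)) _ h2 _ h1

end

theorem exists_chi_succ_aux (k : Type*) [CommRing k] [CharP k p] [UniformSpace k]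
    [DiscreteUniformity k] (g : Fin (n - h) → MvPowerSeries (Fin (n - h)) (ZMod p))
    (hg : ∀ i, constantCoeff (g i) = 0) (m : ℕ) :
    ∃ g' : Fin (n - h) → MvPowerSeries (Fin (n - h)) k,
      (∀ i, constantCoeff (g' i) = 0) ∧
      (∀ (S : Type) [CommRing S] [UniformSpace S] [IsUniformAddGroup S]
        [IsTopologicalRing S] [IsLinearTopology S S] [CompleteSpace S] [T2Space S] [CharP S p]
        (φ : k →+* S)
        (y : Fin (n - h) → S), (∀ i, IsTopologicallyNilpotent (y i)) → ∀ i,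
        ev y ((g' i).map φ) = chiEv p (g i) (fun l => ev₁ (y l)
          (Vz p n h (fun j => ev y ((g' j).map φ) ^ p ^ (h * m))))) ∧
      (∀ (K : Type) [NontriviallyNormedField K] [IsUltrametricDist K] [CompleteSpace K]
        [CharP K p] (φ : k →+* Ob K)
        (z y : Fin (n - h) → Ob K), (∀ i, ‖z i‖ < 1) → (∀ i, ‖y i‖ < 1) →
        (∀ i, z i = chiEv p (g i) (fun l => ev₁ (y l) (Vz p n h (fun j => z j ^ p ^ (h * m))))) →
        ∀ i, z i = ev y ((g' i).map φ)) := by
  have h0 : ∀ i, constantCoeff (X (Sum.inl i) - PhiT k g m i) = 0 := by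
    intro i
    rw [map_sub, constantCoeff_X, (PhiT_mem k g hg m i).1, sub_zero]
  have h1 : ∀ j i, coeff (Finsupp.single (Sum.inl i) 1) (X (Sum.inl j) - PhiT k g m j) =
      if i = j then 1 else 0 := by
    intro j i
    rw [map_sub, (PhiT_mem k g hg m j).2, sub_zero, ift_aux]
  obtain ⟨g', hg', hΦ⟩ := exists_ift_formal (fun i => X (Sum.inl i) - PhiT k g m i) h0 h1
  refine ⟨g', hg', ?_, ?_⟩
  · intro S _ _ _ _ _ _ _ _ φ y hy i
    have hel : ∀ i, constantCoeff (Sum.elim g' (X : Fin (n - h) →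
        MvPowerSeries (Fin (n - h)) k) i) = 0 := by
      rintro (i | i)
      · exact hg' i
      · exact constantCoeff_X i
    have h2 := evA_ev φ hy hel (X (Sum.inl i) - PhiT k g m i)
    rw [ev_map_C_eq_subst _ hel, hΦ, map_zero] at h2
    have hu : ∀ i, IsTopologicallyNilpotent (evA φ hy (g' i)) := by
      intro i
      rw [evA_apply]
      refine ev_tn hy _ ?_
      rw [← coeff_zero_eq_constantCoeff_apply, coeff_map, coeff_zero_eq_constantCoeff_apply,
        hg' i, map_zero]
      exact IsTopologicallyNilpotent.zero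
    have h3 : (fun i => evA φ hy (Sum.elim g' (X : Fin (n - h) →
        MvPowerSeries (Fin (n - h)) k) i)) = Sum.elim (fun i => evA φ hy (g' i)) y := by
      funext i
      rcases i with i | i
      · rfl
      · exact evA_X _ _ _
    have h4 := evA_PhiT k φ g m i hu hy
    have h5 : evA φ (tn_elim' hu hy) (X (Sum.inl i) - PhiT k g m i) = 0 := by
      rw [evA_apply, ← h3]
      exact h2.symm
    rw [map_sub, evA_X, h4, Sum.elim_inl, sub_eq_zero] at h5
    simp only [evA_apply] at h5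
    exact h5
  · intro K _ _ _ _ φ z y hz hy hzy i
    refine ift_points (fun i => X (Sum.inl i) - PhiT k g m i) h0 h1 g' hg' hΦ φ z y
      hz hy (fun j => ?_) i
    have hzt : ∀ i, IsTopologicallyNilpotent (z i) := fun i => (Ob_tn_iff _).2 (hz i)
    have hyt : ∀ i, IsTopologicallyNilpotent (y i) := fun i => (Ob_tn_iff _).2 (hy i)
    have h2 := evA_PhiT k φ g m j hzt hyt
    have h3 : evA φ (tn_elim' hzt hyt) (X (Sum.inl j) - PhiT k g m j) = 0 := by
      rw [map_sub, evA_X, h2, Sum.elim_inl, sub_eq_zero]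
      exact hzy j
    rwa [evA_apply] at h3

/-- the recursive step -/
theorem exists_chi_succ (g : Fin (n - h) → MvPowerSeries (Fin (n - h)) (ZMod p))
    (hg : ∀ i, constantCoeff (g i) = 0) (m : ℕ) :
    ∃ g' : Fin (n - h) → MvPowerSeries (Fin (n - h)) (ZMod p),
      (∀ i, constantCoeff (g' i) = 0) ∧
      (∀ (S : Type) [CommRing S] [UniformSpace S] [IsUniformAddGroup S]
        [IsTopologicalRing S] [IsLinearTopology S S] [CompleteSpace S] [T2Space S] [CharP S p]
        (y : Fin (n - h) → S), (∀ i, IsTopologicallyNilpotent (y i)) → ∀ i,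
        chiEv p (g' i) y = chiEv p (g i) (fun l => ev₁ (y l)
          (Vz p n h (fun j => chiEv p (g' j) y ^ p ^ (h * m))))) ∧
      (∀ (K : Type) [NontriviallyNormedField K] [IsUltrametricDist K] [CompleteSpace K]
        [CharP K p] (z y : Fin (n - h) → Ob K), (∀ i, ‖z i‖ < 1) → (∀ i, ‖y i‖ < 1) →
        (∀ i, z i = chiEv p (g i) (fun l => ev₁ (y l) (Vz p n h (fun j => z j ^ p ^ (h * m))))) →
        ∀ i, z i = chiEv p (g' i) y) := by
  let _ : UniformSpace (ZMod p) := ⊥
  have : DiscreteUniformity (ZMod p) := ⟨rfl⟩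
  obtain ⟨g', hg', h1, h2⟩ := exists_chi_succ_aux (p := p) (ZMod p) g hg m
  refine ⟨g', hg', ?_, ?_⟩
  · intro S _ _ _ _ _ _ _ _ y hy i
    exact h1 S (ZMod.castHom (dvd_refl p) S) y hy i
  · intro K _ _ _ _ z y hz hy hzy i
    exact h2 K (ZMod.castHom (dvd_refl p) (Ob K)) z y hz hy hzy i

section base

theorem newton_map {S S' : Type*} [CommRing S] [CommRing S'] (e : S →+* S') (N : ℕ)
    (f : PowerSeries S) (c α : ℕ → S) (g : PowerSeries S)
    (hf : f = ∑ t ∈ Finset.range N, PowerSeries.C (c t) *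
          ∏ s ∈ Finset.range t, (PowerSeries.X - PowerSeries.C (α s)) +
        (∏ s ∈ Finset.range N, (PowerSeries.X - PowerSeries.C (α s))) * g) :
    PowerSeries.map e f = ∑ t ∈ Finset.range N, PowerSeries.C (e (c t)) *
          ∏ s ∈ Finset.range t, (PowerSeries.X - PowerSeries.C (e (α s))) +
        (∏ s ∈ Finset.range N, (PowerSeries.X - PowerSeries.C (e (α s)))) *
          PowerSeries.map e g := by
  rw [hf]
  simp only [map_add, map_sum, map_mul, map_prod, map_sub, PowerSeries.map_X, PowerSeries.map_C]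

variable (k : Type*) [CommRing k] [CharP k p] [UniformSpace k] [DiscreteUniformity k]

/-- the universal points `Z_l` on `Hx (U^{Q})` -/
def Zpt (l : Fin (n - h)) : FPt (Hx p n h (fun j : Fin (n - h) =>
    (X (Sum.inl j) : MvPowerSeries (Fin (n - h) ⊕ Fin (n - h)) k) ^ p ^ h)) :=
  ⟨X (Sum.inr l), tn_inr k l⟩

/-- the nodes `∑ a_l Z_l` -/
def node (p : ℕ) [Fact p.Prime] (n h : ℕ) (k : Type*) [CommRing k] [CharP k p] [UniformSpace k]
    [DiscreteUniformity k] (a : Fin (n - h) → Fin p) :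
    MvPowerSeries (Fin (n - h) ⊕ Fin (n - h)) k :=
  (∑ l, (a l : ℕ) • Zpt (p := p) (n := n) (h := h) k l).val

theorem evA_node {S : Type*} [CommRing S] [UniformSpace S]
    [IsUniformAddGroup S] [IsTopologicalRing S] [IsLinearTopology S S] [CompleteSpace S]
    [T2Space S] (φ : k →+* S) {u y : Fin (n - h) → S}
    (hu : ∀ i, IsTopologicallyNilpotent (u i)) (hy : ∀ i, IsTopologicallyNilpotent (y i))
    (a : Fin (n - h) → Fin p) :
    evA φ (tn_elim' hu hy) (node p n h k a) =
      (∑ l, (a l : ℕ) • (⟨y l, hy l⟩ : FPt (Hx p n h (fun j => u j ^ p ^ h)))).val := by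
  have hc := continuous_evA φ (tn_elim' hu hy)
  have hG : (Hx p n h (fun j : Fin (n - h) =>
      (X (Sum.inl j) : MvPowerSeries (Fin (n - h) ⊕ Fin (n - h)) k) ^ p ^ h)).map
      (evA φ (tn_elim' hu hy)) = Hx p n h (fun j => u j ^ p ^ h) := by
    rw [Hx_map]
    congr 1
    simp only [map_pow, evA_X, Sum.elim_inl]
  have h1 := FPt.baseChange_val (evA φ (tn_elim' hu hy)) hc hG
    (∑ l, (a l : ℕ) • Zpt (p := p) (n := n) (h := h) k l)
  rw [map_sum] at h1
  unfold node
  rw [← h1]
  congr 1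
  refine Finset.sum_congr rfl fun l _ => ?_
  rw [map_nsmul]
  congr 1
  apply FPt.ext
  rw [FPt.baseChange_val]
  exact evA_X _ _ _

theorem span_range_sq_le {ι : Type*} (k : Type*) [CommRing k] :
    (Ideal.span (Set.range (X : ι → MvPowerSeries ι k))) ^ 2 ≤ ordIdeal ι k 2 := by
  have h1 : Ideal.span (Set.range (X : ι → MvPowerSeries ι k)) ≤ ordIdeal ι k 1 := by
    rw [Ideal.span_le]
    rintro _ ⟨i, rfl⟩
    exact mem_ordIdeal_one.2 (constantCoeff_X i)
  rw [pow_two]
  refine Ideal.mul_le.2 fun a ha b hb => ?_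
  exact ordIdeal_mul_mem (h1 ha) (h1 hb)

theorem pow_injective_Ob {K : Type*} [NormedField K] [IsUltrametricDist K] [CharP K p] (m : ℕ)
    {a b : Ob K} (hab : a ^ p ^ m = b ^ p ^ m) : a = b := by
  have h1 : iterateFrobenius (Ob K) p m a = iterateFrobenius (Ob K) p m b := by
    rw [iterateFrobenius_def, iterateFrobenius_def]
    exact hab
  exact iterateFrobenius_inj (Ob K) p m h1

/-- `p • P = V_z(P^Q)` -/
theorem val_p_smul {K : Type*} [NontriviallyNormedField K] [IsUltrametricDist K] [CompleteSpace K]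
    [CharP K p] (h1 : 1 ≤ h) (hh : h < n) (z : Fin (n - h) → Ob K) (P : FPt (Hx p n h z)) :
    (p • P).val = ev₁ (P.val ^ p ^ h) (Vz p n h z) := by
  have e2 := FPt.val_nsmul (Hx p n h z) p P
  rw [mulSeries_Hx p n h h1 hh] at e2
  have e3 := ev₁_subst P.tn (PowerSeries.X ^ p ^ h : PowerSeries (Ob K)) (by
    rw [map_pow, PowerSeries.constantCoeff_X, zero_pow
      (pow_ne_zero _ (Fact.out : p.Prime).ne_zero)]) (Vz p n h z)
  rw [e3] at e2
  have e4 : ev₁ P.val (PowerSeries.X ^ p ^ h : PowerSeries (Ob K)) = P.val ^ p ^ h := by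
    have e5 := ev_pow (fun _ : Unit => P.tn) (PowerSeries.X : PowerSeries (Ob K)) (p ^ h)
    refine e5.trans ?_
    congr 1
    exact ev_X (fun _ : Unit => P.tn) ()
  rw [e4] at e2
  exact e2

/-- Frobenius applied to `V_z(a)` -/
theorem ev_Vz_pow {K : Type*} [NontriviallyNormedField K] [IsUltrametricDist K] [CompleteSpace K]
    [CharP K p] (z : Fin (n - h) → Ob K) (m : ℕ) {a : Ob K} (ha : IsTopologicallyNilpotent a) :
    ev₁ a (Vz p n h z) ^ p ^ m = ev₁ (a ^ p ^ m) (Vz p n h (fun j => z j ^ p ^ m)) := by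
  have hc : Continuous (iterateFrobenius (Ob K) p m) := FPtAux.continuous_frob p m
  have h1 := map_ev (fun _ : Unit => ha) (iterateFrobenius (Ob K) p m) hc (Vz p n h z)
  refine h1.trans ?_
  have h2 := Vz_map p n h (iterateFrobenius (Ob K) p m) z
  exact congrArg (fun f => ev₁ (a ^ p ^ m) f) h2

theorem exists_chi_one_aux (hh : h < n) (h1' : 1 ≤ h) :
    ∃ g : Fin (n - h) → MvPowerSeries (Fin (n - h)) k,
      (∀ i, constantCoeff (g i) = 0) ∧
      (∀ (K : Type) [NontriviallyNormedField K] [IsUltrametricDist K] [CompleteSpace K]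
        [CharP K p] (φ : k →+* Ob K)
        (z : Fin (n - h) → Ob K), (∀ i, ‖z i‖ < 1) →
        ∀ w : Fin (n - h) → FPt (Hx p n h z), IsLvl p n h z 1 w →
        ∀ i, z i = ev (fun l => (w l).val ^ p ^ h) ((g i).map φ)) := by
  classical
  set N := p ^ (n - h) with hN
  set α : ℕ → MvPowerSeries (Fin (n - h) ⊕ Fin (n - h)) k := fun t =>
    if ht : t < p ^ (n - h) then node p n h k (finFunctionFinEquiv.symm ⟨t, ht⟩) else 0 with hα
  have hαtn : ∀ t, IsTopologicallyNilpotent (α t) := by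
    intro t
    simp only [hα]
    split_ifs with ht
    · exact FPt.tn _
    · exact IsTopologicallyNilpotent.zero
  obtain ⟨c, hc⟩ := exists_newton α hαtn (Vz p n h (fun j : Fin (n - h) =>
      (X (Sum.inl j) : MvPowerSeries (Fin (n - h) ⊕ Fin (n - h)) k)))
  obtain ⟨G, hG⟩ := hc N
  -- the linear part
  have hX : ∀ i, IsTopologicallyNilpotent ((X : Fin (n - h) → MvPowerSeries (Fin (n - h)) k) i) :=
    fun i => tn_of_const (constantCoeff_X i)
  have h0' : ∀ _ : Fin (n - h), IsTopologicallyNilpotent (0 : MvPowerSeries (Fin (n - h)) k) :=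
    fun _ => IsTopologicallyNilpotent.zero
  have hnode0 : ∀ t, evA (C : k →+* MvPowerSeries (Fin (n - h)) k)
      (tn_elim' (u := X) (y := fun _ => 0) hX h0') (α t) = 0 := by
    intro t
    simp only [hα]
    split_ifs with ht
    · rw [evA_node k (C : k →+* MvPowerSeries (Fin (n - h)) k) hX h0' _]
      have e0 : (∑ l, ((finFunctionFinEquiv.symm ⟨t, ht⟩ : Fin (n - h) → Fin p) l : ℕ) •
          (⟨0, h0' l⟩ : FPt (Hx p n h (fun j : Fin (n - h) =>
            (X j : MvPowerSeries (Fin (n - h)) k) ^ p ^ h)))) = 0 :=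
        Finset.sum_eq_zero fun l _ => nsmul_zero _
      rw [e0]
      rfl
    · exact map_zero _
  have hVmap : PowerSeries.map (evA (C : k →+* MvPowerSeries (Fin (n - h)) k)
      (tn_elim' (u := X) (y := fun _ => 0) hX h0')) (Vz p n h (fun j : Fin (n - h) =>
      (X (Sum.inl j) : MvPowerSeries (Fin (n - h) ⊕ Fin (n - h)) k))) =
      Vz p n h (X : Fin (n - h) → MvPowerSeries (Fin (n - h)) k) := by
    rw [Vz_map]
    congr 1
    funext i
    exact evA_X _ _ _
  have hlin := newton_map (evA (C : k →+* MvPowerSeries (Fin (n - h)) k)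
      (tn_elim' (u := X) (y := fun _ => 0) hX h0')) N _ c α G hG
  simp only [hnode0] at hlin
  rw [hVmap] at hlin
  have hcoef := newton_coeff_zero_nodes N _ _ _ hlin
  have hpj : ∀ j : Fin (n - h), p ^ (j : ℕ) < N := fun j =>
    Nat.pow_lt_pow_right (Fact.out : p.Prime).one_lt j.2
  have hsq : ∀ j : Fin (n - h), evA (C : k →+* MvPowerSeries (Fin (n - h)) k)
      (tn_elim' (u := X) (y := fun _ => 0) hX h0') (c (p ^ (j : ℕ))) - X j ∈
        ordIdeal (Fin (n - h)) k 2 := by
    intro j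
    rw [← hcoef _ (hpj j)]
    exact span_range_sq_le k (coeff_Vz_sub_mem_sq p n h hh X j)
  have hconst : ∀ j : Fin (n - h), constantCoeff (c (p ^ (j : ℕ))) = 0 := by
    intro j
    have e1 := (mem_ordIdeal_two.1 (hsq j)).1
    rw [map_sub, constantCoeff_X, sub_zero] at e1
    rw [← e1]
    exact ((evA_elim_zero_sub_mem (c (p ^ (j : ℕ))) j).1).symm
  have hcoeff : ∀ j i : Fin (n - h), coeff (Finsupp.single (Sum.inl i) 1) (c (p ^ (j : ℕ))) =
      if i = j then 1 else 0 := by
    intro j i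
    have e1 := (mem_ordIdeal_two.1 (hsq j)).2 i
    rw [map_sub, sub_eq_zero] at e1
    rw [← (evA_elim_zero_sub_mem (c (p ^ (j : ℕ))) i).2]
    refine Eq.trans e1 ?_
    rw [coeff_X]
    by_cases hij : i = j
    · rw [if_pos hij, if_pos (by rw [hij])]
    · rw [if_neg hij, if_neg]
      intro h'
      rw [Finsupp.single_left_inj one_ne_zero] at h'
      exact hij h'
  obtain ⟨g, hg, hΦ⟩ := exists_ift_formal (fun j : Fin (n - h) => c (p ^ (j : ℕ))) hconst hcoeff
  refine ⟨g, hg, ?_⟩
  intro K _ _ _ _ φ z hz w hw i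
  have hzt : ∀ i, IsTopologicallyNilpotent (z i) := fun i => (Ob_tn_iff _).2 (hz i)
  have hyt : ∀ i, IsTopologicallyNilpotent ((w i).val ^ p ^ h) := by
    intro i
    rw [Ob_tn_iff]
    have e1 : ‖(w i).val‖ < 1 := (Ob_tn_iff _).1 (w i).tn
    have e2 : ‖(w i).val ^ p ^ h‖ = ‖(w i).val‖ ^ p ^ h := norm_pow ((w i).val : K) _
    rw [e2]
    exact pow_lt_one₀ (norm_nonneg _) e1 (pow_ne_zero _ (Fact.out : p.Prime).ne_zero)
  have hGfr : (Hx p n h z).map (iterateFrobenius (Ob K) p h) =
      Hx p n h (fun j => z j ^ p ^ h) := by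
    rw [Hx_map]
    rfl
  -- the images of the nodes
  have hnode : ∀ a : Fin (n - h) → Fin p, evA φ (tn_elim' hzt hyt) (node p n h k a) =
      (∑ l, (a l : ℕ) • w l).val ^ p ^ h := by
    intro a
    rw [evA_node k φ hzt hyt a]
    have e1 := FPt.frob_val p h hGfr (∑ l, (a l : ℕ) • w l)
    rw [← e1, map_sum]
    congr 1
    refine Finset.sum_congr rfl fun l _ => ?_
    rw [map_nsmul]
    rfl
  have hinj : ∀ s < N, ∀ t < N, evA φ (tn_elim' hzt hyt) (α s) =
      evA φ (tn_elim' hzt hyt) (α t) → s = t := by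
    intro s hs t ht hst
    simp only [hα] at hst
    rw [dif_pos hs, dif_pos ht, hnode, hnode] at hst
    have e1 := pow_injective_Ob h hst
    have e2 := FPt.ext e1
    have e3 : ∀ l, (p : ℤ) ∣ ((finFunctionFinEquiv.symm ⟨s, hs⟩ : Fin (n - h) → Fin p) l : ℤ) -
        ((finFunctionFinEquiv.symm ⟨t, ht⟩ : Fin (n - h) → Fin p) l : ℤ) := by
      refine hw.2 _ ?_
      simp only [Nat.sub_self, pow_zero, one_smul]
      simp only [sub_smul, Finset.sum_sub_distrib, natCast_zsmul]
      exact sub_eq_zero.2 e2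
    have e4 : (finFunctionFinEquiv.symm ⟨s, hs⟩ : Fin (n - h) → Fin p) =
        finFunctionFinEquiv.symm ⟨t, ht⟩ := by
      funext l
      have e5 := e3 l
      have e6 := (finFunctionFinEquiv.symm ⟨s, hs⟩ l : Fin p).2
      have e7 := (finFunctionFinEquiv.symm ⟨t, ht⟩ l : Fin p).2
      apply Fin.ext
      rcases e5 with ⟨q, hq⟩
      have e8 : q = 0 := by
        by_contra hq0
        rcases lt_or_gt_of_ne hq0 with hq1 | hq1
        · have : (p : ℤ) * q ≤ -p := by nlinarith
          omega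
        · have : (p : ℤ) ≤ p * q := by nlinarith
          omega
      rw [e8, mul_zero] at hq
      omega
    have e5 := finFunctionFinEquiv.symm.injective e4
    simpa using e5
  have hroot : ∀ t < N, ev₁ (evA φ (tn_elim' hzt hyt) (α t)) (Vz p n h z) = 0 := by
    intro t ht
    simp only [hα]
    rw [dif_pos ht, hnode]
    set P := ∑ l, ((finFunctionFinEquiv.symm ⟨t, ht⟩ : Fin (n - h) → Fin p) l : ℕ) • w l
    have e1 : p • P = 0 := by
      rw [Finset.smul_sum]
      refine Finset.sum_eq_zero fun l _ => ?_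
      rw [smul_comm]
      have := hw.1 l
      rw [pow_one] at this
      rw [this, nsmul_zero]
    have e2 := val_p_smul h1' hh z P
    rw [e1] at e2
    exact e2.symm
  have hVz : PowerSeries.map (evA φ (tn_elim' hzt hyt)) (Vz p n h (fun j : Fin (n - h) =>
      (X (Sum.inl j) : MvPowerSeries (Fin (n - h) ⊕ Fin (n - h)) k))) = Vz p n h z := by
    rw [Vz_map]
    congr 1
    funext i
    exact evA_X _ _ _
  have hN' := newton_map (evA φ (tn_elim' hzt hyt)) N _ c α G hG
  rw [hVz] at hN'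
  have hzero := newton_coeff_eq_zero N (fun t => evA φ (tn_elim' hzt hyt) (α t))
    (fun t => (hαtn t).map (continuous_evA _ _)) hinj (Vz p n h z) _ _ hroot hN'
  refine ift_points (fun j : Fin (n - h) => c (p ^ (j : ℕ))) hconst hcoeff g hg hΦ φ z
    (fun l => (w l).val ^ p ^ h) hz (fun l => (Ob_tn_iff _).1 (hyt l)) (fun j => ?_) i
  have := hzero _ (hpj j)
  rwa [evA_apply] at this

end base

end step

end ChiAux

variable (p : ℕ) [Fact p.Prime] (n h : ℕ)

theorem ChiAux.exists_chi_one (h1 : 1 ≤ h) (hh : h < n) :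
    ∃ g : Fin (n - h) → MvPowerSeries (Fin (n - h)) (ZMod p),
      (∀ i, constantCoeff (g i) = 0) ∧
      (∀ (K : Type) [NontriviallyNormedField K] [IsUltrametricDist K] [CompleteSpace K]
        [CharP K p]
        (z : Fin (n - h) → Ob K), (∀ i, ‖z i‖ < 1) →
        ∀ w : Fin (n - h) → FPt (Hx p n h z), IsLvl p n h z 1 w →
        ∀ i, z i = chiEv p (g i) (fun l => (w l).val ^ p ^ h)) := by
  let _ : UniformSpace (ZMod p) := ⊥
  have : DiscreteUniformity (ZMod p) := ⟨rfl⟩
  obtain ⟨g, hg, h2⟩ := ChiAux.exists_chi_one_aux (p := p) (ZMod p) hh h1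
  refine ⟨g, hg, ?_⟩
  intro K _ _ _ _ z hz w hw i
  exact h2 K (ZMod.castHom (dvd_refl p) (Ob K)) z hz w hw i

/-- the recursively defined sequence -/
theorem ChiAux.exists_seq (h1 : 1 ≤ h) (hh : h < n) :
    ∃ χ : ℕ → Fin (n - h) → MvPowerSeries (Fin (n - h)) (ZMod p),
      (∀ m i, constantCoeff (χ m i) = 0) ∧
      (∀ (K : Type) [NontriviallyNormedField K] [IsUltrametricDist K] [CompleteSpace K]
        [CharP K p]
        (z : Fin (n - h) → Ob K), (∀ i, ‖z i‖ < 1) →
        ∀ w : Fin (n - h) → FPt (Hx p n h z), IsLvl p n h z 1 w →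
        ∀ i, z i = chiEv p (χ 1 i) (fun l => (w l).val ^ p ^ h)) ∧
      ∀ m, 1 ≤ m →
      (∀ (S : Type) [CommRing S] [UniformSpace S] [IsUniformAddGroup S]
        [IsTopologicalRing S] [IsLinearTopology S S] [CompleteSpace S] [T2Space S] [CharP S p]
        (y : Fin (n - h) → S), (∀ i, IsTopologicallyNilpotent (y i)) → ∀ i,
        chiEv p (χ (m + 1) i) y = chiEv p (χ m i) (fun l => ev₁ (y l)
          (Vz p n h (fun j => chiEv p (χ (m + 1) j) y ^ p ^ (h * m))))) ∧
      (∀ (K : Type) [NontriviallyNormedField K] [IsUltrametricDist K] [CompleteSpace K]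
        [CharP K p] (z y : Fin (n - h) → Ob K), (∀ i, ‖z i‖ < 1) → (∀ i, ‖y i‖ < 1) →
        (∀ i, z i = chiEv p (χ m i)
          (fun l => ev₁ (y l) (Vz p n h (fun j => z j ^ p ^ (h * m))))) →
        ∀ i, z i = chiEv p (χ (m + 1) i) y) := by
  obtain ⟨g1, hg1, hp1⟩ := ChiAux.exists_chi_one p n h h1 hh
  choose! nx hnx1 hnx2 hnx3 using fun (m : ℕ)
    (g : Fin (n - h) → MvPowerSeries (Fin (n - h)) (ZMod p))
    (hg : ∀ i, constantCoeff (g i) = 0) => ChiAux.exists_chi_succ (p := p) (n := n) (h := h) g hg m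
  let χ : ℕ → Fin (n - h) → MvPowerSeries (Fin (n - h)) (ZMod p) := fun m =>
    Nat.rec (fun _ => 0) (fun m g => if m = 0 then g1 else nx m g) m
  have hχ1 : χ 1 = g1 := if_pos rfl
  have hχs : ∀ m, 1 ≤ m → χ (m + 1) = nx m (χ m) := fun m hm => if_neg (by omega)
  have hc : ∀ m i, constantCoeff (χ m i) = 0 := by
    intro m
    induction m with
    | zero => intro i; exact map_zero _
    | succ m ih =>
      rcases Nat.eq_zero_or_pos m with hm | hm
      · subst hm
        rw [zero_add, hχ1]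
        exact hg1
      · rw [hχs m hm]
        exact hnx1 m (χ m) ih
  refine ⟨χ, hc, ?_, ?_⟩
  · rw [hχ1]
    exact hp1
  · intro m hm
    rw [hχs m hm]
    exact ⟨hnx2 m (χ m) (hc m), hnx3 m (χ m) (hc m)⟩

theorem exists_chi (h1 : 1 ≤ h) (hh : h < n) : Nonempty (ChiSys p n h) := by
  obtain ⟨χ, hc, hp1, hs⟩ := ChiAux.exists_seq p n h h1 hh
  refine ⟨⟨χ, hc, ?_, ?_⟩⟩
  · intro S _ _ _ _ _ _ _ _ y hy m hm i
    exact (hs m hm).1 S y hy i
  · intro K _ _ _ _ z hz _ m hm
    induction m, hm using Nat.le_induction with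
    | base =>
      intro w hw i
      rw [mul_one]
      exact hp1 K z hz w hw i
    | succ m hm ih =>
      intro w hw i
      have hw' : IsLvl p n h z m (fun l => p • w l) := by
        refine ⟨fun l => ?_, fun c hcs => hw.2 c ?_⟩
        · have := hw.1 l
          rw [pow_succ, mul_smul] at this
          exact this
        · rw [← hcs]
          refine Finset.sum_congr rfl fun l _ => ?_
          congr 1
          rw [Nat.add_sub_cancel, smul_smul, ← pow_succ, Nat.sub_add_cancel hm]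
      have h2 := ih (fun l => p • w l) hw'
      have hwn : ∀ l, ‖(w l).val‖ < 1 := fun l => (Ob_tn_iff _).1 (w l).tn
      have hyn : ∀ l, ‖(w l).val ^ p ^ (h * (m + 1))‖ < 1 := by
        intro l
        have e2 : ‖(w l).val ^ p ^ (h * (m + 1))‖ = ‖(w l).val‖ ^ p ^ (h * (m + 1)) :=
          norm_pow ((w l).val : K) _
        rw [e2]
        exact pow_lt_one₀ (norm_nonneg _) (hwn l) (pow_ne_zero _ (Fact.out : p.Prime).ne_zero)
      refine (hs m hm).2 K z (fun l => (w l).val ^ p ^ (h * (m + 1))) hz hyn ?_ i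
      intro i
      rw [h2 i]
      congr 1
      funext l
      have e1 := ChiAux.val_p_smul h1 hh z (w l)
      have e2 : IsTopologicallyNilpotent ((w l).val ^ p ^ h) := by
        rw [Ob_tn_iff]
        have e2 : ‖(w l).val ^ p ^ h‖ = ‖(w l).val‖ ^ p ^ h := norm_pow ((w l).val : K) _
        rw [e2]
        exact pow_lt_one₀ (norm_nonneg _) (hwn l) (pow_ne_zero _ (Fact.out : p.Prime).ne_zero)
      have e3 := ChiAux.ev_Vz_pow (p := p) (n := n) (h := h) z (h * m) e2
      have e4 : ((w l).val ^ p ^ h) ^ p ^ (h * m) = (w l).val ^ p ^ (h * (m + 1)) := by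
        rw [← pow_mul, ← pow_add]
        congr 2
        ring
      rw [e4] at e3
      rw [← e3, ← e1]

end Crest.Agent.R227
end
end

-- ▼ part R227/CoDriAux
section

/-! # R227 / CoDriAux : the Drinfeld trick from the coordinates `χ` of `Chi.lean` -/

set_option autoImplicit false
set_option linter.unusedSectionVars false

noncomputable section

namespace Crest.Agent.R227

open Crest.LubinTate MvPowerSeries Topology

namespace CoDriAux

variable {p : ℕ} [Fact p.Prime] {n h : ℕ}
variable {K : Type} [NontriviallyNormedField K] [IsUltrametricDist K] [CompleteSpace K]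
  [IsAlgClosed K] [CharP K p]

/-- the level points `ρ(t_l^{q^{-i}})` -/
def lvl (P : HPoint p n h K) (ρ : FPt (HO p n n (Ob K)) →+ FPt P.F)
    (t : Fin (n - h) → FPt (HO p n n (Ob K))) (i : ℕ) (l : Fin (n - h)) : FPt P.F :=
  ρ (nfr (-((n * i : ℕ) : ℤ)) (t l))

theorem pow_smul_lvl (hn : 1 ≤ n) (P : HPoint p n h K) (ρ : FPt (HO p n n (Ob K)) →+ FPt P.F)
    (t : Fin (n - h) → FPt (HO p n n (Ob K))) (ht : IsTBasis P ρ t) (i : ℕ) (l : Fin (n - h)) :
    p ^ i • lvl P ρ t i l = 0 := by
  unfold lvl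
  rw [← map_nsmul, HO_pow_smul hn le_rfl, ← nfr_add, add_neg_cancel, nfr_zero, ht.mem l]

theorem lvl_indep (hn : 1 ≤ n) (P : HPoint p n h K) (ρ : FPt (HO p n n (Ob K)) →+ FPt P.F)
    (t : Fin (n - h) → FPt (HO p n n (Ob K))) (ht : IsTBasis P ρ t) (i : ℕ) (hi : 1 ≤ i)
    (c : Fin (n - h) → ℤ) (hc : ∑ l, c l • (p ^ (i - 1) • lvl P ρ t i l) = 0) :
    ∀ l, (p : ℤ) ∣ c l := by
  set s : FPt (HO p n n (Ob K)) := nfr (-((n : ℕ) : ℤ)) (∑ l, c l • t l) with hs
  have h1 : ∀ l, p ^ (i - 1) • lvl P ρ t i l = ρ (nfr (-((n : ℕ) : ℤ)) (t l)) := by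
    intro l
    unfold lvl
    rw [← map_nsmul, HO_pow_smul hn le_rfl, ← nfr_add]
    obtain ⟨i, rfl⟩ : ∃ j, i = j + 1 := ⟨i - 1, by omega⟩
    have e : (((n * (i + 1 - 1) : ℕ) : ℤ) + -((n * (i + 1) : ℕ) : ℤ)) = -((n : ℕ) : ℤ) := by
      rw [Nat.add_sub_cancel]
      push_cast
      ring
    rw [e]
  have h2 : ρ s = 0 := by
    rw [hs, map_sum, map_sum, ← hc]
    refine Finset.sum_congr rfl fun l _ => ?_
    rw [h1, map_zsmul, map_zsmul]
  refine ht.indep c ⟨s, h2, ?_⟩
  have h3 := HO_pow_smul (K := K) (p := p) (n := n) (j := n) hn le_rfl 1 s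
  rw [pow_one, mul_one] at h3
  rw [natCast_zsmul, h3, hs, ← nfr_add, add_neg_cancel, nfr_zero]

theorem point_transport (X : ChiSys p n h) (z : Fin (n - h) → Ob K) (hz : ∀ i, ‖z i‖ < 1)
    (hz0 : ∀ i : Fin (n - h), (i : ℕ) = 0 → z i ≠ 0) (F : FormalGroup (Ob K)) [F.IsComm]
    (hF : F = Hx p n h z) (m : ℕ) (hm : 1 ≤ m) (w : Fin (n - h) → FPt F)
    (hw1 : ∀ l, p ^ m • w l = 0)
    (hw2 : ∀ c : Fin (n - h) → ℤ, ∑ l, c l • (p ^ (m - 1) • w l) = 0 → ∀ l, (p : ℤ) ∣ c l)
    (i : Fin (n - h)) : z i = chiEv p (X.χ m i) (fun l => (w l).val ^ p ^ (h * m)) := by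
  subst hF
  exact X.point K z hz hz0 m hm w ⟨hw1, hw2⟩ i

theorem ev_kap (h1 : 1 ≤ h) (hh : h < n) (X : ChiSys p n h) (P : HPoint p n h K)
    (ρ : FPt (HO p n n (Ob K)) →+ FPt P.F)
    (t : Fin (n - h) → FPt (HO p n n (Ob K))) (ht : IsTBasis P ρ t) (i : ℕ) (hi : 1 ≤ i)
    (j : Fin (n - h)) : P.z j = chiEv p (X.χ i j) (kap P ρ t i) := by
  have hn : 1 ≤ n := by omega
  refine point_transport X P.z (fun i => (P.norm_z_le h1 i).trans_lt P.c_lt_one) ?_ P.F
    (P.F_eq_Hx h1 hh) i hi (lvl P ρ t i) (pow_smul_lvl hn P ρ t ht i)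
    (lvl_indep hn P ρ t ht i hi) j
  intro j hj
  have : j = ⟨0, by omega⟩ := Fin.ext hj
  rw [this]
  exact P.z_zero_ne h1 hh

theorem kap_tn (P : HPoint p n h K)
    (ρ : FPt (HO p n n (Ob K)) →+ FPt P.F)
    (t : Fin (n - h) → FPt (HO p n n (Ob K))) (i : ℕ) (l : Fin (n - h)) :
    IsTopologicallyNilpotent (kap P ρ t i l) := by
  rw [Ob_tn_iff]
  unfold kap
  set a := (ρ (nfr (-((n * i : ℕ) : ℤ)) (t l))).val with ha
  have e1 : ‖a‖ < 1 := FPt.norm_lt _ _
  have e2 : ‖a ^ p ^ (h * i)‖ = ‖a‖ ^ p ^ (h * i) := norm_pow (a : K) _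
  rw [e2]
  exact pow_lt_one₀ (norm_nonneg _) e1 (pow_ne_zero _ (Fact.out : p.Prime).ne_zero)

/-- the substituted series -/
def G (p : ℕ) [Fact p.Prime] (n h : ℕ)
    (χ : Fin (n - h) → MvPowerSeries (Fin (n - h)) (ZMod p)) (m : Fin (n - 1)) :
    MvPowerSeries (Fin (n - h)) (GaloisField p n) :=
  if hm : h ≤ (m : ℕ) + 1 then
    (χ ⟨(m : ℕ) + 1 - h, by omega⟩).map (ZMod.castHom (dvd_refl p) (GaloisField p n))
  else 0

theorem constantCoeff_G (χ : Fin (n - h) → MvPowerSeries (Fin (n - h)) (ZMod p))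
    (hχ : ∀ i, constantCoeff (χ i) = 0) (m : Fin (n - 1)) :
    constantCoeff (G p n h χ m) = 0 := by
  unfold G
  split_ifs with hm
  · rw [← coeff_zero_eq_constantCoeff_apply, coeff_map, coeff_zero_eq_constantCoeff_apply,
      hχ, map_zero]
  · exact map_zero _

theorem ev_G (h1 : 1 ≤ h) (hh : h < n) (X : ChiSys p n h) (P : HPoint p n h K)
    (ι : GaloisField p n →+* Ob K)
    (ρ : FPt (HO p n n (Ob K)) →+ FPt P.F)
    (t : Fin (n - h) → FPt (HO p n n (Ob K))) (ht : IsTBasis P ρ t) (i : ℕ) (hi : 1 ≤ i)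
    (m : Fin (n - 1)) :
    ev (kap P ρ t i) ((G p n h (X.χ i) m).map ι) = P.X (MvPowerSeries.X m) := by
  have hX : (MvPowerSeries.X m : LTRing p n) = upt p n ((m : ℕ) + 1) := by
    unfold upt
    rw [dif_pos ⟨by omega, by omega⟩]
    congr 1
  unfold G
  split_ifs with hm
  · have e1 := ev_kap h1 hh X P ρ t ht i hi ⟨(m : ℕ) + 1 - h, by omega⟩
    have e2 : P.z ⟨(m : ℕ) + 1 - h, by omega⟩ = P.X (MvPowerSeries.X m) := by
      rw [hX]
      unfold HPoint.z
      congr 2
      simp only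
      omega
    rw [← e2, e1]
    unfold chiEv
    congr 1
    ext d
    simp only [coeff_map]
    rw [← RingHom.comp_apply]
    exact congrArg (fun φ : ZMod p →+* Ob K => ((φ (coeff d (X.χ i ⟨(m : ℕ) + 1 - h, by omega⟩)) :
      Ob K) : K)) (Subsingleton.elim _ _)
  · rw [map_zero, ev_zero (kap_tn P ρ t i), hX]
    symm
    refine P.kill _ (Ideal.subset_span ⟨(m : ℕ) + 1, ?_, ?_⟩)
    · simp only [Set.mem_Iio]
      omega
    · unfold uu
      rw [if_neg (by omega)]

theorem drinfeld' (h1 : 1 ≤ h) (hh : h < n) (i : ℕ) (hi : 1 ≤ i) (f : LTRing p n) :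
    ∃ F : MvPowerSeries (Fin (n - h)) (GaloisField p n),
      ∀ (K : Type) [NontriviallyNormedField K] [IsUltrametricDist K] [CompleteSpace K]
        [IsAlgClosed K] [CharP K p] (ι : GaloisField p n →+* Ob K) (x : Mk p n h K ι),
        x.P.X f = ev (kap x.P x.ρ x.t i) (F.map ι) := by
  obtain ⟨X⟩ := exists_chi p n h h1 hh
  have hc := constantCoeff_G (X.χ i) (X.const i)
  refine ⟨MvPowerSeries.subst (G p n h (X.χ i)) (f.map WittVector.constantCoeff), ?_⟩
  intro K _ _ _ _ _ ι x
  have hs : HasSubst (G p n h (X.χ i)) := hasSubst_of_constantCoeff_zero hc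
  have e1 := X_eq_ev p n x.P.X x.P.small f
  rw [e1, MvPowerSeries.map_subst hs, ev_subst (kap_tn x.P x.ρ x.t i)]
  · congr 1
    · funext m
      exact (ev_G h1 hh X x.P ι x.ρ x.t x.ht i hi m).symm
    · ext d
      simp only [coeff_map, RingHom.comp_apply]
      exact congrArg _ (x.hι _)
  · intro m
    rw [← coeff_zero_eq_constantCoeff_apply, coeff_map, coeff_zero_eq_constantCoeff_apply,
      hc, map_zero]

end CoDriAux

end Crest.Agent.R227
end
end

-- ▼ part R227/CoDri
section

/-! # R227 / CoDri : Drinfeld trick (task CODRI) -/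

set_option autoImplicit false
set_option linter.unusedSectionVars false

noncomputable section

namespace Crest.Agent.R227

open Crest.LubinTate MvPowerSeries Topology

variable {p : ℕ} [Fact p.Prime] {n h : ℕ}
variable {K : Type} [NontriviallyNormedField K] [IsUltrametricDist K] [CompleteSpace K]
  [IsAlgClosed K] [CharP K p]

/-- **Drinfeld trick**: every function on the stratum is a power series in the level points. -/
theorem drinfeld (h1 : 1 ≤ h) (hh : h < n) (i : ℕ) (hi : 1 ≤ i) (f : LTRing p n) :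
    ∃ F : MvPowerSeries (Fin (n - h)) (GaloisField p n),
      ∀ (K : Type) [NontriviallyNormedField K] [IsUltrametricDist K] [CompleteSpace K]
        [IsAlgClosed K] [CharP K p] (ι : GaloisField p n →+* Ob K) (x : Mk p n h K ι),
        x.P.X f = ev (kap x.P x.ρ x.t i) (F.map ι) :=
  CoDriAux.drinfeld' h1 hh i hi f

end Crest.Agent.R227
end
end

-- ▼ part R227/CoIneq
section

/-! # R227 / CoIneq : the key orbit inequality (task COINEQ), part (B) of note 4224 -/

set_option autoImplicit false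
set_option linter.unusedSectionVars false

noncomputable section

namespace Crest.Agent.R227

open Crest.LubinTate MvPowerSeries Topology

variable {p : ℕ} [Fact p.Prime] {n h : ℕ}
variable {K : Type} [NontriviallyNormedField K] [IsUltrametricDist K] [CompleteSpace K]
  [IsAlgClosed K] [CharP K p]

variable {ι : GaloisField p n →+* Ob K} {M : ℕ}

namespace CoIneqAux

/-- `X +_{Fn} α^{p^{ni}}` and its inverse -/
theorem exists_inv_add (hn : 1 ≤ n) (i : ℕ) (hi : 1 ≤ i) (hMi : M ≤ p ^ (n * i))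
    {α : PowerSeries (GaloisField p n)} (hα : IsFGHom (Fn p n) (Fn p n) α) :
    ∃ g : PowerSeries (GaloisField p n), IsFGAut (Fn p n) g ∧
      (∀ i : ℕ, i < M → PowerSeries.coeff i g = PowerSeries.coeff i PowerSeries.X) ∧
      PowerSeries.subst g (fadd (Fn p n) PowerSeries.X
        (PowerSeries.subst α (mulSeries (Fn p n) (p ^ i)))) = PowerSeries.X := by
  have hp := (Fact.out : p.Prime)
  set β : PowerSeries (GaloisField p n) := PowerSeries.subst α (mulSeries (Fn p n) (p ^ i)) with hβ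
  have hβhom : IsFGHom (Fn p n) (Fn p n) β := IsFGHom.comp hα (IsFGHom.mulSeries _ _)
  have hα0 : PowerSeries.constantCoeff α = 0 := hα.1
  have hαs := PowerSeries.HasSubst.of_constantCoeff_zero' hα0
  have hβ' : β = α ^ p ^ (n * i) := by
    rw [hβ, D0Cont.mulSeries_Fn_pow p n hn, PowerSeries.subst_pow hαs, PowerSeries.subst_X hαs]
  have hnm : 1 ≤ n * i := Nat.mul_le_mul hn hi
  have hpow : 1 < p ^ (n * i) := Nat.one_lt_pow (by omega) hp.one_lt
  obtain ⟨α', hα'⟩ := PowerSeries.X_dvd_iff.mpr hα0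
  set g' : PowerSeries (GaloisField p n) := fadd (Fn p n) PowerSeries.X β with hg'
  have hg'hom : IsFGHom (Fn p n) (Fn p n) g' := IsFGHom.fadd (IsFGHom.id _) hβhom
  obtain ⟨w, hw, he⟩ := fadd_sub_fadd (Fn p n) (PowerSeries.X : PowerSeries (GaloisField p n))
    β 0 mvConstantCoeff_X hβhom.1 (map_zero _)
  rw [fadd_zero _ _ mvConstantCoeff_X, sub_zero, sub_eq_iff_eq_add'] at he
  have he' : g' = PowerSeries.X + PowerSeries.X ^ p ^ (n * i) * (α' ^ p ^ (n * i) * w) := by
    refine he.trans ?_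
    rw [hβ', hα']
    ring
  have hg'1 : PowerSeries.coeff 1 g' = 1 := by
    rw [he', map_add, PowerSeries.coeff_X_pow_mul', if_neg (by omega), add_zero,
      PowerSeries.coeff_one_X]
  have hg'u : IsUnit (PowerSeries.coeff 1 g') := by rw [hg'1]; exact isUnit_one
  obtain ⟨g, hghom, hg1, hg2, hgu⟩ := IsFGHom.exists_inv hg'hom hg'u
  refine ⟨g, ⟨hghom, hgu⟩, ?_, hg2⟩
  intro k hk
  have hgs := PowerSeries.HasSubst.of_constantCoeff_zero' hghom.1
  obtain ⟨g'', hg''⟩ := PowerSeries.X_dvd_iff.mpr hghom.1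
  have e : PowerSeries.X = g + PowerSeries.X ^ p ^ (n * i) *
      (g'' ^ p ^ (n * i) * PowerSeries.subst g (α' ^ p ^ (n * i) * w)) := by
    calc PowerSeries.X = PowerSeries.subst g g' := hg2.symm
      _ = g + g ^ p ^ (n * i) * PowerSeries.subst g (α' ^ p ^ (n * i) * w) := by
        conv_lhs => rw [he']
        rw [PowerSeries.subst_add hgs, PowerSeries.subst_mul hgs, PowerSeries.subst_pow hgs,
          PowerSeries.subst_X hgs]
      _ = _ := by
        rw [show g ^ p ^ (n * i) = PowerSeries.X ^ p ^ (n * i) * g'' ^ p ^ (n * i) by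
          rw [hg'', mul_pow]]
        ring
  have e2 := congrArg (PowerSeries.coeff k) e
  rw [map_add, PowerSeries.coeff_X_pow_mul', if_neg (by omega), add_zero] at e2
  exact e2.symm

theorem norm_sub_pow (a b : Ob K) (k : ℕ) : ‖a ^ p ^ k - b ^ p ^ k‖ = ‖a - b‖ ^ p ^ k := by
  rw [← sub_pow_char_pow, ← fz_natCast, norm_fz_natCast]

end CoIneqAux

/-- For `α ∈ 𝒟` and `i ≥ 1`, `M ≤ q^i`, there is an automorphism `g ≡ X mod X^M` whose inverse is
`1 - p^i α`. -/
theorem exists_one_sub (hn : 1 ≤ n) (i : ℕ) (hi : 1 ≤ i) (hMi : M ≤ p ^ (n * i))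
    {A : FPt (HO p n n (Ob K)) →+ FPt (HO p n n (Ob K))} (hA : IsAct ι A) :
    ∃ g : PowerSeries (GaloisField p n), IsFGAut (Fn p n) g ∧
      (∀ i : ℕ, i < M → PowerSeries.coeff i g = PowerSeries.coeff i PowerSeries.X) ∧
      ∀ z w : FPt (HO p n n (Ob K)), z.val = ev₁ w.val (g.map ι) → w = z - (p ^ i) • A z := by
  obtain ⟨β, hβ, hβA⟩ := hA.neg
  obtain ⟨g, hg, hgM, hgs⟩ := CoIneqAux.exists_inv_add (M := M) hn i hi hMi hβ
  refine ⟨g, hg, hgM, fun z w hzw => ?_⟩
  set s : PowerSeries (GaloisField p n) := fadd (Fn p n) PowerSeries.X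
        (PowerSeries.subst β (mulSeries (Fn p n) (p ^ i))) with hs
  have hFn : (Fn p n).map ι = HO p n n (Ob K) := Fn_map_ι
  have hβ0 : PowerSeries.constantCoeff β = 0 := hβ.1
  have hβs := PowerSeries.HasSubst.of_constantCoeff_zero' hβ0
  have hβm0 : PowerSeries.constantCoeff (PowerSeries.map ι β) = 0 := by
    rw [← PowerSeries.coeff_zero_eq_constantCoeff_apply, PowerSeries.coeff_map,
      PowerSeries.coeff_zero_eq_constantCoeff_apply, hβ0, map_zero]
  have hg0 : PowerSeries.constantCoeff g = 0 := hg.1.1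
  have hgm0 : PowerSeries.constantCoeff (PowerSeries.map ι g) = 0 := by
    rw [← PowerSeries.coeff_zero_eq_constantCoeff_apply, PowerSeries.coeff_map,
      PowerSeries.coeff_zero_eq_constantCoeff_apply, hg0, map_zero]
  have hgss := PowerSeries.HasSubst.of_constantCoeff_zero' hg0
  -- `s.map ι`
  have e1 : PowerSeries.map ι s = fadd (HO p n n (Ob K)) PowerSeries.X
      (PowerSeries.subst (PowerSeries.map ι β) (mulSeries (HO p n n (Ob K)) (p ^ i))) := by
    have h1 := map_fadd ι (Fn p n) (PowerSeries.X : PowerSeries (GaloisField p n))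
      (PowerSeries.subst β (mulSeries (Fn p n) (p ^ i))) mvConstantCoeff_X
      (constantCoeff_psubst hβ0 (constantCoeff_mulSeries _ _))
    rw [hFn] at h1
    refine h1.trans ?_
    have h2 : (MvPowerSeries.map ι (PowerSeries.X : PowerSeries (GaloisField p n)) :
      MvPowerSeries Unit _) = (PowerSeries.X : PowerSeries _) := PowerSeries.map_X ι
    have h3 : (MvPowerSeries.map ι (PowerSeries.subst β (mulSeries (Fn p n) (p ^ i)) :
        PowerSeries (GaloisField p n)) : MvPowerSeries Unit _) =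
        PowerSeries.subst (PowerSeries.map ι β) (mulSeries (HO p n n (Ob K)) (p ^ i)) := by
      have h4 := PowerSeries.map_subst hβs (h := ι) (mulSeries (Fn p n) (p ^ i))
      refine h4.trans ?_
      rw [mulSeries_map, hFn]
      rfl
    rw [h2, h3]
  -- evaluate `s ∘ g = X` at `w`
  have e2 : ev₁ z.val (PowerSeries.map ι s) = w.val := by
    rw [hzw, ← ev₁_subst w.tn _ hgm0]
    have h5 := PowerSeries.map_subst hgss (h := ι) s
    have h6 : PowerSeries.subst (PowerSeries.map ι g) (PowerSeries.map ι s) =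
        (PowerSeries.X : PowerSeries (Ob K)) := by
      refine h5.symm.trans ?_
      rw [hgs]
      exact PowerSeries.map_X ι
    rw [h6]
    exact ev_X (fun _ => w.tn) ()
  have hzt : ∀ _ : Unit, IsTopologicallyNilpotent z.val := fun _ => z.tn
  have e3 : ev₁ z.val (PowerSeries.map ι s) = (z + (p ^ i) • (-A) z).val := by
    rw [e1]
    have h7 := FPtAux.ev_fadd (HO p n n (Ob K)) hzt (PowerSeries.X : PowerSeries (Ob K))
      (PowerSeries.subst (PowerSeries.map ι β) (mulSeries (HO p n n (Ob K)) (p ^ i)))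
      mvConstantCoeff_X (constantCoeff_psubst hβm0 (constantCoeff_mulSeries _ _))
    refine h7.trans ?_
    have h8 : ev (fun _ : Unit => z.val) (PowerSeries.X : PowerSeries (Ob K)) = z.val :=
      ev_X hzt ()
    have h9 : ev (fun _ : Unit => z.val) (PowerSeries.subst (PowerSeries.map ι β)
        (mulSeries (HO p n n (Ob K)) (p ^ i)) : PowerSeries (Ob K)) =
        ((p ^ i) • (-A) z).val := by
      rw [FPt.val_nsmul, hβA]
      exact ev₁_subst z.tn _ hβm0 _
    rw [h8, h9]
    rfl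
  apply FPt.ext
  rw [← e2, e3]
  congr 1
  rw [AddMonoidHom.neg_apply, sub_eq_add_neg, neg_nsmul]

namespace CoIneqAux

theorem nfr_neg_smul (hn : 1 ≤ n) (i : ℕ) (z : FPt (HO p n n (Ob K))) :
    nfr (-((n * i : ℕ) : ℤ)) ((p ^ i) • z) = z := by
  rw [HO_pow_smul hn le_rfl, ← nfr_add, neg_add_cancel, nfr_zero]

theorem basis_eq {x y : Mk p n h K ι} {g : PowerSeries (GaloisField p n)} (hn : 1 ≤ n)
    (hxy : OrbBy M g x y) (i : ℕ)
    {A : FPt (HO p n n (Ob K)) →+ FPt (HO p n n (Ob K))}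
    (hg : ∀ z w : FPt (HO p n n (Ob K)), z.val = ev₁ w.val (g.map ι) → w = z - (p ^ i) • A z)
    (l : Fin (n - h)) : nfr (-((n * i : ℕ) : ℤ)) (y.t l) =
      nfr (-((n * i : ℕ) : ℤ)) (x.t l) - A (x.t l) := by
  rw [hg _ _ (hxy.basis l), map_sub, nfr_neg_smul hn]

theorem norm_kap_lt (P : HPoint p n h K) (ρ : FPt (HO p n n (Ob K)) →+ FPt P.F)
    (t : Fin (n - h) → FPt (HO p n n (Ob K))) (i : ℕ) (l : Fin (n - h)) :
    ‖kap P ρ t i l‖ < 1 := by
  unfold kap
  rw [← fz_natCast, norm_fz_natCast]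
  exact pow_lt_one₀ (norm_nonneg _) (FPt.norm_lt _ _) (pow_ne_zero _ (Fact.out : p.Prime).ne_zero)

end CoIneqAux

/-- distance of the orbit point for `g = (1 - p^i α)⁻¹` -/
theorem pdist_orb_le (h1 : 1 ≤ h) (hh : h < n) (x y : Mk p n h K ι)
    (g : PowerSeries (GaloisField p n)) (hxy : OrbBy M g x y) (i : ℕ) (hi : 1 ≤ i)
    {A : FPt (HO p n n (Ob K)) →+ FPt (HO p n n (Ob K))} (hA : IsAct ι A)
    (hg : ∀ z w : FPt (HO p n n (Ob K)), z.val = ev₁ w.val (g.map ι) → w = z - (p ^ i) • A z)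
    (δ : ℝ) (hδ : ∀ l, ‖(x.ρ (A (x.t l))).val‖ ≤ δ) :
    x.P.pdist y.P ≤ δ ^ p ^ (h * i) := by
  have hp := (Fact.out : p.Prime)
  have hn : 1 ≤ n := by omega
  have hδ0 : 0 ≤ δ := (norm_nonneg _).trans (hδ ⟨0, by omega⟩)
  set d := x.P.pdist y.P with hd
  have hd0 : 0 ≤ d := x.P.pdist_nonneg y.P
  have hd1 : d < 1 := x.P.pdist_lt_one y.P
  have hQ : 1 < p ^ (h * i) := Nat.one_lt_pow (by have := Nat.mul_le_mul h1 hi; omega) hp.one_lt
  have hmax0 : 0 ≤ max d δ := le_max_of_le_left hd0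
  -- the level points
  have hkap : ∀ l, ‖kap x.P x.ρ x.t i l - kap y.P y.ρ y.t i l‖ ≤ max d δ ^ p ^ (h * i) := by
    intro l
    unfold kap
    rw [CoIneqAux.norm_sub_pow, CoIneqAux.basis_eq hn hxy i hg l]
    refine pow_le_pow_left₀ (norm_nonneg _) ?_ _
    set a := nfr (-((n * i : ℕ) : ℤ)) (x.t l) with ha
    set b := A (x.t l) with hb
    have e1 : (x.ρ a).val - (y.ρ (a - b)).val =
        ((x.ρ (a - b)).val - (y.ρ (a - b)).val) + ((x.ρ a).val - (x.ρ (a - b)).val) := by ring
    rw [e1]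
    refine (IsUltrametricDist.norm_add_le_max _ _).trans (max_le_max ?_ ?_)
    · exact x.hρ.dist_le h1 hh y.hρ _
    · rw [← FPt.norm_sub, ← map_sub, sub_sub_cancel]
      exact hδ l
  have hpd : d ≤ max d δ ^ p ^ (h * i) := by
    refine x.P.pdist_le y.P _ (pow_nonneg hmax0 _) fun j hj1 hj2 => ?_
    obtain ⟨F, hF⟩ := drinfeld (p := p) h1 hh i hi (upt p n j)
    rw [hF K ι x, hF K ι y]
    exact norm_ev_sub_le (fun l => CoIneqAux.norm_kap_lt _ _ _ _ _)
      (fun l => CoIneqAux.norm_kap_lt _ _ _ _ _) _ (pow_nonneg hmax0 _) hkap _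
  rcases le_total d δ with hle | hle
  · rwa [max_eq_right hle] at hpd
  · rw [max_eq_left hle] at hpd
    have hd00 : d = 0 := by
      by_contra hne
      have hpos : 0 < d := lt_of_le_of_ne hd0 (Ne.symm hne)
      exact absurd hpd (not_le.2 (pow_lt_self_of_lt_one₀ hpos hd1 hQ))
    rw [hd00]
    exact pow_nonneg hδ0 _

/-- **key inequality** -/
theorem key_ineq (hn : 1 ≤ n) (hU : IsUniversalDeformation p n (Fn p n) (H1 p n))
    (h1 : 1 ≤ h) (hh : h < n) (hM : 1 ≤ M) (x : Mk p n h K ι) (i : ℕ) (hi : 1 ≤ i)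
    (hMi : M ≤ p ^ (n * i)) (G : MvPowerSeries (Fin (n - h)) (GaloisField p n))
    (hG : ∀ y, Orb M x y → ev (kap y.P y.ρ y.t i) (G.map ι) = 0)
    {A : FPt (HO p n n (Ob K)) →+ FPt (HO p n n (Ob K))} (hA : IsAct ι A)
    (δ : ℝ) (hδ : ∀ l, ‖(x.ρ (A (x.t l))).val‖ ≤ δ) :
    ‖ev (fun l => (x.ρ (nfr (-((n * i : ℕ) : ℤ)) (x.t l)) - x.ρ (A (x.t l))).val)
      ((G.map ι).map (fz p (-((h * i : ℕ) : ℤ)) : Ob K ≃+* Ob K).toRingHom)‖
      ≤ δ ^ p ^ (h * i) := by
  obtain ⟨g, hg, hgM, hgA⟩ := exists_one_sub (M := M) hn i hi hMi hA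
  obtain ⟨y, hxy⟩ := exists_orbBy hn hU h1 hh hM x g hg hgM
  have hy0 := hG y ⟨g, hxy⟩
  have hdist := pdist_orb_le h1 hh x y g hxy i hi hA hgA δ hδ
  have hd0 : 0 ≤ x.P.pdist y.P := x.P.pdist_nonneg y.P
  refine le_trans ?_ hdist
  set w : Fin (n - h) → FPt (HO p n n (Ob K)) := fun l => nfr (-((n * i : ℕ) : ℤ)) (y.t l) with hw
  have hwl : ∀ l, (x.ρ (nfr (-((n * i : ℕ) : ℤ)) (x.t l)) - x.ρ (A (x.t l))).val =
      (x.ρ (w l)).val := by
    intro l
    rw [hw, ← map_sub]
    simp only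
    rw [CoIneqAux.basis_eq hn hxy i hgA l]
  simp only [hwl]
  set G' := (G.map ι).map (fz p (-((h * i : ℕ) : ℤ)) : Ob K ≃+* Ob K).toRingHom with hG'
  have hv : ev (fun l => (y.ρ (w l)).val) G' = 0 := by
    have e1 := map_ev (a := kap y.P y.ρ y.t i)
      (fun l => (Ob_tn_iff _).2 (CoIneqAux.norm_kap_lt _ _ _ _ l))
      (fz p (-((h * i : ℕ) : ℤ)) : Ob K ≃+* Ob K).toRingHom (continuous_fz _) (G.map ι)
    rw [hy0, map_zero] at e1
    have e2 : (fun l => (fz p (-((h * i : ℕ) : ℤ)) : Ob K ≃+* Ob K).toRingHom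
        (kap y.P y.ρ y.t i l)) = fun l => (y.ρ (w l)).val := by
      funext l
      unfold kap
      change fz p (-((h * i : ℕ) : ℤ)) ((y.ρ (w l)).val ^ p ^ (h * i)) = _
      rw [← fz_natCast, ← fz_add, neg_add_cancel, fz_zero]
      rfl
    rw [e2] at e1
    exact e1.symm
  have e3 : ev (fun l => (x.ρ (w l)).val) G' =
      ev (fun l => (x.ρ (w l)).val) G' - ev (fun l => (y.ρ (w l)).val) G' := by
    rw [hv, sub_zero]
  rw [e3]
  exact norm_ev_sub_le (fun l => FPt.norm_lt _ _) (fun l => FPt.norm_lt _ _) _ hd0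
    (fun l => x.hρ.dist_le h1 hh y.hρ _) _

end Crest.Agent.R227
end
end

-- ▼ part R227/CoDri2
section

/-! # R227 / CoDri2 : existence of marked points (task CODRI2) -/

set_option autoImplicit false
set_option linter.unusedSectionVars false

noncomputable section

namespace Crest.Agent.R227

open Crest.LubinTate MvPowerSeries Topology

/-- if `f ∉ II h` the series is not zero: there is a marked point with `X f ≠ 0` (`PointsP`
with `s = f u_h`, `exists_iota`, `exists_rho`, `exists_tbasis`). -/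
theorem exists_mk_ne {p : ℕ} [Fact p.Prime] {n h : ℕ}
    (h1 : 1 ≤ h) (hh : h < n) (f : LTRing p n) (hf : f ∉ II p n h) :
    ∃ (K : Type) (_ : NontriviallyNormedField K) (_ : IsUltrametricDist K) (_ : CompleteSpace K)
      (_ : IsAlgClosed K) (_ : CharP K p) (ι : GaloisField p n →+* Ob K) (x : Mk p n h K ι),
      x.P.X f ≠ 0 := by
  have hn : 1 ≤ n := by omega
  have hprime := II_isPrime p n hn h hh.le
  have hu : uu p n h ∉ II p n h := by
    rw [mem_II_iff p n h1 hh.le, killHom_eq_zero_iff]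
    intro hd
    have h2 := hd (Finsupp.single ⟨h - 1, by omega⟩ 1) (fun i hi => by
      rw [Finsupp.single_apply, if_neg]
      intro h3
      have := congrArg Fin.val h3
      simp only at this
      omega)
    rw [uu_of_lt p n h1 hh, coeff_X, if_pos rfl] at h2
    simp at h2
  have hs : f * uu p n h ∉ II p n h := by
    intro h2
    rcases hprime.mem_or_mem h2 with h3 | h3
    · exact hf h3
    · exact hu h3
  have hres : LTRing.residue p n (uu p n h) = 0 := by
    rw [← mem_II_n p n hn]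
    exact Ideal.subset_span ⟨h, hh, rfl⟩
  have hsm : LTRing.residue p n (f * uu p n h) = 0 := by
    rw [map_mul, hres, mul_zero]
  obtain ⟨K, i1, i2, i3, i4, i5, X, hX1, hX2, hX3⟩ :=
    exists_point_p p n hn (II p n h) hprime.isRadical (p_mem_II p n h1) (f * uu p n h) hs hsm
  rw [map_mul] at hX2
  let P : HPoint p n h K := ⟨X, hX3, hX1, right_ne_zero_of_mul hX2⟩
  obtain ⟨ι, hι⟩ := exists_iota P
  obtain ⟨ρ, hρ⟩ := exists_rho h1 hh P
  obtain ⟨t, ht⟩ := exists_tbasis h1 hh hρ
  exact ⟨K, i1, i2, i3, i4, i5, ι, ⟨P, hι, ρ, hρ, t, ht⟩, left_ne_zero_of_mul hX2⟩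

end Crest.Agent.R227
end
end

-- ▼ part R227/CoPhi
section

/-! # R227 / CoPhi : series with nonzero linear part at some orbit point (task COPHI),
part (C) of note 4224 -/

set_option autoImplicit false
set_option linter.unusedSectionVars false

noncomputable section

namespace Crest.Agent.R227

open Crest.LubinTate MvPowerSeries Topology

variable {p : ℕ} [Fact p.Prime] {n h : ℕ}
variable {K : Type} [NontriviallyNormedField K] [IsUltrametricDist K] [CompleteSpace K]
  [IsAlgClosed K] [CharP K p]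

variable {ι : GaloisField p n →+* Ob K} {M : ℕ}

namespace CoPhiAux

theorem kap_tn (x : Mk p n h K ι) (i : ℕ) (l : Fin (n - h)) :
    IsTopologicallyNilpotent (kap x.P x.ρ x.t i l) :=
  FPtAux.map_tn (iterateFrobenius (Ob K) p (h * i)) (FPtAux.continuous_frob p _)
    (x.ρ (nfr (-((n * i : ℕ) : ℤ)) (x.t l))).tn

/-- the ideal of the series vanishing at the level points of the orbit -/
def orbIdeal (M : ℕ) (x : Mk p n h K ι) (i : ℕ) :
    Ideal (MvPowerSeries (Fin (n - h)) (GaloisField p n)) where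
  carrier := {G | ∀ y, Orb M x y → ev (kap y.P y.ρ y.t i) (G.map ι) = 0}
  add_mem' := by
    intro a b ha hb y hy
    rw [map_add, ev_add (kap_tn y i), ha y hy, hb y hy, add_zero]
  zero_mem' := by
    intro y _
    rw [map_zero, ev_zero (kap_tn y i)]
  smul_mem' := by
    intro c a ha y hy
    rw [smul_eq_mul, map_mul, ev_mul (kap_tn y i), ha y hy, mul_zero]

theorem mem_orbIdeal (x : Mk p n h K ι) (i : ℕ)
    (G : MvPowerSeries (Fin (n - h)) (GaloisField p n)) :
    G ∈ orbIdeal M x i ↔ ∀ y, Orb M x y → ev (kap y.P y.ρ y.t i) (G.map ι) = 0 := Iff.rfl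

theorem coeff_one_fneg {R : Type*} [CommRing R] (F : FormalGroup R) :
    PowerSeries.coeff 1 (fnegSeries F) = -1 := by
  have h0 : fadd F PowerSeries.X (fnegSeries F) = (0 : PowerSeries R) :=
    (exists_fneg F).choose_spec.2.1
  have h1 := coeff_fadd_low F (PowerSeries.X : PowerSeries R) (fnegSeries F) 1 le_rfl
    (by intro i hi; obtain rfl : i = 0 := by omega
        simp)
    (by intro i hi; obtain rfl : i = 0 := by omega
        rw [PowerSeries.coeff_zero_eq_constantCoeff_apply, constantCoeff_fnegSeries]) 1 le_rfl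
  have h2 : PowerSeries.coeff 1 (fadd F PowerSeries.X (fnegSeries F) : PowerSeries R) = 0 := by
    rw [h0, map_zero]
  rw [h2, PowerSeries.coeff_one_X] at h1
  exact (neg_eq_of_add_eq_zero_right h1.symm).symm

theorem map_pderiv' {σ A B : Type*} [CommRing A] [CommRing B] (φ : A →+* B) (i : σ)
    (f : MvPowerSeries σ A) : (pderiv A i f).map φ = pderiv B i (f.map φ) := by
  ext d
  rw [coeff_map, coeff_pderiv, coeff_pderiv, coeff_map, map_mul, map_add, map_natCast, map_one]

theorem ev_zero_eq {σ : Type*} [Finite σ] (f : MvPowerSeries σ (Ob K)) :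
    ev (fun _ => (0 : Ob K)) f = constantCoeff f := by
  have h := Circuit.constantCoeff_ev (σ := σ) (K := K) (τ := σ)
    (fun _ => (0 : MvPowerSeries σ (Ob K))) (by simp) f
  simp only [map_zero] at h
  rw [← h, ev_eq_subst _ (by simp)]
  have h1 := MvPowerSeries.subst_zero_of_constantCoeff_zero
    (σ := σ) (τ := σ) (R := Ob K) (S := Ob K) (f := f - C (constantCoeff f)) (by simp)
  have hs : HasSubst (0 : σ → MvPowerSeries σ (Ob K)) := hasSubst_of_constantCoeff_zero (by simp)
  have h2 : MvPowerSeries.subst (0 : σ → MvPowerSeries σ (Ob K)) f =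
      MvPowerSeries.subst (0 : σ → MvPowerSeries σ (Ob K)) (C (constantCoeff f)) := by
    rw [← sub_eq_zero, ← h1, ← coe_substAlgHom hs, map_sub]
  have h3 : (fun _ : σ => (0 : MvPowerSeries σ (Ob K))) = 0 := rfl
  rw [h3, h2, MvPowerSeries.subst_C, constantCoeff_C]

section neg

open scoped MvPowerSeries.WithPiTopology

/-- the series `f(-Y)` -/
def negSer (F : FormalGroup (Ob K)) {σ : Type*} (f : MvPowerSeries σ (Ob K)) :
    MvPowerSeries σ (Ob K) :=
  ev (fun l => PowerSeries.subst (X l : MvPowerSeries σ (Ob K)) (fnegSeries F))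
    (f.map (C : Ob K →+* MvPowerSeries σ (Ob K)))

theorem cc_T (F : FormalGroup (Ob K)) {σ : Type*} (l : σ) :
    constantCoeff (PowerSeries.subst (X l : MvPowerSeries σ (Ob K)) (fnegSeries F)) = 0 :=
  PowerSeries.constantCoeff_subst_eq_zero (by simp) _ (constantCoeff_fnegSeries F)

theorem ev_negSer (F : FormalGroup (Ob K)) {σ : Type*} [Finite σ] {a : σ → Ob K}
    (ha : ∀ l, ‖a l‖ < 1) (f : MvPowerSeries σ (Ob K)) :
    ev a (negSer F f) = ev (fun l => ev₁ (a l) (fnegSeries F)) f := by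
  have hat : ∀ i, IsTopologicallyNilpotent (a i) := fun i => (Ob_tn_iff _).2 (ha i)
  unfold negSer
  rw [ev_ev _ (fun l => by rw [cc_T]; simp) ha]
  congr 1
  funext l
  rw [ev_subst₁ hat _ (by simp), ev_X hat]

theorem coeff_negSer (F : FormalGroup (Ob K)) {σ : Type*} [Finite σ]
    (f : MvPowerSeries σ (Ob K)) (l : σ) :
    coeff (Finsupp.single l 1) (negSer F f) = - coeff (Finsupp.single l 1) f := by
  classical
  have := Fintype.ofFinite σ
  unfold negSer
  rw [Circuit.coeff_single_ev _ (fun l => by rw [cc_T]; simp)]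
  have h1 : ∀ k : σ, coeff (Finsupp.single l 1)
      (PowerSeries.subst (X k : MvPowerSeries σ (Ob K)) (fnegSeries F)) =
      if k = l then -1 else 0 := by
    intro k
    rw [FEAux.coeff_single_psubst _ (by simp), coeff_one_fneg, coeff_X]
    by_cases hkl : k = l
    · subst hkl; simp
    · rw [if_neg, if_neg hkl, mul_zero]
      intro h
      exact hkl ((Finsupp.single_left_inj (one_ne_zero)).1 h).symm
  simp only [h1, cc_T, mul_ite, mul_neg, mul_one, mul_zero, Finset.sum_ite_eq', Finset.mem_univ,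
    if_true]
  rw [ev_zero_eq, ← coeff_zero_eq_constantCoeff_apply, coeff_pderiv, zero_add]
  simp

end neg

end CoPhiAux

open CoPhiAux

/-- The ideal of the series vanishing at the level points of the orbit is a nonzero proper radical
ideal; by `exists_pderiv_not_mem` there are `G` in it, `l`, and an orbit point `y` with
`(∂_l G)(κ(y)) ≠ 0`. -/
theorem exists_gradient (hn : 1 ≤ n) (h1 : 1 ≤ h) (hh : h < n) (x : Mk p n h K ι) (i : ℕ)
    (hi : 1 ≤ i) (f : LTRing p n) (hf : f ∉ II p n h)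
    (hkill : ∀ φ, IsStab p n M φ → x.P.X (φ f) = 0) :
    ∃ G : MvPowerSeries (Fin (n - h)) (GaloisField p n),
      (∀ y, Orb M x y → ev (kap y.P y.ρ y.t i) (G.map ι) = 0) ∧
      ∃ y, Orb M x y ∧ ∃ l, ev (kap y.P y.ρ y.t i) ((pderiv (GaloisField p n) l G).map ι) ≠ 0 := by
  classical
  have hrad : (orbIdeal M x i).IsRadical := by
    intro G hG
    obtain ⟨m, hm⟩ := hG
    intro y hy
    have h2 := hm y hy
    rw [map_pow, ev_pow (kap_tn y i)] at h2
    exact eq_zero_of_pow_eq_zero h2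
  have htop : orbIdeal M x i ≠ ⊤ := by
    intro h2
    have h3 : (1 : MvPowerSeries (Fin (n - h)) (GaloisField p n)) ∈ orbIdeal M x i := by
      rw [h2]; exact Submodule.mem_top
    have h4 := h3 x (Orb.refl hn x)
    rw [map_one, ev_one (kap_tn x i)] at h4
    exact one_ne_zero h4
  have hbot : orbIdeal M x i ≠ ⊥ := by
    obtain ⟨F, hF⟩ := drinfeld h1 hh i hi f
    intro h2
    have h3 : F ∈ orbIdeal M x i := by
      intro y hy
      rw [← hF K ι y]
      exact hy.kill hkill
    rw [h2, Ideal.mem_bot] at h3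
    obtain ⟨K', i1, i2, i3, i4, i5, ι', x', hx'⟩ := exists_mk_ne h1 hh f hf
    apply hx'
    rw [hF K' ι' x', h3, map_zero, ev_zero (kap_tn x' i)]
  obtain ⟨G, hG, l, hl⟩ := exists_pderiv_not_mem p (orbIdeal M x i) hrad hbot htop
  refine ⟨G, hG, ?_⟩
  rw [mem_orbIdeal] at hl
  push Not at hl
  obtain ⟨y, hy, hne⟩ := hl
  exact ⟨y, hy, l, hne⟩

theorem exists_phi (hn : 1 ≤ n) (hU : IsUniversalDeformation p n (Fn p n) (H1 p n))
    (h1 : 1 ≤ h) (hh : h < n) (hM : 1 ≤ M) (x : Mk p n h K ι) (i : ℕ) (hi : 1 ≤ i)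
    (hMi : M ≤ p ^ (n * i)) (f : LTRing p n) (hf : f ∉ II p n h)
    (hkill : ∀ φ, IsStab p n M φ → x.P.X (φ f) = 0) :
    ∃ y, Orb M x y ∧ ∃ Φ : MvPowerSeries (Fin (n - h)) (Ob K),
      (∃ l, coeff (Finsupp.single l 1) Φ ≠ 0) ∧
      ∀ A, IsAct ι A → ∀ δ : ℝ, (∀ l, ‖(y.ρ (A (y.t l))).val‖ ≤ δ) →
        ‖ev (fun l => (y.ρ (A (y.t l))).val) Φ‖ ≤ δ ^ p ^ (h * i) := by
  obtain ⟨G, hG, y, hy, l, hl⟩ := exists_gradient hn h1 hh x i hi f hf hkill
  refine ⟨y, hy, ?_⟩
  have hGy : ∀ w, Orb M y w → ev (kap w.P w.ρ w.t i) (G.map ι) = 0 := fun w hw =>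
    hG w (hy.trans hw)
  set kh : Fin (n - h) → FPt y.P.F := fun l => y.ρ (nfr (-((n * i : ℕ) : ℤ)) (y.t l)) with hkh
  set G' : MvPowerSeries (Fin (n - h)) (Ob K) :=
    (G.map ι).map (fz p (-((h * i : ℕ) : ℤ)) : Ob K ≃+* Ob K).toRingHom with hG'
  have hkhn : ∀ l, ‖(kh l).val‖ < 1 := fun l => FPt.norm_lt _ _
  refine ⟨negSer y.P.F (Circuit.translate y.P.F (fun l => (kh l).val) G'), ⟨l, ?_⟩, ?_⟩
  · rw [coeff_negSer, neg_ne_zero]
    obtain ⟨u, hu, hu2⟩ := Circuit.coeff_translate y.P.F (e₀ := fun l => (kh l).val) hkhn G' l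
    rw [hu2]
    refine mul_ne_zero ?_ hu
    have h2 := map_ev (kap_tn y i) (fz p (-((h * i : ℕ) : ℤ)) : Ob K ≃+* Ob K).toRingHom
      (continuous_fz _) ((pderiv (GaloisField p n) l G).map ι)
    have h3 : (fun j => (fz p (-((h * i : ℕ) : ℤ)) : Ob K ≃+* Ob K).toRingHom
        (kap y.P y.ρ y.t i j)) = fun l => (kh l).val := by
      funext j
      have h4 := fz_natCast (p := p) (h * i) (kh j).val
      change fz p (-((h * i : ℕ) : ℤ)) (kap y.P y.ρ y.t i j) = (kh j).val
      rw [kap, ← h4, ← fz_add, neg_add_cancel, fz_zero]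
      rfl
    rw [h3, map_pderiv', map_pderiv', ← hG'] at h2
    rw [← h2]
    intro h5
    apply hl
    rw [map_pderiv'] at *
    exact (map_eq_zero_iff _ (RingEquiv.injective _)).1 h5
  · intro A hA δ hδ
    have hAn : ∀ l, ‖(y.ρ (A (y.t l))).val‖ < 1 := fun l => FPt.norm_lt _ _
    have hneg : ∀ l, ‖ev₁ (y.ρ (A (y.t l))).val (fnegSeries y.P.F)‖ < 1 := fun l =>
      FPt.norm_lt _ (-(y.ρ (A (y.t l))))
    rw [ev_negSer _ hAn, Circuit.ev_translate _ hkhn hneg]
    have h2 := key_ineq hn hU h1 hh hM y i hi hMi G hGy hA δ hδ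
    convert h2 using 3
    funext l
    rw [sub_eq_add_neg]
    rfl

end Crest.Agent.R227
end
end

-- ▼ part R227/CoApproxAux

/-! # R227 / CoApproxAux : approximate formal inverses (for task COAPPROX2) -/

set_option autoImplicit false
set_option linter.unusedSectionVars false

noncomputable section

namespace Crest.Agent.R227

open MvPowerSeries Topology

namespace CoApproxAux

/-- a polynomial which is, up to a nonzero constant `b`, an approximate compositional inverse -/
theorem exists_approx_inv {R : Type*} [CommRing R] [IsDomain R] (ψ : PowerSeries R)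
    (h0 : PowerSeries.constantCoeff ψ = 0) (h1 : PowerSeries.coeff 1 ψ ≠ 0) (m : ℕ) :
    ∃ (b : R) (P : Polynomial R), b ≠ 0 ∧ P.coeff 0 = 0 ∧ P.coeff 1 ≠ 0 ∧
      (PowerSeries.X : PowerSeries R) ^ (m + 2) ∣
        Polynomial.aeval ψ P - PowerSeries.C b * PowerSeries.X := by
  obtain ⟨ψ', hψ'⟩ : (PowerSeries.X : PowerSeries R) ∣ ψ := PowerSeries.X_dvd_iff.2 h0
  have ha : PowerSeries.constantCoeff ψ' = PowerSeries.coeff 1 ψ := by
    rw [hψ', show (1 : ℕ) = 0 + 1 from rfl, PowerSeries.coeff_succ_X_mul,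
      PowerSeries.coeff_zero_eq_constantCoeff]
  have hpow : ∀ k j : ℕ, j < k → PowerSeries.coeff j (ψ ^ k) = 0 := by
    intro k j hj
    refine PowerSeries.X_pow_dvd_iff.1 ?_ j hj
    exact pow_dvd_pow_of_dvd ⟨ψ', hψ'⟩ k
  have hpow' : ∀ k : ℕ, PowerSeries.coeff k (ψ ^ k) = PowerSeries.coeff 1 ψ ^ k := by
    intro k
    have h2 : ψ ^ k = ψ' ^ k * PowerSeries.X ^ k := by rw [hψ', mul_pow, mul_comm]
    have h3 := PowerSeries.coeff_mul_X_pow (ψ' ^ k) k 0
    rw [zero_add] at h3
    rw [h2, h3, PowerSeries.coeff_zero_eq_constantCoeff, map_pow, ha]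
  induction m with
  | zero =>
    refine ⟨PowerSeries.coeff 1 ψ, Polynomial.X, h1, Polynomial.coeff_X_zero, ?_, ?_⟩
    · rw [Polynomial.coeff_X_one]; exact one_ne_zero
    · rw [Polynomial.aeval_X, PowerSeries.X_pow_dvd_iff]
      intro j hj
      rw [map_sub, PowerSeries.coeff_C_mul]
      have hj' : j = 0 ∨ j = 1 := by omega
      rcases hj' with rfl | rfl
      · rw [PowerSeries.coeff_zero_X, mul_zero, PowerSeries.coeff_zero_eq_constantCoeff_apply, h0,
          sub_zero]
      · rw [PowerSeries.coeff_one_X, mul_one, sub_self]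
  | succ m ih =>
    obtain ⟨b, P, hb, hP0, hP1, hd⟩ := ih
    set a := PowerSeries.coeff 1 ψ with ha'
    set Δ := Polynomial.aeval ψ P - PowerSeries.C b * PowerSeries.X with hΔ
    set c := PowerSeries.coeff (m + 2) Δ with hc
    have ham : a ^ (m + 2) ≠ 0 := pow_ne_zero _ h1
    refine ⟨a ^ (m + 2) * b, Polynomial.C (a ^ (m + 2)) * P - Polynomial.C c * Polynomial.X ^ (m + 2),
      mul_ne_zero ham hb, ?_, ?_, ?_⟩
    · rw [Polynomial.coeff_sub, Polynomial.coeff_C_mul, Polynomial.coeff_C_mul,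
        Polynomial.coeff_X_pow, if_neg (by omega), hP0, mul_zero, mul_zero, sub_zero]
    · rw [Polynomial.coeff_sub, Polynomial.coeff_C_mul, Polynomial.coeff_C_mul,
        Polynomial.coeff_X_pow, if_neg (by omega), mul_zero, sub_zero]
      exact mul_ne_zero ham hP1
    · have h2 : Polynomial.aeval ψ (Polynomial.C (a ^ (m + 2)) * P -
            Polynomial.C c * Polynomial.X ^ (m + 2)) -
            PowerSeries.C (a ^ (m + 2) * b) * PowerSeries.X =
          PowerSeries.C (a ^ (m + 2)) * Δ - PowerSeries.C c * ψ ^ (m + 2) := by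
        have h3 : ∀ r : R, algebraMap R (PowerSeries R) r = PowerSeries.C r := fun r => rfl
        have h4 : Polynomial.aeval ψ (Polynomial.C (a ^ (m + 2)) * P -
            Polynomial.C c * Polynomial.X ^ (m + 2)) =
            PowerSeries.C (a ^ (m + 2)) * Polynomial.aeval ψ P - PowerSeries.C c * ψ ^ (m + 2) := by
          rw [← h3, ← h3]
          simp only [map_sub, map_mul, Polynomial.aeval_C, Polynomial.aeval_X_pow]
        rw [h4, hΔ, (PowerSeries.C (R := R)).map_mul]
        ring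
      rw [h2, PowerSeries.X_pow_dvd_iff]
      intro j hj
      rw [map_sub, PowerSeries.coeff_C_mul, PowerSeries.coeff_C_mul]
      rcases Nat.lt_or_ge j (m + 2) with hj' | hj'
      · rw [hpow _ _ hj', PowerSeries.X_pow_dvd_iff.1 hd j hj', mul_zero, mul_zero, sub_zero]
      · have hj2 : j = m + 2 := by omega
        subst hj2
        rw [hpow', ← hc, mul_comm, sub_self]

open Classical in
/-- linear coefficients under composition -/
theorem coeff_bind₁ {K : Type*} [Field K] {σ : Type*} (g : σ → MvPolynomial σ K)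
    (hg0 : ∀ j, (g j).coeff 0 = 0) (l : σ) (c : K)
    (hg1 : ∀ j, (g j).coeff (Finsupp.single l 1) = if j = l then c else 0)
    (T : MvPolynomial σ K) :
    (MvPolynomial.bind₁ g T).coeff 0 = T.coeff 0 ∧
    (MvPolynomial.bind₁ g T).coeff (Finsupp.single l 1) = c * T.coeff (Finsupp.single l 1) := by
  have hmul0 : ∀ A B : MvPolynomial σ K, (A * B).coeff 0 = A.coeff 0 * B.coeff 0 := by
    intro A B
    simp only [← MvPolynomial.constantCoeff_eq, map_mul]
  have hmul1 : ∀ A B : MvPolynomial σ K, (A * B).coeff (Finsupp.single l 1) =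
      A.coeff 0 * B.coeff (Finsupp.single l 1) + A.coeff (Finsupp.single l 1) * B.coeff 0 := by
    intro A B
    rw [MvPolynomial.coeff_mul, Finsupp.antidiagonal_single]
    rw [Finset.sum_map]
    simp [Finset.Nat.antidiagonal_succ]
  induction T using MvPolynomial.induction_on with
  | C a =>
    rw [MvPolynomial.bind₁_C_right]
    refine ⟨rfl, ?_⟩
    rw [MvPolynomial.coeff_C, if_neg, mul_zero]
    intro h
    have := congrArg (fun f => f l) h
    simp at this
  | add p q hp hq =>
    rw [map_add, MvPolynomial.coeff_add, MvPolynomial.coeff_add, MvPolynomial.coeff_add,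
      MvPolynomial.coeff_add, hp.1, hp.2, hq.1, hq.2]
    exact ⟨rfl, by ring⟩
  | mul_X p j hp =>
    rw [map_mul, MvPolynomial.bind₁_X_right, hmul0, hmul0, hmul1, hmul1, hg0, hg1, hp.1, hp.2]
    have hX0 : (MvPolynomial.X j : MvPolynomial σ K).coeff 0 = 0 := by
      rw [← MvPolynomial.constantCoeff_eq, MvPolynomial.constantCoeff_X]
    rw [hX0]
    refine ⟨by ring, ?_⟩
    rw [MvPolynomial.coeff_X]
    by_cases hjl : j = l
    · subst hjl; rw [if_pos rfl, if_pos rfl]; ring
    · rw [if_neg hjl, if_neg (fun h => hjl ((Finsupp.single_left_inj one_ne_zero).1 h))]; ring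

section analysis

variable {K : Type*} [NormedField K] [IsUltrametricDist K] [CompleteSpace K]

theorem Ob_norm_mul (a b : Ob K) : ‖a * b‖ = ‖a‖ * ‖b‖ := by
  change ‖((a * b : Ob K) : K)‖ = ‖(a : K)‖ * ‖(b : K)‖
  rw [Subring.coe_mul, norm_mul]

theorem Ob_norm_pow (a : Ob K) (k : ℕ) : ‖a ^ k‖ = ‖a‖ ^ k := by
  change ‖((a ^ k : Ob K) : K)‖ = ‖(a : K)‖ ^ k
  rw [Subring.coe_pow, norm_pow]

theorem Ob_add_le (a b : Ob K) : ‖a + b‖ ≤ max ‖a‖ ‖b‖ := by
  change ‖((a + b : Ob K) : K)‖ ≤ max ‖(a : K)‖ ‖(b : K)‖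
  rw [Subring.coe_add]
  exact IsUltrametricDist.norm_add_le_max _ _

/-- a power series divisible by `X ^ k` -/
theorem norm_ev₁_le_pow {x : Ob K} (hx : ‖x‖ < 1) (k : ℕ) (f : PowerSeries (Ob K))
    (hf : (PowerSeries.X : PowerSeries (Ob K)) ^ k ∣ f) : ‖ev₁ x f‖ ≤ ‖x‖ ^ k := by
  obtain ⟨g, rfl⟩ := hf
  have hxt : ∀ _ : Unit, IsTopologicallyNilpotent x := fun _ => (Ob_tn_iff x).2 hx
  have h1 : ev₁ x ((PowerSeries.X : PowerSeries (Ob K)) ^ k * g) = x ^ k * ev₁ x g := by
    have h2 := ev_mul hxt ((PowerSeries.X : PowerSeries (Ob K)) ^ k) g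
    have h3 := ev_pow hxt (PowerSeries.X : PowerSeries (Ob K)) k
    have h4 : ev (fun _ : Unit => x) (PowerSeries.X : PowerSeries (Ob K)) = x := ev_X hxt ()
    rw [h4] at h3
    rw [h3] at h2
    exact h2
  rw [h1, Ob_norm_mul, Ob_norm_pow]
  exact mul_le_of_le_one_right (pow_nonneg (norm_nonneg _) _) (Ob_norm_le_one _)

theorem ev₁_aeval {x : Ob K} (hx : ‖x‖ < 1) (ψ : PowerSeries (Ob K)) (P : Polynomial (Ob K)) :
    ev₁ x (Polynomial.aeval ψ P) = P.eval (ev₁ x ψ) := by
  have hxt : ∀ _ : Unit, IsTopologicallyNilpotent x := fun _ => (Ob_tn_iff x).2 hx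
  rw [ev₁, ← evHom_apply hxt, Polynomial.aeval_def]
  have h1 := Polynomial.hom_eval₂ P (algebraMap (Ob K) (PowerSeries (Ob K))) (evHom hxt) ψ
  refine h1.trans ?_
  rw [Polynomial.eval, evHom_apply hxt]
  congr 1
  refine RingHom.ext fun r => ?_
  rw [RingHom.comp_apply, evHom_apply hxt]
  exact ev_C hxt r

theorem norm_ev₁_sub_le {x : Ob K} (hx : ‖x‖ < 1) (ψ : PowerSeries (Ob K))
    (P : Polynomial (Ob K)) (b : Ob K) (k : ℕ)
    (hf : (PowerSeries.X : PowerSeries (Ob K)) ^ k ∣
      Polynomial.aeval ψ P - PowerSeries.C b * PowerSeries.X) :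
    ‖P.eval (ev₁ x ψ) - b * x‖ ≤ ‖x‖ ^ k := by
  have hxt : ∀ _ : Unit, IsTopologicallyNilpotent x := fun _ => (Ob_tn_iff x).2 hx
  have h1 := norm_ev₁_le_pow hx k _ hf
  have h2 : ev₁ x (Polynomial.aeval ψ P - PowerSeries.C b * PowerSeries.X) =
      P.eval (ev₁ x ψ) - b * x := by
    have h3 := ev_sub hxt (Polynomial.aeval ψ P) (PowerSeries.C b * PowerSeries.X)
    have h4 := ev_mul hxt (PowerSeries.C b) (PowerSeries.X : PowerSeries (Ob K))
    have h5 : ev (fun _ : Unit => x) (PowerSeries.X : PowerSeries (Ob K)) = x := ev_X hxt ()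
    have h6 : ev (fun _ : Unit => x) (PowerSeries.C b : PowerSeries (Ob K)) = b := ev_C hxt b
    rw [h5, h6] at h4
    rw [h4] at h3
    refine h3.trans ?_
    rw [← ev₁_aeval hx]
  rwa [h2] at h1

/-- near `0`, `ψ` scales the norm by `‖coeff 1 ψ‖` -/
theorem le_norm_ev₁ {ψ : PowerSeries (Ob K)} (h0 : PowerSeries.constantCoeff ψ = 0)
    {x : Ob K} (hx : ‖x‖ < ‖PowerSeries.coeff 1 ψ‖) :
    ‖x‖ * ‖PowerSeries.coeff 1 ψ‖ ≤ ‖ev₁ x ψ‖ := by
  have hx1 : ‖x‖ < 1 := hx.trans_le (Ob_norm_le_one _)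
  by_contra hlt
  push Not at hlt
  have hxpos : 0 < ‖x‖ := by
    rcases (norm_nonneg x).eq_or_lt with h | h
    · rw [← h, zero_mul] at hlt
      exact absurd hlt (not_lt.2 (norm_nonneg _))
    · exact h
  have h1 := norm_ev₁_sub_le hx1 ψ Polynomial.X (PowerSeries.coeff 1 ψ) 2 (by
    rw [Polynomial.aeval_X, PowerSeries.X_pow_dvd_iff]
    intro j hj
    rw [map_sub, PowerSeries.coeff_C_mul]
    have hj' : j = 0 ∨ j = 1 := by omega
    rcases hj' with rfl | rfl
    · rw [PowerSeries.coeff_zero_X, mul_zero, PowerSeries.coeff_zero_eq_constantCoeff_apply, h0,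
        sub_zero]
    · rw [PowerSeries.coeff_one_X, mul_one, sub_self])
  rw [Polynomial.eval_X] at h1
  have h2 : PowerSeries.coeff 1 ψ * x = ev₁ x ψ + -(ev₁ x ψ - PowerSeries.coeff 1 ψ * x) := by ring
  have h3 : ‖PowerSeries.coeff 1 ψ * x‖ < ‖x‖ * ‖PowerSeries.coeff 1 ψ‖ := by
    conv_lhs => rw [h2]
    refine (Ob_add_le _ _).trans_lt (max_lt hlt ?_)
    rw [norm_neg]
    refine h1.trans_lt ?_
    rw [pow_two]
    exact mul_lt_mul_of_pos_left hx hxpos
  rw [Ob_norm_mul, mul_comm] at h3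
  exact lt_irrefl _ h3

open Classical in
/-- transport of `Φ` along an approximate inverse of `ψ` -/
theorem exists_trunc {σ : Type*} [Finite σ] {ψ : PowerSeries (Ob K)}
    (h0 : PowerSeries.constantCoeff ψ = 0) (h1 : PowerSeries.coeff 1 ψ ≠ 0) (D : ℕ)
    (Φ : MvPowerSeries σ (Ob K)) (hΦ : ∃ l, coeff (Finsupp.single l 1) Φ ≠ 0) :
    ∃ (Ψ : MvPolynomial σ K) (ε : ℝ), (∃ l, Ψ.coeff (Finsupp.single l 1) ≠ 0) ∧ 0 < ε ∧
      ∀ (η : σ → Ob K) (r : ℝ), r < 1 → (∀ l, ‖η l‖ < ε) → (∀ l, ‖η l‖ ≤ r) →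
        ‖ev η Φ‖ ≤ r ^ D →
        ‖MvPolynomial.eval (fun l => ((ev₁ (η l) ψ : Ob K) : K)) Ψ‖ ≤ r ^ D := by
  obtain ⟨b, P, hb, hP0, hP1, hd⟩ := exists_approx_inv ψ h0 h1 D
  set T : MvPolynomial σ (Ob K) := truncTotal (D + 2) Φ with hT
  have hTc : ∀ d : σ →₀ ℕ, MvPolynomial.coeff d T = if d.degree < D + 2 then coeff d Φ else 0 :=
    fun d => coeff_truncTotal_eq_ite Φ
  have hbK : (b : K) ≠ 0 := fun h => hb (Subtype.ext h)
  have hP1K : ((P.coeff 1 : Ob K) : K) ≠ 0 := fun h => hP1 (Subtype.ext h)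
  let g : σ → MvPolynomial σ K := fun l => MvPolynomial.C ((b : K)⁻¹) *
    Polynomial.aeval (MvPolynomial.X l) (P.map (Ob K).subtype)
  have hg0 : ∀ j, (g j).coeff 0 = 0 := by
    intro j
    change (MvPolynomial.C ((b : K)⁻¹) *
      Polynomial.aeval (MvPolynomial.X j) (P.map (Ob K).subtype) : MvPolynomial σ K).coeff 0 = 0
    rw [MvPolynomial.coeff_C_mul, ← MvPolynomial.constantCoeff_eq, Polynomial.aeval_def,
      Polynomial.hom_eval₂, MvPolynomial.constantCoeff_X, Polynomial.eval₂_at_zero,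
      Polynomial.coeff_map, hP0, map_zero, map_zero, mul_zero]
  have hg1 : ∀ l j, (g j).coeff (Finsupp.single l 1) =
      if j = l then ((b : K)⁻¹ * ((P.coeff 1 : Ob K) : K)) else 0 := by
    intro l j
    change (MvPolynomial.C ((b : K)⁻¹) *
      Polynomial.aeval (MvPolynomial.X j) (P.map (Ob K).subtype) : MvPolynomial σ K).coeff _ = _
    rw [MvPolynomial.coeff_C_mul, Polynomial.aeval_eq_sum_range, MvPolynomial.coeff_sum]
    have h2 : ∀ i, MvPolynomial.coeff (Finsupp.single l 1)
        ((P.map (Ob K).subtype).coeff i • (MvPolynomial.X j : MvPolynomial σ K) ^ i) =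
        if i = 1 ∧ j = l then ((P.coeff 1 : Ob K) : K) else 0 := by
      intro i
      rw [MvPolynomial.coeff_smul, MvPolynomial.coeff_X_pow, Polynomial.coeff_map]
      by_cases hi : i = 1 ∧ j = l
      · obtain ⟨rfl, rfl⟩ := hi
        rw [if_pos rfl, if_pos ⟨rfl, rfl⟩]
        simp
      · rw [if_neg hi, if_neg, smul_zero]
        intro h
        rw [Finsupp.single_eq_single_iff] at h
        rcases h with h | h
        · exact hi ⟨h.2, h.1⟩
        · exact one_ne_zero h.2
    simp only [h2]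
    by_cases hjl : j = l
    · rw [if_pos hjl, Finset.sum_eq_single 1]
      · rw [if_pos ⟨rfl, hjl⟩]
      · intro i _ hi
        rw [if_neg fun h => hi h.1]
      · intro h
        exfalso
        apply h
        rw [Finset.mem_range, Nat.lt_succ_iff]
        apply Polynomial.le_natDegree_of_ne_zero
        rw [Polynomial.coeff_map]
        exact hP1K
    · rw [if_neg hjl, Finset.sum_eq_zero, mul_zero]
      intro i _
      rw [if_neg fun h => hjl h.2]
  refine ⟨MvPolynomial.bind₁ g (MvPolynomial.map (Ob K).subtype T), ‖b‖, ?_, ?_, ?_⟩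
  · obtain ⟨l, hl⟩ := hΦ
    refine ⟨l, ?_⟩
    rw [(coeff_bind₁ g hg0 l _ (hg1 l) _).2, MvPolynomial.coeff_map, hTc, if_pos]
    · exact mul_ne_zero (mul_ne_zero (inv_ne_zero hbK) hP1K) fun h => hl (Subtype.ext h)
    · rw [Finsupp.degree_single]; omega
  · exact norm_pos_iff.2 hb
  · intro η r hr hηb hηr hev
    have hη1 : ∀ l, ‖η l‖ < 1 := fun l => (hηr l).trans_lt hr
    have hbpos : 0 < ‖(b : K)‖ := norm_pos_iff.2 hbK
    obtain ⟨l₀, _⟩ := hΦ
    have hr0 : 0 ≤ r := (norm_nonneg _).trans (hηr l₀)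
    let w : σ → K := fun l => (b : K)⁻¹ * ((P.eval (ev₁ (η l) ψ) : Ob K) : K)
    have hw : ∀ l, ‖w l - (η l : K)‖ ≤ ‖η l‖ ^ (D + 1) := by
      intro l
      have h2 := norm_ev₁_sub_le (hη1 l) ψ P b (D + 2) hd
      have h3 : w l - (η l : K) =
          (b : K)⁻¹ * ((P.eval (ev₁ (η l) ψ) - b * η l : Ob K) : K) := by
        change (b : K)⁻¹ * ((P.eval (ev₁ (η l) ψ) : Ob K) : K) - (η l : K) = _
        rw [AddSubgroupClass.coe_sub, Subring.coe_mul, mul_sub, inv_mul_cancel_left₀ hbK]
      have h4 : ‖((P.eval (ev₁ (η l) ψ) - b * η l : Ob K) : K)‖ ≤ ‖η l‖ ^ (D + 2) := h2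
      rw [h3, norm_mul, norm_inv, inv_mul_le_iff₀ hbpos]
      refine h4.trans ?_
      rw [pow_succ, mul_comm]
      exact mul_le_mul_of_nonneg_right (hηb l).le (pow_nonneg (norm_nonneg _) _)
    have hw2 : ∀ l, ‖w l‖ ≤ ‖η l‖ := by
      intro l
      have h2 : w l = (w l - (η l : K)) + (η l : K) := by ring
      rw [h2]
      refine (IsUltrametricDist.norm_add_le_max _ _).trans (max_le ?_ le_rfl)
      refine (hw l).trans ?_
      exact pow_le_of_le_one (norm_nonneg _) (hη1 l).le (Nat.succ_ne_zero _)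
    let w' : σ → Ob K := fun l => ⟨w l, (hw2 l).trans (hη1 l).le⟩
    have hw'1 : ∀ l, ‖w' l‖ < 1 := fun l => (hw2 l).trans_lt (hη1 l)
    have hw'r : ∀ l, ‖w' l‖ ≤ r := fun l => (hw2 l).trans (hηr l)
    have hw't : ∀ l, IsTopologicallyNilpotent (w' l) := fun l => (Ob_tn_iff _).2 (hw'1 l)
    have key : MvPolynomial.eval (fun l => ((ev₁ (η l) ψ : Ob K) : K))
        (MvPolynomial.bind₁ g (MvPolynomial.map (Ob K).subtype T)) =
        ((MvPolynomial.eval w' T : Ob K) : K) := by
      have h2 : ∀ (y : σ → K) (F : MvPolynomial σ K), MvPolynomial.eval y (MvPolynomial.bind₁ g F) =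
          MvPolynomial.eval (fun l => MvPolynomial.eval y (g l)) F := by
        intro y F
        induction F using MvPolynomial.induction_on with
        | C a => rw [MvPolynomial.bind₁_C_right, MvPolynomial.eval_C, MvPolynomial.eval_C]
        | add p q hp hq => rw [map_add, map_add, map_add, hp, hq]
        | mul_X p j hp => rw [map_mul, map_mul, map_mul, hp, MvPolynomial.bind₁_X_right,
            MvPolynomial.eval_X]
      rw [h2]
      have h3 : (fun l => MvPolynomial.eval (fun l => ((ev₁ (η l) ψ : Ob K) : K)) (g l)) = w := by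
        funext l
        change MvPolynomial.eval _ (MvPolynomial.C ((b : K)⁻¹) *
          Polynomial.aeval (MvPolynomial.X l) (P.map (Ob K).subtype)) = _
        rw [map_mul, MvPolynomial.eval_C, Polynomial.aeval_def, Polynomial.hom_eval₂,
          MvPolynomial.eval_X, Polynomial.eval₂_map]
        change _ = (b : K)⁻¹ * ((P.eval (ev₁ (η l) ψ) : Ob K) : K)
        congr 1
        have h5 := Polynomial.hom_eval₂ P (RingHom.id (Ob K)) (Ob K).subtype (ev₁ (η l) ψ)
        rw [Polynomial.eval]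
        refine Eq.trans ?_ h5.symm
        congr 1
        refine RingHom.ext fun x => ?_
        simp
      rw [h3, MvPolynomial.eval_map]
      have h4 := MvPolynomial.eval₂_comp_left (Ob K).subtype (RingHom.id (Ob K)) w' T
      rw [MvPolynomial.eval₂_id] at h4
      refine Eq.trans ?_ h4.symm
      rw [RingHom.comp_id]
      rfl
    rw [key]
    change ‖(MvPolynomial.eval w' T : Ob K)‖ ≤ r ^ D
    rw [← ev_coe hw't]
    have hdec : ev w' (T : MvPowerSeries σ (Ob K)) =
        (ev η Φ + (ev w' Φ - ev η Φ)) + -(ev w' (Φ - (T : MvPowerSeries σ (Ob K)))) := by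
      rw [ev_sub hw't]; ring
    rw [hdec]
    have hrD : r ^ (D + 1) ≤ r ^ D := pow_le_pow_of_le_one hr0 hr.le (Nat.le_succ _)
    have hrD2 : r ^ (D + 2) ≤ r ^ D := pow_le_pow_of_le_one hr0 hr.le (by omega)
    refine (Ob_add_le _ _).trans (max_le ((Ob_add_le _ _).trans (max_le hev ?_)) ?_)
    · refine (norm_ev_sub_le hw'1 hη1 (r ^ (D + 1)) (pow_nonneg hr0 _) ?_ Φ).trans hrD
      intro l
      refine (hw l).trans (pow_le_pow_left₀ (norm_nonneg _) (hηr l) _)
    · rw [norm_neg]
      refine (norm_ev_le_pow hw'1 r hr0 hw'r (D + 2) _ ?_).trans hrD2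
      intro d hd'
      rw [map_sub, MvPolynomial.coeff_coe, hTc, if_pos hd', sub_self]

end analysis

end CoApproxAux

end Crest.Agent.R227
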