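import Crest.Agent.R227.WittQ
import Mathlib
import Crest.Agent.R227.Ball

-- ▼ part R227/WittP
section

/-!
# R227 / WittP : the series `Lp n z = ∑_{i ≥ 0} p^i [z^{q^{-i}}]`, `q = p^n`
-/

set_option autoImplicit false

noncomputable section

namespace Crest.Agent.R227

open WittVector

variable (p : ℕ) [Fact p.Prime] {O : Type*} [CommRing O] [CharP O p] [PerfectRing O p]

/-- the `p^k`-th root -/
abbrev proot (k : ℕ) (z : O) : O := (iterateFrobeniusEquiv O p k).symm z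

namespace WittPAux

theorem proot_pow_self (k : ℕ) (z : O) : proot p k z ^ p ^ k = z := by
  have := (iterateFrobeniusEquiv O p k).apply_symm_apply z
  rwa [iterateFrobeniusEquiv_def] at this

theorem proot_eq (k : ℕ) {y z : O} (h : y ^ p ^ k = z) : proot p k z = y := by
  rw [proot, RingEquiv.symm_apply_eq, iterateFrobeniusEquiv_def, h]

theorem pow_inj (k : ℕ) {x y : O} (h : x ^ p ^ k = y ^ p ^ k) : x = y := by
  rw [← proot_eq p k (rfl : x ^ p ^ k = _), ← proot_eq p k (rfl : y ^ p ^ k = _), h]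

theorem symm_pow (k : ℕ) (z : O) : (((_root_.frobeniusEquiv O p).symm ^ k) z) ^ p ^ k = z := by
  induction k generalizing z with
  | zero => simp
  | succ k ih =>
    rw [pow_succ, pow_succ p, pow_mul]
    have h1 : ((_root_.frobeniusEquiv O p).symm ^ k * (_root_.frobeniusEquiv O p).symm) z =
      ((_root_.frobeniusEquiv O p).symm ^ k) ((_root_.frobeniusEquiv O p).symm z) := rfl
    rw [h1, ih]
    exact _root_.frobeniusEquiv_symm_pow_p O p z

end WittPAux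

open WittPAux

/-- `∑_{i ≥ 0} p^i [z^{q^{-i}}]` -/
def Lp (n : ℕ) (z : O) : WittVector p O := WittVector.mk p fun i => proot p ((n - 1) * i) z

/-- partial sums -/
theorem Lp_sub_sum (n : ℕ) (hn : 1 ≤ n) (z : O) (k : ℕ) :
    (p : WittVector p O) ^ (k + 1) ∣
      Lp p n z - ∑ i ∈ Finset.range (k + 1),
        (p : WittVector p O) ^ i * teichmuller p (proot p (n * i) z) := by
  have h := WittVector.dvd_sub_sum_teichmuller_iterateFrobeniusEquiv_coeff (Lp p n z) k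
  rw [Nat.range_succ_eq_Iic]
  convert h using 3 with i hi
  rw [mul_comm]
  congr 2
  apply proot_eq
  have h2 := symm_pow p i ((Lp p n z).coeff i)
  have h3 : n * i = i + (n - 1) * i := by
    obtain ⟨m, rfl⟩ := Nat.exists_eq_add_of_le hn
    rw [Nat.add_sub_cancel_left]; ring
  rw [h3, pow_add, pow_mul, h2, Lp, WittVector.coeff_mk, proot_pow_self]

theorem Lp_pow (n : ℕ) (hn : 1 ≤ n) (z : O) :
    Lp p n (z ^ p ^ n) = p * Lp p n z + teichmuller p (z ^ p ^ n) := by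
  ext i
  rw [coeff_add_of_disjoint]
  · rcases i with _ | i
    · rw [mul_comm, WittVector.mul_charP_coeff_zero, zero_add, teichmuller_coeff_zero, Lp,
        WittVector.coeff_mk]
      apply proot_eq
      rw [mul_zero, pow_zero, pow_one]
    · rw [mul_comm, WittVector.mul_charP_coeff_succ, teichmuller_coeff_pos p _ _ (Nat.succ_pos i),
        add_zero, Lp, Lp, WittVector.coeff_mk, WittVector.coeff_mk]
      apply proot_eq
      have h3 : (n - 1) * (i + 1) + 1 = (n - 1) * i + n := by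
        obtain ⟨m, rfl⟩ := Nat.exists_eq_add_of_le hn
        rw [Nat.add_sub_cancel_left]; ring
      rw [← pow_mul, ← pow_succ', h3, pow_add, pow_mul, proot_pow_self]
  · intro i
    rcases i with _ | i
    · left; rw [mul_comm, WittVector.mul_charP_coeff_zero]
    · right; exact teichmuller_coeff_pos p _ _ (Nat.succ_pos i)

theorem Lp_smul (n : ℕ) (hn : 1 ≤ n) (c z : O) (hc : c ^ p ^ n = c) :
    Lp p n (c * z) = teichmuller p c * Lp p n z := by
  ext i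
  rw [teichmuller_mul_coeff, Lp, Lp, WittVector.coeff_mk, WittVector.coeff_mk]
  apply proot_eq
  rw [mul_pow, proot_pow_self, ← pow_mul, ← pow_add]
  congr 1
  have h3 : i + (n - 1) * i = n * i := by
    obtain ⟨m, rfl⟩ := Nat.exists_eq_add_of_le hn
    rw [Nat.add_sub_cancel_left]; ring
  rw [h3]
  clear h3
  induction i with
  | zero => simp
  | succ i ih => rw [Nat.mul_succ, pow_add, pow_mul, ih, hc]

theorem frobenius_Lp (n : ℕ) (z : O) :
    WittVector.frobenius (Lp p n z) = Lp p n (z ^ p) := by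
  ext i
  rw [coeff_frobenius_charP, Lp, Lp, WittVector.coeff_mk, WittVector.coeff_mk, proot, proot,
    map_pow]

end Crest.Agent.R227
end
end

-- ▼ part R227/WittRW

/-!
# R227 / WittRW : `W(O)/[w]`, the functions `L_n(z) = ∑_{i ∈ ℤ} p^i [z^{q^{-i}}]`, `q = p^n`

* `RQ p w = W(O)/([w])`, `RW p w = (RQ p w)[1/p]`, `toRW p w : W(O) → RW p w`.
* `Lp p n z = ∑_{i ≥ 0} p^i [z^{q^{-i}}] ∈ W(O)`.
* `Lw p n w z : RW p w`, equal to `p^{-B} Lp (z^{q^B})` for every `B` with `w ∣ z^{q^{B+1}}`.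
-/

set_option autoImplicit false
set_option linter.unusedSectionVars false
set_option linter.unusedVariables false

noncomputable section

namespace Crest.Agent.R227

open Crest.LubinTate MvPowerSeries Topology WittVector

variable (p : ℕ) [Fact p.Prime] {K : Type*} [NormedField K] [IsUltrametricDist K]
  [CharP K p] [PerfectRing K p]

/-- the ideal `([w])` of `W(O)` -/
abbrev Iw (w : Ob K) : Ideal (WittVector p (Ob K)) := Ideal.span {teichmuller p w}

/-- `W(O)/([w])` -/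
abbrev RQ (w : Ob K) : Type _ := WittVector p (Ob K) ⧸ Iw p w

/-- `W(O)/([w])[1/p]` -/
abbrev RW (w : Ob K) : Type _ := Localization.Away (p : RQ p w)

/-- `W(O) → RW w` -/
def toRW (w : Ob K) : WittVector p (Ob K) →+* RW p w :=
  (algebraMap (RQ p w) (RW p w)).comp (Ideal.Quotient.mk (Iw p w))

/-- the inverse of `p` -/
def pinv (w : Ob K) : RW p w := IsLocalization.Away.invSelf (p : RQ p w)

theorem p_mul_pinv (w : Ob K) : (p : RW p w) * pinv p w = 1 := by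
  have := IsLocalization.Away.mul_invSelf (S := RW p w) (p : RQ p w)
  rwa [map_natCast] at this

theorem isUnit_p (w : Ob K) : IsUnit (p : RW p w) :=
  IsUnit.of_mul_eq_one _ (p_mul_pinv p w)

theorem pinv_pow_mul (w : Ob K) (k : ℕ) : pinv p w ^ k * (p : RW p w) ^ k = 1 := by
  rw [← mul_pow, mul_comm, p_mul_pinv, one_pow]

theorem p_pow_mul_cancel (w : Ob K) (k : ℕ) {x y : RW p w}
    (h : (p : RW p w) ^ k * x = (p : RW p w) ^ k * y) : x = y :=
  ((isUnit_p p w).pow k).mul_left_cancel h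

theorem algebraMap_RW_injective (w : Ob K) : Function.Injective (algebraMap (RQ p w) (RW p w)) := by
  rw [injective_iff_map_eq_zero]
  intro x hx
  rw [IsLocalization.map_eq_zero_iff (Submonoid.powers (p : RQ p w))] at hx
  obtain ⟨⟨m, k, rfl⟩, hm⟩ := hx
  exact quot_teich_p_pow_torsion_free (p := p) w k x (by simpa using hm)

theorem toRW_eq_zero_iff' (w : Ob K) (a : WittVector p (Ob K)) :
    toRW p w a = 0 ↔ teichmuller p w ∣ a := by
  rw [toRW, RingHom.comp_apply, map_eq_zero_iff _ (algebraMap_RW_injective p w),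
    Ideal.Quotient.eq_zero_iff_mem, Iw, Ideal.mem_span_singleton]

/-- `toRW w a = 0` iff `[w] ∣ a` -/
theorem toRW_eq_zero_iff (w : Ob K) (hw : w ≠ 0) (a : WittVector p (Ob K)) :
    toRW p w a = 0 ↔ teichmuller p w ∣ a := toRW_eq_zero_iff' p w a

theorem toRW_natCast (w : Ob K) (m : ℕ) : toRW p w (m : WittVector p (Ob K)) = m :=
  map_natCast _ _

theorem toRW_p_pow_mul (w : Ob K) (k : ℕ) (a : WittVector p (Ob K)) :
    toRW p w ((p : WittVector p (Ob K)) ^ k * a) = (p : RW p w) ^ k * toRW p w a := by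
  rw [map_mul, map_pow, toRW_natCast]

theorem toRW_teichmuller_of_dvd (w z : Ob K) (h : w ∣ z) : toRW p w (teichmuller p z) = 0 := by
  rw [toRW_eq_zero_iff']
  obtain ⟨c, rfl⟩ := h
  exact ⟨teichmuller p c, by rw [map_mul]⟩

/-- `p`-adic separatedness of `W(O)/([w])` -/
theorem toRW_eq_zero_of_pow (w : Ob K) (hw : w ≠ 0) (a : WittVector p (Ob K))
    (h : ∀ k : ℕ, ∃ b, toRW p w a = (p : RW p w) ^ k * toRW p w b) : toRW p w a = 0 := by
  rw [toRW_eq_zero_iff', ← Ideal.mem_span_singleton]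
  apply mem_span_teich_of_forall
  intro k
  obtain ⟨b, hb⟩ := h k
  rw [← toRW_p_pow_mul, ← sub_eq_zero, ← map_sub, toRW_eq_zero_iff'] at hb
  obtain ⟨c, hc⟩ := hb
  exact ⟨b, c, by rw [← hc]; ring⟩

/-- `p`-adic separatedness of `RW w`. -/
theorem eq_zero_of_forall_pow (w : Ob K) (hw : w ≠ 0) (x : RW p w)
    (h : ∀ k : ℕ, ∃ b, x = (p : RW p w) ^ k * toRW p w b) : x = 0 := by
  obtain ⟨b, hb⟩ := h 0
  rw [pow_zero, one_mul] at hb
  subst hb
  exact toRW_eq_zero_of_pow p w hw b h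

/-- every element of `RW w` is `p^{-k} a` -/
theorem exists_eq_pinv_pow (w : Ob K) (x : RW p w) :
    ∃ (k : ℕ) (a : WittVector p (Ob K)), x = pinv p w ^ k * toRW p w a := by
  obtain ⟨⟨y, ⟨_, k, rfl⟩⟩, hy⟩ := IsLocalization.surj (Submonoid.powers (p : RQ p w)) x
  obtain ⟨a, rfl⟩ := Ideal.Quotient.mk_surjective y
  refine ⟨k, a, ?_⟩
  apply p_pow_mul_cancel p w k
  rw [← mul_assoc, mul_comm (_ ^ k) (pinv p w ^ k), pinv_pow_mul, one_mul]
  simp only [map_pow, map_natCast] at hy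
  rw [mul_comm, hy]
  rfl

theorem p_dvd_iff_coeff_zero {O : Type*} [CommRing O] [CharP O p] [PerfectRing O p]
    (a : WittVector p O) : (p : WittVector p O) ∣ a ↔ a.coeff 0 = 0 := by
  rw [← Ideal.mem_span_singleton, WittVector.mem_span_p_iff_coeff_zero_eq_zero]

/-- Criterion for nonvanishing: if `w ∤ a_0` then `toRW w a ≠ 0` (even mod `p`). -/
theorem toRW_ne_zero_of_coeff (w : Ob K) (hw : w ≠ 0) (a : WittVector p (Ob K))
    (h : ¬ w ∣ a.coeff 0) (b : WittVector p (Ob K)) :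
    toRW p w a ≠ (p : RW p w) * toRW p w b := by
  intro hb
  have hb' : toRW p w (a - (p : WittVector p (Ob K)) ^ 1 * b) = 0 := by
    rw [map_sub, toRW_p_pow_mul, pow_one, hb, sub_self]
  rw [toRW_eq_zero_iff'] at hb'
  obtain ⟨c, hc⟩ := hb'
  apply h
  have h1 : a.coeff 0 = (teichmuller p w * c + (p : WittVector p (Ob K)) * b).coeff 0 := by
    rw [← hc]; congr 1; ring
  rw [WittVector.add_coeff_zero, teichmuller_mul_coeff, pow_zero, pow_one,
    (p_dvd_iff_coeff_zero p ((p : WittVector p (Ob K)) * b)).1 (dvd_mul_right _ _), add_zero] at h1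
  exact ⟨_, h1⟩

/-! ## Divisibility in `O` -/


theorem Ob_dvd_iff {K : Type*} [NormedField K] [IsUltrametricDist K] (a b : Ob K) (ha : a ≠ 0) :
    a ∣ b ↔ ‖b‖ ≤ ‖a‖ := by
  have ha' : (a : K) ≠ 0 := fun h => ha (Subtype.ext h)
  constructor
  · rintro ⟨c, rfl⟩
    change ‖((a * c : Ob K) : K)‖ ≤ ‖(a : K)‖
    rw [Subring.coe_mul, norm_mul]
    have hc : ‖(c : K)‖ ≤ 1 := c.2
    calc ‖(a : K)‖ * ‖(c : K)‖ ≤ ‖(a : K)‖ * 1 := by gcongr
      _ = _ := mul_one _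
  · intro h
    have h' : ‖(b : K)‖ ≤ ‖(a : K)‖ := h
    refine ⟨⟨(a : K)⁻¹ * (b : K), ?_⟩, Subtype.ext ?_⟩
    · rw [mem_Ob, norm_mul, norm_inv]
      have : 0 < ‖(a : K)‖ := norm_pos_iff.2 ha'
      rw [inv_mul_le_iff₀ this, mul_one]
      exact h'
    · rw [Subring.coe_mul]
      field_simp

theorem Ob_norm_pow {K : Type*} [NormedField K] [IsUltrametricDist K] (a : Ob K) (k : ℕ) :
    ‖a ^ k‖ = ‖a‖ ^ k := by
  change ‖((a ^ k : Ob K) : K)‖ = ‖(a : K)‖ ^ k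
  rw [Subring.coe_pow, norm_pow]

theorem Ob_norm_mul {K : Type*} [NormedField K] [IsUltrametricDist K] (a b : Ob K) :
    ‖a * b‖ = ‖a‖ * ‖b‖ := by
  change ‖((a * b : Ob K) : K)‖ = ‖(a : K)‖ * ‖(b : K)‖
  rw [Subring.coe_mul, norm_mul]

theorem dvd_proot {O : Type*} [CommRing O] [CharP O p] [PerfectRing O p] (m : ℕ) (a z : O)
    (h : a ^ p ^ m ∣ z) : a ∣ proot p m z := by
  have h1 := map_dvd (iterateFrobeniusEquiv O p m).symm h
  have h2 : (iterateFrobeniusEquiv O p m).symm (a ^ p ^ m) = a := by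
    rw [RingEquiv.symm_apply_eq, iterateFrobeniusEquiv_def]
  rwa [h2] at h1

/-! ## `Lw` -/

open Classical in
/-- `L_n(z) ∈ W(O)/([w])[1/p]` -/
def Lw (n : ℕ) (w z : Ob K) : RW p w :=
  if h : ∃ B : ℕ, w ∣ z ^ (p ^ n) ^ (B + 1) then
    pinv p w ^ (Nat.find h) * toRW p w (Lp p n (z ^ (p ^ n) ^ (Nat.find h)))
  else 0

theorem dvd_pow_mono (n : ℕ) (w z : Ob K) {b B : ℕ} (hbB : b ≤ B)
    (hb : w ∣ z ^ (p ^ n) ^ b) : w ∣ z ^ (p ^ n) ^ B :=
  hb.trans (pow_dvd_pow z (Nat.pow_le_pow_right (Nat.pos_of_ne_zero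
    (pow_ne_zero _ (Fact.out : p.Prime).ne_zero)) hbB))

theorem Lw_eq_aux (n : ℕ) (hn : 1 ≤ n) (w z : Ob K) (b : ℕ) (hb : w ∣ z ^ (p ^ n) ^ (b + 1))
    (k : ℕ) :
    pinv p w ^ (b + k) * toRW p w (Lp p n (z ^ (p ^ n) ^ (b + k))) =
      pinv p w ^ b * toRW p w (Lp p n (z ^ (p ^ n) ^ b)) := by
  induction k with
  | zero => rfl
  | succ k ih =>
    have h1 : z ^ (p ^ n) ^ (b + k + 1) = (z ^ (p ^ n) ^ (b + k)) ^ p ^ n := by
      rw [pow_succ, pow_mul]
    have h2 : w ∣ (z ^ (p ^ n) ^ (b + k)) ^ p ^ n := by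
      rw [← h1]; exact dvd_pow_mono p n w z (by omega : b + 1 ≤ b + k + 1) hb
    rw [← ih, ← add_assoc, h1, Lp_pow p n hn, map_add, map_mul, toRW_natCast,
      toRW_teichmuller_of_dvd p w _ h2, add_zero, pow_succ, mul_assoc,
      ← mul_assoc (pinv p w), mul_comm (pinv p w), p_mul_pinv, one_mul]

/-- any `B` can be used -/
theorem Lw_eq (n : ℕ) (hn : 1 ≤ n) (w z : Ob K) (B : ℕ) (hB : w ∣ z ^ (p ^ n) ^ (B + 1)) :
    Lw p n w z = pinv p w ^ B * toRW p w (Lp p n (z ^ (p ^ n) ^ B)) := by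
  classical
  have h : ∃ B : ℕ, w ∣ z ^ (p ^ n) ^ (B + 1) := ⟨B, hB⟩
  rw [Lw, dif_pos h]
  have h1 := Nat.find_min' h hB
  obtain ⟨k, hk⟩ := Nat.exists_eq_add_of_le h1
  conv_rhs => rw [hk]
  rw [Lw_eq_aux p n hn w z _ (Nat.find_spec h) k]

theorem exists_dvd_pow (n : ℕ) (hn : 1 ≤ n) (w z : Ob K) (hw : w ≠ 0) (hz : ‖z‖ < 1) :
    ∃ B : ℕ, w ∣ z ^ (p ^ n) ^ (B + 1) := by
  have hw' : 0 < ‖w‖ := norm_pos_iff.2 hw
  obtain ⟨m, hm⟩ := exists_pow_lt_of_lt_one hw' hz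
  refine ⟨m, ?_⟩
  rw [Ob_dvd_iff _ _ hw, Ob_norm_pow]
  refine le_trans (pow_le_pow_of_le_one (norm_nonneg _) hz.le ?_) hm.le
  have h1 : 1 < p ^ n := Nat.one_lt_pow (by omega) (Fact.out : p.Prime).one_lt
  calc m ≤ m + 1 := Nat.le_succ m
    _ ≤ (p ^ n) ^ (m + 1) := (Nat.lt_pow_self h1).le

theorem Lp_zero' {O : Type*} [CommRing O] [CharP O p] [PerfectRing O p] (n : ℕ) :
    Lp p n (0 : O) = 0 := by
  ext i
  rw [Lp, WittVector.coeff_mk, WittVector.zero_coeff]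
  exact map_zero _

theorem Lw_zero (n : ℕ) (hn : 1 ≤ n) (w : Ob K) : Lw p n w (0 : Ob K) = 0 := by
  have hne : p ^ n ≠ 0 := pow_ne_zero _ (Fact.out : p.Prime).ne_zero
  rw [Lw_eq p n hn w 0 0 (by rw [zero_pow (pow_ne_zero _ hne)]; exact dvd_zero _),
    zero_pow (pow_ne_zero _ hne), Lp_zero', map_zero, mul_zero]

/-- `L_n(z^q) = p L_n(z)` -/
theorem Lw_frobq (n : ℕ) (hn : 1 ≤ n) (w z : Ob K) (hw : w ≠ 0) (hz : ‖z‖ < 1) :
    Lw p n w (z ^ p ^ n) = p * Lw p n w z := by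
  obtain ⟨B, hB⟩ := exists_dvd_pow p n hn w z hw hz
  have hB1 : w ∣ z ^ (p ^ n) ^ (B + 1 + 1) := dvd_pow_mono p n w z (by omega) hB
  have hB2 : w ∣ (z ^ p ^ n) ^ (p ^ n) ^ (B + 1) := by
    rw [← pow_mul, ← pow_succ']; exact hB1
  rw [Lw_eq p n hn w z (B + 1) hB1, Lw_eq p n hn w (z ^ p ^ n) B hB2, ← pow_mul, ← pow_succ',
    ← mul_assoc, pow_succ' (pinv p w), ← mul_assoc (p : RW p w), p_mul_pinv, one_mul]

theorem Lw_frobq_pow (n : ℕ) (hn : 1 ≤ n) (w z : Ob K) (hw : w ≠ 0) (hz : ‖z‖ < 1) (k : ℕ) :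
    Lw p n w (z ^ (p ^ n) ^ k) = (p : RW p w) ^ k * Lw p n w z := by
  have hne : p ^ n ≠ 0 := pow_ne_zero _ (Fact.out : p.Prime).ne_zero
  induction k with
  | zero => simp
  | succ k ih =>
    rw [pow_succ, pow_mul, Lw_frobq p n hn w _ hw, ih, pow_succ', mul_assoc]
    rw [Ob_norm_pow]
    exact pow_lt_one₀ (norm_nonneg _) hz (pow_ne_zero _ hne)

/-- `L_n(c z) = [c] L_n(z)` if `c^q = c` -/
theorem Lw_smul (n : ℕ) (hn : 1 ≤ n) (w c z : Ob K) (hw : w ≠ 0) (hz : ‖z‖ < 1)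
    (hc : c ^ p ^ n = c) :
    Lw p n w (c * z) = toRW p w (teichmuller p c) * Lw p n w z := by
  obtain ⟨B, hB⟩ := exists_dvd_pow p n hn w z hw hz
  have hcB : ∀ k : ℕ, c ^ (p ^ n) ^ k = c := by
    intro k
    induction k with
    | zero => simp
    | succ k ih => rw [pow_succ, pow_mul, ih, hc]
  have hB2 : w ∣ (c * z) ^ (p ^ n) ^ (B + 1) := by
    rw [mul_pow]; exact hB.mul_left _
  rw [Lw_eq p n hn w z B hB, Lw_eq p n hn w (c * z) B hB2, mul_pow, hcB, Lp_smul p n hn c _ hc,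
    map_mul]
  ring

/-- integrality: `L_n(z) ∈ p^{-B} W(O)` if `|z^{q^{B+1}}| ≤ |w|`. -/
theorem Lw_mem (n : ℕ) (hn : 1 ≤ n) (w z : Ob K) (B : ℕ) (hB : w ∣ z ^ (p ^ n) ^ (B + 1)) :
    ∃ a, (p : RW p w) ^ B * Lw p n w z = toRW p w a := by
  refine ⟨Lp p n (z ^ (p ^ n) ^ B), ?_⟩
  rw [Lw_eq p n hn w z B hB, ← mul_assoc, mul_comm (_ ^ B) (pinv p w ^ B), pinv_pow_mul, one_mul]

/-- continuity: if `|z| ≤ |w|^{q^k}` then `L_n(z) ∈ p^{k+1} W(O)`. -/
theorem Lw_small (n : ℕ) (hn : 1 ≤ n) (w z : Ob K) (hw : w ≠ 0) (hw1 : ‖w‖ < 1) (k : ℕ)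
    (hk : w ^ (p ^ n) ^ k ∣ z) :
    ∃ a, Lw p n w z = (p : RW p w) ^ (k + 1) * toRW p w a := by
  have hp : 0 < p := (Fact.out : p.Prime).pos
  have hwz : w ∣ z := (dvd_pow_self w (by positivity)).trans hk
  have hB : w ∣ z ^ (p ^ n) ^ (0 + 1) := hwz.trans (dvd_pow_self z (by positivity))
  obtain ⟨a, ha⟩ := Lp_sub_sum p n hn z k
  refine ⟨a, ?_⟩
  rw [Lw_eq p n hn w z 0 hB, pow_zero, one_mul, pow_zero, pow_one, ← toRW_p_pow_mul, ← ha, map_sub,
    map_sum, Finset.sum_eq_zero, sub_zero]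
  intro i hi
  have hi' : i ≤ k := Nat.lt_succ_iff.1 (Finset.mem_range.1 hi)
  rw [toRW_p_pow_mul, toRW_teichmuller_of_dvd, mul_zero]
  apply dvd_proot
  refine Dvd.dvd.trans ?_ hk
  rw [pow_mul]
  exact pow_dvd_pow w (Nat.pow_le_pow_right (by positivity) hi')

/-! ## Frobenius -/

/-- the ring homomorphism `RW w → RW (w^p)` induced by the Witt vector Frobenius -/
theorem exists_frobRW (w : Ob K) (hw : w ≠ 0) : ∃ f : RW p w →+* RW p (w ^ p), ∀ a,
    f (toRW p w a) = toRW p (w ^ p) (WittVector.frobenius a) := by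
  let g : RQ p w →+* RW p (w ^ p) := Ideal.Quotient.lift (Iw p w)
    ((toRW p (w ^ p)).comp WittVector.frobenius) (by
      intro a ha
      rw [Iw, Ideal.mem_span_singleton] at ha
      obtain ⟨c, rfl⟩ := ha
      rw [RingHom.comp_apply, map_mul, frobenius_teichmuller_charP, map_mul,
        toRW_teichmuller_of_dvd p _ _ dvd_rfl, zero_mul])
  have hg : IsUnit (g (p : RQ p w)) := by
    rw [map_natCast]; exact isUnit_p p (w ^ p)
  refine ⟨IsLocalization.Away.lift (p : RQ p w) hg, fun a => ?_⟩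
  rw [toRW, RingHom.comp_apply, IsLocalization.Away.lift_eq]
  rfl

def frobRW (w : Ob K) (hw : w ≠ 0) : RW p w →+* RW p (w ^ p) := (exists_frobRW p w hw).choose

theorem frobRW_toRW (w : Ob K) (hw : w ≠ 0) (a : WittVector p (Ob K)) :
    frobRW p w hw (toRW p w a) = toRW p (w ^ p) (WittVector.frobenius a) :=
  (exists_frobRW p w hw).choose_spec a

theorem map_pinv (w w' : Ob K) (f : RW p w →+* RW p w') : f (pinv p w) = pinv p w' := by
  apply p_pow_mul_cancel p w' 1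
  rw [pow_one, p_mul_pinv, ← map_natCast f, ← map_mul, p_mul_pinv, map_one]



theorem frobRW_Lw (n : ℕ) (hn : 1 ≤ n) (w z : Ob K) (hw : w ≠ 0) (hz : ‖z‖ < 1) :
    frobRW p w hw (Lw p n w z) = Lw p n (w ^ p) (z ^ p) := by
  obtain ⟨B, hB⟩ := exists_dvd_pow p n hn w z hw hz
  have hB2 : w ^ p ∣ (z ^ p) ^ (p ^ n) ^ (B + 1) := by
    rw [← pow_mul, mul_comm, pow_mul]; exact pow_dvd_pow_of_dvd hB p
  rw [Lw_eq p n hn w z B hB, Lw_eq p n hn (w ^ p) (z ^ p) B hB2, map_mul, map_pow, frobRW_toRW,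
    frobenius_Lp, map_pinv, ← pow_mul, mul_comm _ p, pow_mul]





end Crest.Agent.R227
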