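import Crest.Agent.R227.FE
import Crest.Agent.R227.FPt
import Crest.Agent.R227.WittRW

-- ▼ part R227/WittId
section

/-!
# R227 / WittId : the universal congruence behind additivity of `L_h`

For `F = hz p N (sp h)` over `ℤ` (logarithm `∑ p^{-j} X^{q^j}`, `q = p^h`, `1 ≤ h ≤ N`) the series
`∑_{j ≤ i} p^j (F^{q^{i-j}} - X^{q^{i-j}} - Y^{q^{i-j}})` has order `≥ q^{i+1}`.
-/

set_option autoImplicit false
set_option linter.unusedSectionVars false

noncomputable section

namespace Crest.Agent.R227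

open Crest.LubinTate MvPowerSeries

/-- the ideal of power series whose coefficients of degree `< D` vanish -/
def Jd (σ R : Type*) [CommRing R] (D : ℕ) : Ideal (MvPowerSeries σ R) where
  carrier := {f | ∀ d : σ →₀ ℕ, d.degree < D → coeff d f = 0}
  add_mem' := by
    intro f g hf hg d hd
    rw [map_add, hf d hd, hg d hd, add_zero]
  zero_mem' := by
    intro d _
    rw [map_zero]
  smul_mem' := by
    classical
    intro c f hf d hd
    rw [smul_eq_mul, coeff_mul]
    refine Finset.sum_eq_zero fun x hx => ?_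
    rw [hf x.2, mul_zero]
    rw [Finset.HasAntidiagonal.mem_antidiagonal] at hx
    have : x.1.degree + x.2.degree = d.degree := by rw [← hx, map_add]
    omega


theorem pow_mem_Jd {σ R : Type*} [CommRing R] (D : ℕ) (f : MvPowerSeries σ R)
    (hf : constantCoeff f = 0) : f ^ D ∈ Jd σ R D := by
  intro d hd
  apply coeff_of_lt_order
  refine lt_of_lt_of_le ?_ (le_order_pow_of_constantCoeff_eq_zero D hf)
  exact_mod_cast hd

variable (p : ℕ) [Fact p.Prime]

theorem hle_sp_mul (N h : ℕ) (h1 : 1 ≤ h) (hN : h ≤ N) {B : Type*} [CommRing B] [Algebra ℚ B]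
    (j : ℕ) : (p : B) ^ j * hle p N (sp h : ℕ → B) (h * j) = 1 := by
  induction j with
  | zero => simp [hle, hl]
  | succ j ih =>
    obtain ⟨k, hk⟩ : ∃ k, h * (j + 1) = k + 1 := ⟨h * (j + 1) - 1, by
      have : 0 < h * (j + 1) := by positivity
      omega⟩
    have h2 := hle_succ (p := p) N (sp h : ℕ → B) k
    have hkh : k - (h - 1) = h * j := by
      have : h * (j + 1) = h * j + h := by ring
      omega
    have hkr : h - 1 ∈ Finset.range (k + 1) := by
      rw [Finset.mem_range, ← hk]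
      have : h * (j + 1) = h * j + h := by ring
      omega
    rw [Finset.sum_eq_single_of_mem (h - 1) hkr] at h2
    · rw [if_pos (by omega), hkh, sp, if_pos (by omega), one_pow, mul_one] at h2
      rw [hk, pow_succ, mul_assoc, h2, ih]
    · intro i _ hi
      have h0 : (sp h : ℕ → B) (i + 1) = 0 := by rw [sp, if_neg (by omega)]
      rw [h0, zero_pow (pow_ne_zero _ (Fact.out : p.Prime).ne_zero), mul_zero, ite_self]

/-- truncated logarithm -/
theorem X_pow_dvd_log_sub (N h : ℕ) (h1 : 1 ≤ h) (hN : h ≤ N) (i : ℕ) :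
    (PowerSeries.X : PowerSeries ℚ) ^ (p ^ h) ^ (i + 1) ∣
      (p : PowerSeries ℚ) ^ i * logAt p N (sp h : ℕ → ℚ) -
        ∑ j ∈ Finset.range (i + 1), (p : PowerSeries ℚ) ^ (i - j) * PowerSeries.X ^ (p ^ h) ^ j := by
  have hp : p.Prime := Fact.out
  have hp1 := hp.one_lt
  have hpC : ∀ k : ℕ, (p : PowerSeries ℚ) ^ k = PowerSeries.C ((p : ℚ) ^ k) := by
    intro k; simp
  rw [PowerSeries.X_pow_dvd_iff]
  intro m hm
  rw [map_sub, hpC, PowerSeries.coeff_C_mul, map_sum, sub_eq_zero]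
  simp only [hpC, PowerSeries.coeff_C_mul, PowerSeries.coeff_X_pow]
  by_cases hmk : ∃ j, m = p ^ (h * j)
  · obtain ⟨j, rfl⟩ := hmk
    have hj : j < i + 1 := by
      rw [← pow_mul, Nat.pow_lt_pow_iff_right hp1] at hm
      exact Nat.lt_of_mul_lt_mul_left hm
    rw [logAt, FEAux.coeff_pow_pSeries, Finset.sum_eq_single_of_mem j (Finset.mem_range.2 hj)]
    · rw [if_pos (by rw [pow_mul]), mul_one]
      have h3 := hle_sp_mul p N h h1 hN (B := ℚ) j
      have h4 : (p : ℚ) ^ i = (p : ℚ) ^ (i - j) * (p : ℚ) ^ j := by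
        rw [← pow_add]; congr 1; omega
      rw [h4, mul_assoc, h3, mul_one]
    · intro j' _ hj'
      rw [if_neg, mul_zero]
      rw [← pow_mul]
      intro h5
      have h6 := Nat.pow_right_injective hp1 h5
      exact hj' (Nat.eq_of_mul_eq_mul_left (by omega) h6).symm
  · push Not at hmk
    rw [Finset.sum_eq_zero]
    · by_cases hmk2 : ∃ k, m = p ^ k
      · obtain ⟨k, rfl⟩ := hmk2
        rw [logAt, FEAux.coeff_pow_pSeries, FEAux.hle_sp p N h h1, mul_zero]
        rintro ⟨j, rfl⟩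
        exact hmk j rfl
      · push Not at hmk2
        rw [logAt, FEAux.coeff_pSeries_of_forall_ne _ _ hmk2, mul_zero]
    · intro j _
      rw [if_neg, mul_zero]
      rw [← pow_mul]
      exact hmk j

/-- the law over `ℤ` -/
abbrev FZ (N h : ℕ) : MvPowerSeries (Fin 2) ℤ := (hz p N (sp h : ℕ → ℤ)).toPowerSeries

theorem FZ_map (N h : ℕ) {R : Type*} [CommRing R] :
    (FZ p N h).map (Int.castRingHom R) = (hz p N (sp h : ℕ → R)).toPowerSeries := by
  have h2 : (hz p N (sp h : ℕ → R)) = (hz p N (sp h : ℕ → ℤ)).map (Int.castRingHom R) := by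
    rw [hz_map]
    congr 1
    ext1 i
    simp only [sp]
    split_ifs <;> simp
  rw [h2, FormalGroup.map_toPowerSeries]

theorem log_subst_mem (N h : ℕ) (h1 : 1 ≤ h) (hN : h ≤ N) (i : ℕ)
    (G : MvPowerSeries (Fin 2) ℚ) (hG : constantCoeff G = 0) :
    (p : MvPowerSeries (Fin 2) ℚ) ^ i * PowerSeries.subst G (logAt p N (sp h : ℕ → ℚ)) -
        ∑ j ∈ Finset.range (i + 1), (p : MvPowerSeries (Fin 2) ℚ) ^ (i - j) * G ^ (p ^ h) ^ j ∈
      Jd (Fin 2) ℚ ((p ^ h) ^ (i + 1)) := by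
  obtain ⟨c, hc⟩ := X_pow_dvd_log_sub p N h h1 hN i
  have hs := FEAux.hs hG
  have hpC : ∀ k : ℕ, (p : PowerSeries ℚ) ^ k = PowerSeries.C ((p : ℚ) ^ k) := by
    intro k; simp
  have hpC' : ∀ k : ℕ, (p : MvPowerSeries (Fin 2) ℚ) ^ k = C ((p : ℚ) ^ k) := by
    intro k; simp
  have h3 := congrArg (PowerSeries.substAlgHom hs) hc
  simp only [map_sub, map_sum, map_mul, map_pow, map_natCast, PowerSeries.substAlgHom_X] at h3
  rw [PowerSeries.coe_substAlgHom] at h3
  rw [h3]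
  exact Ideal.mul_mem_right _ _ (pow_mem_Jd _ _ hG)

/-- the truncated law -/
abbrev FD (N h D : ℕ) : MvPolynomial (Fin 2) ℤ := truncTotal D (FZ p N h)

/-- the universal polynomial -/
def UP (N h i : ℕ) : MvPolynomial (Fin 2) ℤ :=
  ∑ j ∈ Finset.range (i + 1), (p : MvPolynomial (Fin 2) ℤ) ^ (i - j) *
    ((FD p N h ((p ^ h) ^ (i + 1))) ^ (p ^ h) ^ j - MvPolynomial.X 0 ^ (p ^ h) ^ j -
      MvPolynomial.X 1 ^ (p ^ h) ^ j)

theorem sub_truncTotal_mem {σ R : Type*} [Finite σ] [CommRing R] (D : ℕ) (f : MvPowerSeries σ R) :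
    f - (truncTotal D f : MvPolynomial σ R) ∈ Jd σ R D := by
  intro d hd
  rw [map_sub, MvPolynomial.coeff_coe, coeff_truncTotal_eq_ite, if_pos hd, sub_self]

theorem pow_sub_pow_mem {A : Type*} [CommRing A] (I : Ideal A) {a b : A} (h : a - b ∈ I) (m : ℕ) :
    a ^ m - b ^ m ∈ I := by
  obtain ⟨c, hc⟩ := sub_dvd_pow_sub_pow a b m
  rw [hc]
  exact I.mul_mem_right _ h

theorem coeff_UP (N h : ℕ) (h1 : 1 ≤ h) (hN : h ≤ N) (i : ℕ) (d : Fin 2 →₀ ℕ)
    (hd : d.degree < (p ^ h) ^ (i + 1)) : MvPolynomial.coeff d (UP p N h i) = 0 := by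
  set D := (p ^ h) ^ (i + 1) with hD
  set J := Jd (Fin 2) ℚ D
  let Fq : MvPowerSeries (Fin 2) ℚ := (hz p N (sp h : ℕ → ℚ)).toPowerSeries
  have hF0 : constantCoeff Fq = 0 := (hz p N (sp h : ℕ → ℚ)).zero_constantCoeff
  let Gq : MvPowerSeries (Fin 2) ℚ :=
    MvPowerSeries.map (Int.castRingHom ℚ) (FD p N h D : MvPowerSeries (Fin 2) ℤ)
  have hG : Fq - Gq ∈ J := by
    have h2 := sub_truncTotal_mem D (FZ p N h)
    intro e he
    have h3 := h2 e he
    have h4 : Fq - Gq = MvPowerSeries.map (Int.castRingHom ℚ)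
        (FZ p N h - (FD p N h D : MvPowerSeries (Fin 2) ℤ)) := by
      rw [map_sub, FZ_map]
    rw [h4, coeff_map, h3, map_zero]
  -- the universal series
  have key : ∑ j ∈ Finset.range (i + 1), (p : MvPowerSeries (Fin 2) ℚ) ^ (i - j) *
      (Gq ^ (p ^ h) ^ j - X 0 ^ (p ^ h) ^ j - X 1 ^ (p ^ h) ^ j) ∈ J := by
    have e1 := log_subst_mem p N h h1 hN i Fq hF0
    have e2 := log_subst_mem p N h h1 hN i (X 0) (by simp)
    have e3 := log_subst_mem p N h h1 hN i (X 1) (by simp)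
    have e4 : PowerSeries.subst Fq (logAt p N (sp h : ℕ → ℚ)) = _ := log_hz p N (sp h : ℕ → ℚ)
    have e5 : ∑ j ∈ Finset.range (i + 1), (p : MvPowerSeries (Fin 2) ℚ) ^ (i - j) *
        (Fq ^ (p ^ h) ^ j - Gq ^ (p ^ h) ^ j) ∈ J :=
      Ideal.sum_mem _ fun j _ => Ideal.mul_mem_left _ _ (pow_sub_pow_mem J hG _)
    have e6 : ∑ j ∈ Finset.range (i + 1), (p : MvPowerSeries (Fin 2) ℚ) ^ (i - j) *
      (Gq ^ (p ^ h) ^ j - X 0 ^ (p ^ h) ^ j - X 1 ^ (p ^ h) ^ j) =
        ((p : MvPowerSeries (Fin 2) ℚ) ^ i * PowerSeries.subst (X 0) (logAt p N (sp h : ℕ → ℚ)) -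
          ∑ j ∈ Finset.range (i + 1), (p : MvPowerSeries (Fin 2) ℚ) ^ (i - j) *
            X 0 ^ (p ^ h) ^ j) +
        ((p : MvPowerSeries (Fin 2) ℚ) ^ i * PowerSeries.subst (X 1) (logAt p N (sp h : ℕ → ℚ)) -
          ∑ j ∈ Finset.range (i + 1), (p : MvPowerSeries (Fin 2) ℚ) ^ (i - j) *
            X 1 ^ (p ^ h) ^ j) -
        ((p : MvPowerSeries (Fin 2) ℚ) ^ i * PowerSeries.subst Fq (logAt p N (sp h : ℕ → ℚ)) -
          ∑ j ∈ Finset.range (i + 1), (p : MvPowerSeries (Fin 2) ℚ) ^ (i - j) *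
            Fq ^ (p ^ h) ^ j) -
        ∑ j ∈ Finset.range (i + 1), (p : MvPowerSeries (Fin 2) ℚ) ^ (i - j) *
          (Fq ^ (p ^ h) ^ j - Gq ^ (p ^ h) ^ j) := by
      rw [e4]
      simp only [mul_sub, Finset.sum_sub_distrib]
      ring
    rw [e6]
    exact J.sub_mem (J.sub_mem (J.add_mem e2 e3) e1) e5
  have h5 := key d hd
  have h6 : ∑ j ∈ Finset.range (i + 1), (p : MvPowerSeries (Fin 2) ℚ) ^ (i - j) *
      (Gq ^ (p ^ h) ^ j - X 0 ^ (p ^ h) ^ j - X 1 ^ (p ^ h) ^ j) =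
      MvPowerSeries.map (Int.castRingHom ℚ) ((UP p N h i : MvPolynomial (Fin 2) ℤ) :
        MvPowerSeries (Fin 2) ℤ) := by
    rw [UP, ← MvPolynomial.coeToMvPowerSeries.ringHom_apply, map_sum, map_sum]
    refine Finset.sum_congr rfl fun j _ => ?_
    simp only [map_mul, map_pow, map_sub, map_natCast]
    simp only [MvPolynomial.coeToMvPowerSeries.ringHom_apply, MvPolynomial.coe_X, map_X]
    rfl
  rw [h6, coeff_map, MvPolynomial.coeff_coe] at h5
  simpa using h5

end Crest.Agent.R227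
end
end

-- ▼ part R227/WittL

/-!
# R227 / WittL : additivity of `L_h` with respect to the Honda law
-/

set_option autoImplicit false
set_option linter.unusedSectionVars false
set_option linter.unusedVariables false

noncomputable section

namespace Crest.Agent.R227

open Crest.LubinTate MvPowerSeries Topology WittVector

variable (p : ℕ) [Fact p.Prime] {K : Type*} [NormedField K] [IsUltrametricDist K]
  [CharP K p] [PerfectRing K p]


theorem mk_teich_of_dvd (w z : Ob K) (h : w ∣ z) :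
    Ideal.Quotient.mk (Iw p w) (teichmuller p z) = 0 := by
  rw [Ideal.Quotient.eq_zero_iff_mem, Iw, Ideal.mem_span_singleton]
  obtain ⟨c, rfl⟩ := h
  exact ⟨teichmuller p c, by rw [map_mul]⟩

theorem aeval_eq_zero_of_coeff (w a b : Ob K) (hw : w ≠ 0) (r : ℝ) (har : ‖a‖ ≤ r) (hbr : ‖b‖ ≤ r)
    (hr1 : r ≤ 1) (D : ℕ) (hr : r ^ D ≤ ‖w‖) (P : MvPolynomial (Fin 2) ℤ)
    (hP : ∀ d : Fin 2 →₀ ℕ, d.degree < D → MvPolynomial.coeff d P = 0) :
    MvPolynomial.aeval ![Ideal.Quotient.mk (Iw p w) (teichmuller p a),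
      Ideal.Quotient.mk (Iw p w) (teichmuller p b)] P = 0 := by
  have hr0 : 0 ≤ r := (norm_nonneg a).trans har
  rw [MvPolynomial.aeval_def, MvPolynomial.eval₂_eq']
  refine Finset.sum_eq_zero fun d hd => ?_
  have hdD : D ≤ d.degree := by
    by_contra hlt
    exact (MvPolynomial.mem_support_iff.1 hd) (hP d (by omega))
  have hdeg : d.degree = d 0 + d 1 := by
    rw [Finsupp.degree_eq_sum, Fin.sum_univ_two]
  rw [Fin.prod_univ_two]
  simp only [Matrix.cons_val_zero, Matrix.cons_val_one]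
  rw [← map_pow, ← map_pow, ← map_pow, ← map_pow, ← map_mul, ← map_mul, mk_teich_of_dvd, mul_zero]
  rw [Ob_dvd_iff _ _ hw, Ob_norm_mul, Ob_norm_pow, Ob_norm_pow]
  calc ‖a‖ ^ d 0 * ‖b‖ ^ d 1 ≤ r ^ d 0 * r ^ d 1 := by gcongr
    _ = r ^ d.degree := by rw [hdeg, pow_add]
    _ ≤ r ^ D := pow_le_pow_of_le_one hr0 hr1 hdD
    _ ≤ ‖w‖ := hr

theorem proot_pow_self {O : Type*} [CommRing O] [CharP O p] [PerfectRing O p] (k : ℕ) (z : O) :
    proot p k z ^ p ^ k = z := by
  have := (iterateFrobeniusEquiv O p k).apply_symm_apply z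
  rwa [iterateFrobeniusEquiv_def] at this

theorem proot_of_pow_eq {O : Type*} [CommRing O] [CharP O p] [PerfectRing O p] (k : ℕ) {y z : O}
    (h : y ^ p ^ k = z) : proot p k z = y := by
  rw [proot, RingEquiv.symm_apply_eq, iterateFrobeniusEquiv_def, h]

theorem norm_proot_pow (k : ℕ) (z : Ob K) : ‖proot p k z‖ ^ p ^ k = ‖z‖ := by
  rw [← Ob_norm_pow, proot_pow_self]

theorem norm_proot_lt_one (k : ℕ) (z : Ob K) (hz : ‖z‖ < 1) : ‖proot p k z‖ < 1 := by
  have h := norm_proot_pow p k z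
  by_contra hlt
  have h2 : 1 ≤ ‖proot p k z‖ ^ p ^ k := one_le_pow₀ (not_lt.1 hlt)
  rw [h] at h2
  exact absurd hz (not_lt.2 h2)

variable [CompleteSpace K]

theorem FPt.norm_lt_one {F : FormalGroup (Ob K)} (z : FPt F) : ‖z.val‖ < 1 :=
  (Ob_tn_iff _).1 z.tn

omit [CompleteSpace K] [IsUltrametricDist K] [PerfectRing K p] [NormedField K] [CharP K p] in
theorem hz_sp_frob (N h : ℕ) {R : Type*} [CommRing R] [CharP R p] (k : ℕ) :
    (hz p N (sp h : ℕ → R)).map (iterateFrobenius R p k) = hz p N (sp h : ℕ → R) := by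
  rw [hz_map]
  congr 1
  ext1 i
  simp only [sp]
  split_ifs <;> simp

/-- the Frobenius endomorphism on points -/
def frobPt (N h k : ℕ) : FPt (hz p N (sp h : ℕ → Ob K)) →+ FPt (hz p N (sp h : ℕ → Ob K)) :=
  FPt.frob p k (hz_sp_frob p N h k)

theorem frobPt_val (N h k : ℕ) (z : FPt (hz p N (sp h : ℕ → Ob K))) :
    (frobPt p N h k z).val = z.val ^ p ^ k := rfl

/-- root of a point -/
def rootPt (N h k : ℕ) (z : FPt (hz p N (sp h : ℕ → Ob K))) : FPt (hz p N (sp h : ℕ → Ob K)) :=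
  ⟨proot p k z.val, (Ob_tn_iff _).2 (norm_proot_lt_one p k _ (FPt.norm_lt_one z))⟩

theorem rootPt_val (N h k : ℕ) (z : FPt (hz p N (sp h : ℕ → Ob K))) :
    (rootPt p N h k z).val = proot p k z.val := rfl

theorem frobPt_rootPt (N h k : ℕ) (z : FPt (hz p N (sp h : ℕ → Ob K))) :
    frobPt p N h k (rootPt p N h k z) = z := by
  apply FPt.ext
  rw [frobPt_val, rootPt_val, proot_pow_self]

theorem rootPt_add (N h k : ℕ) (z z' : FPt (hz p N (sp h : ℕ → Ob K))) :
    proot p k (z + z').val = (rootPt p N h k z + rootPt p N h k z').val := by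
  apply proot_of_pow_eq
  rw [← frobPt_val, map_add, frobPt_rootPt, frobPt_rootPt]

/-- congruence modulo `p` of the Teichmüller lift of a formal sum -/
theorem teich_congr (N h : ℕ) (w : Ob K) (hw : w ≠ 0) (z z' : FPt (hz p N (sp h : ℕ → Ob K)))
    (r : ℝ) (hz : ‖z.val‖ ≤ r) (hz' : ‖z'.val‖ ≤ r) (D : ℕ) (hr : r ^ D ≤ ‖w‖) :
    (p : RQ p w) ∣ Ideal.Quotient.mk (Iw p w) (teichmuller p (z + z').val) -
      MvPolynomial.aeval ![Ideal.Quotient.mk (Iw p w) (teichmuller p z.val),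
        Ideal.Quotient.mk (Iw p w) (teichmuller p z'.val)] (FD p N h D) := by
  have hr0 : 0 ≤ r := (norm_nonneg _).trans hz
  -- the difference in `O`
  have h1 : w ∣ (z + z').val - MvPolynomial.aeval ![z.val, z'.val] (FD p N h D) := by
    rw [Ob_dvd_iff _ _ hw]
    refine le_trans ?_ hr
    have hlt : ∀ i, ‖(![z.val, z'.val] : Fin 2 → Ob K) i‖ < 1 := by
      intro i
      fin_cases i
      · exact FPt.norm_lt_one z
      · exact FPt.norm_lt_one z'
    have htn : ∀ i, IsTopologicallyNilpotent ((![z.val, z'.val] : Fin 2 → Ob K) i) :=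
      fun i => (Ob_tn_iff _).2 (hlt i)
    have hle : ∀ i, ‖(![z.val, z'.val] : Fin 2 → Ob K) i‖ ≤ r := by
      intro i
      fin_cases i
      · exact hz
      · exact hz'
    have h2 : MvPolynomial.aeval ![z.val, z'.val] (FD p N h D) =
        ev ![z.val, z'.val] (MvPowerSeries.map (Int.castRingHom (Ob K))
          (FD p N h D : MvPowerSeries (Fin 2) ℤ)) := by
      have h3 : MvPowerSeries.map (Int.castRingHom (Ob K))
          (FD p N h D : MvPowerSeries (Fin 2) ℤ) =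
          ((MvPolynomial.map (Int.castRingHom (Ob K)) (FD p N h D) : MvPolynomial (Fin 2) (Ob K)) :
            MvPowerSeries (Fin 2) (Ob K)) := by
        ext d
        rw [coeff_map, MvPolynomial.coeff_coe, MvPolynomial.coeff_coe, MvPolynomial.coeff_map]
      rw [h3, ev_coe htn, MvPolynomial.eval_map, MvPolynomial.aeval_def]
      rfl
    rw [FPt.val_add, h2, ← ev_sub htn]
    refine norm_ev_le_pow hlt r hr0 hle D _ ?_
    intro d hd
    rw [← FZ_map, ← map_sub, coeff_map, sub_truncTotal_mem D (FZ p N h) d hd, map_zero]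
  obtain ⟨b, hb⟩ := h1
  -- lift to `W(O)`
  set A : WittVector p (Ob K) := teichmuller p (z + z').val -
    MvPolynomial.aeval ![teichmuller p z.val, teichmuller p z'.val] (FD p N h D) with hA
  have h4 : WittVector.constantCoeff A = w * b := by
    have h50 : WittVector.constantCoeff (teichmuller p (z + z').val) = (z + z').val :=
      teichmuller_coeff_zero p _
    have h51 : WittVector.constantCoeff (MvPolynomial.aeval
        ![teichmuller p z.val, teichmuller p z'.val] (FD p N h D)) =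
        MvPolynomial.aeval ![z.val, z'.val] (FD p N h D) := by
      have h5 := MvPolynomial.comp_aeval_apply (R := ℤ) (φ := (WittVector.constantCoeff :
        WittVector p (Ob K) →+* Ob K).toIntAlgHom) (f := ![teichmuller p z.val,
          teichmuller p z'.val]) (FD p N h D)
      have h6 : (fun i => (WittVector.constantCoeff : WittVector p (Ob K) →+* Ob K).toIntAlgHom
          ((![teichmuller p z.val, teichmuller p z'.val] : Fin 2 → WittVector p (Ob K)) i)) =
          ![z.val, z'.val] := by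
        funext i
        fin_cases i <;> simp [WittVector.constantCoeff]
      rw [h6] at h5
      exact h5
    rw [← hb, hA, map_sub, h50, h51]
  have h7 : (p : WittVector p (Ob K)) ∣ A - teichmuller p w * teichmuller p b := by
    rw [p_dvd_iff_coeff_zero]
    have h8 : (A - teichmuller p w * teichmuller p b).coeff 0 =
      WittVector.constantCoeff (A - teichmuller p w * teichmuller p b) := rfl
    rw [h8, map_sub, map_mul, h4]
    simp [WittVector.constantCoeff]
  have h9 : Ideal.Quotient.mk (Iw p w) (teichmuller p (z + z').val) -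
      MvPolynomial.aeval ![Ideal.Quotient.mk (Iw p w) (teichmuller p z.val),
        Ideal.Quotient.mk (Iw p w) (teichmuller p z'.val)] (FD p N h D) =
        Ideal.Quotient.mk (Iw p w) (A - teichmuller p w * teichmuller p b) := by
    rw [map_sub, map_mul, mk_teich_of_dvd p w w dvd_rfl, zero_mul, sub_zero, hA, map_sub]
    congr 1
    have h5 := MvPolynomial.comp_aeval_apply (R := ℤ) (φ := (Ideal.Quotient.mk (Iw p w) :
        WittVector p (Ob K) →+* RQ p w).toIntAlgHom) (f := ![teichmuller p z.val,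
          teichmuller p z'.val]) (FD p N h D)
    have h6 : (fun i => (Ideal.Quotient.mk (Iw p w) : WittVector p (Ob K) →+* RQ p w).toIntAlgHom
          ((![teichmuller p z.val, teichmuller p z'.val] : Fin 2 → WittVector p (Ob K)) i)) =
          ![Ideal.Quotient.mk (Iw p w) (teichmuller p z.val),
        Ideal.Quotient.mk (Iw p w) (teichmuller p z'.val)] := by
      funext i
      fin_cases i <;> simp
    rw [h6] at h5
    exact h5.symm
  rw [h9]
  have h10 := map_dvd (Ideal.Quotient.mk (Iw p w)) h7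
  rwa [map_natCast] at h10

theorem proot_mul_sub {O : Type*} [CommRing O] [CharP O p] [PerfectRing O p] (h i j : ℕ)
    (hj : j ≤ i) (z : O) : proot p (h * j) z = proot p (h * i) z ^ (p ^ h) ^ (i - j) := by
  apply proot_of_pow_eq
  rw [← pow_mul, ← pow_mul, ← pow_add]
  have : h * (i - j) + h * j = h * i := by
    rw [← mul_add]; congr 1; omega
  rw [this, proot_pow_self]

/-- the partial sums of `Lp` in `RQ` -/
theorem mk_Lp_sub_mem (h : ℕ) (h1 : 1 ≤ h) (w z : Ob K) (i : ℕ) :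
    (p : RQ p w) ^ (i + 1) ∣ Ideal.Quotient.mk (Iw p w) (Lp p h z) -
      ∑ j ∈ Finset.range (i + 1), (p : RQ p w) ^ (i - j) *
        (Ideal.Quotient.mk (Iw p w) (teichmuller p (proot p (h * i) z))) ^ (p ^ h) ^ j := by
  have h2 := map_dvd (Ideal.Quotient.mk (Iw p w)) (Lp_sub_sum p h h1 z i)
  rw [map_pow, map_natCast, map_sub, map_sum] at h2
  convert h2 using 2
  rw [← Finset.sum_range_reflect]
  refine Finset.sum_congr rfl fun j hj => ?_
  have hj' : j ≤ i := Nat.lt_succ_iff.1 (Finset.mem_range.1 hj)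
  have e1 : i - (i + 1 - 1 - j) = j := by omega
  have e2 : i + 1 - 1 - j = i - j := by omega
  rw [e1, e2, map_mul, map_pow, map_natCast, proot_mul_sub p h i j hj', map_pow, map_pow]

theorem mk_Lp_add (N h : ℕ) (h1 : 1 ≤ h) (hN : h ≤ N) (w : Ob K) (hw : w ≠ 0)
    (z z' : FPt (hz p N (sp h : ℕ → Ob K))) (hz : w ∣ z.val ^ p ^ h) (hz' : w ∣ z'.val ^ p ^ h) :
    Ideal.Quotient.mk (Iw p w) (Lp p h (z + z').val - Lp p h z.val - Lp p h z'.val) = 0 := by
  have hp : p.Prime := Fact.out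
  apply quot_teich_p_separated
  intro k
  rcases k with _ | i
  · rw [pow_zero]; exact one_dvd _
  set D := (p ^ h) ^ (i + 1) with hD
  set zi := rootPt p N h (h * i) z with hzi
  set zi' := rootPt p N h (h * i) z' with hzi'
  have hc : proot p (h * i) (z + z').val = (zi + zi').val := rootPt_add p N h (h * i) z z'
  -- norms
  have hn : ∀ y : FPt (R227.hz p N (sp h : ℕ → Ob K)), w ∣ y.val ^ p ^ h →
      ‖(rootPt p N h (h * i) y).val‖ ^ D ≤ ‖w‖ := by
    intro y hy
    have h3 : (rootPt p N h (h * i) y).val ^ D = y.val ^ p ^ h := by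
      rw [rootPt_val, hD, pow_succ, pow_mul, ← pow_mul p, proot_pow_self]
    rw [← Ob_norm_pow, h3]
    exact (Ob_dvd_iff _ _ hw).1 hy
  set r := max ‖zi.val‖ ‖zi'.val‖ with hr
  have hrD : r ^ D ≤ ‖w‖ := by
    rcases max_choice ‖zi.val‖ ‖zi'.val‖ with h4 | h4
    · rw [hr, h4]; exact hn z hz
    · rw [hr, h4]; exact hn z' hz'
  have hr1 : r ≤ 1 := max_le (FPt.norm_lt_one zi).le (FPt.norm_lt_one zi').le
  have har : ‖zi.val‖ ≤ r := le_max_left _ _
  have hbr : ‖zi'.val‖ ≤ r := le_max_right _ _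
  -- vanishing of the universal polynomial
  have hU := aeval_eq_zero_of_coeff p w zi.val zi'.val hw r har hbr hr1 D hrD (UP p N h i)
    (coeff_UP p N h h1 hN i)
  have hC := teich_congr p N h w hw zi zi' r har hbr D hrD
  set mk := Ideal.Quotient.mk (Iw p w) with hmk
  set x := mk (teichmuller p zi.val) with hx
  set y := mk (teichmuller p zi'.val) with hy
  set f := mk (teichmuller p (zi + zi').val) with hf
  set G := MvPolynomial.aeval ![x, y] (FD p N h D) with hG
  have hU' : ∑ j ∈ Finset.range (i + 1), (p : RQ p w) ^ (i - j) *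
      (G ^ (p ^ h) ^ j - x ^ (p ^ h) ^ j - y ^ (p ^ h) ^ j) = 0 := by
    rw [UP, map_sum] at hU
    rw [← hU]
    refine Finset.sum_congr rfl fun j _ => ?_
    simp only [map_mul, map_pow, map_sub, map_natCast, MvPolynomial.aeval_X,
      Matrix.cons_val_zero, Matrix.cons_val_one]
    rfl
  have hS1 := mk_Lp_sub_mem p h h1 w (z + z').val i
  have hS2 := mk_Lp_sub_mem p h h1 w z.val i
  have hS3 := mk_Lp_sub_mem p h h1 w z'.val i
  rw [hc] at hS1
  have hS4 : (p : RQ p w) ^ (i + 1) ∣ ∑ j ∈ Finset.range (i + 1), (p : RQ p w) ^ (i - j) *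
      (f ^ (p ^ h) ^ j - G ^ (p ^ h) ^ j) := by
    refine Finset.dvd_sum fun j hj => ?_
    have hj' : j ≤ i := Nat.lt_succ_iff.1 (Finset.mem_range.1 hj)
    have h5 := dvd_sub_pow_of_dvd_sub hC (h * j)
    have h6 : (p : RQ p w) ^ (j + 1) ∣ f ^ (p ^ h) ^ j - G ^ (p ^ h) ^ j := by
      rw [← pow_mul]
      exact (pow_dvd_pow _ (by nlinarith)).trans h5
    have h7 : i + 1 = (i - j) + (j + 1) := by omega
    rw [h7, pow_add]
    exact mul_dvd_mul_left _ h6
  have hfin : mk (Lp p h (z + z').val - Lp p h z.val - Lp p h z'.val) =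
      (mk (Lp p h (z + z').val) - ∑ j ∈ Finset.range (i + 1), (p : RQ p w) ^ (i - j) *
        f ^ (p ^ h) ^ j) -
      (mk (Lp p h z.val) - ∑ j ∈ Finset.range (i + 1), (p : RQ p w) ^ (i - j) *
        x ^ (p ^ h) ^ j) -
      (mk (Lp p h z'.val) - ∑ j ∈ Finset.range (i + 1), (p : RQ p w) ^ (i - j) *
        y ^ (p ^ h) ^ j) +
      ∑ j ∈ Finset.range (i + 1), (p : RQ p w) ^ (i - j) *
        (f ^ (p ^ h) ^ j - G ^ (p ^ h) ^ j) +
      ∑ j ∈ Finset.range (i + 1), (p : RQ p w) ^ (i - j) *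
        (G ^ (p ^ h) ^ j - x ^ (p ^ h) ^ j - y ^ (p ^ h) ^ j) := by
    simp only [mul_sub, Finset.sum_sub_distrib, map_sub]
    ring
  rw [hfin, hU', add_zero]
  exact dvd_add (dvd_sub (dvd_sub hS1 hS2) hS3) hS4

theorem toRW_Lp_add (N h : ℕ) (h1 : 1 ≤ h) (hN : h ≤ N) (w : Ob K) (hw : w ≠ 0)
    (z z' : FPt (hz p N (sp h : ℕ → Ob K))) (hz : w ∣ z.val ^ p ^ h) (hz' : w ∣ z'.val ^ p ^ h) :
    toRW p w (Lp p h (z + z').val) = toRW p w (Lp p h z.val) + toRW p w (Lp p h z'.val) := by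
  have h2 := mk_Lp_add p N h h1 hN w hw z z' hz hz'
  have h3 : toRW p w (Lp p h (z + z').val - Lp p h z.val - Lp p h z'.val) = 0 := by
    rw [toRW, RingHom.comp_apply, h2, map_zero]
  rw [map_sub, map_sub, sub_sub, sub_eq_zero] at h3
  exact h3

/-- additivity, for the law `hz p N (sp h)` (logarithm `∑ p^{-i} X^{p^{hi}}`), `1 ≤ h ≤ N`. -/
theorem Lw_add (N h : ℕ) (h1 : 1 ≤ h) (hN : h ≤ N) (w : Ob K) (hw : w ≠ 0)
    (z z' : FPt (hz p N (sp h : ℕ → Ob K))) :
    Lw p h w (z + z').val = Lw p h w z.val + Lw p h w z'.val := by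
  obtain ⟨B1, hB1⟩ := exists_dvd_pow p h h1 w z.val hw (FPt.norm_lt_one z)
  obtain ⟨B2, hB2⟩ := exists_dvd_pow p h h1 w z'.val hw (FPt.norm_lt_one z')
  obtain ⟨B3, hB3⟩ := exists_dvd_pow p h h1 w (z + z').val hw (FPt.norm_lt_one (z + z'))
  set B := max B1 (max B2 B3) with hB
  have hb1 := dvd_pow_mono p h w z.val (show B1 + 1 ≤ B + 1 by omega) hB1
  have hb2 := dvd_pow_mono p h w z'.val (show B2 + 1 ≤ B + 1 by omega) hB2
  have hb3 := dvd_pow_mono p h w (z + z').val (show B3 + 1 ≤ B + 1 by omega) hB3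
  rw [Lw_eq p h h1 w _ B hb1, Lw_eq p h h1 w _ B hb2, Lw_eq p h h1 w _ B hb3, ← mul_add]
  congr 1
  have e : ∀ y : FPt (hz p N (sp h : ℕ → Ob K)), y.val ^ (p ^ h) ^ B =
      (frobPt p N h (h * B) y).val := by
    intro y
    rw [frobPt_val, pow_mul]
  rw [e, e, e, map_add]
  apply toRW_Lp_add p N h h1 hN w hw
  · rw [← e, ← pow_mul, ← pow_succ]; exact hb1
  · rw [← e, ← pow_mul, ← pow_succ]; exact hb2

/-- `L_h` as a homomorphism on points of the Honda law -/
def LwHom (N h : ℕ) (h1 : 1 ≤ h) (hN : h ≤ N) (w : Ob K) (hw : w ≠ 0) :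
    FPt (hz p N (sp h : ℕ → Ob K)) →+ RW p w :=
  AddMonoidHom.mk' (fun z => Lw p h w z.val) (Lw_add p N h h1 hN w hw)

theorem LwHom_apply (N h : ℕ) (h1 : 1 ≤ h) (hN : h ≤ N) (w : Ob K) (hw : w ≠ 0)
    (z : FPt (hz p N (sp h : ℕ → Ob K))) :
    LwHom p N h h1 hN w hw z = Lw p h w z.val := rfl


theorem Lw_zsmul (N h : ℕ) (h1 : 1 ≤ h) (hN : h ≤ N) (w : Ob K) (hw : w ≠ 0) (m : ℤ)
    (z : FPt (hz p N (sp h : ℕ → Ob K))) :
    Lw p h w (m • z).val = m * Lw p h w z.val := by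
  rw [← LwHom_apply p N h h1 hN w hw, ← LwHom_apply p N h h1 hN w hw, map_zsmul, zsmul_eq_mul]

theorem Lw_sum (N h : ℕ) (h1 : 1 ≤ h) (hN : h ≤ N) (w : Ob K) (hw : w ≠ 0) {ι : Type*}
    (s : Finset ι) (z : ι → FPt (hz p N (sp h : ℕ → Ob K))) :
    Lw p h w (∑ i ∈ s, z i).val = ∑ i ∈ s, Lw p h w (z i).val := by
  simp only [← LwHom_apply p N h h1 hN w hw, map_sum]

end Crest.Agent.R227
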