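import Crest.Agent.R227.CoRho
import Crest.Agent.R227.EndExp

/-! # R227 / CoExpAux : auxiliary lemmas for `CoExp` (typical expansions) -/

set_option autoImplicit false
set_option linter.unusedSectionVars false

noncomputable section

namespace Crest.Agent.R227

open Crest.LubinTate MvPowerSeries Topology

namespace CoExp

/-! ### formal part -/

section formal

variable {p : ℕ} [Fact p.Prime] {A : Type} [CommRing A]

theorem psum_zero (F : FormalGroup A) (N : ℕ) : Typical.psum p F (fun _ => 0) N = 0 := by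
  induction N with
  | zero => rfl
  | succ N ih =>
    rw [Typical.psum_succ, ih, map_zero, zero_mul]
    exact fadd_zero F 0 (map_zero _)

theorem ccXp (r : ℕ) : PowerSeries.constantCoeff (PowerSeries.X ^ p ^ r : PowerSeries A) = 0 := by
  rw [map_pow, PowerSeries.constantCoeff_X, zero_pow (pow_ne_zero _ (Fact.out : p.Prime).ne_zero)]

theorem subst_X_pow_psum (F : FormalGroup A) (c : ℕ → A) (r N : ℕ) :
    PowerSeries.subst (PowerSeries.X ^ p ^ r : PowerSeries A) (Typical.psum p F c N) =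
      Typical.psum p F (fun k => if k < r then 0 else c (k - r)) (N + r) := by
  have hs : PowerSeries.HasSubst (PowerSeries.X ^ p ^ r : PowerSeries A) :=
    PowerSeries.HasSubst.of_constantCoeff_zero' (ccXp r)
  induction N with
  | zero =>
    rw [Nat.zero_add, Typical.psum_congr F _ (fun _ => 0) r (fun k hk => if_pos hk), psum_zero]
    exact psubst_zero (τ := Unit) _ (ccXp r)
  | succ N ih =>
    rw [show N + 1 + r = (N + r) + 1 by ring, Typical.psum_succ, Typical.psum_succ,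
      psubst_fadd F _ _ (Typical.constantCoeff_psum F c N) (Typical.cc_mono (c N) N) _ (ccXp r),
      ih]
    congr 1
    rw [if_neg (by omega), Nat.add_sub_cancel, PowerSeries.subst_mul hs, PowerSeries.subst_pow hs,
      PowerSeries.subst_X hs, ← pow_mul, ← pow_add, Nat.add_comm r N]
    congr 1
    exact PowerSeries.subst_C _

theorem map_psum {B : Type} [CommRing B] (f : A →+* B) (F : FormalGroup A) (c : ℕ → A) (N : ℕ) :
    PowerSeries.map f (Typical.psum p F c N) =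
      Typical.psum p (F.map f) (fun k => f (c k)) N := by
  have h := Typical.map_fsum f F ((List.range N).map fun K =>
    (PowerSeries.C (c K) * PowerSeries.X ^ p ^ K : PowerSeries A)) (by
      intro a ha
      obtain ⟨j, -, rfl⟩ := List.mem_map.1 ha
      exact Typical.cc_mono _ _)
  refine h.trans ?_
  unfold Typical.psum
  rw [List.map_map]
  congr 2
  funext k
  change PowerSeries.map f (PowerSeries.C (c k) * PowerSeries.X ^ p ^ k) = _
  rw [map_mul, map_pow, PowerSeries.map_C, PowerSeries.map_X]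

/-- the relation between the typical coefficients coming from `φ(X^{p^r}) = φ^{(Q)}(X)` -/
theorem typical_rel [CharP A p] (F : FormalGroup A) [F.IsComm] (h r : ℕ)
    (hF : F.map (iterateFrobenius A p h) = F) (φ : PowerSeries A) (c : ℕ → A)
    (hc : ∀ N, ∀ i < p ^ N, PowerSeries.coeff i φ = PowerSeries.coeff i (Typical.psum p F c N))
    (hV : PowerSeries.subst (PowerSeries.X ^ p ^ r : PowerSeries A) φ =
      φ.map (iterateFrobenius A p h)) (k : ℕ) :
    c k ^ p ^ h = if k < r then 0 else c (k - r) := by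
  have hp : p ≠ 0 := (Fact.out : p.Prime).ne_zero
  have hpr : p ^ r ≠ 0 := pow_ne_zero _ hp
  refine typical_unique (p := p) F (fun k => c k ^ p ^ h) (fun k => if k < r then 0 else c (k - r))
    (k + 1 + r) ?_ k (by omega)
  intro i hi
  change PowerSeries.coeff i (Typical.psum p F (fun k => c k ^ p ^ h) (k + 1 + r)) =
    PowerSeries.coeff i (Typical.psum p F (fun k => if k < r then 0 else c (k - r)) (k + 1 + r))
  have e1 : Typical.psum p F (fun k => c k ^ p ^ h) (k + 1 + r) =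
      PowerSeries.map (iterateFrobenius A p h) (Typical.psum p F c (k + 1 + r)) := by
    rw [map_psum, hF]
    rfl
  rw [e1, PowerSeries.coeff_map, ← hc _ i hi, ← PowerSeries.coeff_map, ← hV,
    ← subst_X_pow_psum, ← PowerSeries.expand_apply _ hpr, ← PowerSeries.expand_apply _ hpr,
    PowerSeries.coeff_expand, PowerSeries.coeff_expand]
  split_ifs with hd
  · refine hc (k + 1) _ ?_
    rw [Nat.div_lt_iff_lt_mul (Nat.pos_of_ne_zero hpr), ← pow_add]
    exact hi
  · rfl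

end formal

section normed

variable {p : ℕ} [Fact p.Prime] {n h : ℕ}
variable {K : Type} [NontriviallyNormedField K] [IsUltrametricDist K] [CompleteSpace K]
  [IsAlgClosed K] [CharP K p]

/-- limits of sequences with controlled steps -/
theorem exists_lim (x : ℕ → Ob K) (ε : ℕ → ℝ) (hε : Antitone ε)
    (h0 : Filter.Tendsto ε Filter.atTop (𝓝 0))
    (hx : ∀ j, ‖x (j + 1) - x j‖ ≤ ε j) : ∃ y, ∀ j, ‖y - x j‖ ≤ ε j := by
  have hpos : ∀ j, 0 ≤ ε j := fun j => (norm_nonneg _).trans (hx j)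
  have hadd : ∀ i j, ‖x (i + j) - x i‖ ≤ ε i := by
    intro i j
    induction j with
    | zero => rw [add_zero, sub_self, norm_zero]; exact hpos i
    | succ j ih =>
      have h2 : x (i + (j + 1)) - x i = (x (i + j + 1) - x (i + j)) + (x (i + j) - x i) := by
        rw [sub_add_sub_cancel]; rfl
      rw [h2]
      exact (IsUltrametricDist.norm_add_le_max _ _).trans
        (max_le ((hx _).trans (hε (Nat.le_add_right i j))) ih)
  have hcau : CauchySeq x := by
    refine Metric.cauchySeq_iff'.2 fun δ hδ => ?_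
    obtain ⟨N, hN⟩ := (h0.eventually (gt_mem_nhds hδ)).exists
    refine ⟨N, fun m hm => ?_⟩
    obtain ⟨j, rfl⟩ := Nat.exists_eq_add_of_le hm
    rw [dist_eq_norm]
    exact (hadd N j).trans_lt hN
  obtain ⟨y, hy⟩ := cauchySeq_tendsto_of_complete hcau
  refine ⟨y, fun i => ?_⟩
  refine le_of_tendsto (hy.sub_const _).norm ?_
  filter_upwards [Filter.eventually_ge_atTop i] with m hm
  obtain ⟨j, rfl⟩ := Nat.exists_eq_add_of_le hm
  exact hadd i j

theorem norm_pow' (x : Ob K) (m : ℕ) : ‖x ^ m‖ = ‖x‖ ^ m := by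
  change ‖((x ^ m : Ob K) : K)‖ = ‖(x : K)‖ ^ m
  rw [Subring.coe_pow, norm_pow]

theorem norm_pow_sub_pow (a b : Ob K) (k : ℕ) :
    ‖a ^ p ^ k - b ^ p ^ k‖ = ‖a - b‖ ^ p ^ k := by
  rw [← sub_pow_char_pow, norm_pow']

theorem norm_ev₁_sub_le' (f g : PowerSeries (Ob K)) (N : ℕ) (ε : ℝ) (hε : 0 ≤ ε)
    (hfg : ∀ i < N, ‖PowerSeries.coeff i f - PowerSeries.coeff i g‖ ≤ ε)
    (y : Ob K) (hy : ‖y‖ < 1) : ‖ev₁ y f - ev₁ y g‖ ≤ max ε (‖y‖ ^ N) := by
  have hyt : ∀ _ : Unit, IsTopologicallyNilpotent y := fun _ => (Ob_tn_iff y).2 hy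
  have hy' : ∀ _ : Unit, ‖y‖ < 1 := fun _ => hy
  set t : PowerSeries (Ob K) := PowerSeries.mk fun i =>
    if i < N then PowerSeries.coeff i f - PowerSeries.coeff i g else 0 with ht
  set u : PowerSeries (Ob K) := f - g - t with hu
  have e1 : ev₁ y f - ev₁ y g = ev₁ y t + ev₁ y u := by
    rw [ev₁, ev₁, ev₁, ev₁, ← ev_sub hyt, ← ev_add hyt]
    congr 1
    rw [hu]; ring
  rw [e1]
  refine (IsUltrametricDist.norm_add_le_max _ _).trans (max_le_max ?_ ?_)
  · refine norm_ev_le_of_coeff hy' ε hε _ fun d => ?_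
    have hd : d = Finsupp.single () (d ()) := by ext; simp
    have h1 : MvPowerSeries.coeff d t = PowerSeries.coeff (d ()) t := by
      rw [PowerSeries.coeff, ← hd]
    rw [h1, ht, PowerSeries.coeff_mk]
    split_ifs with hi
    · exact hfg _ hi
    · rw [norm_zero]; exact hε
  · refine norm_ev_le_pow hy' ‖y‖ (norm_nonneg _) (fun _ => le_rfl) N _ fun d hd => ?_
    have hd' : d = Finsupp.single () (d ()) := by ext; simp
    have hdeg : d () < N := by
      have : d.degree = d () := by rw [hd']; simp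
      omega
    have h1 : MvPowerSeries.coeff d u = PowerSeries.coeff (d ()) u := by
      rw [PowerSeries.coeff, ← hd']
    rw [h1, hu, map_sub, map_sub, ht, PowerSeries.coeff_mk, if_pos hdeg, sub_self]

/-- `φ ∘ V = φ^{(Q)}` -/
theorem phi_V (h1 : 1 ≤ h) (hh : h < n) {P : HPoint p n h K} {φ : PowerSeries (Ob K)}
    (hφ : IsFGHom P.F (HO p n h (Ob K)) φ) {V : PowerSeries (Ob K)} (hV : IsVi P 1 V) :
    PowerSeries.subst V φ = φ.map (iterateFrobenius (Ob K) p h) := by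
  have hp : p ≠ 0 := (Fact.out : p.Prime).ne_zero
  have hQ : p ^ h ≠ 0 := pow_ne_zero _ hp
  have e1 := hV.eq
  rw [pow_one, mul_one] at e1
  have e2 := IsFGHom.comm_mulSeries hφ p
  have e3 : mulSeries (HO p n h (Ob K)) p = PowerSeries.X ^ p ^ h :=
    mulSeries_Fh p n h h1 hh.le
  have hsφ : PowerSeries.HasSubst φ := PowerSeries.HasSubst.of_constantCoeff_zero' hφ.1
  rw [e3, PowerSeries.subst_pow hsφ, PowerSeries.subst_X hsφ, CoVAux.pow_eq_subst (p := p) h φ, e1,
    ← psubst_psubst hV.hom.1 (ccXp h), ← PowerSeries.expand_apply _ hQ,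
    ← PowerSeries.expand_apply _ hQ] at e2
  refine PowerSeries.ext fun m => ?_
  have := congrArg (PowerSeries.coeff (p ^ h * m)) e2
  rwa [PowerSeries.coeff_expand_mul, PowerSeries.coeff_expand_mul] at this

theorem sp_map {R S : Type} [CommRing R] [CommRing S] (f : R →+* S) (j : ℕ) :
    (fun i => f ((sp j : ℕ → R) i)) = sp j := by
  funext i
  rw [sp, sp]
  split_ifs <;> simp

theorem exists_C (h1 : 1 ≤ h) (hh : h < n) (P : HPoint p n h K) {φ : PowerSeries (Ob K)}
    (hφ : IsFGHom P.F (HO p n h (Ob K)) φ) : ∃ C : ℕ → Ob K,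
    (∀ N, ∀ i < p ^ N, ‖PowerSeries.coeff i φ -
      PowerSeries.coeff i (Typical.psum p (HO p n h (Ob K)) C N)‖ ≤ P.c) ∧
    (∀ k < n - h, ‖C k ^ p ^ h‖ ≤ P.c) ∧
    (∀ k, ‖C (k + (n - h)) ^ p ^ h - C k‖ ≤ P.c) := by
  have hc0 := P.c_nonneg
  have hc1 := P.c_lt_one
  let I := normIdeal K P.c hc0
  let π : Ob K →+* Ob K ⧸ I := Ideal.Quotient.mk I
  have hπ : ∀ x y : Ob K, π x = π y ↔ ‖x - y‖ ≤ P.c := by
    intro x y
    rw [← mem_normIdeal P.c hc0]
    exact Ideal.Quotient.eq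
  have hne : I ≠ ⊤ := by
    intro h
    have h2 : (1 : Ob K) ∈ I := h ▸ Submodule.mem_top
    rw [mem_normIdeal] at h2
    have h3 : ‖(1 : Ob K)‖ = 1 := norm_one
    linarith
  have : Nontrivial (Ob K ⧸ I) := Ideal.Quotient.nontrivial_iff.2 hne
  have : CharP (Ob K ⧸ I) p := by
    rw [CharP.charP_iff_prime_eq_zero Fact.out]
    have h2 := congrArg π (CharP.cast_eq_zero (Ob K) p)
    rwa [map_natCast, map_zero] at h2
  have hF : P.F.map π = HO p n n (Ob K ⧸ I) := by
    have h2 : (HO p n n (Ob K)).map π = HO p n n (Ob K ⧸ I) := by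
      rw [HO, hz_map, sp_map]
    rw [← h2]
    apply FormalGroup.ext
    ext d
    change π (coeff d P.F.toPowerSeries) = π (coeff d (HO p n n (Ob K)).toPowerSeries)
    rw [hπ]
    exact P.coeff_F_sub d
  have hH : (HO p n h (Ob K)).map π = HO p n h (Ob K ⧸ I) := by
    rw [HO, hz_map, sp_map]
  have hφπ := IsFGHom.map π hφ
  rw [hF, hH] at hφπ
  obtain ⟨cb, hcb⟩ := exists_typical (p := p) _ _ _ hφπ
  choose C hC using fun k => Ideal.Quotient.mk_surjective (cb k)
  have hC' : (fun k => π (C k)) = cb := funext hC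
  obtain ⟨V, hV⟩ := exists_Vi h1 hh P 1
  have hVn := (CoVAux.near_iff P.c hc0 V _).1 hV.near
  rw [mul_one] at hVn
  have hrel : PowerSeries.subst (PowerSeries.X ^ p ^ (n - h) : PowerSeries (Ob K ⧸ I))
      (PowerSeries.map π φ) = (PowerSeries.map π φ).map (iterateFrobenius (Ob K ⧸ I) p h) := by
    have h2 := congrArg (PowerSeries.map π) (phi_V h1 hh hφ hV)
    rw [CoVAux.psubst_one_eq_map π hV.hom.1] at h2
    rw [← hVn]
    refine h2.trans ?_
    ext m
    rw [PowerSeries.coeff_map, PowerSeries.coeff_map, PowerSeries.coeff_map,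
      PowerSeries.coeff_map, iterateFrobenius_def, iterateFrobenius_def, map_pow]
  have hfix : (HO p n h (Ob K ⧸ I)).map (iterateFrobenius (Ob K ⧸ I) p h) =
      HO p n h (Ob K ⧸ I) := by
    rw [HO, hz_map, sp_map]
  have hr := typical_rel (HO p n h (Ob K ⧸ I)) h (n - h) hfix (PowerSeries.map π φ) cb hcb hrel
  refine ⟨C, ?_, ?_, ?_⟩
  · intro N i hi
    rw [← hπ, ← PowerSeries.coeff_map, ← PowerSeries.coeff_map, map_psum, hH, hC']
    exact hcb N i hi
  · intro k hk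
    have h2 := hr k
    rw [if_pos hk, ← hC k] at h2
    have h3 : π (C k ^ p ^ h) = π 0 := by
      rw [map_pow, map_zero]; exact h2
    rw [hπ, sub_zero] at h3
    exact h3
  · intro k
    have h2 := hr (k + (n - h))
    rw [if_neg (by omega), Nat.add_sub_cancel, ← hC k, ← hC (k + (n - h))] at h2
    rw [← hπ, map_pow]
    exact h2

theorem exists_b (h1 : 1 ≤ h) (hh : h < n) (P : HPoint p n h K) (C : ℕ → Ob K)
    (hC1 : ∀ k < n - h, ‖C k ^ p ^ h‖ ≤ P.c)
    (hC2 : ∀ k, ‖C (k + (n - h)) ^ p ^ h - C k‖ ≤ P.c) :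
    ∃ b : ℕ → Ob K, (∀ k, ‖b k - C k‖ ≤ P.c) ∧ (∀ k, b (k + (n - h)) ^ p ^ h = b k) ∧
      (∀ k < n - h, ‖b k‖ ^ p ^ h ≤ P.c) ∧ ∀ k, ‖b k‖ < 1 := by
  have hc0 := P.c_nonneg
  have hc1 := P.c_lt_one
  have hp := (Fact.out : p.Prime)
  have hanti : Antitone fun j : ℕ => P.c ^ p ^ (h * j) := by
    intro a b hab
    exact pow_le_pow_of_le_one hc0 hc1.le
      (Nat.pow_le_pow_right hp.pos (Nat.mul_le_mul_left h hab))
  have hstep : ∀ k j, ‖C (k + (n - h) * (j + 1)) ^ p ^ (h * (j + 1)) -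
      C (k + (n - h) * j) ^ p ^ (h * j)‖ ≤ P.c ^ p ^ (h * j) := by
    intro k j
    have e1 : C (k + (n - h) * (j + 1)) ^ p ^ (h * (j + 1)) =
        (C ((k + (n - h) * j) + (n - h)) ^ p ^ h) ^ p ^ (h * j) := by
      rw [← pow_mul, ← pow_add, show k + (n - h) * (j + 1) = k + (n - h) * j + (n - h) by ring,
        show h * (j + 1) = h + h * j by ring]
    rw [e1, norm_pow_sub_pow]
    exact pow_le_pow_left₀ (norm_nonneg _) (hC2 _) _
  choose b hb using fun k => exists_lim (fun j => C (k + (n - h) * j) ^ p ^ (h * j)) _ hanti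
    (tendsto_pow_tower h1 hc0 hc1) (hstep k)
  have hb0 : ∀ k, ‖b k - C k‖ ≤ P.c := by
    intro k
    simpa using hb k 0
  have hbr : ∀ k, b (k + (n - h)) ^ p ^ h = b k := by
    intro k
    have key : ∀ j, ‖b (k + (n - h)) ^ p ^ h - b k‖ ≤ P.c ^ p ^ (h * j) := by
      intro j
      have e1 := hb (k + (n - h)) j
      have e2 := hb k (j + 1)
      have e3 : ‖b (k + (n - h)) ^ p ^ h -
          (C (k + (n - h) + (n - h) * j) ^ p ^ (h * j)) ^ p ^ h‖ ≤ P.c ^ p ^ (h * j) := by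
        rw [norm_pow_sub_pow]
        refine (pow_le_pow_left₀ (norm_nonneg _) e1 _).trans ?_
        exact pow_le_of_le_one (by positivity) (pow_le_one₀ hc0 hc1.le)
          (pow_ne_zero _ hp.ne_zero)
      have e4 : (C (k + (n - h) + (n - h) * j) ^ p ^ (h * j)) ^ p ^ h =
          C (k + (n - h) * (j + 1)) ^ p ^ (h * (j + 1)) := by
        rw [← pow_mul, ← pow_add, show k + (n - h) * (j + 1) = k + (n - h) + (n - h) * j by ring,
          show h * (j + 1) = h * j + h by ring]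
      rw [e4] at e3
      have e5 : b (k + (n - h)) ^ p ^ h - b k =
          (b (k + (n - h)) ^ p ^ h - C (k + (n - h) * (j + 1)) ^ p ^ (h * (j + 1))) +
            -(b k - C (k + (n - h) * (j + 1)) ^ p ^ (h * (j + 1))) := by ring
      rw [e5]
      refine (IsUltrametricDist.norm_add_le_max _ _).trans (max_le e3 ?_)
      rw [norm_neg]
      exact e2.trans (hanti (Nat.le_succ j))
    have h0 := ge_of_tendsto' (tendsto_pow_tower (p := p) h1 hc0 hc1) key
    exact sub_eq_zero.1 (norm_le_zero_iff.1 h0)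
  have hbs : ∀ k < n - h, ‖b k‖ ^ p ^ h ≤ P.c := by
    intro k hk
    have e1 : b k = (b k - C k) + C k := by ring
    have e2 : ‖b k‖ ≤ max ‖b k - C k‖ ‖C k‖ := by
      conv_lhs => rw [e1]
      exact IsUltrametricDist.norm_add_le_max _ _
    rcases le_max_iff.1 e2 with h2 | h2
    · refine (pow_le_pow_left₀ (norm_nonneg _) (h2.trans (hb0 k)) _).trans ?_
      exact pow_le_of_le_one hc0 hc1.le (pow_ne_zero _ hp.ne_zero)
    · refine (pow_le_pow_left₀ (norm_nonneg _) h2 _).trans ?_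
      rw [← norm_pow']
      exact hC1 k hk
  refine ⟨b, hb0, hbr, hbs, ?_⟩
  intro k
  induction k using Nat.strong_induction_on with
  | _ k ih =>
    rcases lt_or_ge k (n - h) with hk | hk
    · by_contra hlt
      have h2 := one_le_pow₀ (not_lt.1 hlt) (n := p ^ h)
      linarith [hbs k hk]
    · have e1 := hbr (k - (n - h))
      rw [Nat.sub_add_cancel hk] at e1
      have e2 := ih (k - (n - h)) (by omega)
      rw [← e1, norm_pow'] at e2
      by_contra hlt
      have h2 := one_le_pow₀ (not_lt.1 hlt) (n := p ^ h)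
      linarith

theorem exists_ext (b : ℕ → Ob K) (r : ℕ) (hr : 1 ≤ r)
    (hb : ∀ k, b (k + r) ^ p ^ h = b k) :
    ∃ c : ℤ → Ob K, ∀ k i : ℕ, c ((k : ℤ) - ((r * i : ℕ) : ℤ)) = b k ^ p ^ (h * i) := by
  have iter : ∀ k j, b (k + r * j) ^ p ^ (h * j) = b k := by
    intro k j
    induction j with
    | zero => simp
    | succ j ih =>
      have e : b (k + r * (j + 1)) ^ p ^ (h * (j + 1)) =
          (b ((k + r * j) + r) ^ p ^ h) ^ p ^ (h * j) := by
        rw [← pow_mul, ← pow_add, show k + r * (j + 1) = k + r * j + r by ring,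
          show h * (j + 1) = h + h * j by ring]
      rw [e, hb, ih]
  refine ⟨fun K => b (K + ((r * (-K).toNat : ℕ) : ℤ)).toNat ^ p ^ (h * (-K).toNat),
    fun k i => ?_⟩
  simp only
  set N := (-((k : ℤ) - ((r * i : ℕ) : ℤ))).toNat with hN
  set a := ((k : ℤ) - ((r * i : ℕ) : ℤ) + ((r * N : ℕ) : ℤ)).toNat with ha
  have h2 : (N : ℤ) ≥ ((r * i : ℕ) : ℤ) - k := by omega
  have h3 : N ≤ r * N := Nat.le_mul_of_pos_left N hr
  have h4 : (a : ℤ) = (k : ℤ) - ((r * i : ℕ) : ℤ) + ((r * N : ℕ) : ℤ) := by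
    rw [ha]
    apply Int.toNat_of_nonneg
    omega
  rcases le_total i N with hi | hi
  · obtain ⟨j, hj⟩ := Nat.exists_eq_add_of_le hi
    have h5 : a = k + r * j := by
      rw [hj, Nat.mul_add] at h4
      omega
    rw [h5, hj, show h * (i + j) = h * j + h * i by ring, pow_add, pow_mul, iter]
  · obtain ⟨j, hj⟩ := Nat.exists_eq_add_of_le hi
    have h5 : k = a + r * j := by
      rw [hj, Nat.mul_add] at h4
      omega
    calc b a ^ p ^ (h * N) = (b (a + r * j) ^ p ^ (h * j)) ^ p ^ (h * N) := by rw [iter]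
      _ = b k ^ p ^ (h * i) := by
        rw [← pow_mul, ← pow_add, ← h5, hj, show h * j + h * N = h * (N + j) by ring]

theorem mul_fz_lt (a : Ob K) (k : ℤ) (z : FPt (HO p n n (Ob K))) : ‖a * fz p k z.val‖ < 1 := by
  have h1 : ‖a * fz p k z.val‖ = ‖a‖ * ‖fz p k z.val‖ := by
    change ‖((a * fz p k z.val : Ob K) : K)‖ = _
    rw [Subring.coe_mul, norm_mul]
    rfl
  have h2 : ‖fz p k z.val‖ < 1 := norm_nfr_lt k z
  rw [h1]
  calc ‖a‖ * ‖fz p k z.val‖ ≤ 1 * ‖fz p k z.val‖ :=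
        mul_le_mul_of_nonneg_right (Ob_norm_le_one a) (norm_nonneg _)
    _ < 1 := by rw [one_mul]; exact h2

theorem norm_mul_le_left (a b : Ob K) : ‖a * b‖ ≤ ‖a‖ := by
  have h1 : ‖a * b‖ = ‖a‖ * ‖b‖ := by
    change ‖((a * b : Ob K) : K)‖ = _
    rw [Subring.coe_mul, norm_mul]
    rfl
  rw [h1]
  calc ‖a‖ * ‖b‖ ≤ ‖a‖ * 1 := mul_le_mul_of_nonneg_left (Ob_norm_le_one b) (norm_nonneg _)
    _ = ‖a‖ := mul_one _

theorem E0 {P : HPoint p n h K} {ρ : FPt (HO p n n (Ob K)) →+ FPt P.F} (hρ : IsRho P ρ)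
    {φ : PowerSeries (Ob K)} (hφ : IsFGHom P.F (HO p n h (Ob K)) φ) (b C : ℕ → Ob K)
    (hC : ∀ N, ∀ i < p ^ N, ‖PowerSeries.coeff i φ -
      PowerSeries.coeff i (Typical.psum p (HO p n h (Ob K)) C N)‖ ≤ P.c)
    (hb : ∀ k, ‖b k - C k‖ ≤ P.c) (z : FPt (HO p n n (Ob K))) (N : ℕ) :
    ‖(FPt.hom hφ (ρ z) - ∑ k ∈ Finset.range N,
      toPt (HO p n h (Ob K)) (b k * fz p (k : ℤ) z.val)).val‖ ≤ max P.c (‖z.val‖ ^ p ^ N) := by
  have hc0 := P.c_nonneg
  have hz : ‖z.val‖ < 1 := FPt.norm_lt _ z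
  have hρz : ‖(ρ z).val‖ < 1 := FPt.norm_lt _ _
  have e0 : FPt.hom hφ (ρ z) - ∑ k ∈ Finset.range N,
      toPt (HO p n h (Ob K)) (b k * fz p (k : ℤ) z.val) =
      (FPt.hom hφ (ρ z) - ∑ k ∈ Finset.range N,
        EndExp.mpt p (HO p n h (Ob K)) (C k) z.val hz k) +
      -(∑ k ∈ Finset.range N, (toPt (HO p n h (Ob K)) (b k * fz p (k : ℤ) z.val) -
        EndExp.mpt p (HO p n h (Ob K)) (C k) z.val hz k)) := by
    rw [Finset.sum_sub_distrib]
    abel
  rw [e0]
  refine FPt.norm_add_le _ _ _ _ ?_ ?_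
  · rw [FPt.norm_sub, FPt.hom_val, ← EndExp.ev_fsum_mono p (HO p n h (Ob K)) C z.val hz N]
    have e1 : ‖ev₁ (ρ z).val φ - ev₁ z.val φ‖ ≤ P.c :=
      norm_ev_sub_le (fun _ => hρz) (fun _ => hz) P.c hc0 (fun _ => hρ.near z) φ
    have e2 := norm_ev₁_sub_le' φ (Typical.psum p (HO p n h (Ob K)) C N) (p ^ N) P.c hc0
      (hC N) z.val hz
    have e3 : ev₁ (ρ z).val φ - ev₁ z.val (Typical.psum p (HO p n h (Ob K)) C N) =
        (ev₁ (ρ z).val φ - ev₁ z.val φ) +
        (ev₁ z.val φ - ev₁ z.val (Typical.psum p (HO p n h (Ob K)) C N)) := by ring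
    change ‖ev₁ (ρ z).val φ - ev₁ z.val (Typical.psum p (HO p n h (Ob K)) C N)‖ ≤ _
    rw [e3]
    exact (IsUltrametricDist.norm_add_le_max _ _).trans
      (max_le (e1.trans (le_max_left _ _)) e2)
  · rw [FPt.norm_neg]
    refine (FPt.norm_sum_le _ _ _ P.c hc0 fun k _ => ?_).trans (le_max_left _ _)
    rw [FPt.norm_sub, toPt_val _ (mul_fz_lt _ _ _), fz_natCast]
    change ‖b k * z.val ^ p ^ k - C k * z.val ^ p ^ k‖ ≤ _
    rw [← sub_mul]
    exact (norm_mul_le_left _ _).trans (hb k)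


theorem smul_norm (h1 : 1 ≤ h) (hh : h ≤ n) (i : ℕ) (w : FPt (HO p n h (Ob K))) :
    ‖((p ^ i) • w).val‖ = ‖w.val‖ ^ p ^ (h * i) := by
  rw [HO_pow_smul h1 hh, nfr_val, norm_fz_natCast]

theorem Ei (h1 : 1 ≤ h) (hh : h < n) (Θ : FPt (HO p n n (Ob K)) →+ FPt (HO p n h (Ob K)))
    (b : ℕ → Ob K) (c : ℤ → Ob K) (κ : ℝ) (hκ : 0 ≤ κ)
    (hE : ∀ z N, ‖(Θ z - ∑ k ∈ Finset.range N,
      toPt (HO p n h (Ob K)) (b k * fz p (k : ℤ) z.val)).val‖ ≤ max κ (‖z.val‖ ^ p ^ N))
    (hc : ∀ k i : ℕ, c ((k : ℤ) - (((n - h) * i : ℕ) : ℤ)) = b k ^ p ^ (h * i))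
    (z : FPt (HO p n n (Ob K))) (i s : ℕ) :
    ‖(Θ z - ∑ k ∈ Finset.Ico (-(((n - h) * i : ℕ) : ℤ)) s,
      toPt (HO p n h (Ob K)) (c k * fz p k z.val)).val‖ ≤
        max (κ ^ p ^ (h * i)) (‖z.val‖ ^ p ^ s) := by
  set z' := nfr (-((n * i : ℕ) : ℤ)) z with hz'
  have hz : (p ^ i) • z' = z := HO_smul_nfr (h1.trans hh.le) i z
  have hΘ : Θ z = (p ^ i) • Θ z' := by rw [← map_nsmul, hz]
  have hterm : ∀ k : ℕ, (p ^ i) • toPt (HO p n h (Ob K)) (b k * fz p (k : ℤ) z'.val) =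
      toPt (HO p n h (Ob K)) (c ((k : ℤ) - (((n - h) * i : ℕ) : ℤ)) *
        fz p ((k : ℤ) - (((n - h) * i : ℕ) : ℤ)) z.val) := by
    intro k
    apply FPt.ext
    rw [HO_pow_smul h1 hh.le, nfr_val, toPt_val _ (mul_fz_lt _ _ _), toPt_val _ (mul_fz_lt _ _ _),
      map_mul, hc, fz_natCast, hz', nfr_val, ← fz_add, ← fz_add]
    congr 3
    have : n * i = (n - h) * i + h * i := by
      rw [← Nat.add_mul, Nat.sub_add_cancel hh.le]
    push_cast [this]
    ring
  have hsum : ∑ k ∈ Finset.Ico (-(((n - h) * i : ℕ) : ℤ)) s,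
      toPt (HO p n h (Ob K)) (c k * fz p k z.val) =
      (p ^ i) • ∑ k ∈ Finset.range ((n - h) * i + s),
        toPt (HO p n h (Ob K)) (b k * fz p (k : ℤ) z'.val) := by
    rw [Finset.smul_sum]
    simp only [hterm]
    symm
    refine Finset.sum_nbij' (fun k : ℕ => (k : ℤ) - (((n - h) * i : ℕ) : ℤ))
      (fun k : ℤ => (k + (((n - h) * i : ℕ) : ℤ)).toNat) ?_ ?_ ?_ ?_ ?_
    · intro k hk
      rw [Finset.mem_range] at hk
      rw [Finset.mem_Ico]
      omega
    · intro k hk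
      rw [Finset.mem_Ico] at hk
      rw [Finset.mem_range]
      omega
    · intro k _
      omega
    · intro k hk
      rw [Finset.mem_Ico] at hk
      omega
    · intro k _
      rfl
  rw [hsum, hΘ, ← nsmul_sub, smul_norm h1 hh.le]
  refine (pow_le_pow_left₀ (norm_nonneg _) (hE z' ((n - h) * i + s)) _).trans ?_
  have hmono : ∀ a b : ℝ, 0 ≤ a → 0 ≤ b → max a b ^ p ^ (h * i) =
      max (a ^ p ^ (h * i)) (b ^ p ^ (h * i)) := by
    intro a b ha hb
    rcases le_total a b with hab | hab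
    · rw [max_eq_right hab, max_eq_right (pow_le_pow_left₀ ha hab _)]
    · rw [max_eq_left hab, max_eq_left (pow_le_pow_left₀ hb hab _)]
  rw [hmono _ _ hκ (by positivity)]
  refine max_le_max le_rfl (le_of_eq ?_)
  have e4 : ‖z'.val‖ ^ p ^ (n * i) = ‖z.val‖ := by
    rw [hz', nfr_val, norm_fz_neg]
  rw [← e4, ← pow_mul, ← pow_mul, ← pow_add, ← pow_add]
  congr 2
  have : n * i = (n - h) * i + h * i := by
    rw [← Nat.add_mul, Nat.sub_add_cancel hh.le]
  omega

end normed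

end CoExp

end Crest.Agent.R227
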