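import Crest.Agent.R227.CoDefs

-- ▼ part R227/CoBase
section

/-! # R227 / CoBase : basic estimates at a point (task COBASE) -/

set_option autoImplicit false
set_option linter.unusedSectionVars false

noncomputable section

namespace Crest.Agent.R227

open Crest.LubinTate MvPowerSeries Topology

variable {p : ℕ} [Fact p.Prime] {n h : ℕ}
variable {K : Type} [NontriviallyNormedField K] [IsUltrametricDist K] [CompleteSpace K]
  [IsAlgClosed K] [CharP K p]

namespace CoBase

/-- congruent points give congruent laws -/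
theorem coeff_hz_sub_mem {R : Type*} [CommRing R] (x y : ℕ → R) (I : Ideal R)
    (hxy : ∀ i, x i - y i ∈ I) (d : Fin 2 →₀ ℕ) :
    coeff d (hz p n x).toPowerSeries - coeff d (hz p n y).toPowerSeries ∈ I := by
  rw [← Ideal.Quotient.mk_eq_mk_iff_sub_mem]
  have h1 : (hz p n x).map (Ideal.Quotient.mk I) = (hz p n y).map (Ideal.Quotient.mk I) := by
    rw [hz_map, hz_map]
    congr 1
    funext i
    exact Ideal.Quotient.mk_eq_mk_iff_sub_mem _ _ |>.2 (hxy i)
  have h2 := congrArg (fun H : FormalGroup (R ⧸ I) => coeff d H.toPowerSeries) h1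
  simpa only [FormalGroup.map_toPowerSeries, coeff_map] using h2

theorem upt_of_lt {i : ℕ} (h1 : 1 ≤ i) (h2 : i < n) :
    upt p n i = MvPowerSeries.X ⟨i - 1, by omega⟩ := by
  unfold upt
  rw [dif_pos ⟨h1, h2⟩]

theorem upt_self : upt p n n = 1 := by
  unfold upt
  rw [dif_neg (by omega), if_pos rfl]

theorem upt_of_not {i : ℕ} (h1 : ¬ (1 ≤ i ∧ i < n)) (h2 : i ≠ n) : upt p n i = 0 := by
  unfold upt
  rw [dif_neg h1, if_neg h2]

theorem residue_upt {i : ℕ} (h1 : 1 ≤ i) (h2 : i < n) : LTRing.residue p n (upt p n i) = 0 := by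
  rw [upt_of_lt h1 h2]
  simp [LTRing.residue]

theorem uu_eq_upt {i : ℕ} (h1 : 1 ≤ i) : uu p n i = upt p n i := by
  unfold uu
  rw [if_neg (by omega)]

end CoBase

open CoBase

theorem CoBase.norm_sub_le_max' (a b : Ob K) : ‖a - b‖ ≤ max ‖a‖ ‖b‖ := by
  rw [sub_eq_add_neg]
  refine (IsUltrametricDist.norm_add_le_max _ _).trans ?_
  rw [norm_neg]

/-- The induced embedding of the residue field (`P.X p = 0`, `constantCoeff : W(k) → k` is
surjective with kernel `(p)`). -/
theorem exists_iota (P : HPoint p n h K) : ∃ ι : GaloisField p n →+* Ob K, IsIota P ι := by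
  have hs : Function.Surjective
      (WittVector.constantCoeff : WittVector p (GaloisField p n) →+* GaloisField p n) := by
    intro a
    refine ⟨WittVector.teichmuller p a, ?_⟩
    exact WittVector.teichmuller_coeff_zero p a
  let g : WittVector p (GaloisField p n) →+* Ob K :=
    P.X.comp (MvPowerSeries.C : WittVector p (GaloisField p n) →+* LTRing p n)
  have hker : RingHom.ker
      (WittVector.constantCoeff : WittVector p (GaloisField p n) →+* GaloisField p n) ≤
      RingHom.ker g := by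
    intro w hw
    have h1 : w ∈ Ideal.span {(p : WittVector p (GaloisField p n))} := by
      rw [WittVector.mem_span_p_iff_coeff_zero_eq_zero]
      exact hw
    obtain ⟨v, rfl⟩ := Ideal.mem_span_singleton.1 h1
    rw [RingHom.mem_ker, map_mul, map_natCast, CharP.cast_eq_zero, zero_mul]
  refine ⟨RingHom.liftOfSurjective _ hs ⟨g, hker⟩, fun w => ?_⟩
  exact (RingHom.liftOfRightInverse_comp_apply _ _ (Function.rightInverse_surjInv hs)
    ⟨g, hker⟩ w).symm


namespace CoBase

theorem pow_card_of_nat {k : Type*} [Field k] [Finite k] {q : ℕ} (hq : Nat.card k = q) (a : k) :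
    a ^ q = a := by
  have : Fintype k := Fintype.ofFinite k
  rw [← hq, Nat.card_eq_fintype_card]
  exact FiniteField.pow_card a

theorem mem_range_of_pow {k D : Type*} [Field k] [Finite k] [CommRing D] [IsDomain D] {q : ℕ}
    (hq : Nat.card k = q) (hq1 : 1 < q) (f : k →+* D) (b : D) (hb : b ^ q = b) :
    ∃ a, f a = b := by
  classical
  have : Fintype k := Fintype.ofFinite k
  by_contra hne
  push Not at hne
  let S : Finset D := Finset.univ.image f
  have hS : S.card = q := by
    rw [Finset.card_image_of_injective _ f.injective, Finset.card_univ, ← Nat.card_eq_fintype_card,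
      hq]
  have hbS : b ∉ S := by
    intro h
    obtain ⟨a, _, ha⟩ := Finset.mem_image.1 h
    exact hne a ha
  have hX : (Polynomial.X ^ q - Polynomial.X : Polynomial D).natDegree = q := by
    rw [Polynomial.natDegree_sub_eq_left_of_natDegree_lt]
    · exact Polynomial.natDegree_X_pow q
    · rw [Polynomial.natDegree_X_pow, Polynomial.natDegree_X]
      exact hq1
  have hX0 : (Polynomial.X ^ q - Polynomial.X : Polynomial D) ≠ 0 := by
    intro h0
    rw [h0, Polynomial.natDegree_zero] at hX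
    omega
  have hsub : insert b S ⊆ (Polynomial.X ^ q - Polynomial.X : Polynomial D).roots.toFinset := by
    intro x hx
    rw [Multiset.mem_toFinset, Polynomial.mem_roots hX0, Polynomial.IsRoot.def]
    simp only [Polynomial.eval_sub, Polynomial.eval_pow, Polynomial.eval_X]
    rw [sub_eq_zero]
    rcases Finset.mem_insert.1 hx with rfl | hx
    · exact hb
    · obtain ⟨a, _, rfl⟩ := Finset.mem_image.1 hx
      rw [← map_pow, pow_card_of_nat hq a]
  have h1 := Finset.card_le_card hsub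
  rw [Finset.card_insert_of_notMem hbS, hS] at h1
  have h2 := (Multiset.toFinset_card_le
    (Polynomial.X ^ q - Polynomial.X : Polynomial D).roots).trans
    (Polynomial.card_roots' _)
  rw [hX] at h2
  omega

end CoBase


/-- every solution of `b^{p^n} = b` is in the image of `ι` -/
theorem mem_range_ι (hn : 1 ≤ n) (ι : GaloisField p n →+* Ob K) (b : Ob K) (hb : b ^ p ^ n = b) :
    ∃ a, ι a = b :=
  mem_range_of_pow (GaloisField.card p n (by omega))
    (Nat.one_lt_pow (by omega) (Fact.out : p.Prime).one_lt) ι b hb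

namespace HPoint

variable (P P' : HPoint p n h K)

theorem c_nonneg : 0 ≤ P.c := by
  unfold c
  refine Real.iSup_nonneg fun j => ?_
  split_ifs
  · exact norm_nonneg _
  · exact le_rfl

theorem norm_upt_lt_one (i : ℕ) (h1 : 1 ≤ i) (h2 : i < n) : ‖P.X (upt p n i)‖ < 1 :=
  P.small _ (residue_upt h1 h2)

theorem c_lt_one : P.c < 1 := by
  unfold c
  obtain ⟨j, hj⟩ := exists_eq_ciSup_of_finite (f := fun j : Fin (n + 1) =>
    if (1 ≤ (j : ℕ) ∧ (j : ℕ) < n) then ‖P.X (upt p n j)‖ else (0 : ℝ))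
  rw [← hj]
  split_ifs with h1
  · exact P.norm_upt_lt_one _ h1.1 h1.2
  · exact one_pos

theorem norm_upt_le (i : ℕ) (h1 : 1 ≤ i) (h2 : i < n) : ‖P.X (upt p n i)‖ ≤ P.c := by
  unfold c
  have h3 := le_ciSup (f := fun j : Fin (n + 1) =>
    if (1 ≤ (j : ℕ) ∧ (j : ℕ) < n) then ‖P.X (upt p n j)‖ else (0 : ℝ))
    (Set.finite_range _).bddAbove ⟨i, by omega⟩
  simpa only [h1, h2, and_self, if_true] using h3

theorem c_pos (h1 : 1 ≤ h) (hh : h < n) : 0 < P.c := by
  have h2 : 0 < ‖P.X (upt p n h)‖ := by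
    have h3 := P.ne
    rw [uu_eq_upt h1] at h3
    exact norm_pos_iff.2 h3
  exact h2.trans_le (P.norm_upt_le h h1 hh)

theorem norm_uu_le (i : ℕ) (h2 : i < n) : ‖P.X (uu p n i)‖ ≤ P.c := by
  rcases Nat.eq_zero_or_pos i with rfl | h1
  · have h3 : uu p n 0 = (p : LTRing p n) := by simp [uu]
    rw [h3, map_natCast, CharP.cast_eq_zero, norm_zero]
    exact P.c_nonneg
  · rw [uu_eq_upt h1]
    exact P.norm_upt_le i h1 h2

/-- the maximal ideal is generated by `p, u_1, …, u_{n-1}` -/
theorem norm_X_le_c (hn : 1 ≤ n) (a : LTRing p n) (ha : LTRing.residue p n a = 0) :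
    ‖P.X a‖ ≤ P.c := by
  have h1 : a ∈ II p n n := (mem_II_n p n hn a).2 ha
  have h2 : II p n n ≤ (normIdeal K P.c P.c_nonneg).comap P.X := by
    rw [II, Ideal.span_le]
    rintro _ ⟨i, hi, rfl⟩
    exact P.norm_uu_le i hi
  exact h2 h1

/-- the coordinates of the point -/
def z (i : Fin (n - h)) : Ob K := P.X (upt p n (h + i))

theorem norm_z_le (h1 : 1 ≤ h) (i : Fin (n - h)) : ‖P.z i‖ ≤ P.c :=
  P.norm_upt_le _ (by omega) (by omega)

theorem z_zero_ne (h1 : 1 ≤ h) (hh : h < n) : P.z ⟨0, by omega⟩ ≠ 0 := by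
  have h3 := P.ne
  rw [uu_eq_upt h1] at h3
  exact h3

theorem X_upt_of_lt {i : ℕ} (h1 : 1 ≤ i) (h2 : i < h) : P.X (upt p n i) = 0 := by
  rw [← uu_eq_upt h1]
  exact P.kill _ (Ideal.subset_span ⟨i, h2, rfl⟩)

theorem F_eq_Hx (h1 : 1 ≤ h) (hh : h < n) : P.F = Hx p n h P.z := by
  rw [F_eq]
  refine hz_congr p n _ _ fun i hi1 hi2 => ?_
  unfold pt
  split_ifs with h2 h3
  · change _ = P.X (upt p n (h + (i - h)))
    rw [Nat.add_sub_cancel' h2.1]
  · rw [h3, upt_self, map_one]
  · exact P.X_upt_of_lt hi1 (by omega)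

/-- `P.F` is close to the Honda law of height `n`. -/
theorem coeff_F_sub (d : Fin 2 →₀ ℕ) :
    ‖coeff d P.F.toPowerSeries - coeff d (HO p n n (Ob K)).toPowerSeries‖ ≤ P.c := by
  rw [← mem_normIdeal P.c P.c_nonneg, F_eq]
  refine coeff_hz_sub_mem _ _ _ (fun i => ?_) d
  rw [mem_normIdeal]
  by_cases h1 : 1 ≤ i ∧ i < n
  · rw [sp, if_neg (by omega), sub_zero]
    exact P.norm_upt_le i h1.1 h1.2
  · by_cases h2 : i = n
    · rw [h2, upt_self, sp, if_pos rfl, map_one, sub_self, norm_zero]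
      exact P.c_nonneg
    · rw [upt_of_not h1 h2, sp, if_neg h2, map_zero, sub_self, norm_zero]
      exact P.c_nonneg

/-- distance of two points -/
def pdist : ℝ := ⨆ i : Fin (n + 1), ‖P.X (upt p n i) - P'.X (upt p n i)‖

theorem pdist_nonneg : 0 ≤ pdist P P' := Real.iSup_nonneg fun _ => norm_nonneg _

theorem X_upt_sub_of_not {i : ℕ} (h1 : ¬ (1 ≤ i ∧ i < n)) :
    P.X (upt p n i) - P'.X (upt p n i) = 0 := by
  by_cases h2 : i = n
  · rw [h2, upt_self, map_one, map_one, sub_self]
  · rw [upt_of_not h1 h2, map_zero, map_zero, sub_self]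

theorem le_pdist (i : ℕ) : ‖P.X (upt p n i) - P'.X (upt p n i)‖ ≤ pdist P P' := by
  by_cases h1 : 1 ≤ i ∧ i < n
  · exact le_ciSup (f := fun i : Fin (n + 1) => ‖P.X (upt p n i) - P'.X (upt p n i)‖)
      (Set.finite_range _).bddAbove ⟨i, by omega⟩
  · rw [X_upt_sub_of_not P P' h1, norm_zero]
    exact pdist_nonneg P P'

theorem pdist_le (r : ℝ) (hr : 0 ≤ r)
    (hi : ∀ i, h ≤ i → i < n → ‖P.X (upt p n i) - P'.X (upt p n i)‖ ≤ r) : pdist P P' ≤ r := by
  unfold pdist
  refine ciSup_le fun i => ?_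
  by_cases h1 : 1 ≤ (i : ℕ) ∧ (i : ℕ) < n
  · rcases lt_or_ge (i : ℕ) h with h2 | h2
    · rw [P.X_upt_of_lt h1.1 h2, P'.X_upt_of_lt h1.1 h2, sub_self, norm_zero]
      exact hr
    · exact hi _ h2 h1.2
  · rw [X_upt_sub_of_not P P' h1, norm_zero]
    exact hr

theorem pdist_lt_one : pdist P P' < 1 := by
  unfold pdist
  obtain ⟨j, hj⟩ := exists_eq_ciSup_of_finite (f := fun i : Fin (n + 1) =>
    ‖P.X (upt p n i) - P'.X (upt p n i)‖)
  rw [← hj]
  by_cases h1 : 1 ≤ (j : ℕ) ∧ (j : ℕ) < n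
  · have h2 : ‖P.X (upt p n j) - P'.X (upt p n j)‖ ≤
        max ‖P.X (upt p n j)‖ ‖P'.X (upt p n j)‖ := norm_sub_le_max' _ _
    exact h2.trans_lt (max_lt (P.norm_upt_lt_one _ h1.1 h1.2) (P'.norm_upt_lt_one _ h1.1 h1.2))
  · rw [X_upt_sub_of_not P P' h1, norm_zero]
    exact one_pos


theorem coeff_F_sub_F (d : Fin 2 →₀ ℕ) :
    ‖coeff d P.F.toPowerSeries - coeff d P'.F.toPowerSeries‖ ≤ pdist P P' := by
  rw [← mem_normIdeal _ (pdist_nonneg P P'), F_eq, F_eq]
  exact coeff_hz_sub_mem _ _ _ (fun i => le_pdist P P' i) d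



end HPoint

end Crest.Agent.R227
end
end

-- ▼ part R227/CoV

/-! # R227 / CoV : the series `V_i`, `[p^i]_F = V_i(X^{p^{hi}})` (task COV) -/

set_option autoImplicit false
set_option linter.unusedSectionVars false

noncomputable section

namespace Crest.Agent.R227

open Crest.LubinTate MvPowerSeries Topology

variable {p : ℕ} [Fact p.Prime] {n h : ℕ}
variable {K : Type} [NontriviallyNormedField K] [IsUltrametricDist K] [CompleteSpace K]
  [IsAlgClosed K] [CharP K p]

/-- `V` is the series with `[p^i]_F = V(X^{p^{hi}})`. -/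
structure IsVi (P : HPoint p n h K) (i : ℕ) (V : PowerSeries (Ob K)) : Prop where
  eq : mulSeries P.F (p ^ i) =
    PowerSeries.subst (PowerSeries.X ^ p ^ (h * i) : PowerSeries (Ob K)) V
  hom : IsFGHom (P.F.map (iterateFrobenius (Ob K) p (h * i))) P.F V
  lin : PowerSeries.coeff 1 V ≠ 0
  near : ∀ m, ‖PowerSeries.coeff m V - (if m = p ^ ((n - h) * i) then 1 else 0)‖ ≤ P.c

namespace CoVAux

theorem psubst_one_eq_map {R S : Type*} [CommRing R] [CommRing S] (f : R →+* S)
    {a : PowerSeries R} (ha : PowerSeries.constantCoeff a = 0) (g : PowerSeries R) :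
    PowerSeries.map f (PowerSeries.subst a g) =
      PowerSeries.subst (PowerSeries.map f a) (PowerSeries.map f g) :=
  PowerSeries.map_subst (PowerSeries.HasSubst.of_constantCoeff_zero' ha) g

theorem coeff_one_subst {R : Type*} [CommRing R] {φ ψ : PowerSeries R}
    (hφ : PowerSeries.constantCoeff φ = 0) :
    PowerSeries.coeff 1 (PowerSeries.subst φ ψ) = PowerSeries.coeff 1 φ * PowerSeries.coeff 1 ψ := by
  have hs : PowerSeries.HasSubst φ := PowerSeries.HasSubst.of_constantCoeff_zero' hφ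
  have hψ : ψ = PowerSeries.C (PowerSeries.constantCoeff ψ) +
      PowerSeries.X * PowerSeries.mk (fun m => PowerSeries.coeff (m + 1) ψ) := by
    ext m
    rcases m with _ | m
    · simp
    · rw [map_add, PowerSeries.coeff_succ_X_mul, PowerSeries.coeff_mk, PowerSeries.coeff_C]
      simp
  set θ : PowerSeries R := PowerSeries.mk (fun m => PowerSeries.coeff (m + 1) ψ) with hθ
  have h1 : PowerSeries.subst φ ψ = PowerSeries.C (PowerSeries.constantCoeff ψ) +
      φ * PowerSeries.subst φ θ := by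
    conv_lhs => rw [hψ]
    rw [PowerSeries.subst_add hs, PowerSeries.subst_mul hs, PowerSeries.subst_X hs]
    congr 1
    exact PowerSeries.subst_C _
  rw [h1, map_add, PowerSeries.coeff_mul, Finset.Nat.antidiagonal_succ]
  have hc : PowerSeries.constantCoeff (PowerSeries.subst φ θ) = PowerSeries.coeff 1 ψ := by
    have h2 : θ = PowerSeries.C (PowerSeries.constantCoeff θ) +
        (θ - PowerSeries.C (PowerSeries.constantCoeff θ)) := by ring
    have h3 : PowerSeries.constantCoeff θ = PowerSeries.coeff 1 ψ := by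
      rw [hθ, ← PowerSeries.coeff_zero_eq_constantCoeff_apply, PowerSeries.coeff_mk]
    rw [h2, PowerSeries.subst_add hs, map_add]
    have h4 : PowerSeries.constantCoeff (PowerSeries.subst φ
        (θ - PowerSeries.C (PowerSeries.constantCoeff θ))) = 0 :=
      PowerSeries.constantCoeff_subst_eq_zero hφ _ (by simp)
    rw [h4, add_zero, ← h3]
    have h5 : PowerSeries.subst φ (PowerSeries.C (PowerSeries.constantCoeff θ)) =
      PowerSeries.C (PowerSeries.constantCoeff θ) := PowerSeries.subst_C _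
    rw [h5, PowerSeries.constantCoeff_C]
  simp [hφ, hc]

theorem subst_zero_eq {R : Type*} [CommRing R] (f : PowerSeries R) :
    PowerSeries.subst (0 : PowerSeries R) f = PowerSeries.C (PowerSeries.constantCoeff f) := by
  have hs : PowerSeries.HasSubst (0 : PowerSeries R) := PowerSeries.HasSubst.of_constantCoeff_zero' (map_zero _)
  have h2 : f = PowerSeries.C (PowerSeries.constantCoeff f) +
      (f - PowerSeries.C (PowerSeries.constantCoeff f)) := by ring
  conv_lhs => rw [h2]
  rw [PowerSeries.subst_add hs]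
  have h3 : PowerSeries.subst (0 : PowerSeries R)
      (f - PowerSeries.C (PowerSeries.constantCoeff f)) = 0 :=
    PowerSeries.subst_zero_of_constantCoeff_zero (by simp)
  rw [h3, add_zero]
  exact PowerSeries.subst_C _

/-- `φ'(X) ∂₂F(X,0) = ∂₂G(φ X,0) φ'(0)` -/
theorem deriv_formula {R : Type*} [CommRing R] {F G : FormalGroup R}
    {φ : PowerSeries R} (hφ : IsFGHom F G φ) :
    ∃ u v : PowerSeries R, PowerSeries.constantCoeff u = 1 ∧ PowerSeries.constantCoeff v = 1 ∧
      PowerSeries.derivative R φ * u = v * PowerSeries.C (PowerSeries.coeff 1 φ) := by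
  have hF : PowerSeries.HasSubst F.toPowerSeries :=
    PowerSeries.HasSubst.of_constantCoeff_zero F.zero_constantCoeff
  have hX := fun i => PowerSeries.HasSubst.of_constantCoeff_zero (ccX (R := R) i)
  have hc := fun i => constantCoeff_psubst (ccX (R := R) i) hφ.1
  have hpair := hasSubst_pair (hc 0) (hc 1)
  have e := congrArg (MvPowerSeries.pderiv R (1 : Fin 2)) hφ.2
  rw [pderiv_subst_one hF, pderiv_subst hpair] at e
  simp only [Fin.sum_univ_two, Matrix.cons_val_zero, Matrix.cons_val_one,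
    Matrix.cons_val_fin_one, pderiv_subst_one (hX 0), pderiv_subst_one (hX 1),
    MvPowerSeries.pderiv_X_self, mul_one] at e
  rw [MvPowerSeries.pderiv_X_of_ne (by decide), mul_zero, mul_zero, zero_add] at e
  -- put `Y = 0`
  have hX0 : MvPowerSeries.HasSubst ![(PowerSeries.X : PowerSeries R), 0] :=
    hasSubst_pair ccPX (map_zero _)
  have e2 := congrArg (MvPowerSeries.subst ![(PowerSeries.X : PowerSeries R), 0]) e
  rw [MvPowerSeries.subst_mul hX0, MvPowerSeries.subst_mul hX0,
    subst_psubst F.zero_constantCoeff hX0, subst_psubst (ccX 1) hX0,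
    MvPowerSeries.subst_X hX0] at e2
  have hz : PowerSeries.subst ((![(PowerSeries.X : PowerSeries R), 0] : Fin 2 → _) 1)
      (PowerSeries.derivative R φ) = PowerSeries.C (PowerSeries.coeff 1 φ) := by
    change PowerSeries.subst (0 : PowerSeries R) _ = _
    rw [subst_zero_eq]
    congr 1
    rw [← PowerSeries.coeff_zero_eq_constantCoeff_apply, PowerSeries.coeff_derivative]
    simp
  rw [hz] at e2
  have hFX : MvPowerSeries.subst ![(PowerSeries.X : PowerSeries R), 0] F.toPowerSeries =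
      PowerSeries.X := F.Xzero_eq_X
  rw [hFX, PowerSeries.X_subst] at e2
  refine ⟨MvPowerSeries.subst ![(PowerSeries.X : PowerSeries R), 0]
      (MvPowerSeries.pderiv R 1 F.toPowerSeries), _, ?_, ?_, e2⟩
  · change MvPowerSeries.constantCoeff _ = 1
    rw [constantCoeff_subst_eq hX0 (by intro i; fin_cases i <;> simp [ccPX])]
    rw [← MvPowerSeries.coeff_zero_eq_constantCoeff_apply, MvPowerSeries.coeff_pderiv, zero_add,
      F.lin_coeff_Y]
    simp
  · change MvPowerSeries.constantCoeff _ = 1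
    rw [constantCoeff_subst_eq hX0 (by intro i; fin_cases i <;> simp [ccPX]),
      constantCoeff_subst_eq hpair (by intro i; fin_cases i <;> simp [hc])]
    rw [← MvPowerSeries.coeff_zero_eq_constantCoeff_apply, MvPowerSeries.coeff_pderiv, zero_add,
      G.lin_coeff_Y]
    simp

theorem ev₁_ne_zero {u : PowerSeries (Ob K)} (hu : PowerSeries.constantCoeff u = 1)
    {x : Ob K} (hx : ‖x‖ < 1) : ev₁ x u ≠ 0 := by
  have hxt : ∀ _ : Unit, IsTopologicallyNilpotent x := fun _ => (Ob_tn_iff x).2 hx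
  have h1 : ev₁ x u = ev₁ x (u - 1) + 1 := by
    rw [ev₁, ev₁, ev_sub hxt, ev_one hxt, sub_add_cancel]
  have h2 : ‖ev₁ x (u - 1)‖ ≤ ‖x‖ ^ 1 := by
    refine norm_ev_le_pow (fun _ => hx) ‖x‖ (norm_nonneg _) (fun _ => le_rfl) 1 _ ?_
    intro d hd
    have hd0 : d = 0 := by
      rw [← Finsupp.degree_eq_zero_iff]; omega
    rw [hd0, MvPowerSeries.coeff_zero_eq_constantCoeff_apply]
    have : PowerSeries.constantCoeff (u - 1) = 0 := by rw [map_sub, hu, map_one, sub_self]
    exact this
  intro h0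
  rw [h1] at h0
  have h3 : ev₁ x (u - 1) = -1 := eq_neg_of_add_eq_zero_left h0
  rw [h3, norm_neg, pow_one] at h2
  have : ‖(1 : Ob K)‖ = 1 := norm_one
  rw [this] at h2
  linarith

theorem norm_ev₁_le {u : PowerSeries (Ob K)} (hu : PowerSeries.constantCoeff u = 0)
    {x : Ob K} (hx : ‖x‖ < 1) : ‖ev₁ x u‖ ≤ ‖x‖ := by
  have h2 : ‖ev₁ x u‖ ≤ ‖x‖ ^ 1 := by
    refine norm_ev_le_pow (fun _ => hx) ‖x‖ (norm_nonneg _) (fun _ => le_rfl) 1 _ ?_
    intro d hd
    have hd0 : d = 0 := by
      rw [← Finsupp.degree_eq_zero_iff]; omega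
    rw [hd0, MvPowerSeries.coeff_zero_eq_constantCoeff_apply]
    exact hu
  rwa [pow_one] at h2

theorem ev₁_X_pow {x : Ob K} (hx : ‖x‖ < 1) (N : ℕ) :
    ev₁ x (PowerSeries.X ^ N : PowerSeries (Ob K)) = x ^ N := by
  have hxt : ∀ _ : Unit, IsTopologicallyNilpotent x := fun _ => (Ob_tn_iff x).2 hx
  have h1 : ev₁ x (PowerSeries.X : PowerSeries (Ob K)) = x := ev_X hxt ()
  have h2 := ev_pow hxt (PowerSeries.X : PowerSeries (Ob K)) N
  rw [ev₁] at h1
  rw [h1] at h2
  exact h2

theorem near_iff (c : ℝ) (hc : 0 ≤ c) (V : PowerSeries (Ob K)) (N : ℕ) :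
    (∀ m, ‖PowerSeries.coeff m V - (if m = N then 1 else 0)‖ ≤ c) ↔
      PowerSeries.map (Ideal.Quotient.mk (normIdeal K c hc)) V = PowerSeries.X ^ N := by
  constructor
  · intro h
    ext m
    rw [PowerSeries.coeff_map, PowerSeries.coeff_X_pow]
    have h1 := (mem_normIdeal c hc _).2 (h m)
    rw [← Ideal.Quotient.eq] at h1
    rw [h1]
    split_ifs <;> simp
  · intro h m
    have h1 := congrArg (PowerSeries.coeff m) h
    rw [PowerSeries.coeff_map, PowerSeries.coeff_X_pow] at h1
    rw [← mem_normIdeal c hc, ← Ideal.Quotient.eq, h1]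
    split_ifs <;> simp

theorem map_mk_map_iF (c : ℝ) (hc : 0 ≤ c) (V : PowerSeries (Ob K)) (N k : ℕ)
    (hV : PowerSeries.map (Ideal.Quotient.mk (normIdeal K c hc)) V = PowerSeries.X ^ N) :
    PowerSeries.map (Ideal.Quotient.mk (normIdeal K c hc))
      (PowerSeries.map (iterateFrobenius (Ob K) p k) V) = PowerSeries.X ^ N := by
  ext m
  have h1 := congrArg (PowerSeries.coeff m) hV
  rw [PowerSeries.coeff_map, PowerSeries.coeff_X_pow] at h1
  rw [PowerSeries.coeff_map, PowerSeries.coeff_map, PowerSeries.coeff_X_pow,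
    iterateFrobenius_def, map_pow, h1]
  have hp : p ^ k ≠ 0 := pow_ne_zero _ (Fact.out : p.Prime).ne_zero
  split_ifs
  · exact one_pow _
  · exact zero_pow hp

theorem pow_eq_subst {R : Type*} [CommRing R] [CharP R p] (k : ℕ) (f : PowerSeries R) :
    f ^ p ^ k = PowerSeries.subst (PowerSeries.X ^ p ^ k : PowerSeries R)
      (PowerSeries.map (iterateFrobenius R p k) f) := by
  have hp : p ≠ 0 := (Fact.out : p.Prime).ne_zero
  rw [← PowerSeries.expand_apply _ (pow_ne_zero k hp), ← PowerSeries.map_expand]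
  exact (MvPowerSeries.map_iterateFrobenius_expand p hp f k).symm

theorem map_iF_iF {R : Type*} [CommRing R] [CharP R p] (F : FormalGroup R) (a b : ℕ) :
    (F.map (iterateFrobenius R p a)).map (iterateFrobenius R p b) =
      F.map (iterateFrobenius R p (a + b)) := by
  apply FormalGroup.ext
  change MvPowerSeries.map _ (MvPowerSeries.map _ _) = MvPowerSeries.map _ _
  ext d
  rw [MvPowerSeries.coeff_map, MvPowerSeries.coeff_map, MvPowerSeries.coeff_map,
    iterateFrobenius_def, iterateFrobenius_def, iterateFrobenius_def, ← pow_mul, ← pow_add]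

theorem map_id' {R : Type*} [CommRing R] (F : FormalGroup R) :
    F.map (RingHom.id R) = F := by
  apply FormalGroup.ext
  change MvPowerSeries.map _ _ = _
  rw [MvPowerSeries.map_id]; rfl

end CoVAux

open CoVAux

/-- `V_1` -/
theorem V1_props (h1 : 1 ≤ h) (hh : h < n) (P : HPoint p n h K) :
    mulSeries P.F p = PowerSeries.subst (PowerSeries.X ^ p ^ h : PowerSeries (Ob K))
      (Vz p n h P.z) ∧
    IsFGHom (P.F.map (iterateFrobenius (Ob K) p h)) P.F (Vz p n h P.z) ∧
    PowerSeries.coeff 1 (Vz p n h P.z) ≠ 0 ∧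
    ∀ m, ‖PowerSeries.coeff m (Vz p n h P.z) - (if m = p ^ (n - h) then 1 else 0)‖ ≤ P.c := by
  have hF := P.F_eq_Hx h1 hh
  refine ⟨?_, ?_, ?_, ?_⟩
  · rw [hF]
    exact mulSeries_Hx p n h h1 hh P.z
  · rw [hF, Hx_map]
    exact Vz_hom p n h h1 hh P.z
  · rw [coeff_one_Vz p n h hh]
    exact P.z_zero_ne h1 hh
  · intro m
    have := coeff_Vz_sub_mem p n h hh P.z (normIdeal K P.c P.c_nonneg)
      (fun i => (mem_normIdeal _ _ _).2 (P.norm_z_le h1 i)) m
    rw [mem_normIdeal, map_sub, PowerSeries.coeff_X_pow] at this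
    exact this

/-- `V_1 = Vz p n h P.z`, `V_{i+1} = V_i ∘ V^{(Q^i)}`. -/
theorem exists_Vi (h1 : 1 ≤ h) (hh : h < n) (P : HPoint p n h K) (i : ℕ) : ∃ V, IsVi P i V := by
  obtain ⟨hV1, hV2, hV3, hV4⟩ := V1_props h1 hh P
  have hp : p ≠ 0 := (Fact.out : p.Prime).ne_zero
  induction i with
  | zero =>
    refine ⟨PowerSeries.X, ?_, ?_, ?_, ?_⟩
    · rw [pow_zero, mul_zero, pow_zero, pow_one]
      have : mulSeries P.F 1 = PowerSeries.X := by
        rw [show (1 : ℕ) = 0 + 1 from rfl, mulSeries_succ]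
        exact zero_fadd P.F _ ccPX
      rw [this]
      exact (PowerSeries.X_subst _).symm
    · rw [mul_zero, iterateFrobenius_zero, map_id']
      exact IsFGHom.id _
    · rw [PowerSeries.coeff_one_X]; exact one_ne_zero
    · intro m
      rw [mul_zero, pow_zero, PowerSeries.coeff_X, sub_self, norm_zero]
      exact P.c_nonneg
  | succ i ih =>
    obtain ⟨V, hV⟩ := ih
    have hc1 : PowerSeries.constantCoeff (PowerSeries.map (iterateFrobenius (Ob K) p (h * i))
        (Vz p n h P.z)) = 0 := by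
      rw [← PowerSeries.coeff_zero_eq_constantCoeff_apply, PowerSeries.coeff_map,
        PowerSeries.coeff_zero_eq_constantCoeff_apply, constantCoeff_Vz, map_zero]
    have hcV : PowerSeries.constantCoeff V = 0 := hV.hom.1
    have hpi : p ^ (h * i) ≠ 0 := pow_ne_zero _ hp
    have hcX : ∀ k : ℕ, PowerSeries.constantCoeff (PowerSeries.X ^ p ^ k : PowerSeries (Ob K)) = 0 := by
      intro k
      rw [map_pow, PowerSeries.constantCoeff_X, zero_pow (pow_ne_zero _ hp)]
    refine ⟨PowerSeries.subst (PowerSeries.map (iterateFrobenius (Ob K) p (h * i))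
      (Vz p n h P.z)) V, ?_, ?_, ?_, ?_⟩
    · rw [pow_succ, mulSeries_mul, hV1, hV.eq]
      have e1 : PowerSeries.subst (PowerSeries.subst (PowerSeries.X ^ p ^ h : PowerSeries (Ob K))
          (Vz p n h P.z)) (PowerSeries.X ^ p ^ (h * i) : PowerSeries (Ob K)) =
          PowerSeries.subst (PowerSeries.X ^ p ^ (h * (i + 1)) : PowerSeries (Ob K))
            (PowerSeries.map (iterateFrobenius (Ob K) p (h * i)) (Vz p n h P.z)) := by
        have hXs : PowerSeries.HasSubst (PowerSeries.subst (PowerSeries.X ^ p ^ h :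
            PowerSeries (Ob K)) (Vz p n h P.z)) :=
          PowerSeries.HasSubst.of_constantCoeff_zero'
            (constantCoeff_psubst (hcX h) (constantCoeff_Vz p n h _))
        rw [PowerSeries.subst_pow hXs, PowerSeries.subst_X hXs,
          pow_eq_subst (p := p) (h * i), psubst_one_eq_map _ (hcX h), map_pow, PowerSeries.map_X,
          psubst_psubst (hcX _) (hcX _)]
        congr 1
        rw [PowerSeries.subst_pow (PowerSeries.HasSubst.of_constantCoeff_zero' (hcX (h * i))),
          PowerSeries.subst_X (PowerSeries.HasSubst.of_constantCoeff_zero' (hcX (h * i))),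
          ← pow_mul, ← pow_add, show h * i + h = h * (i + 1) by ring]
      have hcs : PowerSeries.constantCoeff (PowerSeries.subst (PowerSeries.X ^ p ^ h : PowerSeries (Ob K))
          (Vz p n h P.z)) = 0 := constantCoeff_psubst (hcX h) (constantCoeff_Vz p n h _)
      rw [psubst_psubst (hcX _) hcs, e1, psubst_psubst hc1 (hcX _)]
    · have h2 := IsFGHom.map (iterateFrobenius (Ob K) p (h * i)) hV2
      rw [map_iF_iF, show h + h * i = h * (i + 1) by ring] at h2
      exact IsFGHom.comp h2 hV.hom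
    · rw [coeff_one_subst hc1, PowerSeries.coeff_map, iterateFrobenius_def]
      exact mul_ne_zero (pow_ne_zero _ hV3) hV.lin
    · rw [near_iff P.c P.c_nonneg, psubst_one_eq_map _ hc1,
        map_mk_map_iF P.c P.c_nonneg _ (p ^ (n - h)) _ ((near_iff P.c P.c_nonneg _ _).1 hV4),
        (near_iff P.c P.c_nonneg _ _).1 hV.near]
      have hs : PowerSeries.HasSubst (PowerSeries.X ^ p ^ (n - h) :
          PowerSeries (Ob K ⧸ normIdeal K P.c P.c_nonneg)) :=
        PowerSeries.HasSubst.of_constantCoeff_zero' (by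
          rw [map_pow, PowerSeries.constantCoeff_X, zero_pow (pow_ne_zero _ hp)])
      rw [PowerSeries.subst_pow hs, PowerSeries.subst_X hs, ← pow_mul, ← pow_add]
      congr 2
      ring


theorem IsVi.ev {P : HPoint p n h K} {i : ℕ} {V : PowerSeries (Ob K)} (hV : IsVi P i V)
    (a : FPt P.F) : ((p ^ i) • a).val = ev₁ (a.val ^ p ^ (h * i)) V := by
  have hp : p ^ (h * i) ≠ 0 := pow_ne_zero _ (Fact.out : p.Prime).ne_zero
  rw [FPt.val_nsmul, hV.eq, ev₁_subst a.tn _ (by
    rw [map_pow, PowerSeries.constantCoeff_X, zero_pow hp]), ev₁_X_pow a.norm_lt]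

/-- all zeros of `V_i` are simple: `V'(X) ∂₂F^{(Q^i)}(X,0) = ∂₂F(V(X),0) V'(0)` -/
theorem IsVi.deriv_ne {P : HPoint p n h K} {i : ℕ} {V : PowerSeries (Ob K)} (hV : IsVi P i V)
    (x : Ob K) (hx : ‖x‖ < 1) : ev₁ x (PowerSeries.derivativeFun V) ≠ 0 := by
  obtain ⟨u, v, hu, hv, he⟩ := deriv_formula hV.hom
  have hxt : ∀ _ : Unit, IsTopologicallyNilpotent x := fun _ => (Ob_tn_iff x).2 hx
  have h1 := congrArg (ev₁ x) he
  have h2 : ev₁ x (PowerSeries.derivative (Ob K) V * u) =
      ev₁ x (PowerSeries.derivative (Ob K) V) * ev₁ x u := ev_mul hxt _ _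
  have h3 : ev₁ x (v * PowerSeries.C (PowerSeries.coeff 1 V)) =
      ev₁ x v * PowerSeries.coeff 1 V := by
    have := ev_mul hxt v (PowerSeries.C (PowerSeries.coeff 1 V))
    rw [show Crest.Agent.R227.ev (fun _ : Unit => x) (PowerSeries.C (PowerSeries.coeff 1 V) : PowerSeries (Ob K)) =
      PowerSeries.coeff 1 V from ev_C hxt _] at this
    exact this
  rw [h2, h3] at h1
  intro h0
  have h0' : ev₁ x (PowerSeries.derivative (Ob K) V) = 0 := h0
  rw [h0', zero_mul] at h1
  exact mul_ne_zero (ev₁_ne_zero hv hx) hV.lin h1.symm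

theorem norm_pow_smul_le (h1 : 1 ≤ h) (hh : h < n) (P : HPoint p n h K) (i : ℕ) (a : FPt P.F) :
    ‖((p ^ i) • a).val‖ ≤ ‖a.val‖ ^ p ^ (h * i) := by
  obtain ⟨V, hV⟩ := exists_Vi h1 hh P i
  have hp : p ^ (h * i) ≠ 0 := pow_ne_zero _ (Fact.out : p.Prime).ne_zero
  have h2 : ‖a.val ^ p ^ (h * i)‖ = ‖a.val‖ ^ p ^ (h * i) := by
    rw [← fz_natCast, norm_fz_natCast]
  rw [hV.ev, ← h2]
  refine norm_ev₁_le hV.hom.1 ?_
  rw [h2]
  exact pow_lt_one₀ (norm_nonneg _) a.norm_lt hp

/-- on the points of the Honda law of height `j`, `p^i` is `z ↦ z^{p^{ji}}` -/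
theorem HO_pow_smul {j : ℕ} (h1 : 1 ≤ j) (h2 : j ≤ n) (i : ℕ) (z : FPt (HO p n j (Ob K))) :
    (p ^ i) • z = nfr ((j * i : ℕ) : ℤ) z := by
  have key : ∀ z : FPt (HO p n j (Ob K)), p • z = nfr ((j : ℕ) : ℤ) z := by
    intro z
    apply FPt.ext
    have h3 : mulSeries (HO p n j (Ob K)) p = PowerSeries.X ^ p ^ j :=
      mulSeries_Fh p n j h1 h2
    rw [FPt.val_nsmul, h3, ev₁_X_pow z.norm_lt, nfr_val, fz_natCast]
  induction i generalizing z with
  | zero => rw [pow_zero, one_smul, mul_zero, Nat.cast_zero, nfr_zero]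
  | succ i ih =>
    rw [pow_succ, mul_smul, ih, key, ← nfr_add]
    congr 2

end Crest.Agent.R227
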