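import Crest.Agent.R227.CoAct
import Mathlib
import Crest.Prelude.Def_LubinTate
import Crest.Agent.R227.CoTate
import Crest.Agent.R227.Psi
import Crest.Agent.R227.CoApproxAux_Mg
import Crest.Agent.R227.LTComplete
import Crest.Agent.R227.Translate
import Crest.Agent.R227.CoDefs
import Crest.Agent.R227.CoV

-- ▼ part R227/CoApproxOrb
section

/-! # R227 / CoApproxOrb : `EEset` at orbit points (task COAPPROX1) -/

set_option autoImplicit false
set_option linter.unusedSectionVars false

noncomputable section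

namespace Crest.Agent.R227.CoApproxAux

open Crest.LubinTate MvPowerSeries Topology

variable {p : ℕ} [Fact p.Prime] {n h : ℕ}
variable {K : Type} [NontriviallyNormedField K] [IsUltrametricDist K] [CompleteSpace K]
  [IsAlgClosed K] [CharP K p]

variable {ι : GaloisField p n →+* Ob K} {M : ℕ}

/-- the action of a composition -/
theorem hom_comp {F G H : FormalGroup (Ob K)} [F.IsComm] [G.IsComm] [H.IsComm]
    {φ ψ : PowerSeries (Ob K)} (hφ : IsFGHom F G φ) (hψ : IsFGHom G H ψ)
    (hφψ : IsFGHom F H (PowerSeries.subst φ ψ)) (a : FPt F) :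
    FPt.hom hφψ a = FPt.hom hψ (FPt.hom hφ a) := by
  apply FPt.ext
  rw [FPt.hom_val, FPt.hom_val, FPt.hom_val, ev₁_subst a.tn _ hφ.1]

/-- `EEset` is the same at all orbit points (`ψ' = ψ ∘ lam`, `θ'(α g⁻¹ t) = θ(g α g⁻¹ t)`). -/
theorem EEset_orb {x y : Mk p n h K ι} (hxy : Orb M x y) {ψ : PowerSeries (Ob K)}
    (hψ : IsFGHom x.P.F (HO p n h (Ob K)) ψ) (hψ1 : PowerSeries.coeff 1 ψ ≠ 0) :
    ∃ (ψ' : PowerSeries (Ob K)) (hψ' : IsFGHom y.P.F (HO p n h (Ob K)) ψ'),
      PowerSeries.coeff 1 ψ' ≠ 0 ∧ EEset y hψ' = EEset x hψ := by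
  obtain ⟨g, H⟩ := hxy
  obtain ⟨φ, hφ, hX, lam, hl, hlu, hcong, hcomm⟩ := H.map
  have hψ' := IsFGHom.comp hl hψ
  refine ⟨PowerSeries.subst lam ψ, hψ', ?_, ?_⟩
  · rw [CoVAux.coeff_one_subst hl.1]
    exact mul_ne_zero hlu.ne_zero hψ1
  obtain ⟨e, he, he', hev⟩ := exists_act_equiv (K := K) (ι := ι) H.aut
  have het : ∀ l, e (y.t l) = x.t l := fun l => FPt.ext ((hev _).trans (H.basis l).symm)
  have het' : ∀ l, e.symm (x.t l) = y.t l := fun l => by rw [← het, e.symm_apply_apply]
  have hc : ∀ z, x.ρ (e z) = FPt.hom hl (y.ρ z) := fun z => hcomm z (e z) (hev z)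
  ext a
  constructor
  · rintro ⟨A, hA, ha⟩
    refine ⟨(e.toAddMonoidHom.comp A).comp e.symm.toAddMonoidHom, (he.comp hA).comp he', ?_⟩
    intro l
    rw [ha, hom_comp hl hψ hψ', ← hc]
    change _ = FPt.hom hψ (x.ρ (e (A (e.symm (x.t l)))))
    rw [het']
  · rintro ⟨A, hA, ha⟩
    refine ⟨(e.symm.toAddMonoidHom.comp A).comp e.toAddMonoidHom, (he'.comp hA).comp he, ?_⟩
    intro l
    rw [ha, hom_comp hl hψ hψ', ← hc]
    change _ = FPt.hom hψ (x.ρ (e (e.symm (A (e (y.t l))))))
    rw [het, e.apply_symm_apply]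

end Crest.Agent.R227.CoApproxAux
end
end

-- ▼ part R227/LazardComb
section

/-!
# Row 227 (S0351): the symmetric 2-cocycle lemma, coefficient form, in characteristic `p`
-/

set_option autoImplicit false

open Finset

namespace Crest.Agent.R227

section comb

variable (p : ℕ) [Fact p.Prime] {κ : Type*} [Field κ] [CharP κ p]

/-- power sums over the prime field -/
theorem sum_range_pow (i : ℕ) (h1 : 1 ≤ i) (h2 : i ≤ p - 1) :
    ∑ s ∈ range p, ((s : ℕ) : κ) ^ i = if i = p - 1 then -1 else 0 := by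
  classical
  have hp : p.Prime := Fact.out
  have h0 : ∑ s ∈ range p, ((s : ℕ) : κ) ^ i
      = (ZMod.castHom (dvd_refl p) κ) (∑ x : ZMod p, x ^ i) := by
    rw [map_sum]
    have h3 : ∑ s ∈ range p, ((s : ℕ) : κ) ^ i = ∑ s : Fin p, ((s.val : ℕ) : κ) ^ i := by
      rw [Finset.sum_range]
    rw [h3]
    obtain ⟨k, rfl⟩ : ∃ k, p = k + 1 := ⟨p - 1, by have := hp.one_le; omega⟩
    refine Finset.sum_congr rfl fun x _ => ?_
    rw [map_pow]
    congr 1
  rw [h0]
  split_ifs with h
  · have h4 : ∑ x : ZMod p, x ^ i = -1 := by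
      rw [h]
      have h5 : ∀ x : ZMod p, x ^ (p - 1) = if x = 0 then 0 else 1 := by
        intro x
        split_ifs with hx
        · rw [hx, zero_pow (by have := hp.two_le; omega)]
        · exact ZMod.pow_card_sub_one_eq_one hx
      simp only [h5]
      rw [Finset.sum_ite, Finset.sum_const_zero, zero_add, Finset.sum_const, nsmul_eq_mul, mul_one]
      have h6 : (univ.filter (fun x : ZMod p => ¬ x = 0)).card = p - 1 := by
        have h7 : univ.filter (fun x : ZMod p => ¬ x = 0) = univ.erase 0 := by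
          ext x; simp
        rw [h7, Finset.card_erase_of_mem (mem_univ _), Finset.card_univ, ZMod.card]
      rw [h6, Nat.cast_sub hp.one_le]
      simp
    rw [h4]
    simp
  · have h4 : ∑ x : ZMod p, x ^ i = 0 := by
      apply FiniteField.sum_pow_lt_card_sub_one
      rw [ZMod.card]
      omega
    rw [h4, map_zero]

theorem choose_cast_mul (a b c d : ℕ) (hb : b < p) (hd : d < p) :
    ((Nat.choose (p * a + b) (p * c + d) : ℕ) : κ) =
      (Nat.choose b d : κ) * (Nat.choose a c : κ) := by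
  have hp : p.Prime := Fact.out
  have h := Choose.choose_modEq_choose_mod_mul_choose_div_nat (n := p * a + b) (k := p * c + d)
    (p := p)
  have e1 : (p * a + b) % p = b := by
    rw [Nat.mul_add_mod, Nat.mod_eq_of_lt hb]
  have e2 : (p * c + d) % p = d := by
    rw [Nat.mul_add_mod, Nat.mod_eq_of_lt hd]
  have e3 : (p * a + b) / p = a := by
    rw [Nat.mul_add_div hp.pos, Nat.div_eq_of_lt hb, add_zero]
  have e4 : (p * c + d) / p = c := by
    rw [Nat.mul_add_div hp.pos, Nat.div_eq_of_lt hd, add_zero]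
  rw [e1, e2, e3, e4] at h
  have h2 := (CharP.natCast_eq_natCast κ p).mpr h
  rw [h2, Nat.cast_mul]

/-- The symmetric 2-cocycle lemma in characteristic `p`, with the additional condition coming from
`[p]`. -/
theorem cocycle_comb (N : ℕ) : 2 ≤ N → ∀ a : ℕ → κ,
    (∀ i, 1 ≤ i → i ≤ N - 1 → a i = a (N - i)) →
    (∀ i j k, 1 ≤ i → 1 ≤ j → 1 ≤ k → i + j + k = N →
      ((i + j).choose i : κ) * a (i + j) = ((j + k).choose j : κ) * a i) →
    (∑ s ∈ range p, ∑ i ∈ Ico 1 N, a i * ((s : ℕ) : κ) ^ i = 0) →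
    ∃ b : κ, ∀ i, 1 ≤ i → i ≤ N - 1 → a i = b * (N.choose i : κ) := by
  classical
  have hp : p.Prime := Fact.out
  induction N using Nat.strong_induction_on with
  | _ N ih =>
    intro hN a hsym hcoc hpc
    -- basic relation
    have hrel : ∀ l, 1 ≤ l → l ≤ N - 1 →
        (l : κ) * a l = ((N - 1).choose (l - 1) : κ) * a 1 := by
      intro l h1 h2
      rcases Nat.lt_or_ge 1 l with h | h
      · have := hcoc 1 (l - 1) (N - l) le_rfl (by omega) (by omega) (by omega)
        have e1 : 1 + (l - 1) = l := by omega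
        have e2 : l - 1 + (N - l) = N - 1 := by omega
        rw [e1, e2, Nat.choose_one_right] at this
        exact this
      · have : l = 1 := by omega
        subst this
        simp
    have hchoose : ∀ l, 1 ≤ l → l ≤ N - 1 →
        (l : κ) * (N.choose l : κ) = (N : κ) * ((N - 1).choose (l - 1) : κ) := by
      intro l h1 h2
      have := Nat.add_one_mul_choose_eq (N - 1) (l - 1)
      have e1 : N - 1 + 1 = N := by omega
      have e2 : l - 1 + 1 = l := by omega
      rw [e1, e2] at this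
      have h3 : ((N * (N - 1).choose (l - 1) : ℕ) : κ) = ((N.choose l * l : ℕ) : κ) := by rw [this]
      push_cast at h3
      rw [h3]
      ring
    by_cases hpN : p ∣ N
    · obtain ⟨N', rfl⟩ := hpN
      have hN'pos : 1 ≤ N' := by
        rcases Nat.eq_zero_or_pos N' with h | h
        · subst h; simp at hN
        · exact h
      -- it suffices to show `a 1 = 0`, then reduce to `N'`
      have ha1 : a 1 = 0 := by
        rcases Nat.lt_or_ge 1 N' with h | h
        · -- `N' ≥ 2`
          have h2 := hcoc 1 (p - 1) (p * N' - p) le_rfl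
            (by have := hp.two_le; omega)
            (by
              have : p * 1 < p * N' := Nat.mul_lt_mul_of_pos_left h hp.pos
              omega)
            (by
              have h3 : p * 1 ≤ p * N' := Nat.mul_le_mul_left p hN'pos
              have := hp.two_le
              omega)
          have e1 : 1 + (p - 1) = p := by have := hp.two_le; omega
          have e2 : p - 1 + (p * N' - p) = p * (N' - 1) + (p - 1) := by
            rw [Nat.mul_sub]
            omega
          have e3 : p - 1 = p * 0 + (p - 1) := by omega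
          rw [e1, Nat.choose_one_right, CharP.cast_eq_zero κ p, zero_mul, e2] at h2
          have h4 := choose_cast_mul (κ := κ) p (N' - 1) (p - 1) 0 (p - 1)
            (by have := hp.two_le; omega) (by have := hp.two_le; omega)
          rw [← e3, Nat.choose_self, Nat.choose_zero_right] at h4
          rw [h4] at h2
          simpa using h2.symm
        · -- `N' = 1`
          have hN1 : N' = 1 := by omega
          subst hN1
          rw [mul_one] at hpc hsym
          rw [Finset.sum_comm] at hpc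
          have h3 : ∀ i ∈ Ico 1 p, ∑ s ∈ range p, a i * ((s : ℕ) : κ) ^ i
              = if i = p - 1 then -a (p - 1) else 0 := by
            intro i hi
            rw [mem_Ico] at hi
            rw [← Finset.mul_sum, sum_range_pow p i hi.1 (by omega)]
            split_ifs with h
            · rw [h]; ring
            · ring
          rw [Finset.sum_congr rfl h3, Finset.sum_ite_eq',
            if_pos (by rw [mem_Ico]; have := hp.two_le; omega)] at hpc
          have h4 : a (p - 1) = 0 := by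
            rw [neg_eq_zero] at hpc
            exact hpc
          rw [hsym 1 le_rfl (by have := hp.two_le; omega), h4]
      have hndvd : ∀ l, 1 ≤ l → l ≤ p * N' - 1 → ¬ p ∣ l → a l = 0 := by
        intro l h1 h2 h3
        have h4 := hrel l h1 h2
        rw [ha1, mul_zero] at h4
        have h5 : (l : κ) ≠ 0 := by
          rw [Ne, CharP.cast_eq_zero_iff κ p]
          exact h3
        exact (mul_eq_zero.mp h4).resolve_left h5
      rcases Nat.lt_or_ge 1 N' with h | h
      · have hlt : N' < p * N' := by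
          have := hp.two_le
          nlinarith
        have hs1 : ∀ i, 1 ≤ i → i ≤ N' - 1 → (fun l => a (p * l)) i = (fun l => a (p * l)) (N' - i) := by
          intro i h1 h2
          have h3 := hsym (p * i) (by have := hp.two_le; nlinarith) (by
            have h4 : p * (i + 1) ≤ p * N' := Nat.mul_le_mul_left p (by omega)
            have h5 := hp.two_le
            rw [mul_add] at h4
            omega)
          change a (p * i) = a (p * (N' - i))
          rw [h3, Nat.mul_sub]
        have hs2 : ∀ i j k, 1 ≤ i → 1 ≤ j → 1 ≤ k → i + j + k = N' →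
            ((i + j).choose i : κ) * (fun l => a (p * l)) (i + j) =
              ((j + k).choose j : κ) * (fun l => a (p * l)) i := by
          intro i j k h1 h2 h3 h4
          have h5 := hcoc (p * i) (p * j) (p * k) (by have := hp.two_le; nlinarith)
            (by have := hp.two_le; nlinarith) (by have := hp.two_le; nlinarith)
            (by rw [← h4]; ring)
          have h6 := choose_cast_mul (κ := κ) p (i + j) 0 i 0 hp.pos hp.pos
          have h7 := choose_cast_mul (κ := κ) p (j + k) 0 j 0 hp.pos hp.pos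
          rw [add_zero, add_zero, Nat.choose_self, Nat.cast_one, one_mul] at h6 h7
          rw [← mul_add, ← mul_add, h6, h7] at h5
          exact h5
        have hs3 : ∑ s ∈ range p, ∑ i ∈ Ico 1 N', (fun l => a (p * l)) i * ((s : ℕ) : κ) ^ i = 0 := by
          have h8 : ∀ s ∈ range p, ∑ i ∈ Ico 1 N', a (p * i) * ((s : ℕ) : κ) ^ i
              = ∑ i ∈ Ico 1 (p * N'), a i * ((s : ℕ) : κ) ^ i := by
            intro s _
            have hfr : ((s : ℕ) : κ) ^ p = (s : κ) := by
              rw [← frobenius_def, map_natCast]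
            have himg : ∑ i ∈ Ico 1 N', a (p * i) * ((s : ℕ) : κ) ^ i
                = ∑ i ∈ (Ico 1 N').image (fun i => p * i), a i * ((s : ℕ) : κ) ^ i := by
              rw [Finset.sum_image (by
                intro x _ y _ hxy
                exact Nat.eq_of_mul_eq_mul_left hp.pos hxy)]
              refine Finset.sum_congr rfl fun i _ => ?_
              rw [pow_mul, hfr]
            rw [himg]
            refine Finset.sum_subset ?_ ?_
            · intro x hx
              rw [mem_image] at hx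
              obtain ⟨i, hi, rfl⟩ := hx
              rw [mem_Ico] at hi ⊢
              have := hp.two_le
              constructor
              · nlinarith
              · exact Nat.mul_lt_mul_of_pos_left hi.2 hp.pos
            · intro x hx hx2
              rw [mem_Ico] at hx
              rw [hndvd x hx.1 (by omega) ?_, zero_mul]
              rintro ⟨l, rfl⟩
              apply hx2
              rw [mem_image]
              refine ⟨l, ?_, rfl⟩
              rw [mem_Ico]
              constructor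
              · rcases Nat.eq_zero_or_pos l with h | h
                · subst h; simp at hx
                · exact h
              · exact Nat.lt_of_mul_lt_mul_left hx.2
          rw [← hpc]
          exact Finset.sum_congr rfl h8
        obtain ⟨b, hb⟩ := ih N' hlt h (fun l => a (p * l)) hs1 hs2 hs3
        · refine ⟨b, fun i h1 h2 => ?_⟩
          by_cases hdv : p ∣ i
          · obtain ⟨l, rfl⟩ := hdv
            have hl1 : 1 ≤ l := by
              rcases Nat.eq_zero_or_pos l with h | h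
              · subst h; simp at h1
              · exact h
            have hl2 : l ≤ N' - 1 := by
              have h3 : p * l < p * N' := by omega
              have := Nat.lt_of_mul_lt_mul_left h3
              omega
            rw [hb l hl1 hl2]
            have h5 := choose_cast_mul (κ := κ) p N' 0 l 0 hp.pos hp.pos
            rw [add_zero, add_zero, Nat.choose_self, Nat.cast_one, one_mul] at h5
            rw [h5]
          · rw [hndvd i h1 h2 hdv]
            have h6 : i = p * (i / p) + i % p := (Nat.div_add_mod i p).symm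
            have h7 := choose_cast_mul (κ := κ) p N' 0 (i / p) (i % p) hp.pos
              (Nat.mod_lt _ hp.pos)
            rw [add_zero, ← h6, Nat.choose_eq_zero_of_lt (n := 0) (k := i % p)
              (Nat.pos_of_ne_zero fun h0 => hdv (Nat.dvd_of_mod_eq_zero h0)), Nat.cast_zero,
              zero_mul] at h7
            rw [h7, mul_zero]
      · refine ⟨0, fun i h1 h2 => ?_⟩
        have hN1 : N' = 1 := by omega
        subst hN1
        rw [zero_mul]
        apply hndvd i h1 h2
        intro h3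
        have := Nat.le_of_dvd (by omega) h3
        omega
    · have hNne : (N : κ) ≠ 0 := by
        rw [Ne, CharP.cast_eq_zero_iff κ p]
        exact hpN
      have hA : ∀ l, 1 ≤ l → l ≤ N - 1 → ¬ p ∣ l → a l = a 1 / (N : κ) * (N.choose l : κ) := by
        intro l h1 h2 h3
        have h5 : (l : κ) ≠ 0 := by
          rw [Ne, CharP.cast_eq_zero_iff κ p]
          exact h3
        apply mul_left_cancel₀ h5
        rw [hrel l h1 h2]
        have h6 := hchoose l h1 h2
        field_simp
        linear_combination (-(a 1)) * h6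
      refine ⟨a 1 / (N : κ), fun i h1 h2 => ?_⟩
      by_cases hdv : p ∣ i
      · rw [hsym i h1 h2, hA (N - i) (by omega) (by omega) ?_, Nat.choose_symm (by omega)]
        intro h3
        apply hpN
        have : N = (N - i) + i := by omega
        rw [this]
        exact Dvd.dvd.add h3 hdv
      · exact hA i h1 h2 hdv

end comb

end Crest.Agent.R227
end

-- ▼ part R227/LazardAux
section

/-!
# Row 227 (S0351): one-variable test calculus for the defect of a homomorphism
-/

set_option autoImplicit false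

open Finset Crest.LubinTate

namespace Crest.Agent.R227.Laz

section basic

variable {R : Type*} [CommRing R]

/-- exponent -/
noncomputable def ex (i j : ℕ) : Fin 2 →₀ ℕ := Finsupp.single 0 i + Finsupp.single 1 j

@[simp] lemma ex_zero (i j : ℕ) : ex i j 0 = i := by simp [ex]
@[simp] lemma ex_one (i j : ℕ) : ex i j 1 = j := by simp [ex]

lemma ex_eta (d : Fin 2 →₀ ℕ) : ex (d 0) (d 1) = d := by
  ext i
  fin_cases i <;> simp

lemma ex_injective : Function.Injective (fun q : ℕ × ℕ => ex q.1 q.2) := by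
  rintro ⟨a, b⟩ ⟨c, d⟩ h
  have h0 := DFunLike.congr_fun h 0
  have h1 := DFunLike.congr_fun h 1
  simp only [ex_zero, ex_one] at h0 h1
  rw [h0, h1]

/-- apply a two-variable series to two one-variable series -/
noncomputable def ap (f : MvPowerSeries (Fin 2) R) (a b : PowerSeries R) : PowerSeries R :=
  MvPowerSeries.subst ![a, b] f

lemma hs {a b : PowerSeries R} (ha : PowerSeries.constantCoeff a = 0)
    (hb : PowerSeries.constantCoeff b = 0) : MvPowerSeries.HasSubst ![a, b] :=
  MvPowerSeries.hasSubst_of_constantCoeff_nilpotent fun s => by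
    fin_cases s
    · change IsNilpotent (PowerSeries.constantCoeff a)
      rw [ha]; exact IsNilpotent.zero
    · change IsNilpotent (PowerSeries.constantCoeff b)
      rw [hb]; exact IsNilpotent.zero

lemma hs1 {a : PowerSeries R} (ha : PowerSeries.constantCoeff a = 0) : PowerSeries.HasSubst a :=
  PowerSeries.HasSubst.of_constantCoeff_zero' ha

lemma dvd_of_cc {a : PowerSeries R} (ha : PowerSeries.constantCoeff a = 0) :
    (PowerSeries.X : PowerSeries R) ∣ a := PowerSeries.X_dvd_iff.mpr ha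

lemma X_pow_dvd {a b : PowerSeries R} (ha : PowerSeries.constantCoeff a = 0)
    (hb : PowerSeries.constantCoeff b = 0) (i j : ℕ) :
    (PowerSeries.X : PowerSeries R) ^ (i + j) ∣ a ^ i * b ^ j := by
  rw [pow_add]
  exact mul_dvd_mul (pow_dvd_pow_of_dvd (dvd_of_cc ha) i) (pow_dvd_pow_of_dvd (dvd_of_cc hb) j)

lemma coeff_eq_zero_of_dvd {a : PowerSeries R} {M k : ℕ}
    (h : (PowerSeries.X : PowerSeries R) ^ M ∣ a) (hk : k < M) : PowerSeries.coeff k a = 0 :=
  PowerSeries.X_pow_dvd_iff.mp h k hk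

lemma coeff_ap (f : MvPowerSeries (Fin 2) R) {a b : PowerSeries R}
    (ha : PowerSeries.constantCoeff a = 0) (hb : PowerSeries.constantCoeff b = 0) (k : ℕ) :
    PowerSeries.coeff k (ap f a b) = ∑ i ∈ range (k + 1), ∑ j ∈ range (k + 1),
      MvPowerSeries.coeff (ex i j) f * PowerSeries.coeff k (a ^ i * b ^ j) := by
  classical
  unfold ap
  have h := MvPowerSeries.coeff_subst (hs ha hb) f (Finsupp.single () k)
  have h0 : PowerSeries.coeff k (MvPowerSeries.subst ![a, b] f : PowerSeries R)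
      = MvPowerSeries.coeff (Finsupp.single () k) (MvPowerSeries.subst ![a, b] f) := rfl
  have hprod : ∀ d : Fin 2 →₀ ℕ, (d.prod fun s e => (![a, b] s) ^ e) = a ^ (d 0) * b ^ (d 1) := by
    intro d
    rw [Finsupp.prod_fintype _ _ (by intro i; exact pow_zero _), Fin.prod_univ_two]
    rfl
  rw [h0, h]
  rw [finsum_eq_sum_of_support_subset
    (s := ((range (k + 1)) ×ˢ (range (k + 1))).image (fun q => ex q.1 q.2))]
  · rw [Finset.sum_image (fun _ _ _ _ h => ex_injective h), Finset.sum_product]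
    refine Finset.sum_congr rfl fun i _ => Finset.sum_congr rfl fun j _ => ?_
    simp only [hprod, ex_zero, ex_one, smul_eq_mul]
    rfl
  · intro d hd
    rw [Function.mem_support] at hd
    rw [Finset.mem_coe, Finset.mem_image]
    have h1 : d 0 + d 1 ≤ k := by
      by_contra hcon
      push Not at hcon
      apply hd
      rw [hprod]
      have h2 : PowerSeries.coeff k (a ^ (d 0) * b ^ (d 1)) = 0 :=
        coeff_eq_zero_of_dvd (X_pow_dvd ha hb _ _) hcon
      have h3 : MvPowerSeries.coeff (Finsupp.single () k) (a ^ (d 0) * b ^ (d 1)) = 0 := h2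
      rw [h3, smul_zero]
    refine ⟨(d 0, d 1), ?_, ex_eta d⟩
    rw [Finset.mem_product, mem_range, mem_range]
    constructor <;> simp only <;> omega


lemma pow_sub_dvd {a ε : PowerSeries R} {M : ℕ} (hε : (PowerSeries.X : PowerSeries R) ^ M ∣ ε)
    (i : ℕ) : (PowerSeries.X : PowerSeries R) ^ M ∣ (a + ε) ^ i - a ^ i := by
  have h : (a + ε) - a ∣ (a + ε) ^ i - a ^ i := sub_dvd_pow_sub_pow _ _ _
  rw [add_sub_cancel_left] at h
  exact hε.trans h

lemma pow_sub_dvd' {a ε : PowerSeries R} {M : ℕ} (hM : 1 ≤ M)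
    (ha : PowerSeries.constantCoeff a = 0)
    (hε : (PowerSeries.X : PowerSeries R) ^ M ∣ ε) (i : ℕ) (hi : 2 ≤ i) :
    (PowerSeries.X : PowerSeries R) ^ (M + 1) ∣ (a + ε) ^ i - a ^ i := by
  obtain ⟨j, rfl⟩ : ∃ j, i = j + 1 := ⟨i - 1, by omega⟩
  have h1 : (a + ε) ^ (j + 1) - a ^ (j + 1) = ((a + ε) ^ j - a ^ j) * (a + ε) + ε * a ^ j := by
    ring
  rw [h1]
  have hXa : (PowerSeries.X : PowerSeries R) ∣ a := dvd_of_cc ha
  have hXε : (PowerSeries.X : PowerSeries R) ∣ ε :=
    (dvd_pow_self _ (by omega)).trans hε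
  refine dvd_add ?_ ?_
  · rw [pow_succ]
    exact mul_dvd_mul (pow_sub_dvd hε j) (dvd_add hXa hXε)
  · rw [pow_succ]
    refine mul_dvd_mul hε (hXa.trans (dvd_pow_self _ (by omega)))

/-- first order perturbation of the first argument -/
lemma ap_perturb (f : MvPowerSeries (Fin 2) R) {a b ε : PowerSeries R} {M : ℕ} (hM : 1 ≤ M)
    (ha : PowerSeries.constantCoeff a = 0) (hb : PowerSeries.constantCoeff b = 0)
    (hε : (PowerSeries.X : PowerSeries R) ^ M ∣ ε) :
    (PowerSeries.X : PowerSeries R) ^ (M + 1) ∣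
      ap f (a + ε) b - ap f a b - PowerSeries.C (MvPowerSeries.coeff (ex 1 0) f) * ε := by
  have hXε : PowerSeries.constantCoeff ε = 0 :=
    PowerSeries.X_dvd_iff.mp ((dvd_pow_self _ (by omega)).trans hε)
  have ha' : PowerSeries.constantCoeff (a + ε) = 0 := by rw [map_add, ha, hXε, add_zero]
  rw [PowerSeries.X_pow_dvd_iff]
  intro k hk
  rw [map_sub, map_sub, coeff_ap f ha' hb, coeff_ap f ha hb, PowerSeries.coeff_C_mul,
    ← Finset.sum_sub_distrib]
  simp only [← Finset.sum_sub_distrib, ← mul_sub]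
  have h1 : ∀ i j : ℕ, MvPowerSeries.coeff (ex i j) f * (PowerSeries.coeff k ((a + ε) ^ i * b ^ j)
      - PowerSeries.coeff k (a ^ i * b ^ j)) =
      if i = 1 ∧ j = 0 then MvPowerSeries.coeff (ex 1 0) f * PowerSeries.coeff k ε else 0 := by
    intro i j
    split_ifs with hij
    · obtain ⟨rfl, rfl⟩ := hij
      rw [pow_one, pow_zero, mul_one, pow_one, mul_one, map_add, add_sub_cancel_left]
    · rw [← map_sub, ← sub_mul]
      have h2 : (PowerSeries.X : PowerSeries R) ^ (M + 1) ∣ ((a + ε) ^ i - a ^ i) * b ^ j := by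
        rcases Nat.lt_or_ge i 2 with hi | hi
        · rcases Nat.eq_zero_or_pos i with h0 | h0
          · subst h0
            rw [pow_zero, pow_zero, sub_self, zero_mul]
            exact dvd_zero _
          · have hi1 : i = 1 := by omega
            subst hi1
            have hj : j ≠ 0 := fun h => hij ⟨rfl, h⟩
            rw [pow_succ]
            refine mul_dvd_mul (pow_sub_dvd hε 1) ((dvd_of_cc hb).trans (dvd_pow_self _ hj))
        · exact (pow_sub_dvd' hM ha hε i hi).trans (dvd_mul_right _ _)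
      rw [coeff_eq_zero_of_dvd h2 hk, mul_zero]
  simp only [h1]
  rcases Nat.eq_zero_or_pos k with h0 | h0
  · subst h0
    rw [PowerSeries.coeff_zero_eq_constantCoeff_apply, hXε, mul_zero]
    simp
  · rw [Finset.sum_eq_single 1, Finset.sum_eq_single 0]
    · simp
    · intro j _ hj
      rw [if_neg (fun h => hj h.2)]
    · intro h
      exact absurd (mem_range.mpr (by omega)) h
    · intro i _ hi
      exact Finset.sum_eq_zero fun j _ => if_neg (fun h => hi h.1)
    · intro h
      exact absurd (mem_range.mpr (by omega)) h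

/-- weak form of the perturbation lemma -/
lemma ap_perturb_weak (f : MvPowerSeries (Fin 2) R) {a b ε : PowerSeries R} {M : ℕ} (hM : 1 ≤ M)
    (ha : PowerSeries.constantCoeff a = 0) (hb : PowerSeries.constantCoeff b = 0)
    (hε : (PowerSeries.X : PowerSeries R) ^ M ∣ ε) :
    (PowerSeries.X : PowerSeries R) ^ M ∣ ap f (a + ε) b - ap f a b := by
  have h1 := ap_perturb f hM ha hb hε
  have h2 : (PowerSeries.X : PowerSeries R) ^ M ∣
      PowerSeries.C (MvPowerSeries.coeff (ex 1 0) f) * ε := hε.mul_left _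
  have h3 := dvd_add ((pow_dvd_pow _ (Nat.le_succ M)).trans h1) h2
  rwa [sub_add_cancel] at h3

lemma coeff_mul_pow_low {a b : PowerSeries R} (ha : PowerSeries.constantCoeff a = 0)
    (hb : PowerSeries.constantCoeff b = 0) (i j : ℕ) :
    PowerSeries.coeff (i + j) (a ^ i * b ^ j) =
      PowerSeries.coeff 1 a ^ i * PowerSeries.coeff 1 b ^ j := by
  obtain ⟨a', rfl⟩ := dvd_of_cc ha
  obtain ⟨b', rfl⟩ := dvd_of_cc hb
  have h1 : (PowerSeries.X * a') ^ i * (PowerSeries.X * b') ^ j
      = PowerSeries.X ^ (i + j) * (a' ^ i * b' ^ j) := by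
    rw [mul_pow, mul_pow, pow_add]
    ring
  rw [h1, PowerSeries.coeff_X_pow_mul']
  rw [if_pos le_rfl, Nat.sub_self, PowerSeries.coeff_zero_eq_constantCoeff_apply, map_mul, map_pow,
    map_pow]
  have h2 : ∀ c : PowerSeries R, PowerSeries.coeff 1 (PowerSeries.X * c)
      = PowerSeries.constantCoeff c := by
    intro c
    have := PowerSeries.coeff_succ_X_mul 0 c
    rw [zero_add] at this
    rw [this, PowerSeries.coeff_zero_eq_constantCoeff_apply]
  rw [h2, h2]

/-- the leading value of a series without terms of degree `≤ m` -/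
lemma ap_lowest (f : MvPowerSeries (Fin 2) R) (m : ℕ)
    (hf : ∀ i j, i + j ≤ m → MvPowerSeries.coeff (ex i j) f = 0) {a b : PowerSeries R}
    (ha : PowerSeries.constantCoeff a = 0) (hb : PowerSeries.constantCoeff b = 0) :
    (PowerSeries.X : PowerSeries R) ^ (m + 1) ∣ ap f a b ∧
    PowerSeries.coeff (m + 1) (ap f a b) = ∑ q ∈ antidiagonal (m + 1),
      MvPowerSeries.coeff (ex q.1 q.2) f * (PowerSeries.coeff 1 a ^ q.1 *
        PowerSeries.coeff 1 b ^ q.2) := by
  classical
  have hgen : ∀ k ≤ m + 1, ∀ i j, i + j ≠ m + 1 →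
      MvPowerSeries.coeff (ex i j) f * PowerSeries.coeff k (a ^ i * b ^ j) = 0 := by
    intro k hk i j hij
    rcases Nat.lt_or_ge (i + j) (m + 1) with h | h
    · rw [hf i j (by omega), zero_mul]
    · rw [coeff_eq_zero_of_dvd (X_pow_dvd ha hb i j) (by omega), mul_zero]
  constructor
  · rw [PowerSeries.X_pow_dvd_iff]
    intro k hk
    rw [coeff_ap f ha hb]
    refine Finset.sum_eq_zero fun i _ => Finset.sum_eq_zero fun j _ => ?_
    by_cases hij : i + j = m + 1
    · rw [coeff_eq_zero_of_dvd (X_pow_dvd ha hb i j) (by omega), mul_zero]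
    · exact hgen k hk.le i j hij
  · rw [coeff_ap f ha hb, ← Finset.sum_product']
    have hsub : antidiagonal (m + 1) ⊆ range (m + 1 + 1) ×ˢ range (m + 1 + 1) := by
      intro q hq
      rw [Finset.HasAntidiagonal.mem_antidiagonal] at hq
      rw [Finset.mem_product, mem_range, mem_range]
      constructor <;> omega
    rw [← Finset.sum_subset hsub]
    · refine Finset.sum_congr rfl fun q hq => ?_
      rw [Finset.HasAntidiagonal.mem_antidiagonal] at hq
      rw [← coeff_mul_pow_low ha hb, hq]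
    · intro q _ hq
      rw [Finset.HasAntidiagonal.mem_antidiagonal] at hq
      exact hgen (m + 1) le_rfl _ _ hq

end basic

section defect

variable {R : Type*} [CommRing R]

/-- the defect of `φ` of being a homomorphism `F → G` -/
noncomputable def Del (F G : FormalGroup R) (φ : PowerSeries R) : MvPowerSeries (Fin 2) R :=
  PowerSeries.subst F.toPowerSeries φ -
    G.toPowerSeries.subst ![PowerSeries.subst (MvPowerSeries.X 0 : MvPowerSeries (Fin 2) R) φ,
      PowerSeries.subst (MvPowerSeries.X 1 : MvPowerSeries (Fin 2) R) φ]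

lemma cc_ap (F : FormalGroup R) {a b : PowerSeries R} (ha : PowerSeries.constantCoeff a = 0)
    (hb : PowerSeries.constantCoeff b = 0) :
    PowerSeries.constantCoeff (ap F.toPowerSeries a b) = 0 := by
  refine MvPowerSeries.constantCoeff_subst_eq_zero (hs ha hb) ?_ F.zero_constantCoeff
  intro i
  fin_cases i
  · exact ha
  · exact hb

lemma cc_sub {φ a : PowerSeries R} (hφ : PowerSeries.constantCoeff φ = 0)
    (ha : PowerSeries.constantCoeff a = 0) :
    PowerSeries.constantCoeff (PowerSeries.subst a φ) = 0 :=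
  MvPowerSeries.constantCoeff_subst_eq_zero (hs1 ha).const (fun _ => ha) hφ

lemma hasSubst_psubst_X {φ : PowerSeries R} (hφ : PowerSeries.constantCoeff φ = 0) (i : Fin 2) :
    PowerSeries.HasSubst
      (PowerSeries.subst (MvPowerSeries.X i : MvPowerSeries (Fin 2) R) φ) :=
  PowerSeries.HasSubst.of_constantCoeff_zero
    (MvPowerSeries.constantCoeff_subst_eq_zero (PowerSeries.HasSubst.X i).const
      (fun _ => MvPowerSeries.constantCoeff_X i) hφ)

lemma hasSubst_pair {f g : MvPowerSeries (Fin 2) R} (hf : PowerSeries.HasSubst f)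
    (hg : PowerSeries.HasSubst g) : MvPowerSeries.HasSubst ![f, g] :=
  MvPowerSeries.hasSubst_of_constantCoeff_nilpotent fun s => by
    fin_cases s
    · exact hf
    · exact hg

/-- the defining property of the defect, at points -/
lemma key (F G : FormalGroup R) {φ : PowerSeries R} (hφ : PowerSeries.constantCoeff φ = 0)
    {a b : PowerSeries R} (ha : PowerSeries.constantCoeff a = 0)
    (hb : PowerSeries.constantCoeff b = 0) :
    PowerSeries.subst (ap F.toPowerSeries a b) φ =
      ap G.toPowerSeries (PowerSeries.subst a φ) (PowerSeries.subst b φ) + ap (Del F G φ) a b := by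
  have hX : MvPowerSeries.HasSubst ![a, b] := hs ha hb
  have hF : PowerSeries.HasSubst F.toPowerSeries :=
    PowerSeries.HasSubst.of_constantCoeff_zero F.zero_constantCoeff
  have hX0 : PowerSeries.HasSubst (MvPowerSeries.X 0 : MvPowerSeries (Fin 2) R) :=
    PowerSeries.HasSubst.X 0
  have hX1 : PowerSeries.HasSubst (MvPowerSeries.X 1 : MvPowerSeries (Fin 2) R) :=
    PowerSeries.HasSubst.X 1
  have e1 : MvPowerSeries.subst ![a, b] (PowerSeries.subst F.toPowerSeries φ) =
      PowerSeries.subst (ap F.toPowerSeries a b) φ := by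
    unfold PowerSeries.subst ap
    rw [MvPowerSeries.subst_comp_subst_apply hF.const hX]
  have e2 : MvPowerSeries.subst ![a, b] (G.toPowerSeries.subst
      ![PowerSeries.subst (MvPowerSeries.X 0 : MvPowerSeries (Fin 2) R) φ,
        PowerSeries.subst (MvPowerSeries.X 1 : MvPowerSeries (Fin 2) R) φ]) =
      ap G.toPowerSeries (PowerSeries.subst a φ) (PowerSeries.subst b φ) := by
    unfold ap
    rw [MvPowerSeries.subst_comp_subst_apply
      (hasSubst_pair (hasSubst_psubst_X hφ 0) (hasSubst_psubst_X hφ 1)) hX]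
    congr 1
    funext s
    fin_cases s
    · change MvPowerSeries.subst ![a, b] (PowerSeries.subst (MvPowerSeries.X 0) φ) = _
      unfold PowerSeries.subst
      rw [MvPowerSeries.subst_comp_subst_apply hX0.const hX]
      simp only [MvPowerSeries.subst_X hX]
      rfl
    · change MvPowerSeries.subst ![a, b] (PowerSeries.subst (MvPowerSeries.X 1) φ) = _
      unfold PowerSeries.subst
      rw [MvPowerSeries.subst_comp_subst_apply hX1.const hX]
      simp only [MvPowerSeries.subst_X hX]
      rfl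
  have e3 : ap (Del F G φ) a b = MvPowerSeries.subst ![a, b] (PowerSeries.subst F.toPowerSeries φ)
      - MvPowerSeries.subst ![a, b] (G.toPowerSeries.subst
      ![PowerSeries.subst (MvPowerSeries.X 0 : MvPowerSeries (Fin 2) R) φ,
        PowerSeries.subst (MvPowerSeries.X 1 : MvPowerSeries (Fin 2) R) φ]) := by
    unfold ap Del
    rw [MvPowerSeries.subst_sub hX]
  rw [e3, e1, e2]
  ring

lemma ap_assoc (F : FormalGroup R) {a b c : PowerSeries R}
    (ha : PowerSeries.constantCoeff a = 0) (hb : PowerSeries.constantCoeff b = 0)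
    (hc : PowerSeries.constantCoeff c = 0) :
    ap F.toPowerSeries (ap F.toPowerSeries a b) c =
      ap F.toPowerSeries a (ap F.toPowerSeries b c) :=
  F.assoc' (hs1 ha) (hs1 hb) (hs1 hc)

lemma ap_comm (F : FormalGroup R) [F.IsComm] {a b : PowerSeries R}
    (ha : PowerSeries.constantCoeff a = 0) (hb : PowerSeries.constantCoeff b = 0) :
    ap F.toPowerSeries a b = ap F.toPowerSeries b a :=
  F.comm' (hs1 ha) (hs1 hb)

lemma zero_ap (F : FormalGroup R) {a : PowerSeries R} (ha : PowerSeries.constantCoeff a = 0) :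
    ap F.toPowerSeries 0 a = a := F.zero_add (hs1 ha)

lemma coeff_ex_one_zero (F : FormalGroup R) :
    MvPowerSeries.coeff (ex 1 0) F.toPowerSeries = 1 := by
  have : ex 1 0 = Finsupp.single 0 1 := by simp [ex]
  rw [this]
  exact F.lin_coeff_X

lemma coeff_ex_zero_one (F : FormalGroup R) :
    MvPowerSeries.coeff (ex 0 1) F.toPowerSeries = 1 := by
  have : ex 0 1 = Finsupp.single 1 1 := by simp [ex]
  rw [this]
  exact F.lin_coeff_Y

lemma coeff_ex_zero_zero (F : FormalGroup R) :
    MvPowerSeries.coeff (ex 0 0) F.toPowerSeries = 0 := by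
  have : ex 0 0 = 0 := by simp [ex]
  rw [this]
  exact F.zero_constantCoeff

lemma coeff_one_ap (F : FormalGroup R) {a b : PowerSeries R}
    (ha : PowerSeries.constantCoeff a = 0) (hb : PowerSeries.constantCoeff b = 0) :
    PowerSeries.coeff 1 (ap F.toPowerSeries a b)
      = PowerSeries.coeff 1 a + PowerSeries.coeff 1 b := by
  have h := (ap_lowest F.toPowerSeries 0 (by
    intro i j hij
    have h1 : i = 0 := by omega
    have h2 : j = 0 := by omega
    subst h1; subst h2
    exact coeff_ex_zero_zero F) ha hb).2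
  rw [zero_add] at h
  rw [h]
  have h2 : antidiagonal 1 = {(0, 1), (1, 0)} := rfl
  rw [h2, Finset.sum_pair (by decide)]
  simp only [coeff_ex_one_zero, coeff_ex_zero_one]
  ring

/-- leading part of the defect -/
noncomputable def E (F G : FormalGroup R) (φ : PowerSeries R) (N : ℕ) (x y : R) : R :=
  ∑ q ∈ antidiagonal N, MvPowerSeries.coeff (ex q.1 q.2) (Del F G φ) * (x ^ q.1 * y ^ q.2)

/-- vanishing of the defect in degree `≤ m` -/
def V (F G : FormalGroup R) (φ : PowerSeries R) (m : ℕ) : Prop :=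
  ∀ i j, i + j ≤ m → MvPowerSeries.coeff (ex i j) (Del F G φ) = 0

lemma Del_ap {F G : FormalGroup R} {φ : PowerSeries R} {m : ℕ} (hV : V F G φ m)
    {a b : PowerSeries R} (ha : PowerSeries.constantCoeff a = 0)
    (hb : PowerSeries.constantCoeff b = 0) :
    (PowerSeries.X : PowerSeries R) ^ (m + 1) ∣ ap (Del F G φ) a b ∧
    PowerSeries.coeff (m + 1) (ap (Del F G φ) a b)
      = E F G φ (m + 1) (PowerSeries.coeff 1 a) (PowerSeries.coeff 1 b) :=
  ap_lowest _ m hV ha hb

/-- adding a perturbation in the first argument of a law -/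
lemma coeff_ap_perturb (G : FormalGroup R) {a b ε : PowerSeries R} {M : ℕ} (hM : 1 ≤ M)
    (ha : PowerSeries.constantCoeff a = 0) (hb : PowerSeries.constantCoeff b = 0)
    (hε : (PowerSeries.X : PowerSeries R) ^ M ∣ ε) :
    PowerSeries.coeff M (ap G.toPowerSeries (a + ε) b) =
      PowerSeries.coeff M (ap G.toPowerSeries a b) + PowerSeries.coeff M ε := by
  have h := coeff_eq_zero_of_dvd (ap_perturb G.toPowerSeries hM ha hb hε) (Nat.lt_succ_self M)
  rw [coeff_ex_one_zero, map_one, one_mul, map_sub, map_sub] at h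
  linear_combination h

/-- linear argument -/
noncomputable def lin (x : R) : PowerSeries R := PowerSeries.C x * PowerSeries.X

lemma cc_lin (x : R) : PowerSeries.constantCoeff (lin x) = 0 := by
  simp [lin]

lemma coeff_one_lin (x : R) : PowerSeries.coeff 1 (lin x) = x := by
  simp [lin]

/-- the cocycle identity for the leading part of the defect -/
theorem E_cocycle (F G : FormalGroup R) [G.IsComm] {φ : PowerSeries R}
    (hφ : PowerSeries.constantCoeff φ = 0) {m : ℕ} (hV : V F G φ m) (x y z : R) :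
    E F G φ (m + 1) x y + E F G φ (m + 1) (x + y) z =
      E F G φ (m + 1) y z + E F G φ (m + 1) x (y + z) := by
  set a := lin x with ha
  set b := lin y with hb
  set c := lin z with hc
  have ha0 : PowerSeries.constantCoeff a = 0 := cc_lin x
  have hb0 : PowerSeries.constantCoeff b = 0 := cc_lin y
  have hc0 : PowerSeries.constantCoeff c = 0 := cc_lin z
  have ha1 : PowerSeries.coeff 1 a = x := coeff_one_lin x
  have hb1 : PowerSeries.coeff 1 b = y := coeff_one_lin y
  have hc1 : PowerSeries.coeff 1 c = z := coeff_one_lin z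
  have hab0 := cc_ap F ha0 hb0
  have hbc0 := cc_ap F hb0 hc0
  have hφa := cc_sub hφ ha0
  have hφb := cc_sub hφ hb0
  have hφc := cc_sub hφ hc0
  -- left
  have hl : PowerSeries.subst (ap F.toPowerSeries (ap F.toPowerSeries a b) c) φ
      = ap G.toPowerSeries (ap G.toPowerSeries (PowerSeries.subst a φ) (PowerSeries.subst b φ)
        + ap (Del F G φ) a b) (PowerSeries.subst c φ)
        + ap (Del F G φ) (ap F.toPowerSeries a b) c := by
    rw [key F G hφ hab0 hc0, key F G hφ ha0 hb0]
  have hr : PowerSeries.subst (ap F.toPowerSeries a (ap F.toPowerSeries b c)) φ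
      = ap G.toPowerSeries (PowerSeries.subst a φ)
        (ap G.toPowerSeries (PowerSeries.subst b φ) (PowerSeries.subst c φ)
        + ap (Del F G φ) b c)
        + ap (Del F G φ) a (ap F.toPowerSeries b c) := by
    rw [key F G hφ ha0 hbc0, key F G hφ hb0 hc0]
  rw [ap_assoc F ha0 hb0 hc0] at hl
  have heq := hl.symm.trans hr
  have hcoef := congrArg (PowerSeries.coeff (m + 1)) heq
  rw [map_add, map_add] at hcoef
  obtain ⟨d1, e1⟩ := Del_ap hV ha0 hb0
  obtain ⟨d2, e2⟩ := Del_ap hV hab0 hc0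
  obtain ⟨d3, e3⟩ := Del_ap hV hb0 hc0
  obtain ⟨d4, e4⟩ := Del_ap hV ha0 hbc0
  have hccadd : ∀ {u v : PowerSeries R}, PowerSeries.constantCoeff u = 0 →
      (PowerSeries.X : PowerSeries R) ^ (m + 1) ∣ v → PowerSeries.constantCoeff (u + v) = 0 := by
    intro u v hu hv
    rw [map_add, hu, PowerSeries.X_dvd_iff.mp ((dvd_pow_self _ (by omega)).trans hv), add_zero]
  rw [coeff_ap_perturb G (by omega) (cc_ap G hφa hφb) hφc d1, e1, e2,
    ap_comm G hφa (hccadd (cc_ap G hφb hφc) d3),
    coeff_ap_perturb G (by omega) (cc_ap G hφb hφc) hφa d3, e3, e4,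
    coeff_one_ap F ha0 hb0, coeff_one_ap F hb0 hc0, ha1, hb1, hc1,
    ap_comm G (cc_ap G hφb hφc) hφa, ap_assoc G hφa hφb hφc] at hcoef
  linear_combination hcoef

/-- symmetry -/
theorem E_symm (F G : FormalGroup R) [F.IsComm] [G.IsComm] {φ : PowerSeries R}
    (hφ : PowerSeries.constantCoeff φ = 0) {m : ℕ} (hV : V F G φ m) (x y : R) :
    E F G φ (m + 1) x y = E F G φ (m + 1) y x := by
  have ha0 := cc_lin x
  have hb0 := cc_lin y
  have h1 := key F G hφ ha0 hb0
  have h2 := key F G hφ hb0 ha0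
  rw [ap_comm F ha0 hb0, ap_comm G (cc_sub hφ ha0) (cc_sub hφ hb0), h2] at h1
  have h3 : ap (Del F G φ) (lin y) (lin x) = ap (Del F G φ) (lin x) (lin y) :=
    add_left_cancel h1
  have e1 := (Del_ap hV ha0 hb0).2
  have e2 := (Del_ap hV hb0 ha0).2
  rw [coeff_one_lin, coeff_one_lin] at e1 e2
  rw [← e1, ← e2, h3]

/-- vanishing on the axis -/
theorem E_zero (F G : FormalGroup R) {φ : PowerSeries R}
    (hφ : PowerSeries.constantCoeff φ = 0) {m : ℕ} (hV : V F G φ m) (y : R) :
    E F G φ (m + 1) 0 y = 0 := by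
  have ha0 : PowerSeries.constantCoeff (0 : PowerSeries R) = 0 := map_zero _
  have hb0 := cc_lin y
  have h1 := key F G hφ ha0 hb0
  have h2 : PowerSeries.subst (0 : PowerSeries R) φ = (0 : PowerSeries R) :=
    MvPowerSeries.subst_zero_of_constantCoeff_zero hφ
  rw [zero_ap F hb0, h2, zero_ap G (cc_sub hφ hb0)] at h1
  have h3 : ap (Del F G φ) 0 (lin y) = 0 := by
    have := h1.symm
    rwa [add_eq_left] at this
  have e1 := (Del_ap hV ha0 hb0).2
  rw [h3, map_zero, map_zero, coeff_one_lin] at e1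
  exact e1.symm

/-- the defect of the multiplication series -/
theorem mulSeries_defect (F G : FormalGroup R) {φ : PowerSeries R}
    (hφ : PowerSeries.constantCoeff φ = 0) {m : ℕ} (hV : V F G φ m) (k : ℕ) :
    PowerSeries.constantCoeff (mulSeries F k) = 0 ∧
    PowerSeries.constantCoeff (PowerSeries.subst φ (mulSeries G k)) = 0 ∧
    PowerSeries.coeff 1 (mulSeries F k) = k ∧
    (PowerSeries.X : PowerSeries R) ^ (m + 1) ∣
      PowerSeries.subst (mulSeries F k) φ - PowerSeries.subst φ (mulSeries G k) ∧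
    PowerSeries.coeff (m + 1)
      (PowerSeries.subst (mulSeries F k) φ - PowerSeries.subst φ (mulSeries G k))
      = ∑ s ∈ range k, E F G φ (m + 1) (s : R) 1 := by
  have hX0 : PowerSeries.constantCoeff (PowerSeries.X : PowerSeries R) = 0 :=
    PowerSeries.constantCoeff_X
  have hsubX : PowerSeries.subst (PowerSeries.X : PowerSeries R) φ = φ := by
    rw [← PowerSeries.map_algebraMap_eq_subst_X]
    simp
  induction k with
  | zero =>
    have h1 : mulSeries F 0 = 0 := rfl
    have h2 : mulSeries G 0 = 0 := rfl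
    have h3 : PowerSeries.subst (0 : PowerSeries R) φ = (0 : PowerSeries R) :=
      MvPowerSeries.subst_zero_of_constantCoeff_zero hφ
    have h4 : PowerSeries.subst φ (0 : PowerSeries R) = (0 : PowerSeries R) := by
      rw [← PowerSeries.coe_substAlgHom (hs1 hφ), map_zero]
    rw [h1, h2, h3, h4]
    simp
  | succ k ih =>
    obtain ⟨i1, i2, i3, i4, i5⟩ := ih
    have h1 : mulSeries F (k + 1) = ap F.toPowerSeries (mulSeries F k) PowerSeries.X := rfl
    have h2 : PowerSeries.subst φ (mulSeries G (k + 1))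
        = ap G.toPowerSeries (PowerSeries.subst φ (mulSeries G k)) φ := by
      change PowerSeries.subst φ (G.toPowerSeries.subst ![mulSeries G k, PowerSeries.X]) = _
      have hcc : PowerSeries.constantCoeff (mulSeries G k) = 0 := by
        clear i1 i2 i3 i4 i5 h1
        induction k with
        | zero => exact map_zero _
        | succ k ih => exact cc_ap G ih hX0
      unfold PowerSeries.subst ap
      rw [MvPowerSeries.subst_comp_subst_apply (hs hcc hX0) (hs1 hφ).const]
      congr 1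
      funext s
      fin_cases s
      · rfl
      · exact PowerSeries.subst_X (hs1 hφ)
    have h3 := key F G hφ i1 hX0
    rw [hsubX] at h3
    set ε := PowerSeries.subst (mulSeries F k) φ - PowerSeries.subst φ (mulSeries G k) with hε
    have h4 : PowerSeries.subst (mulSeries F k) φ
        = PowerSeries.subst φ (mulSeries G k) + ε := by rw [hε]; ring
    rw [h4] at h3
    obtain ⟨d1, e1⟩ := Del_ap hV i1 hX0
    refine ⟨?_, ?_, ?_, ?_, ?_⟩
    · rw [h1]; exact cc_ap F i1 hX0
    · rw [h2]; exact cc_ap G i2 hφ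
    · rw [h1, coeff_one_ap F i1 hX0, i3]
      simp
    · rw [h1, h3, h2]
      have h5 := ap_perturb_weak G.toPowerSeries (by omega : 1 ≤ m + 1) i2 hφ i4
      have h6 := dvd_add h5 d1
      have h7 : ap G.toPowerSeries (PowerSeries.subst φ (mulSeries G k) + ε) φ
          + ap (Del F G φ) (mulSeries F k) PowerSeries.X
          - ap G.toPowerSeries (PowerSeries.subst φ (mulSeries G k)) φ
          = (ap G.toPowerSeries (PowerSeries.subst φ (mulSeries G k) + ε) φ
          - ap G.toPowerSeries (PowerSeries.subst φ (mulSeries G k)) φ)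
          + ap (Del F G φ) (mulSeries F k) PowerSeries.X := by ring
      rw [h7]
      exact h6
    · rw [h1, h3, h2, map_sub, map_add, coeff_ap_perturb G (by omega) i2 hφ i4, e1, i3, i5,
        Finset.sum_range_succ]
      simp only [PowerSeries.coeff_one_X]
      ring

end defect

end Crest.Agent.R227.Laz
end

-- ▼ part R227/Lazard
section

/-!
# Row 227 (S0351): two formal group laws with `[p](X) = X^(p^h)` over a field with `c^(p^h) = c`
are strictly isomorphic.
-/

set_option autoImplicit false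

open Finset Crest.LubinTate

namespace Crest.Agent.R227.Laz

section linear

variable {R : Type*} [CommRing R]

lemma lin_pow_mul (x y : R) (i j : ℕ) :
    lin x ^ i * lin y ^ j = PowerSeries.C (x ^ i * y ^ j) * PowerSeries.X ^ (i + j) := by
  unfold lin
  rw [mul_pow, mul_pow, pow_add, map_mul, map_pow, map_pow]
  ring

lemma coeff_ap_lin (f : MvPowerSeries (Fin 2) R) (x y : R) (k : ℕ) :
    PowerSeries.coeff k (ap f (lin x) (lin y)) =
      ∑ q ∈ antidiagonal k, MvPowerSeries.coeff (ex q.1 q.2) f * (x ^ q.1 * y ^ q.2) := by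
  classical
  rw [coeff_ap f (cc_lin x) (cc_lin y), ← Finset.sum_product']
  have hsub : antidiagonal k ⊆ range (k + 1) ×ˢ range (k + 1) := by
    intro q hq
    rw [Finset.HasAntidiagonal.mem_antidiagonal] at hq
    rw [Finset.mem_product, mem_range, mem_range]
    constructor <;> omega
  rw [← Finset.sum_subset hsub]
  · refine Finset.sum_congr rfl fun q hq => ?_
    rw [Finset.HasAntidiagonal.mem_antidiagonal] at hq
    rw [lin_pow_mul, PowerSeries.coeff_C_mul, PowerSeries.coeff_X_pow, if_pos hq.symm, mul_one]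
  · intro q _ hq
    rw [Finset.HasAntidiagonal.mem_antidiagonal] at hq
    rw [lin_pow_mul, PowerSeries.coeff_C_mul, PowerSeries.coeff_X_pow, if_neg (Ne.symm hq),
      mul_zero, mul_zero]

end linear

section basechange

variable {R S : Type*} [CommRing R] [CommRing S] (ι : R →+* S)

lemma isComm_map (F : FormalGroup R) [hF : F.IsComm] : (F.map ι).IsComm := by
  constructor
  have h := congrArg (MvPowerSeries.map ι) hF.comm
  change MvPowerSeries.map ι F.toPowerSeries = _
  rw [h, MvPowerSeries.map_subst MvPowerSeries.HasSubst.X_X]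
  change MvPowerSeries.subst _ (MvPowerSeries.map ι F.toPowerSeries) =
    MvPowerSeries.subst _ (MvPowerSeries.map ι F.toPowerSeries)
  congr 1
  funext s
  fin_cases s
  · exact MvPowerSeries.map_X _ _
  · exact MvPowerSeries.map_X _ _

lemma Del_map (F G : FormalGroup R) {φ : PowerSeries R}
    (hφ : PowerSeries.constantCoeff φ = 0) :
    Del (F.map ι) (G.map ι) (PowerSeries.map ι φ) = MvPowerSeries.map ι (Del F G φ) := by
  have hF : PowerSeries.HasSubst F.toPowerSeries :=
    PowerSeries.HasSubst.of_constantCoeff_zero F.zero_constantCoeff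
  unfold Del
  rw [map_sub]
  congr 1
  · exact (MvPowerSeries.map_subst hF.const (h := ι) φ).symm
  · rw [MvPowerSeries.map_subst
      (hasSubst_pair (hasSubst_psubst_X hφ 0) (hasSubst_psubst_X hφ 1))]
    change MvPowerSeries.subst _ (MvPowerSeries.map ι G.toPowerSeries) =
      MvPowerSeries.subst _ (MvPowerSeries.map ι G.toPowerSeries)
    congr 1
    funext s
    have hX : ∀ i : Fin 2, MvPowerSeries.map ι
        (PowerSeries.subst (MvPowerSeries.X i : MvPowerSeries (Fin 2) R) φ)
        = PowerSeries.subst (MvPowerSeries.X i : MvPowerSeries (Fin 2) S)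
          (PowerSeries.map ι φ) := by
      intro i
      have h := MvPowerSeries.map_subst (PowerSeries.HasSubst.X (S := R) i).const (h := ι) φ
      refine h.trans ?_
      change MvPowerSeries.subst _ _ = MvPowerSeries.subst _ _
      congr 1
      funext _
      exact MvPowerSeries.map_X _ _
    fin_cases s
    · exact (hX 0).symm
    · exact (hX 1).symm

end basechange

section extraction

variable {κ : Type*} [CommRing κ]

/-- the test ring -/
abbrev TP (κ : Type*) [CommRing κ] := Polynomial (Polynomial κ)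

/-- the inclusion of constants -/
noncomputable def io (κ : Type*) [CommRing κ] : κ →+* TP κ := Polynomial.C.comp Polynomial.C

/-- inner variable -/
noncomputable def px (κ : Type*) [CommRing κ] : TP κ := Polynomial.C Polynomial.X

/-- outer variable -/
noncomputable def py (κ : Type*) [CommRing κ] : TP κ := Polynomial.X

/-- coefficient extraction -/
noncomputable def cf (i j : ℕ) (f : TP κ) : κ := (f.coeff j).coeff i

lemma cf_add (i j : ℕ) (f g : TP κ) : cf i j (f + g) = cf i j f + cf i j g := by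
  simp [cf]

lemma cf_sub (i j : ℕ) (f g : TP κ) : cf i j (f - g) = cf i j f - cf i j g := by
  simp [cf]

lemma cf_sum {α : Type*} (i j : ℕ) (s : Finset α) (f : α → TP κ) :
    cf i j (∑ a ∈ s, f a) = ∑ a ∈ s, cf i j (f a) := by
  simp [cf]

lemma cf_io_mul (i j : ℕ) (c : κ) (f : TP κ) : cf i j (io κ c * f) = c * cf i j f := by
  simp [cf, io]

lemma cf_xy (i j a b : ℕ) : cf i j (px κ ^ a * py κ ^ b) = if a = i ∧ b = j then 1 else 0 := by
  simp only [cf, px, py]
  rw [← Polynomial.C_pow, Polynomial.coeff_C_mul, Polynomial.coeff_X_pow]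
  split_ifs with h1 h2 h2
  · rw [mul_one, Polynomial.coeff_X_pow, if_pos h2.1.symm]
  · rw [mul_one, Polynomial.coeff_X_pow, if_neg (fun h => h2 ⟨h.symm, h1.symm⟩)]
  · exact absurd h2.2.symm h1
  · rw [mul_zero, Polynomial.coeff_zero]

lemma cf_add_pow (i j a : ℕ) :
    cf i j ((px κ + py κ) ^ a) = if a = i + j then (a.choose j : κ) else 0 := by
  simp only [cf, px, py]
  rw [add_comm (Polynomial.C Polynomial.X) Polynomial.X, Polynomial.coeff_X_add_C_pow,
    ← Polynomial.C_eq_natCast, Polynomial.coeff_mul_C, Polynomial.coeff_X_pow]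
  split_ifs with h1 h2 h2
  · rw [one_mul]
  · rcases Nat.lt_or_ge a j with h | h
    · rw [Nat.choose_eq_zero_of_lt h, Nat.cast_zero, mul_zero]
    · exfalso; apply h2; omega
  · exfalso; apply h1; omega
  · rw [zero_mul]

lemma cf_x_add_one_pow (i j a b : ℕ) :
    cf i j (px κ ^ a * (py κ + 1) ^ b) = if a = i then (b.choose j : κ) else 0 := by
  simp only [cf, px, py]
  rw [← Polynomial.C_pow, Polynomial.coeff_C_mul, Polynomial.coeff_X_add_one_pow,
    ← Polynomial.C_eq_natCast, Polynomial.coeff_mul_C, Polynomial.coeff_X_pow]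
  split_ifs with h1 h2 h2
  · rw [one_mul]
  · exact absurd h1.symm h2
  · exact absurd h2.symm h1
  · rw [zero_mul]

end extraction

section main

variable {κ : Type*} [Field κ]

/-- coefficients of the defect -/
noncomputable def de (F G : FormalGroup κ) (φ : PowerSeries κ) (i j : ℕ) : κ :=
  MvPowerSeries.coeff (ex i j) (Del F G φ)

lemma V_map {F G : FormalGroup κ} {φ : PowerSeries κ} (hφ : PowerSeries.constantCoeff φ = 0)
    {m : ℕ} (hV : V F G φ m) :
    V (F.map (io κ)) (G.map (io κ)) (PowerSeries.map (io κ) φ) m := by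
  intro i j hij
  rw [Del_map (io κ) F G hφ, MvPowerSeries.coeff_map, hV i j hij, map_zero]

lemma E_map {F G : FormalGroup κ} {φ : PowerSeries κ} (hφ : PowerSeries.constantCoeff φ = 0)
    (N : ℕ) (x y : TP κ) :
    E (F.map (io κ)) (G.map (io κ)) (PowerSeries.map (io κ) φ) N x y
      = ∑ q ∈ antidiagonal N, io κ (de F G φ q.1 q.2) * (x ^ q.1 * y ^ q.2) := by
  unfold E
  refine Finset.sum_congr rfl fun q _ => ?_
  rw [Del_map (io κ) F G hφ, MvPowerSeries.coeff_map]
  rfl

lemma cc_map {φ : PowerSeries κ} (hφ : PowerSeries.constantCoeff φ = 0) :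
    PowerSeries.constantCoeff (PowerSeries.map (io κ) φ) = 0 := by
  rw [← PowerSeries.coeff_zero_eq_constantCoeff_apply, PowerSeries.coeff_map,
    PowerSeries.coeff_zero_eq_constantCoeff_apply, hφ, map_zero]

/-- the sum over the antidiagonal picks one term -/
lemma sum_anti (N : ℕ) (f : ℕ → ℕ → κ) (i j : ℕ) (hij : i + j = N) (g : κ) :
    ∑ q ∈ antidiagonal N, f q.1 q.2 * (if q.1 = i ∧ q.2 = j then g else 0) = f i j * g := by
  classical
  rw [Finset.sum_eq_single (i, j)]
  · simp
  · rintro ⟨a, b⟩ _ hne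
    rw [if_neg, mul_zero]
    rintro ⟨h1, h2⟩
    exact hne (by simp only at h1 h2; rw [h1, h2])
  · intro h
    exact absurd (Finset.HasAntidiagonal.mem_antidiagonal.mpr hij) h

lemma de_symm {F G : FormalGroup κ} [F.IsComm] [G.IsComm] {φ : PowerSeries κ}
    (hφ : PowerSeries.constantCoeff φ = 0) {m : ℕ} (hV : V F G φ m) (i j : ℕ)
    (hij : i + j = m + 1) : de F G φ i j = de F G φ j i := by
  have := isComm_map (io κ) F
  have := isComm_map (io κ) G
  have h := E_symm (F.map (io κ)) (G.map (io κ)) (cc_map hφ) (V_map hφ hV) (px κ) (py κ)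
  rw [E_map hφ, E_map hφ] at h
  have h2 := congrArg (cf i j) h
  rw [cf_sum, cf_sum] at h2
  simp only [cf_io_mul, cf_xy] at h2
  rw [sum_anti _ _ _ _ hij, mul_one] at h2
  rw [h2]
  have h3 : ∀ q : ℕ × ℕ, cf i j (py κ ^ q.1 * px κ ^ q.2) = if q.1 = j ∧ q.2 = i then 1 else 0 := by
    intro q
    rw [mul_comm, cf_xy]
    simp only [and_comm]
  simp only [h3]
  rw [sum_anti _ _ _ _ (by omega), mul_one]

lemma de_zero_left {F G : FormalGroup κ} {φ : PowerSeries κ}
    (hφ : PowerSeries.constantCoeff φ = 0) {m : ℕ} (hV : V F G φ m) :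
    de F G φ 0 (m + 1) = 0 := by
  have h := E_zero F G hφ hV 1
  unfold E at h
  have h1 : ∀ q ∈ antidiagonal (m + 1), MvPowerSeries.coeff (ex q.1 q.2) (Del F G φ) *
      ((0 : κ) ^ q.1 * 1 ^ q.2) = de F G φ q.1 q.2 * (if q.1 = 0 ∧ q.2 = m + 1 then 1 else 0) := by
    intro q hq
    rw [Finset.HasAntidiagonal.mem_antidiagonal] at hq
    rw [one_pow, mul_one]
    by_cases h0 : q.1 = 0
    · rw [h0, pow_zero, if_pos ⟨rfl, by omega⟩]
      simp only [de]
    · rw [zero_pow h0, mul_zero, if_neg (fun h => h0 h.1), mul_zero]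
  rw [Finset.sum_congr rfl h1, sum_anti _ _ _ _ (by omega), mul_one] at h
  exact h

lemma de_cocycle {F G : FormalGroup κ} [G.IsComm] {φ : PowerSeries κ}
    (hφ : PowerSeries.constantCoeff φ = 0) {m : ℕ} (hV : V F G φ m) (i j k : ℕ)
    (hi : 1 ≤ i) (hj : 1 ≤ j) (hk : 1 ≤ k) (hijk : i + j + k = m + 1) :
    ((i + j).choose i : κ) * de F G φ (i + j) k = ((j + k).choose j : κ) * de F G φ i (j + k) := by
  have := isComm_map (io κ) G
  have h := E_cocycle (F.map (io κ)) (G.map (io κ)) (cc_map hφ) (V_map hφ hV) (px κ) (py κ) 1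
  rw [E_map hφ, E_map hφ, E_map hφ, E_map hφ] at h
  have h2 := congrArg (cf i j) h
  rw [cf_add, cf_add, cf_sum, cf_sum, cf_sum, cf_sum] at h2
  simp only [cf_io_mul, one_pow, mul_one, cf_xy, cf_add_pow, cf_x_add_one_pow] at h2
  have e1 : ∑ q ∈ antidiagonal (m + 1), de F G φ q.1 q.2 *
      (if q.1 = i ∧ q.2 = j then (1 : κ) else 0) = 0 := by
    refine Finset.sum_eq_zero fun q hq => ?_
    rw [Finset.HasAntidiagonal.mem_antidiagonal] at hq
    rw [if_neg, mul_zero]
    rintro ⟨h1, h2⟩
    omega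
  have e2 : ∑ q ∈ antidiagonal (m + 1), de F G φ q.1 q.2 *
      (if q.1 = i + j then (q.1.choose j : κ) else 0)
      = de F G φ (i + j) k * ((i + j).choose j : κ) := by
    have : ∀ q ∈ antidiagonal (m + 1), de F G φ q.1 q.2 *
        (if q.1 = i + j then (q.1.choose j : κ) else 0) = de F G φ q.1 q.2 *
        (if q.1 = i + j ∧ q.2 = k then ((i + j).choose j : κ) else 0) := by
      intro q hq
      rw [Finset.HasAntidiagonal.mem_antidiagonal] at hq
      by_cases h1 : q.1 = i + j
      · rw [if_pos h1, if_pos ⟨h1, by omega⟩, h1]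
      · rw [if_neg h1, if_neg (fun h => h1 h.1)]
    rw [Finset.sum_congr rfl this, sum_anti _ _ _ _ (by omega)]
  have e3 : ∑ q ∈ antidiagonal (m + 1), de F G φ q.1 q.2 * cf i j (py κ ^ q.1) = 0 := by
    refine Finset.sum_eq_zero fun q hq => ?_
    have := cf_xy (κ := κ) i j 0 q.1
    rw [pow_zero, one_mul] at this
    rw [this, if_neg, mul_zero]
    rintro ⟨h1, h2⟩
    omega
  have e4 : ∑ q ∈ antidiagonal (m + 1), de F G φ q.1 q.2 *
      (if q.1 = i then (q.2.choose j : κ) else 0)
      = de F G φ i (j + k) * ((j + k).choose j : κ) := by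
    have : ∀ q ∈ antidiagonal (m + 1), de F G φ q.1 q.2 *
        (if q.1 = i then (q.2.choose j : κ) else 0) = de F G φ q.1 q.2 *
        (if q.1 = i ∧ q.2 = j + k then ((j + k).choose j : κ) else 0) := by
      intro q hq
      rw [Finset.HasAntidiagonal.mem_antidiagonal] at hq
      by_cases h1 : q.1 = i
      · have h3 : q.2 = j + k := by omega
        rw [if_pos h1, if_pos ⟨h1, h3⟩, h3]
      · rw [if_neg h1, if_neg (fun h => h1 h.1)]
    rw [Finset.sum_congr rfl this, sum_anti _ _ _ _ (by omega)]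
  rw [e1, e2, e3, e4] at h2
  have h5 : (i + j).choose i = (i + j).choose j := by
    rw [← Nat.choose_symm (by omega : i ≤ i + j), Nat.add_sub_cancel_left]
  rw [h5]
  linear_combination h2

variable (p : ℕ) [Fact p.Prime] [CharP κ p] {h : ℕ}

/-- a power series whose coefficients are fixed by `c ↦ c^(p^h)` -/
lemma subst_X_pow_eq_pow (hκ : ∀ c : κ, c ^ p ^ h = c) (φ : PowerSeries κ) :
    PowerSeries.subst (PowerSeries.X ^ p ^ h : PowerSeries κ) φ = φ ^ p ^ h := by
  have hp : p.Prime := Fact.out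
  have h1 := MvPowerSeries.map_iterateFrobenius_expand (p := p) hp.ne_zero
    (φ : MvPowerSeries Unit κ) h
  have h2 : iterateFrobenius κ p h = RingHom.id κ := by
    ext c
    rw [iterateFrobenius_def, RingHom.id_apply, hκ c]
  rw [h2, MvPowerSeries.map_id] at h1
  have h3 : (MvPowerSeries.expand (p ^ h) (pow_ne_zero h hp.ne_zero)) (φ : MvPowerSeries Unit κ)
      = PowerSeries.subst (PowerSeries.X ^ p ^ h : PowerSeries κ) φ := by
    rw [MvPowerSeries.expand, MvPowerSeries.coe_substAlgHom]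
    rfl
  rw [← h3]
  exact h1

lemma pcond (hκ : ∀ c : κ, c ^ p ^ h = c) {F G : FormalGroup κ}
    (hF : mulSeries F p = PowerSeries.X ^ p ^ h) (hG : mulSeries G p = PowerSeries.X ^ p ^ h)
    {φ : PowerSeries κ} (hφ : PowerSeries.constantCoeff φ = 0) {m : ℕ} (hV : V F G φ m) :
    ∑ s ∈ range p, E F G φ (m + 1) ((s : ℕ) : κ) 1 = 0 := by
  obtain ⟨_, _, _, _, h5⟩ := mulSeries_defect F G hφ hV p
  rw [← h5, hF, hG, subst_X_pow_eq_pow p hκ]
  have h6 : PowerSeries.subst φ (PowerSeries.X ^ p ^ h : PowerSeries κ) = φ ^ p ^ h := by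
    rw [PowerSeries.subst_pow (hs1 hφ), PowerSeries.subst_X (hs1 hφ)]
  rw [h6, sub_self, map_zero]

/-- one step of the construction -/
theorem step (hκ : ∀ c : κ, c ^ p ^ h = c) {F G : FormalGroup κ} [F.IsComm] [G.IsComm]
    (hF : mulSeries F p = PowerSeries.X ^ p ^ h) (hG : mulSeries G p = PowerSeries.X ^ p ^ h)
    {φ : PowerSeries κ} (hφ : PowerSeries.constantCoeff φ = 0) {m : ℕ} (hm : 1 ≤ m)
    (hV : V F G φ m) :
    ∃ c : κ, V F G (φ + PowerSeries.C c * PowerSeries.X ^ (m + 1)) (m + 1) := by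
  classical
  -- the combinatorial lemma
  have hsum : ∀ s : κ, E F G φ (m + 1) s 1
      = ∑ i ∈ Ico 1 (m + 1), de F G φ i (m + 1 - i) * s ^ i := by
    intro s
    unfold E
    rw [Finset.Nat.sum_antidiagonal_eq_sum_range_succ_mk, Finset.range_eq_Ico,
      Finset.sum_Ico_succ_top (by omega), Finset.sum_eq_sum_Ico_succ_bot (by omega)]
    have z1 : MvPowerSeries.coeff (ex 0 (m + 1 - 0)) (Del F G φ) = 0 := de_zero_left hφ hV
    have z2 : MvPowerSeries.coeff (ex (m + 1) (m + 1 - (m + 1))) (Del F G φ) = 0 := by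
      rw [Nat.sub_self]
      have := de_symm hφ hV (m + 1) 0 (by omega)
      rw [de_zero_left hφ hV] at this
      exact this
    simp only [z1, z2, zero_mul, zero_add, add_zero, one_pow, mul_one]
    rfl
  obtain ⟨b, hb⟩ := cocycle_comb (κ := κ) p (m + 1) (by omega) (fun i => de F G φ i (m + 1 - i))
    (by
      intro i h1 h2
      have := de_symm hφ hV i (m + 1 - i) (by omega)
      rw [this]
      congr 1
      omega)
    (by
      intro i j k h1 h2 h3 h4
      have := de_cocycle hφ hV i j k h1 h2 h3 h4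
      have e1 : m + 1 - (i + j) = k := by omega
      have e2 : m + 1 - i = j + k := by omega
      rw [e1, e2]
      exact this)
    (by
      have := pcond p hκ hF hG hφ hV
      simp only [hsum] at this
      exact this)
  refine ⟨-b, ?_⟩
  set c : κ := -b with hc
  set φ' : PowerSeries κ := φ + PowerSeries.C c * PowerSeries.X ^ (m + 1) with hφ'
  have hφ'0 : PowerSeries.constantCoeff φ' = 0 := by
    rw [hφ', map_add, hφ, map_mul, map_pow, PowerSeries.constantCoeff_X, zero_pow (by omega),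
      mul_zero, add_zero]
  have := isComm_map (io κ) F
  have := isComm_map (io κ) G
  -- the test computation over the polynomial ring
  set F₁ := F.map (io κ) with hF1
  set G₁ := G.map (io κ) with hG1
  set ψ := PowerSeries.map (io κ) φ with hψ
  set ψ' := PowerSeries.map (io κ) φ' with hψ'
  have hψ0 : PowerSeries.constantCoeff ψ = 0 := cc_map hφ
  have hψ'0 : PowerSeries.constantCoeff ψ' = 0 := cc_map hφ'0
  have hψeq : ψ' = ψ + PowerSeries.C (io κ c) * PowerSeries.X ^ (m + 1) := by
    rw [hψ', hφ', map_add, map_mul, map_pow, PowerSeries.map_C, PowerSeries.map_X]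
  have ha0 := cc_lin (px κ)
  have hb0 := cc_lin (py κ)
  have hk := key F₁ G₁ hψ0 ha0 hb0
  have hk' := key F₁ G₁ hψ'0 ha0 hb0
  have hsub : ∀ u : PowerSeries (TP κ), PowerSeries.constantCoeff u = 0 →
      PowerSeries.subst u ψ' = PowerSeries.subst u ψ + PowerSeries.C (io κ c) * u ^ (m + 1) := by
    intro u hu
    rw [hψeq, PowerSeries.subst_add (hs1 hu), PowerSeries.subst_mul (hs1 hu),
      PowerSeries.subst_pow (hs1 hu), PowerSeries.subst_X (hs1 hu), PowerSeries.subst_C]
    rfl
  have hab0 := cc_ap F₁ ha0 hb0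
  rw [hsub _ hab0, hsub _ ha0, hsub _ hb0] at hk'
  have hXdvd : ∀ u : PowerSeries (TP κ), PowerSeries.constantCoeff u = 0 →
      (PowerSeries.X : PowerSeries (TP κ)) ^ (m + 1) ∣ PowerSeries.C (io κ c) * u ^ (m + 1) :=
    fun u hu => (pow_dvd_pow_of_dvd (dvd_of_cc hu) _).mul_left _
  have hcc2 : ∀ u : PowerSeries (TP κ), PowerSeries.constantCoeff u = 0 →
      PowerSeries.constantCoeff (PowerSeries.C (io κ c) * u ^ (m + 1)) = 0 := by
    intro u hu
    rw [map_mul, map_pow, hu, zero_pow (by omega), mul_zero]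
  have hψa := cc_sub hψ0 ha0
  have hψb := cc_sub hψ0 hb0
  -- perturbation in both arguments
  have p1 := ap_perturb G₁.toPowerSeries (by omega : 1 ≤ m + 1) hψa
    (by rw [map_add, hψb, hcc2 _ hb0, add_zero] :
      PowerSeries.constantCoeff (PowerSeries.subst (lin (py κ)) ψ +
        PowerSeries.C (io κ c) * lin (py κ) ^ (m + 1)) = 0) (hXdvd _ ha0)
  have p2 := ap_perturb G₁.toPowerSeries (by omega : 1 ≤ m + 1) hψb hψa (hXdvd _ hb0)
  rw [coeff_ex_one_zero, map_one, one_mul] at p1 p2
  rw [ap_comm G₁ (by rw [map_add, hψb, hcc2 _ hb0, add_zero]) hψa, ap_comm G₁ hψb hψa] at p2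
  have p3 := dvd_add p1 p2
  -- compare coefficients
  have hcoef : ∀ k ≤ m + 1, PowerSeries.coeff k (ap (Del F₁ G₁ ψ') (lin (px κ)) (lin (py κ))) =
      PowerSeries.coeff k (ap (Del F₁ G₁ ψ) (lin (px κ)) (lin (py κ))) +
        io κ c * (PowerSeries.coeff k (ap F₁.toPowerSeries (lin (px κ)) (lin (py κ)) ^ (m + 1))
          - PowerSeries.coeff k (lin (px κ) ^ (m + 1)) -
            PowerSeries.coeff k (lin (py κ) ^ (m + 1))) := by
    intro k hk2
    have e1 := coeff_eq_zero_of_dvd p3 (Nat.lt_succ_of_le hk2)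
    have e2 := congrArg (PowerSeries.coeff k) hk
    have e3 := congrArg (PowerSeries.coeff k) hk'
    simp only [map_add, map_sub, PowerSeries.coeff_C_mul] at e1 e2 e3
    linear_combination (-1 : TP κ) * e3 + e2 - e1
  -- extraction
  have hDel : ∀ (θ : PowerSeries κ), PowerSeries.constantCoeff θ = 0 → ∀ i j k, i + j = k →
      cf i j (PowerSeries.coeff k (ap (Del F₁ G₁ (PowerSeries.map (io κ) θ))
        (lin (px κ)) (lin (py κ)))) = de F G θ i j := by
    intro θ hθ i j k hijk
    rw [coeff_ap_lin, cf_sum]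
    have : ∀ q : ℕ × ℕ, cf i j (MvPowerSeries.coeff (ex q.1 q.2)
        (Del F₁ G₁ (PowerSeries.map (io κ) θ)) * (px κ ^ q.1 * py κ ^ q.2))
        = de F G θ q.1 q.2 * (if q.1 = i ∧ q.2 = j then 1 else 0) := by
      intro q
      rw [hF1, hG1, Del_map (io κ) F G hθ, MvPowerSeries.coeff_map, cf_io_mul, cf_xy]
      rfl
    simp only [this]
    rw [sum_anti _ _ _ _ hijk, mul_one]
  intro i j hij
  change de F G φ' i j = 0
  rw [← hDel φ' hφ'0 i j (i + j) rfl]
  change cf i j (PowerSeries.coeff (i + j) (ap (Del F₁ G₁ ψ') (lin (px κ)) (lin (py κ)))) = 0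
  rw [hcoef _ hij, cf_add, cf_io_mul, cf_sub, cf_sub]
  have hd := hDel φ hφ i j (i + j) rfl
  change cf i j (PowerSeries.coeff (i + j) (ap (Del F₁ G₁ ψ) (lin (px κ)) (lin (py κ)))) = _ at hd
  rw [hd]
  -- powers
  rcases Nat.lt_or_ge (i + j) (m + 1) with hlt | hge
  · have z1 := coeff_eq_zero_of_dvd (pow_dvd_pow_of_dvd (dvd_of_cc hab0) (m + 1)) hlt
    have z2 := coeff_eq_zero_of_dvd (pow_dvd_pow_of_dvd (dvd_of_cc ha0) (m + 1)) hlt
    have z3 := coeff_eq_zero_of_dvd (pow_dvd_pow_of_dvd (dvd_of_cc hb0) (m + 1)) hlt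
    rw [z1, z2, z3]
    have z4 : de F G φ i j = 0 := hV i j (by omega)
    rw [z4]
    simp [cf]
  · have heq : i + j = m + 1 := by omega
    have hpow : ∀ u : PowerSeries (TP κ), PowerSeries.constantCoeff u = 0 →
        PowerSeries.coeff (i + j) (u ^ (m + 1)) = PowerSeries.coeff 1 u ^ (m + 1) := by
      intro u hu
      have := coeff_mul_pow_low hu hu (m + 1) 0
      rw [pow_zero, mul_one, pow_zero, mul_one, add_zero] at this
      rw [heq, this]
    rw [hpow _ hab0, hpow _ ha0, hpow _ hb0, coeff_one_ap F₁ ha0 hb0, coeff_one_lin, coeff_one_lin,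
      cf_add_pow, if_pos heq.symm]
    have x1 := cf_xy (κ := κ) i j (m + 1) 0
    rw [pow_zero, mul_one] at x1
    have x2 := cf_xy (κ := κ) i j 0 (m + 1)
    rw [pow_zero, one_mul] at x2
    rw [x1, x2]
    rcases Nat.eq_zero_or_pos i with hi | hi
    · subst hi
      have hj : j = m + 1 := by omega
      subst hj
      rw [de_zero_left hφ hV, Nat.choose_self, if_neg (fun h => by omega), if_pos ⟨rfl, rfl⟩]
      simp
    · rcases Nat.eq_zero_or_pos j with hj | hj
      · subst hj
        have hi' : i = m + 1 := by omega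
        subst hi'
        rw [de_symm hφ hV (m + 1) 0 (by omega), de_zero_left hφ hV, Nat.choose_zero_right,
          if_pos ⟨rfl, rfl⟩, if_neg (fun h => by omega)]
        simp
      · rw [if_neg (fun h => by omega), if_neg (fun h => by omega)]
        have h7 := hb i hi (by omega)
        have h8 : m + 1 - i = j := by omega
        rw [h8] at h7
        have h9 : (m + 1).choose i = (m + 1).choose j := by
          rw [← Nat.choose_symm (by omega : i ≤ m + 1), h8]
        rw [h7, h9, hc]
        ring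

/-- extraction of the defect from the test ring -/
lemma cf_Del {F G : FormalGroup κ} {θ : PowerSeries κ} (hθ : PowerSeries.constantCoeff θ = 0)
    (i j k : ℕ) (hijk : i + j = k) :
    cf i j (PowerSeries.coeff k (ap (Del (F.map (io κ)) (G.map (io κ))
      (PowerSeries.map (io κ) θ)) (lin (px κ)) (lin (py κ)))) = de F G θ i j := by
  rw [coeff_ap_lin, cf_sum]
  have : ∀ q : ℕ × ℕ, cf i j (MvPowerSeries.coeff (ex q.1 q.2)
      (Del (F.map (io κ)) (G.map (io κ)) (PowerSeries.map (io κ) θ)) * (px κ ^ q.1 * py κ ^ q.2))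
      = de F G θ q.1 q.2 * (if q.1 = i ∧ q.2 = j then 1 else 0) := by
    intro q
    rw [Del_map (io κ) F G hθ, MvPowerSeries.coeff_map, cf_io_mul, cf_xy]
    rfl
  simp only [this]
  rw [sum_anti _ _ _ _ hijk, mul_one]

/-- the defect in low degrees depends only on the low coefficients -/
theorem V_congr {F G : FormalGroup κ} [G.IsComm] {φ φ' : PowerSeries κ}
    (hφ : PowerSeries.constantCoeff φ = 0) {M : ℕ}
    (hd : (PowerSeries.X : PowerSeries κ) ^ (M + 1) ∣ φ' - φ) (hV : V F G φ M) :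
    V F G φ' M := by
  obtain ⟨r, hr⟩ := hd
  have hφ'eq : φ' = φ + PowerSeries.X ^ (M + 1) * r := by rw [← hr]; ring
  have hφ'0 : PowerSeries.constantCoeff φ' = 0 := by
    rw [hφ'eq, map_add, hφ, map_mul, map_pow, PowerSeries.constantCoeff_X, zero_pow (by omega),
      zero_mul, add_zero]
  have := isComm_map (io κ) G
  set F₁ := F.map (io κ) with hF1
  set G₁ := G.map (io κ) with hG1
  set ψ := PowerSeries.map (io κ) φ with hψ
  set ψ' := PowerSeries.map (io κ) φ' with hψ'
  have hψ0 : PowerSeries.constantCoeff ψ = 0 := cc_map hφ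
  have hψ'0 : PowerSeries.constantCoeff ψ' = 0 := cc_map hφ'0
  have hψeq : ψ' = ψ + PowerSeries.X ^ (M + 1) * PowerSeries.map (io κ) r := by
    rw [hψ', hφ'eq, map_add, map_mul, map_pow, PowerSeries.map_X]
  have ha0 := cc_lin (px κ)
  have hb0 := cc_lin (py κ)
  have hk := key F₁ G₁ hψ0 ha0 hb0
  have hk' := key F₁ G₁ hψ'0 ha0 hb0
  have hsub : ∀ u : PowerSeries (TP κ), PowerSeries.constantCoeff u = 0 →
      ∃ e : PowerSeries (TP κ), (PowerSeries.X : PowerSeries (TP κ)) ^ (M + 1) ∣ e ∧
      PowerSeries.subst u ψ' = PowerSeries.subst u ψ + e := by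
    intro u hu
    refine ⟨u ^ (M + 1) * PowerSeries.subst u (PowerSeries.map (io κ) r),
      (pow_dvd_pow_of_dvd (dvd_of_cc hu) _).mul_right _, ?_⟩
    rw [hψeq, PowerSeries.subst_add (hs1 hu), PowerSeries.subst_mul (hs1 hu),
      PowerSeries.subst_pow (hs1 hu), PowerSeries.subst_X (hs1 hu)]
  have hab0 := cc_ap F₁ ha0 hb0
  obtain ⟨e1, d1, h1⟩ := hsub _ hab0
  obtain ⟨e2, d2, h2⟩ := hsub _ ha0
  obtain ⟨e3, d3, h3⟩ := hsub _ hb0
  rw [h1, h2, h3] at hk'
  have hψa := cc_sub hψ0 ha0
  have hψb := cc_sub hψ0 hb0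
  have hcce : ∀ {e : PowerSeries (TP κ)}, (PowerSeries.X : PowerSeries (TP κ)) ^ (M + 1) ∣ e →
      PowerSeries.constantCoeff e = 0 := fun hd =>
    PowerSeries.X_dvd_iff.mp ((dvd_pow_self _ (by omega)).trans hd)
  have hb' : PowerSeries.constantCoeff (PowerSeries.subst (lin (py κ)) ψ + e3) = 0 := by
    rw [map_add, hψb, hcce d3, add_zero]
  have p1 := ap_perturb_weak G₁.toPowerSeries (by omega : 1 ≤ M + 1) hψa hb' d2
  have p2 := ap_perturb_weak G₁.toPowerSeries (by omega : 1 ≤ M + 1) hψb hψa d3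
  rw [ap_comm G₁ hb' hψa, ap_comm G₁ hψb hψa] at p2
  have p3 := dvd_sub d1 (dvd_add p1 p2)
  intro i j hij
  change de F G φ' i j = 0
  rw [← cf_Del hφ'0 i j (i + j) rfl]
  have hd := cf_Del (F := F) (G := G) hφ i j (i + j) rfl
  have z : de F G φ i j = 0 := hV i j hij
  rw [z] at hd
  have e4 := coeff_eq_zero_of_dvd p3 (Nat.lt_succ_of_le hij)
  have e5 := congrArg (PowerSeries.coeff (i + j)) hk
  have e6 := congrArg (PowerSeries.coeff (i + j)) hk'
  simp only [map_add, map_sub] at e4 e5 e6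
  have e7 : PowerSeries.coeff (i + j) (ap (Del F₁ G₁ ψ') (lin (px κ)) (lin (py κ))) =
      PowerSeries.coeff (i + j) (ap (Del F₁ G₁ ψ) (lin (px κ)) (lin (py κ))) := by
    linear_combination (-1 : TP κ) * e6 + e5 + e4
  change cf i j (PowerSeries.coeff (i + j) (ap (Del F₁ G₁ ψ') (lin (px κ)) (lin (py κ)))) = 0
  rw [e7]
  exact hd

/-- `X` is a homomorphism up to degree one -/
lemma V_X (F G : FormalGroup κ) : V F G PowerSeries.X 1 := by
  have hF : PowerSeries.HasSubst F.toPowerSeries :=
    PowerSeries.HasSubst.of_constantCoeff_zero F.zero_constantCoeff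
  have h1 : Del F G (PowerSeries.X : PowerSeries κ) = F.toPowerSeries - G.toPowerSeries := by
    unfold Del
    rw [PowerSeries.subst_X hF, PowerSeries.subst_X (PowerSeries.HasSubst.X 0),
      PowerSeries.subst_X (PowerSeries.HasSubst.X 1)]
    congr 1
    have e : (![MvPowerSeries.X 0, MvPowerSeries.X 1] : Fin 2 → MvPowerSeries (Fin 2) κ)
        = MvPowerSeries.X := by
      ext1 i; fin_cases i <;> rfl
    rw [e, MvPowerSeries.subst_self]
    rfl
  intro i j hij
  rw [h1, map_sub]
  have hcases : (i = 0 ∧ j = 0) ∨ (i = 1 ∧ j = 0) ∨ (i = 0 ∧ j = 1) := by omega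
  rcases hcases with ⟨rfl, rfl⟩ | ⟨rfl, rfl⟩ | ⟨rfl, rfl⟩
  · rw [coeff_ex_zero_zero, coeff_ex_zero_zero, sub_self]
  · rw [coeff_ex_one_zero, coeff_ex_one_zero, sub_self]
  · rw [coeff_ex_zero_one, coeff_ex_zero_one, sub_self]

/-- **Classification**: over a field `κ` of characteristic `p` with `c^(p^h) = c`, two commutative
formal group laws with `[p](X) = X^(p^h)` are strictly isomorphic. -/
theorem exists_strict_iso (hκ : ∀ c : κ, c ^ p ^ h = c) (F G : FormalGroup κ) [F.IsComm]
    [G.IsComm] (hF : mulSeries F p = PowerSeries.X ^ p ^ h)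
    (hG : mulSeries G p = PowerSeries.X ^ p ^ h) :
    ∃ φ : PowerSeries κ, IsFGHom F G φ ∧ PowerSeries.coeff 1 φ = 1 := by
  classical
  let St : ℕ → Type _ := fun m => {φ : PowerSeries κ // PowerSeries.constantCoeff φ = 0 ∧
    PowerSeries.coeff 1 φ = 1 ∧ V F G φ (m + 1)}
  have hnext : ∀ (m : ℕ) (s : St m), ∃ t : St (m + 1),
      (PowerSeries.X : PowerSeries κ) ^ (m + 2) ∣ t.1 - s.1 := by
    rintro m ⟨φ, h0, h1, hV⟩
    obtain ⟨c, hc⟩ := step p hκ hF hG h0 (by omega : 1 ≤ m + 1) hV
    refine ⟨⟨φ + PowerSeries.C c * PowerSeries.X ^ (m + 1 + 1), ?_, ?_, hc⟩, ?_⟩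
    · rw [map_add, h0, map_mul, map_pow, PowerSeries.constantCoeff_X, zero_pow (by omega),
        mul_zero, add_zero]
    · rw [map_add, h1, PowerSeries.coeff_C_mul, PowerSeries.coeff_X_pow, if_neg (by omega),
        mul_zero, add_zero]
    · simp only [add_sub_cancel_left]
      exact dvd_mul_left _ _
  choose nx hnx using hnext
  let S : ∀ m : ℕ, St m := fun m => Nat.rec (motive := fun m => St m)
    ⟨PowerSeries.X, PowerSeries.constantCoeff_X, PowerSeries.coeff_one_X, V_X F G⟩
    (fun m s => nx m s) m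
  have hS : ∀ m, S (m + 1) = nx m (S m) := fun m => rfl
  have hSd : ∀ m j, m ≤ j → (PowerSeries.X : PowerSeries κ) ^ (m + 2) ∣ (S j).1 - (S m).1 := by
    intro m j hmj
    induction j, hmj using Nat.le_induction with
    | base => rw [sub_self]; exact dvd_zero _
    | succ j hj ih =>
      have h1 : (S (j + 1)).1 - (S m).1 = ((S (j + 1)).1 - (S j).1) + ((S j).1 - (S m).1) := by ring
      rw [h1]
      refine dvd_add ?_ ih
      rw [hS]
      exact (pow_dvd_pow _ (by omega)).trans (hnx j (S j))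
  set φ : PowerSeries κ := PowerSeries.mk fun k => PowerSeries.coeff k (S k).1 with hφ
  have hφd : ∀ m, (PowerSeries.X : PowerSeries κ) ^ (m + 1 + 1) ∣ φ - (S m).1 := by
    intro m
    rw [PowerSeries.X_pow_dvd_iff]
    intro k hk
    rw [map_sub, hφ, PowerSeries.coeff_mk, sub_eq_zero]
    rcases Nat.lt_or_ge m k with h | h
    · have hk' : k = m + 1 := by omega
      subst hk'
      have := coeff_eq_zero_of_dvd (hSd m (m + 1) (by omega)) (show m + 1 < m + 2 by omega)
      rwa [map_sub, sub_eq_zero] at this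
    · have := coeff_eq_zero_of_dvd (hSd k m h) (show k < k + 2 by omega)
      rw [map_sub, sub_eq_zero] at this
      exact this.symm
  have hcc : PowerSeries.constantCoeff φ = 0 := by
    have := coeff_eq_zero_of_dvd (hφd 0) (show 0 < 0 + 1 + 1 by omega)
    rw [map_sub, sub_eq_zero, PowerSeries.coeff_zero_eq_constantCoeff_apply,
      PowerSeries.coeff_zero_eq_constantCoeff_apply] at this
    rw [this]
    exact (S 0).2.1
  have hc1 : PowerSeries.coeff 1 φ = 1 := by
    have := coeff_eq_zero_of_dvd (hφd 0) (show 1 < 0 + 1 + 1 by omega)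
    rw [map_sub, sub_eq_zero] at this
    rw [this]
    exact (S 0).2.2.1
  have hVall : ∀ m, V F G φ (m + 1) := fun m => V_congr (S m).2.1 (hφd m) (S m).2.2.2
  refine ⟨φ, ⟨hcc, ?_⟩, hc1⟩
  have hDel : Del F G φ = 0 := by
    apply MvPowerSeries.ext
    intro d
    have h3 := hVall (d 0 + d 1) (d 0) (d 1) (by omega)
    rw [ex_eta d] at h3
    rw [h3]
    exact (map_zero _).symm
  unfold Del at hDel
  exact sub_eq_zero.mp hDel

end main

end Crest.Agent.R227.Laz
end

-- ▼ part R227/CoPsi
section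

/-! # R227 / CoPsi : the homomorphism `ψ : F → HO h` (task COPSI)

`Psi.lean` (helper621) + `Lazard.lean` (helper357) give `exists_psi_point`. -/

set_option autoImplicit false
set_option linter.unusedSectionVars false

noncomputable section

namespace Crest.Agent.R227

open Crest.LubinTate MvPowerSeries Topology

variable {p : ℕ} [Fact p.Prime] {n h : ℕ}
variable {K : Type} [NontriviallyNormedField K] [IsUltrametricDist K] [CompleteSpace K]
  [IsAlgClosed K] [CharP K p]

theorem exists_psi_point (h1 : 1 ≤ h) (hh : h < n) (P : HPoint p n h K) :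
    ∃ ψ : PowerSeries (Ob K), IsFGHom P.F (HO p n h (Ob K)) ψ ∧ PowerSeries.coeff 1 ψ ≠ 0 := by
  obtain ⟨hV1, hV2, hV3, -⟩ := V1_props h1 hh P
  obtain ⟨G, ι, ψ, hGc, -, hψ1, hψ, -, hGp⟩ := exists_psi p h h1 P.F _ hV2 hV1 hV3
  have : G.IsComm := hGc
  have hκ : ∀ c : GaloisField p h, c ^ p ^ h = c := by
    intro c
    have := Fintype.ofFinite (GaloisField p h)
    have hcard : Fintype.card (GaloisField p h) = p ^ h := by
      rw [← Nat.card_eq_fintype_card, GaloisField.card p h (by omega)]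
    rw [← hcard]
    exact FiniteField.pow_card c
  obtain ⟨φ, hφ, hφ1⟩ := Laz.exists_strict_iso p hκ G (HO p n h (GaloisField p h)) hGp
    (mulSeries_Fh p n h h1 hh.le)
  have hφ' := IsFGHom.map ι hφ
  have hmap : (HO p n h (GaloisField p h)).map ι = HO p n h (Ob K) := Fh_map p n h ι
  rw [hmap] at hφ'
  refine ⟨PowerSeries.subst ψ (PowerSeries.map ι φ), IsFGHom.comp hψ hφ', ?_⟩
  rw [CoVAux.coeff_one_subst hψ.1, PowerSeries.coeff_map, hφ1, map_one, mul_one]
  exact hψ1

theorem mulSeries_HO_pow {R : Type*} [CommRing R] [CharP R p] (h1 : 1 ≤ h) (hh : h ≤ n) (i : ℕ) :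
    mulSeries (HO p n h R) (p ^ i) = PowerSeries.X ^ p ^ (h * i) := by
  have hp : p ≠ 0 := (Fact.out : p.Prime).ne_zero
  induction i with
  | zero =>
    rw [pow_zero, mul_zero, pow_zero, pow_one]
    rw [show (1 : ℕ) = 0 + 1 from rfl, mulSeries_succ]
    exact zero_fadd _ _ ccPX
  | succ i ih =>
    have h2 : mulSeries (HO p n h R) p = PowerSeries.X ^ p ^ h := mulSeries_Fh p n h h1 hh
    rw [pow_succ, mulSeries_mul, ih, h2]
    have hs : PowerSeries.HasSubst (PowerSeries.X ^ p ^ h : PowerSeries R) :=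
      PowerSeries.HasSubst.of_constantCoeff_zero' (by
        rw [map_pow, PowerSeries.constantCoeff_X, zero_pow (pow_ne_zero _ hp)])
    rw [PowerSeries.subst_pow hs, PowerSeries.subst_X hs, ← pow_mul, ← pow_add]
    congr 2
    ring

variable {P : HPoint p n h K} {ψ : PowerSeries (Ob K)}

/-- `ψ ∘ V_i = ψ^{(Q^i)}` (cancel `X^{Q^i}` in `ψ ∘ [p^i] = [p^i] ∘ ψ`) -/
theorem psi_V (h1 : 1 ≤ h) (hh : h < n) (hψ : IsFGHom P.F (HO p n h (Ob K)) ψ) (i : ℕ)
    {V : PowerSeries (Ob K)} (hV : IsVi P i V) :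
    PowerSeries.subst V ψ = ψ.map (iterateFrobenius (Ob K) p (h * i)) := by
  have hp : p ≠ 0 := (Fact.out : p.Prime).ne_zero
  have hpi : p ^ (h * i) ≠ 0 := pow_ne_zero _ hp
  have hX0 : PowerSeries.constantCoeff (PowerSeries.X ^ p ^ (h * i) : PowerSeries (Ob K)) = 0 := by
    rw [map_pow, PowerSeries.constantCoeff_X, zero_pow hpi]
  have e := IsFGHom.comm_mulSeries hψ (p ^ i)
  have hs : PowerSeries.HasSubst ψ := PowerSeries.HasSubst.of_constantCoeff_zero' hψ.1
  rw [hV.eq, mulSeries_HO_pow h1 hh.le, PowerSeries.subst_pow hs, PowerSeries.subst_X hs,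
    CoVAux.pow_eq_subst (p := p) (h * i) ψ] at e
  have e2 : PowerSeries.subst (PowerSeries.X ^ p ^ (h * i) : PowerSeries (Ob K))
      (PowerSeries.subst V ψ) = PowerSeries.subst
        (PowerSeries.X ^ p ^ (h * i) : PowerSeries (Ob K))
        (PowerSeries.map (iterateFrobenius (Ob K) p (h * i)) ψ) := by
    rw [← e]
    exact psubst_psubst hV.hom.1 hX0 ψ
  rw [← PowerSeries.expand_apply _ hpi, ← PowerSeries.expand_apply _ hpi] at e2
  refine PowerSeries.ext fun m => ?_
  have := congrArg (PowerSeries.coeff (p ^ (h * i) * m)) e2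
  rwa [PowerSeries.coeff_expand_mul, PowerSeries.coeff_expand_mul] at this

/-- one step of the estimate: the coefficients of `ψ` at `m` is controlled by `ψ^{(Q)}` -/
theorem psi_step (h1 : 1 ≤ h) (hh : h < n) (hψ : IsFGHom P.F (HO p n h (Ob K)) ψ)
    {R : ℝ} (hR0 : 0 ≤ R) (hR : ∀ m, ‖PowerSeries.coeff m ψ‖ ≤ R) (m : ℕ) :
    ‖PowerSeries.coeff m ψ‖ ≤ max (R ^ p ^ h) (P.c * R) := by
  have hp : p ≠ 0 := (Fact.out : p.Prime).ne_zero
  obtain ⟨V, hV⟩ := exists_Vi h1 hh P 1
  have e := psi_V h1 hh hψ 1 hV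
  rw [mul_one] at e
  set N := p ^ (n - h) with hN
  have hN0 : N ≠ 0 := pow_ne_zero _ hp
  have hVs : PowerSeries.HasSubst V := PowerSeries.HasSubst.of_constantCoeff_zero' hV.hom.1
  have hXs : PowerSeries.HasSubst (PowerSeries.X ^ N : PowerSeries (Ob K)) :=
    PowerSeries.HasSubst.of_constantCoeff_zero' (by
      rw [map_pow, PowerSeries.constantCoeff_X, zero_pow hN0])
  -- the coefficient of `X^{N m}` in `ψ(X^N)` is `a_m`
  have e1 : PowerSeries.coeff (N * m) (PowerSeries.subst (PowerSeries.X ^ N : PowerSeries (Ob K)) ψ)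
      = PowerSeries.coeff m ψ := by
    rw [← PowerSeries.expand_apply _ hN0, PowerSeries.coeff_expand_mul]
  -- difference with `ψ(V)`
  have hcR : 0 ≤ P.c * R := mul_nonneg P.c_nonneg hR0
  have e2 : ‖PowerSeries.coeff (N * m) (PowerSeries.subst V ψ) -
      PowerSeries.coeff (N * m) (PowerSeries.subst (PowerSeries.X ^ N : PowerSeries (Ob K)) ψ)‖
        ≤ P.c * R := by
    rw [PowerSeries.coeff_subst' hVs, PowerSeries.coeff_subst' hXs,
      ← finsum_sub_distrib (PowerSeries.coeff_subst_finite' hVs ψ _)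
        (PowerSeries.coeff_subst_finite' hXs ψ _), ← mem_normIdeal _ hcR]
    refine finsum_induction (fun x => x ∈ normIdeal K (P.c * R) hcR) (Ideal.zero_mem _)
      (fun x y hx hy => Ideal.add_mem _ hx hy) (fun d => ?_)
    rw [mem_normIdeal, smul_eq_mul, smul_eq_mul, ← mul_sub, CoRootAux.norm_mul', mul_comm]
    refine mul_le_mul ?_ (hR d) (norm_nonneg _) P.c_nonneg
    have h3 : PowerSeries.map (Ideal.Quotient.mk (normIdeal K P.c P.c_nonneg)) (V ^ d) =
        PowerSeries.X ^ (N * d) := by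
      have h4 := (CoVAux.near_iff P.c P.c_nonneg V (p ^ ((n - h) * 1))).1 hV.near
      rw [map_pow, h4, mul_one, ← pow_mul]
    have h5 := (CoVAux.near_iff P.c P.c_nonneg (V ^ d) (N * d)).2 h3 (N * m)
    rw [← pow_mul, PowerSeries.coeff_X_pow]
    exact h5
  rw [e1, e, PowerSeries.coeff_map, iterateFrobenius_def] at e2
  have e3 : ‖PowerSeries.coeff (N * m) ψ ^ p ^ h‖ ≤ R ^ p ^ h := by
    rw [CoRootAux.norm_pow']
    exact pow_le_pow_left₀ (norm_nonneg _) (hR _) _
  have e4 : PowerSeries.coeff m ψ = PowerSeries.coeff (N * m) ψ ^ p ^ h -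
      (PowerSeries.coeff (N * m) ψ ^ p ^ h - PowerSeries.coeff m ψ) := by ring
  rw [e4]
  rw [sub_eq_add_neg]
  refine (IsUltrametricDist.norm_add_le_max _ _).trans ?_
  rw [norm_neg]
  exact max_le_max e3 e2

/-- the coefficients of `ψ` have norms arbitrarily close to `1` -/
theorem psi_sup (h1 : 1 ≤ h) (hh : h < n) (hψ : IsFGHom P.F (HO p n h (Ob K)) ψ)
    (hψ1 : PowerSeries.coeff 1 ψ ≠ 0) (r : ℝ) (hr : r < 1) :
    ∃ m, 1 ≤ m ∧ r < ‖PowerSeries.coeff m ψ‖ := by
  by_contra hcon
  push Not at hcon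
  -- all coefficients are bounded by `r`
  have hc0 : PowerSeries.coeff 0 ψ = 0 := by
    rw [PowerSeries.coeff_zero_eq_constantCoeff_apply]; exact hψ.1
  have hr0 : 0 ≤ r := (norm_nonneg _).trans (hcon 1 le_rfl)
  have hall : ∀ m, ‖PowerSeries.coeff m ψ‖ ≤ r := by
    intro m
    rcases Nat.eq_zero_or_pos m with rfl | hm
    · rw [hc0, norm_zero]; exact hr0
    · exact hcon m hm
  set θ := max r P.c with hθ
  have hθ1 : θ < 1 := max_lt hr P.c_lt_one
  have hθ0 : 0 ≤ θ := hr0.trans (le_max_left _ _)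
  have key : ∀ k : ℕ, ∀ m, ‖PowerSeries.coeff m ψ‖ ≤ θ ^ k * r := by
    intro k
    induction k with
    | zero => intro m; rw [pow_zero, one_mul]; exact hall m
    | succ k ih =>
      intro m
      have hR0 : 0 ≤ θ ^ k * r := by positivity
      refine (psi_step h1 hh hψ hR0 ih m).trans (max_le ?_ ?_)
      · have hQ : 2 ≤ p ^ h := by
          calc 2 ≤ p := (Fact.out : p.Prime).two_le
            _ = p ^ 1 := (pow_one p).symm
            _ ≤ p ^ h := Nat.pow_le_pow_right (Fact.out : p.Prime).pos h1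
        have hR1 : θ ^ k * r ≤ 1 :=
          mul_le_one₀ (pow_le_one₀ hθ0 hθ1.le) hr0 hr.le
        calc (θ ^ k * r) ^ p ^ h ≤ (θ ^ k * r) ^ 2 := pow_le_pow_of_le_one hR0 hR1 hQ
          _ = (θ ^ k * r) * (θ ^ k * r) := sq _
          _ ≤ θ * (θ ^ k * r) := by
              refine mul_le_mul_of_nonneg_right ?_ hR0
              calc θ ^ k * r ≤ 1 * r := mul_le_mul_of_nonneg_right (pow_le_one₀ hθ0 hθ1.le) hr0
                _ = r := one_mul _
                _ ≤ θ := le_max_left _ _
          _ = θ ^ (k + 1) * r := by ring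
      · calc P.c * (θ ^ k * r) ≤ θ * (θ ^ k * r) :=
              mul_le_mul_of_nonneg_right (le_max_right _ _) hR0
          _ = θ ^ (k + 1) * r := by ring
  have hlim : Filter.Tendsto (fun k : ℕ => θ ^ k * r) Filter.atTop (𝓝 0) := by
    have := (tendsto_pow_atTop_nhds_zero_of_lt_one hθ0 hθ1).mul_const r
    rwa [zero_mul] at this
  have h0 : ‖PowerSeries.coeff 1 ψ‖ ≤ 0 :=
    ge_of_tendsto hlim (Filter.Eventually.of_forall fun k => key k 1)
  exact hψ1 (norm_le_zero_iff.1 h0)

theorem psi_surjective (h1 : 1 ≤ h) (hh : h < n) (hψ : IsFGHom P.F (HO p n h (Ob K)) ψ)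
    (hψ1 : PowerSeries.coeff 1 ψ ≠ 0) : Function.Surjective (FPt.hom hψ) := by
  intro y
  obtain ⟨m, hm, hmy⟩ := psi_sup h1 hh hψ hψ1 ‖y.val‖ (FPt.norm_lt _ y)
  obtain ⟨x, hx, hxy⟩ := exists_ev_eq ψ hψ.1 m hm y.val hmy
  refine ⟨mkPt P.F x hx, FPt.ext ?_⟩
  rw [FPt.hom_val, mkPt_val]
  exact hxy

end Crest.Agent.R227
end
end

-- ▼ part R227/CoApprox
section

/-! # R227 / CoApprox : the approximation property of `EEset` (task COAPPROX) -/

set_option autoImplicit false
set_option linter.unusedSectionVars false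

noncomputable section

namespace Crest.Agent.R227

open Crest.LubinTate MvPowerSeries Topology

variable {p : ℕ} [Fact p.Prime] {n h : ℕ}
variable {K : Type} [NontriviallyNormedField K] [IsUltrametricDist K] [CompleteSpace K]
  [IsAlgClosed K] [CharP K p]

variable {ι : GaloisField p n →+* Ob K} {M : ℕ}

/-- `EEset` is the same at all orbit points (`ψ' = ψ ∘ lam`, `θ'(α g⁻¹ t) = θ(g α g⁻¹ t)`). -/
theorem EEset_orb {x y : Mk p n h K ι} (hxy : Orb M x y) {ψ : PowerSeries (Ob K)}
    (hψ : IsFGHom x.P.F (HO p n h (Ob K)) ψ) (hψ1 : PowerSeries.coeff 1 ψ ≠ 0) :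
    ∃ (ψ' : PowerSeries (Ob K)) (hψ' : IsFGHom y.P.F (HO p n h (Ob K)) ψ'),
      PowerSeries.coeff 1 ψ' ≠ 0 ∧ EEset y hψ' = EEset x hψ :=
  CoApproxAux.EEset_orb hxy hψ hψ1

theorem CoApproxAux.isAct_nsmul {A : FPt (HO p n n (Ob K)) →+ FPt (HO p n n (Ob K))} (hA : IsAct ι A)
    (m : ℕ) : IsAct ι (m • A) := by
  induction m with
  | zero => rw [zero_smul]; exact IsAct.zero
  | succ m ih => rw [succ_nsmul]; exact ih.add hA

/-- one point: transport of `Φ` along the formal inverse of `ψ` over `K`, truncated. For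
`e = θ(A t)`, `e^{Q^s} = θ(p^s A t) = ψ(η)`, `η = ρ(p^s A t)`, `‖η‖ < ‖coeff 1 ψ‖` for `s` large,
`‖ψ η‖ = ‖coeff 1 ψ‖ ‖η‖`. -/
theorem approx_of_phi (h1 : 1 ≤ h) (hh : h < n) (x : Mk p n h K ι) {ψ : PowerSeries (Ob K)}
    (hψ : IsFGHom x.P.F (HO p n h (Ob K)) ψ) (hψ1 : PowerSeries.coeff 1 ψ ≠ 0) (D : ℕ)
    (Φ : MvPowerSeries (Fin (n - h)) (Ob K)) (hΦ : ∃ l, coeff (Finsupp.single l 1) Φ ≠ 0)
    (hb : ∀ A, IsAct ι A → ∀ δ : ℝ, (∀ l, ‖(x.ρ (A (x.t l))).val‖ ≤ δ) →
        ‖ev (fun l => (x.ρ (A (x.t l))).val) Φ‖ ≤ δ ^ D) :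
    ∃ Ψ : MvPolynomial (Fin (n - h)) K, (∃ l, Ψ.coeff (Finsupp.single l 1) ≠ 0) ∧
      ∀ e ∈ EEset x hψ, ∀ δ : ℝ, (∀ l, ‖(e l).val‖ ≤ δ) → ∃ B : ℝ, 0 ≤ B ∧
        ∃ s₀ : ℕ, ∀ s, s₀ ≤ s →
          ‖MvPolynomial.eval (fun l => (((e l).val : Ob K) : K) ^ (p ^ h) ^ s) Ψ‖
            ≤ B * (δ ^ D) ^ (p ^ h) ^ s := by
  obtain ⟨Ψ, ε, hΨ, hε, hest⟩ := CoApproxAux.exists_trunc hψ.1 hψ1 D Φ hΦ
  refine ⟨Ψ, hΨ, ?_⟩
  rintro e ⟨A, hA, he⟩ δ hδ
  set a := ‖PowerSeries.coeff 1 ψ‖ with ha
  have hapos : 0 < a := norm_pos_iff.2 hψ1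
  have hne : Nonempty (Fin (n - h)) := ⟨⟨0, by omega⟩⟩
  refine ⟨a⁻¹ ^ D, by positivity, ?_⟩
  have hlim : ∀ l, Filter.Tendsto (fun s : ℕ => ‖((p ^ s) • x.ρ (A (x.t l))).val‖)
      Filter.atTop (𝓝 0) := fun l =>
    squeeze_zero (fun _ => norm_nonneg _) (fun s => norm_pow_smul_le h1 hh x.P s _)
      (tendsto_pow_tower h1 (norm_nonneg _) (FPt.norm_lt _ _))
  have hev : ∀ᶠ s : ℕ in Filter.atTop, ∀ l, ‖((p ^ s) • x.ρ (A (x.t l))).val‖ < min ε a :=
    Filter.eventually_all.2 fun l => (hlim l).eventually (gt_mem_nhds (lt_min hε hapos))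
  obtain ⟨s₀, hs₀⟩ := Filter.eventually_atTop.1 hev
  refine ⟨s₀, fun s hs => ?_⟩
  have hs' := hs₀ s hs
  set η : Fin (n - h) → Ob K := fun l => ((p ^ s) • x.ρ (A (x.t l))).val with hη
  have hρA : ∀ l, x.ρ (((p ^ s) • A) (x.t l)) = (p ^ s) • x.ρ (A (x.t l)) := by
    intro l
    rw [AddMonoidHom.nsmul_apply, map_nsmul]
  have hψη : ∀ l, ev₁ (η l) ψ = (e l).val ^ (p ^ h) ^ s := by
    intro l
    have h2 : FPt.hom hψ ((p ^ s) • x.ρ (A (x.t l))) = (p ^ s) • e l := by
      rw [map_nsmul, he]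
    have h3 := congrArg FPt.val h2
    rw [FPt.hom_val, HO_pow_smul h1 hh.le, nfr_val, fz_natCast, pow_mul] at h3
    exact h3
  have hη1 : ∀ l, ‖η l‖ < 1 := fun l => FPt.norm_lt _ _
  set r : ℝ := ⨆ l, ‖η l‖ with hr
  have hηr : ∀ l, ‖η l‖ ≤ r := fun l =>
    le_ciSup (f := fun l => ‖η l‖) (Set.finite_range _).bddAbove l
  have hr1 : r < 1 := by
    obtain ⟨l, hl⟩ := exists_eq_ciSup_of_finite (f := fun l => ‖η l‖)
    rw [hr, ← hl]
    exact hη1 l
  have hr0 : 0 ≤ r := (norm_nonneg _).trans (hηr hne.some)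
  have hrδ : r ≤ a⁻¹ * δ ^ (p ^ h) ^ s := by
    refine ciSup_le fun l => ?_
    rw [le_inv_mul_iff₀ hapos, mul_comm]
    have h2 := CoApproxAux.le_norm_ev₁ (ψ := ψ) hψ.1 ((hs' l).trans_le (min_le_right _ _))
    refine h2.trans ?_
    change ‖ev₁ (η l) ψ‖ ≤ _
    rw [hψη, CoApproxAux.Ob_norm_pow]
    exact pow_le_pow_left₀ (norm_nonneg _) (hδ l) _
  have h2 : ‖ev η Φ‖ ≤ r ^ D := by
    have h3 := hb ((p ^ s) • A) (CoApproxAux.isAct_nsmul hA _) r (fun l => by rw [hρA]; exact hηr l)
    simp only [hρA] at h3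
    exact h3
  have h3 := hest η r hr1 (fun l => (hs' l).trans_le (min_le_left _ _)) hηr h2
  have h4 : (fun l => ((ev₁ (η l) ψ : Ob K) : K)) =
      fun l => (((e l).val : Ob K) : K) ^ (p ^ h) ^ s := by
    funext l
    rw [hψη, Subring.coe_pow]
  rw [h4] at h3
  refine h3.trans ?_
  calc r ^ D ≤ (a⁻¹ * δ ^ (p ^ h) ^ s) ^ D := pow_le_pow_left₀ hr0 hrδ _
    _ = a⁻¹ ^ D * (δ ^ D) ^ (p ^ h) ^ s := by rw [mul_pow, pow_right_comm]

theorem approxPoly (hn : 1 ≤ n) (hU : IsUniversalDeformation p n (Fn p n) (H1 p n))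
    (h1 : 1 ≤ h) (hh : h < n) (hM : 1 ≤ M) (x : Mk p n h K ι) {ψ : PowerSeries (Ob K)}
    (hψ : IsFGHom x.P.F (HO p n h (Ob K)) ψ) (hψ1 : PowerSeries.coeff 1 ψ ≠ 0)
    (f : LTRing p n) (hf : f ∉ II p n h)
    (hkill : ∀ φ, IsStab p n M φ → x.P.X (φ f) = 0) :
    ApproxPoly p h (EEset x hψ) := by
  intro N
  obtain ⟨i, hi1, hiM, hiN⟩ : ∃ i : ℕ, 1 ≤ i ∧ M ≤ p ^ (n * i) ∧ N ≤ p ^ (h * i) := by
    have hp : 1 < p := (Fact.out : p.Prime).one_lt
    refine ⟨max 1 (max M N), le_max_left _ _, ?_, ?_⟩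
    · calc M ≤ max 1 (max M N) := le_max_of_le_right (le_max_left _ _)
        _ ≤ n * max 1 (max M N) := Nat.le_mul_of_pos_left _ hn
        _ ≤ p ^ (n * max 1 (max M N)) := (Nat.lt_pow_self hp).le
    · calc N ≤ max 1 (max M N) := le_max_of_le_right (le_max_right _ _)
        _ ≤ h * max 1 (max M N) := Nat.le_mul_of_pos_left _ h1
        _ ≤ p ^ (h * max 1 (max M N)) := (Nat.lt_pow_self hp).le
  obtain ⟨y, hxy, Φ, hΦ, hb⟩ := exists_phi hn hU h1 hh hM x i hi1 hiM f hf hkill
  obtain ⟨ψ', hψ', hψ'1, hEE⟩ := EEset_orb hxy hψ hψ1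
  refine ⟨p ^ (h * i), hiN, ?_⟩
  rw [← hEE]
  exact approx_of_phi h1 hh y hψ' hψ'1 _ Φ hΦ hb

end Crest.Agent.R227
end
end

-- ▼ part R227/Weier1
section

/-!
Row 227 (S0351): degree one Weierstrass preparation for power series over a field (helper251):
a series in `κ[[X_none, Y]]` without constant term and with nonzero `X_none`-linear coefficient is
`(X_none - A(Y))` times a unit.
-/

set_option autoImplicit false

noncomputable section

namespace Crest.Agent.R227
namespace Circuit

open MvPowerSeries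

variable {κ : Type*} [Field κ] {τ : Type*} [Finite τ]

omit [Finite τ] in
theorem optionEquivLeft_rename_some (A : MvPowerSeries τ κ) :
    optionEquivLeft τ κ (rename (Function.Embedding.some : τ ↪ Option τ) A)
      = PowerSeries.C A := by
  classical
  ext n x
  rw [coeff_coeff_optionEquivLeft, PowerSeries.coeff_C]
  split_ifs with hn
  · subst hn
    have : (x.optionElim 0) = Finsupp.embDomain (Function.Embedding.some : τ ↪ Option τ) x := by
      ext a
      cases a with
      | none =>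
        rw [Finsupp.embDomain_notin_range _ _ _ (by simp)]
        simp
      | some a =>
        have := Finsupp.embDomain_apply_self (Function.Embedding.some : τ ↪ Option τ) x a
        rw [Function.Embedding.some_apply] at this
        rw [this]
        simp
    rw [this, coeff_embDomain_rename]
  · rw [map_zero]
    apply coeff_rename_eq_zero
    intro h
    obtain ⟨y, hy⟩ := h
    apply hn
    have h1 := congrArg (fun f : Option τ →₀ ℕ => f none) hy
    simp only [Finsupp.optionElim_apply_none] at h1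
    rw [← h1]
    rw [Finsupp.mapDomain_notin_range]
    simp

theorem weier (G : MvPowerSeries (Option τ) κ) (h0 : constantCoeff G = 0)
    (h1 : coeff (Finsupp.single none 1) G ≠ 0) :
    ∃ A : MvPowerSeries τ κ, constantCoeff A = 0 ∧ ∃ H : MvPowerSeries (Option τ) κ, IsUnit H ∧
      G = (X none - rename (Function.Embedding.some : τ ↪ Option τ) A) * H := by
  classical
  haveI hκ : IsAdicComplete (IsLocalRing.maximalIdeal κ) κ := by
    rw [IsLocalRing.maximalIdeal_eq_bot]
    infer_instance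
  haveI : IsAdicComplete (IsLocalRing.maximalIdeal (MvPowerSeries τ κ)) (MvPowerSeries τ κ) :=
    isAdicComplete_maximalIdeal_mv
  let g := optionEquivLeft τ κ G
  have c0 : PowerSeries.coeff 0 g ∈ IsLocalRing.maximalIdeal (MvPowerSeries τ κ) := by
    rw [IsLocalRing.mem_maximalIdeal, mem_nonunits_iff, MvPowerSeries.isUnit_iff_constantCoeff]
    rw [← coeff_zero_eq_constantCoeff_apply, coeff_coeff_optionEquivLeft]
    have : (Finsupp.optionElim 0 (0 : τ →₀ ℕ)) = 0 := by
      ext a; cases a <;> simp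
    rw [this, coeff_zero_eq_constantCoeff_apply, h0]
    simp
  have c1 : IsUnit (PowerSeries.coeff 1 g) := by
    rw [MvPowerSeries.isUnit_iff_constantCoeff]
    rw [← coeff_zero_eq_constantCoeff_apply, coeff_coeff_optionEquivLeft]
    have : (Finsupp.optionElim 1 (0 : τ →₀ ℕ)) = Finsupp.single none 1 := by
      ext a; cases a <;> simp
    rw [this]
    exact isUnit_iff_ne_zero.2 h1
  have hord : (g.map (IsLocalRing.residue (MvPowerSeries τ κ))).order = 1 := by
    rw [show (1 : ℕ∞) = ((1 : ℕ) : ℕ∞) from rfl, PowerSeries.order_eq_nat]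
    constructor
    · rw [PowerSeries.coeff_map]
      intro h
      exact (IsLocalRing.residue_ne_zero_iff_isUnit _).2 c1 h
    · intro i hi
      have : i = 0 := by omega
      subst this
      rw [PowerSeries.coeff_map]
      exact (IsLocalRing.residue_eq_zero_iff _).2 c0
  have hne : g.map (IsLocalRing.residue (MvPowerSeries τ κ)) ≠ 0 := by
    intro h
    rw [h, PowerSeries.order_zero] at hord
    exact absurd hord (by simp)
  obtain ⟨f, h, H⟩ := PowerSeries.exists_isWeierstrassFactorization hne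
  have hdeg : f.natDegree = 1 := by
    rw [H.natDegree_eq_toNat_order_map, hord]; rfl
  have hmon := H.isDistinguishedAt.monic
  have hf : f = Polynomial.X + Polynomial.C (f.coeff 0) := by
    have h1 := Polynomial.eq_X_add_C_of_natDegree_le_one (p := f) hdeg.le
    have h2 : f.coeff 1 = 1 := by rw [← hdeg]; exact hmon
    rw [h2, Polynomial.C_1, one_mul] at h1
    exact h1
  have hc : f.coeff 0 ∈ IsLocalRing.maximalIdeal (MvPowerSeries τ κ) :=
    H.isDistinguishedAt.mem (by omega)
  refine ⟨- f.coeff 0, ?_, (optionEquivLeft τ κ).symm h, H.isUnit.map _, ?_⟩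
  · rw [IsLocalRing.mem_maximalIdeal, mem_nonunits_iff,
      MvPowerSeries.isUnit_iff_constantCoeff] at hc
    rw [map_neg, neg_eq_zero]
    by_contra h
    exact hc (isUnit_iff_ne_zero.2 h)
  · apply (optionEquivLeft τ κ).injective
    rw [map_mul, map_sub, optionEquivLeft_X_none, optionEquivLeft_rename_some,
      AlgEquiv.apply_symm_apply]
    have := H.eq_mul
    change g = _
    rw [this]
    congr 1
    conv_lhs => rw [hf]
    rw [Polynomial.coe_add, Polynomial.coe_X, Polynomial.coe_C, map_neg, sub_neg_eq_add]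

end Circuit
end Crest.Agent.R227
end
end

-- ▼ part R227/Circuit
section

/-!
Row 227 (S0351): the circuit lemma (helper251).  If a group of tuples of points of a formal group
`Γ` over a finite field satisfies a nonzero power series relation over that field, then one
coordinate is a combination of the others with coefficients in `End Γ`.
-/

set_option autoImplicit false

noncomputable section

open Filter Topology

namespace Crest.Agent.R227
namespace Circuit

open Crest.LubinTate MvPowerSeries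
open scoped MvPowerSeries.WithPiTopology

variable {K : Type*} [NormedField K] [IsUltrametricDist K] [CompleteSpace K]
variable {κ : Type*} [Field κ] (ι : κ →+* Ob K)
variable {σ : Type*} [Finite σ]

/-- values of a tuple of points -/
def vals {F : FormalGroup (Ob K)} (e : σ → FPt F) : σ → Ob K := fun l => (e l).val

omit [Finite σ] [CompleteSpace K] in
theorem vals_lt {F : FormalGroup (Ob K)} (e : σ → FPt F) (l : σ) : ‖vals e l‖ < 1 :=
  (Ob_tn_iff _).1 (e l).tn

omit [Finite σ] [CompleteSpace K] in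
theorem vals_tn {F : FormalGroup (Ob K)} (e : σ → FPt F) (l : σ) :
    IsTopologicallyNilpotent (vals e l) := (e l).tn

theorem ev_zero_pt (u : MvPowerSeries σ (Ob K)) : ev (fun _ => (0 : Ob K)) u = constantCoeff u := by
  have h0 : ∀ i : σ, ‖(0 : Ob K)‖ < 1 := fun _ => by simp
  have hc : Continuous (constantCoeff : MvPowerSeries σ (Ob K) →+* Ob K) :=
    WithPiTopology.continuous_constantCoeff (Ob K)
  have h2 := eq_of_eq_on_poly (S := Ob K) (σ := σ) (continuous_ev (a := fun _ : σ => (0 : Ob K))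
    (fun i => (Ob_tn_iff _).2 (h0 i))) hc (fun q => by
      rw [ev_coe (fun i => (Ob_tn_iff _).2 (h0 i))]
      induction q using MvPolynomial.induction_on with
      | C c => simp
      | add p q hp hq => rw [map_add, hp, hq, MvPolynomial.coe_add, map_add]
      | mul_X p i hp => simp)
  exact congrFun h2 u

/-- the ideal of series over `κ` vanishing on a set of points -/
def vanI (EE : Set (σ → Ob K)) (hEE : ∀ e ∈ EE, ∀ l, ‖e l‖ < 1) : Ideal (MvPowerSeries σ κ) where
  carrier := {G | ∀ e ∈ EE, ev e (G.map ι) = 0}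
  add_mem' := by
    intro a b ha hb e he
    have ht : ∀ l, IsTopologicallyNilpotent (e l) := fun l => (Ob_tn_iff _).2 (hEE e he l)
    rw [map_add, ev_add ht, ha e he, hb e he, add_zero]
  zero_mem' := by
    intro e he
    have ht : ∀ l, IsTopologicallyNilpotent (e l) := fun l => (Ob_tn_iff _).2 (hEE e he l)
    rw [map_zero, ev_zero ht]
  smul_mem' := by
    intro c a ha e he
    have ht : ∀ l, IsTopologicallyNilpotent (e l) := fun l => (Ob_tn_iff _).2 (hEE e he l)
    rw [smul_eq_mul, map_mul, ev_mul ht, ha e he, mul_zero]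

theorem mem_vanI {EE : Set (σ → Ob K)} {hEE : ∀ e ∈ EE, ∀ l, ‖e l‖ < 1}
    {G : MvPowerSeries σ κ} : G ∈ vanI ι EE hEE ↔ ∀ e ∈ EE, ev e (G.map ι) = 0 := Iff.rfl

theorem vanI_radical (EE : Set (σ → Ob K)) (hEE : ∀ e ∈ EE, ∀ l, ‖e l‖ < 1) :
    (vanI ι EE hEE).IsRadical := by
  intro a ha
  rw [Ideal.mem_radical_iff] at ha
  obtain ⟨n, hn⟩ := ha
  intro e he
  have ht : ∀ l, IsTopologicallyNilpotent (e l) := fun l => (Ob_tn_iff _).2 (hEE e he l)
  have := hn e he
  rw [map_pow, ev_pow ht] at this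
  exact eq_zero_of_pow_eq_zero this

theorem vanI_ne_top (EE : Set (σ → Ob K)) (hEE : ∀ e ∈ EE, ∀ l, ‖e l‖ < 1) (hne : EE.Nonempty) :
    vanI ι EE hEE ≠ ⊤ := by
  obtain ⟨e, he⟩ := hne
  have ht : ∀ l, IsTopologicallyNilpotent (e l) := fun l => (Ob_tn_iff _).2 (hEE e he l)
  intro h
  have h1 : (1 : MvPowerSeries σ κ) ∈ vanI ι EE hEE := by rw [h]; trivial
  have := h1 e he
  rw [map_one, ev_one ht] at this
  exact one_ne_zero this

omit [CompleteSpace K] [Finite σ] in
theorem map_pderiv (f : MvPowerSeries σ κ) (l : σ) :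
    (pderiv κ l f).map ι = pderiv (Ob K) l (f.map ι) := by
  ext d
  rw [coeff_map, coeff_pderiv, coeff_pderiv, coeff_map, map_mul, map_add, map_natCast, map_one]

section lin

variable [Fintype κ]

/-- existence of a relation with a nonzero linear coefficient -/
theorem exists_lin (Γ : FormalGroup κ) [(Γ.map ι).IsComm]
    (EE : AddSubmonoid (σ → FPt (Γ.map ι)))
    (hfrob : ∀ e ∈ EE, ∃ e' ∈ EE, ∀ l, (e' l).val = (e l).val ^ Fintype.card κ)
    (hG : ∃ G : MvPowerSeries σ κ, G ≠ 0 ∧ ∀ e ∈ EE, ev (vals e) (G.map ι) = 0) :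
    ∃ (G : MvPowerSeries σ κ) (l : σ), coeff (Finsupp.single l 1) G ≠ 0 ∧
      constantCoeff G = 0 ∧ ∀ e ∈ EE, ev (vals e) (G.map ι) = 0 := by
  classical
  let EE' : Set (σ → Ob K) := vals '' (EE : Set (σ → FPt (Γ.map ι)))
  have hEE' : ∀ e ∈ EE', ∀ l, ‖e l‖ < 1 := by
    rintro _ ⟨e, _, rfl⟩ l
    exact vals_lt e l
  have hfrob' : ∀ e ∈ EE', (fun l => e l ^ Fintype.card κ) ∈ EE' := by
    rintro _ ⟨e, he, rfl⟩
    obtain ⟨e', he', h⟩ := hfrob e he
    exact ⟨e', he', funext fun l => h l⟩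
  obtain ⟨G, hG0, hGv⟩ := hG
  have hbot : vanI ι EE' hEE' ≠ ⊥ := by
    intro h
    have h1 : G ∈ vanI ι EE' hEE' := by
      rintro _ ⟨e, he, rfl⟩
      exact hGv e he
    rw [h] at h1
    exact hG0 h1
  have htop : vanI ι EE' hEE' ≠ ⊤ :=
    vanI_ne_top ι EE' hEE' ⟨_, ⟨0, EE.zero_mem, rfl⟩⟩
  obtain ⟨p, hp⟩ := CharP.exists κ
  have : Fact p.Prime := ⟨CharP.char_is_prime κ p⟩
  have : PerfectRing κ p := inferInstance
  obtain ⟨f, hf, l, hl⟩ := PthPower.exists_pderiv_notMem p (vanI_radical ι EE' hEE') hbot htop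
  rw [mem_vanI] at hl
  push Not at hl
  obtain ⟨_, ⟨e₀, he₀, rfl⟩, hne⟩ := hl
  let F := translate (Γ.map ι) (vals e₀) (f.map ι)
  have hF1 : coeff (Finsupp.single l 1) F ≠ 0 := by
    obtain ⟨u, hu, h⟩ := coeff_translate (Γ.map ι) (e₀ := vals e₀) (vals_lt e₀) (f.map ι) l
    change coeff (Finsupp.single l 1) (translate (Γ.map ι) (vals e₀) (f.map ι)) ≠ 0
    rw [h, ← map_pderiv]
    exact mul_ne_zero hne hu
  have hFv : ∀ e ∈ EE', ev e F = 0 := by
    rintro _ ⟨e, he, rfl⟩
    change ev (vals e) (translate (Γ.map ι) (vals e₀) (f.map ι)) = 0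
    rw [ev_translate (Γ.map ι) (vals_lt e₀) (vals_lt e)]
    exact hf _ ⟨e₀ + e, EE.add_mem he₀ he, rfl⟩
  obtain ⟨G1, h1, h2⟩ := Descent.desc_exact ι EE' hEE' hfrob' F (Finsupp.single l 1) hF1 hFv
  refine ⟨G1, l, h1, ?_, fun e he => h2 _ ⟨e, he, rfl⟩⟩
  have h3 := h2 _ ⟨0, EE.zero_mem, rfl⟩
  have h4 : vals (0 : σ → FPt (Γ.map ι)) = fun _ => (0 : Ob K) := rfl
  rw [h4, ev_zero_pt, ← coeff_zero_eq_constantCoeff_apply, coeff_map] at h3
  rw [← coeff_zero_eq_constantCoeff_apply]
  exact (map_eq_zero ι).1 h3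

end lin

theorem ev_rename {τ : Type*} [Finite τ] {a : σ → Ob K} (ha : ∀ i, IsTopologicallyNilpotent (a i))
    (f : τ → σ) [Filter.TendstoCofinite f] (A : MvPowerSeries τ (Ob K)) :
    ev a (rename f A) = ev (fun j => a (f j)) A := by
  rw [rename_eq_subst, ev_subst ha _ (fun i => by simp)]
  congr 1
  funext j
  simp [ev_X ha]

/-- a relation with nonzero linear coefficient is the graph of a power series -/
theorem exists_graph [DecidableEq σ] {l₀ : σ} {G : MvPowerSeries σ κ}
    (h1 : coeff (Finsupp.single l₀ 1) G ≠ 0) (h0 : constantCoeff G = 0) :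
    ∃ A : MvPowerSeries {l // l ≠ l₀} κ, constantCoeff A = 0 ∧
      ∀ a : σ → Ob K, (∀ i, IsTopologicallyNilpotent (a i)) → ev a (G.map ι) = 0 →
        a l₀ = ev (fun l : {l // l ≠ l₀} => a l.1) (A.map ι) := by
  let ε := Equiv.optionSubtypeNe l₀
  let G' : MvPowerSeries (Option {l // l ≠ l₀}) κ := rename ε.symm G
  have hG'0 : constantCoeff G' = 0 := by
    change constantCoeff (rename ε.symm G) = 0
    rw [constantCoeff_rename, h0]
  have hG'1 : coeff (Finsupp.single none 1) G' ≠ 0 := by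
    have := coeff_embDomain_rename ε.symm.toEmbedding G (Finsupp.single l₀ 1)
    rw [Finsupp.embDomain_single] at this
    have h2 : ε.symm.toEmbedding l₀ = none := by
      change ε.symm l₀ = none
      exact Equiv.optionSubtypeNe_symm_self l₀
    rw [h2] at this
    change coeff (Finsupp.single none 1) (rename ε.symm G) ≠ 0
    rw [show (rename ε.symm G) = rename (ε.symm.toEmbedding) G from rfl, this]
    exact h1
  obtain ⟨A, hA0, H, hH, hGA⟩ := weier G' hG'0 hG'1
  refine ⟨A, hA0, fun a ha hv => ?_⟩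
  let b : Option {l // l ≠ l₀} → Ob K := fun i => a (ε i)
  have hb : ∀ i, IsTopologicallyNilpotent (b i) := fun i => ha _
  have e1 : ev b (G'.map ι) = 0 := by
    change ev b ((rename ε.symm G).map ι) = 0
    rw [← rename_map, ev_rename hb]
    have : (fun j => b (ε.symm j)) = a := by
      funext j
      change a (ε (ε.symm j)) = a j
      rw [Equiv.apply_symm_apply]
    rw [this, hv]
  rw [hGA, map_mul, ev_mul hb, map_sub, ev_sub hb, map_X, ev_X hb, ← rename_map,
    ev_rename hb] at e1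
  have e2 : ev b (H.map ι) ≠ 0 := by
    intro h
    have h3 : IsUnit (evHom hb (H.map ι)) := (hH.map (MvPowerSeries.map ι)).map (evHom hb)
    rw [evHom_apply, h] at h3
    exact h3.ne_zero rfl
  have e3 := (mul_eq_zero.1 e1).resolve_right e2
  rw [sub_eq_zero] at e3
  have e4 : b none = a l₀ := by
    change a (ε none) = a l₀
    rw [Equiv.optionSubtypeNe_none]
  rw [← e4, e3]
  rfl

end Circuit
end Crest.Agent.R227
end
end

-- ▼ part R227/Circuit2
section

/-!
Row 227 (S0351): the circuit lemma, second part (helper251): additivity of the graph and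
decomposition into endomorphisms.
-/

set_option autoImplicit false

noncomputable section

open Filter Topology

namespace Crest.Agent.R227
namespace Circuit

open Crest.LubinTate MvPowerSeries
open scoped MvPowerSeries.WithPiTopology

variable {K : Type*} [NormedField K] [IsUltrametricDist K] [CompleteSpace K]
variable {κ : Type*} [Field κ] (ι : κ →+* Ob K)
variable {σ : Type*} [Finite σ] {τ : Type*} [Finite τ]

/-- the series in `Y` multiplying `X^I` in a series in `X, Y` -/
def pc {σ τ R : Type*} [CommRing R] (I : σ →₀ ℕ) (B : MvPowerSeries (σ ⊕ τ) R) :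
    MvPowerSeries τ R := fun J => coeff (Finsupp.sumElim I J) B

omit [Finite σ] [Finite τ] in
theorem coeff_pc {R : Type*} [CommRing R] (I : σ →₀ ℕ) (J : τ →₀ ℕ)
    (B : MvPowerSeries (σ ⊕ τ) R) : coeff J (pc I B) = coeff (Finsupp.sumElim I J) B := rfl

omit [Finite σ] [Finite τ] in
theorem pc_add {R : Type*} [CommRing R] (I : σ →₀ ℕ)
    (B B' : MvPowerSeries (σ ⊕ τ) R) : pc I (B + B') = pc I B + pc I B' := by
  ext J; rw [map_add, coeff_pc, coeff_pc, coeff_pc, map_add]

omit [Finite σ] [Finite τ] [CompleteSpace K] in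
theorem map_pc (I : σ →₀ ℕ) (B : MvPowerSeries (σ ⊕ τ) κ) : (pc I B).map ι = pc I (B.map ι) := by
  ext J; rw [coeff_map, coeff_pc, coeff_pc, coeff_map]

omit [Finite σ] [Finite τ] in
theorem pc_monomial {R : Type*} [CommRing R] [DecidableEq (σ →₀ ℕ)] (I d₁ : σ →₀ ℕ) (d₂ : τ →₀ ℕ)
    (c : R) : pc I (monomial (Finsupp.sumElim d₁ d₂) c) = if I = d₁ then monomial d₂ c else 0 := by
  classical
  ext J
  rw [coeff_pc, coeff_monomial]
  split_ifs with h1 h2 h2
  · have h3 := congrArg (fun f => Finsupp.sumFinsuppEquivProdFinsupp f) h1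
    have h4 : (I, J) = (d₁, d₂) := by
      have := (Finsupp.sumFinsuppEquivProdFinsupp (α := σ) (β := τ) (γ := ℕ)).symm.injective
        (a₁ := (I, J)) (a₂ := (d₁, d₂)) h1
      exact this
    rw [coeff_monomial, if_pos (congrArg Prod.snd h4)]
  · exfalso
    apply h2
    have := (Finsupp.sumFinsuppEquivProdFinsupp (α := σ) (β := τ) (γ := ℕ)).symm.injective
        (a₁ := (I, J)) (a₂ := (d₁, d₂)) h1
    exact congrArg Prod.fst this
  · rw [coeff_monomial, if_neg]
    intro h3
    apply h1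
    rw [h2, h3]
  · rw [map_zero]

/-- coefficients of a partial evaluation -/
theorem coeff_partial {y : τ → Ob K} (hy : ∀ j, ‖y j‖ < 1)
    (B : MvPowerSeries (σ ⊕ τ) (Ob K)) (I : σ →₀ ℕ) :
    coeff I (ev (Sum.elim (fun i => (X i : MvPowerSeries σ (Ob K))) (fun j => C (y j)))
      (B.map (C : Ob K →+* MvPowerSeries σ (Ob K)))) = ev y (pc I B) := by
  classical
  have hT : ∀ k, IsTopologicallyNilpotent
      ((Sum.elim (fun i => (X i : MvPowerSeries σ (Ob K))) (fun j => C (y j))) k) := by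
    rintro (i | j)
    · rw [ps_tn_iff]; simp
    · rw [ps_tn_iff]; simpa using hy j
  have hyt : ∀ j, IsTopologicallyNilpotent (y j) := fun j => (Ob_tn_iff _).2 (hy j)
  have hu : Continuous (fun B : MvPowerSeries (σ ⊕ τ) (Ob K) =>
      coeff I (ev (Sum.elim (fun i => (X i : MvPowerSeries σ (Ob K))) (fun j => C (y j)))
      (B.map (C : Ob K →+* MvPowerSeries σ (Ob K))))) :=
    (WithPiTopology.continuous_coeff (Ob K) _).comp ((continuous_ev hT).comp continuous_map_C)
  have hpc : Continuous (fun B : MvPowerSeries (σ ⊕ τ) (Ob K) => pc I B) := by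
    refine continuous_pi fun J => ?_
    exact WithPiTopology.continuous_coeff (Ob K) _
  have hv : Continuous (fun B : MvPowerSeries (σ ⊕ τ) (Ob K) => ev y (pc I B)) :=
    (continuous_ev hyt).comp hpc
  have h2 := eq_of_eq_on_poly hu hv (fun q => by
    induction q using MvPolynomial.induction_on' with
    | monomial d c =>
      obtain ⟨⟨d₁, d₂⟩, rfl⟩ := (Finsupp.sumFinsuppEquivProdFinsupp
        (α := σ) (β := τ) (γ := ℕ)).symm.surjective d
      change coeff I (ev _ (((MvPolynomial.monomial (Finsupp.sumElim d₁ d₂) c :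
        MvPolynomial (σ ⊕ τ) (Ob K)) : MvPowerSeries (σ ⊕ τ) (Ob K)).map _)) =
        ev y (pc I ((MvPolynomial.monomial (Finsupp.sumElim d₁ d₂) c :
        MvPolynomial (σ ⊕ τ) (Ob K)) : MvPowerSeries (σ ⊕ τ) (Ob K)))
      rw [MvPolynomial.coe_monomial, pc_monomial]
      have e1 : (monomial (Finsupp.sumElim d₁ d₂) c : MvPowerSeries (σ ⊕ τ) (Ob K)).map
          (C : Ob K →+* MvPowerSeries σ (Ob K))
          = ((MvPolynomial.monomial (Finsupp.sumElim d₁ d₂) (C c) :
            MvPolynomial (σ ⊕ τ) (MvPowerSeries σ (Ob K))) : MvPowerSeries (σ ⊕ τ) _) := by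
        rw [MvPolynomial.coe_monomial, map_monomial]
      rw [e1, ev_coe hT, MvPolynomial.eval_monomial, Finsupp.prod_sumElim]
      have e2 : (d₁.prod ((fun n e => Sum.elim (fun i => (X i : MvPowerSeries σ (Ob K)))
          (fun j => C (y j)) n ^ e) ∘ Sum.inl)) = monomial d₁ 1 := by
        rw [monomial_one_eq]
        rfl
      have e3 : (d₂.prod ((fun n e => Sum.elim (fun i => (X i : MvPowerSeries σ (Ob K)))
          (fun j => C (y j)) n ^ e) ∘ Sum.inr)) = C (d₂.prod fun j e => y j ^ e) := by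
        rw [Finsupp.prod, Finsupp.prod, map_prod]
        refine Finset.prod_congr rfl fun j _ => ?_
        simp
      rw [e2, e3, ← mul_assoc, mul_right_comm, ← map_mul, coeff_C_mul, coeff_monomial]
      split_ifs with h
      · have e4 : (monomial d₂ c : MvPowerSeries τ (Ob K))
            = ((MvPolynomial.monomial d₂ c : MvPolynomial τ (Ob K)) : MvPowerSeries τ (Ob K)) := by
          rw [MvPolynomial.coe_monomial]
        rw [e4, ev_coe hyt, MvPolynomial.eval_monomial, mul_one]
      · rw [ev_zero hyt, mul_zero]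
    | add p q hp hq =>
      rw [MvPolynomial.coe_add, map_add, ev_add hT, map_add, hp, hq, pc_add, ev_add hyt])
  exact congrFun h2 B

/-- a series in two groups of variables vanishing on a product of "dense" sets is zero -/
theorem eq_zero_of_vanish (EE1 : Set (σ → Ob K)) (EE2 : Set (τ → Ob K))
    (hE1 : ∀ e ∈ EE1, ∀ l, ‖e l‖ < 1) (hE2 : ∀ e ∈ EE2, ∀ l, ‖e l‖ < 1)
    (h1 : ∀ F : MvPowerSeries σ (Ob K), (∀ e ∈ EE1, ev e F = 0) → F = 0)
    (h2 : ∀ G : MvPowerSeries τ κ, (∀ e ∈ EE2, ev e (G.map ι) = 0) → G = 0)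
    (B : MvPowerSeries (σ ⊕ τ) κ)
    (hB : ∀ x ∈ EE1, ∀ y ∈ EE2, ev (Sum.elim x y) (B.map ι) = 0) : B = 0 := by
  have key : ∀ I : σ →₀ ℕ, pc I B = 0 := by
    intro I
    apply h2
    intro y hy
    rw [map_pc, ← coeff_partial (hE2 y hy)]
    have hF : ev (Sum.elim (fun i => (X i : MvPowerSeries σ (Ob K))) (fun j => C (y j)))
      ((B.map ι).map (C : Ob K →+* MvPowerSeries σ (Ob K))) = 0 := by
     refine h1 _ (fun x hx => ?_)
     have hg : ∀ i, ‖constantCoeff ((Sum.elim (fun i => (X i : MvPowerSeries σ (Ob K)))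
        (fun j => C (y j))) i)‖ < 1 := by
      rintro (i | j)
      · simp
      · simpa using hE2 y hy j
     rw [ev_ev _ hg (hE1 x hx)]
     have hxt : ∀ j, IsTopologicallyNilpotent (x j) := fun j => (Ob_tn_iff _).2 (hE1 x hx j)
     have : (fun i => ev x ((Sum.elim (fun i => (X i : MvPowerSeries σ (Ob K)))
        (fun j => C (y j))) i)) = Sum.elim x y := by
      funext i
      rcases i with i | j
      · simp [ev_X hxt]
      · simp [ev_C hxt]
     rw [this]
     exact hB x hx y hy
    rw [hF, map_zero]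
  ext d
  obtain ⟨⟨d₁, d₂⟩, rfl⟩ := (Finsupp.sumFinsuppEquivProdFinsupp
        (α := σ) (β := τ) (γ := ℕ)).symm.surjective d
  change coeff (Finsupp.sumElim d₁ d₂) B = coeff _ 0
  rw [← coeff_pc, key, map_zero, map_zero]

/-! ### additivity -/

variable (Γ : FormalGroup κ)

/-- `A(X + Y)` -/
def addL (A : MvPowerSeries τ κ) : MvPowerSeries (τ ⊕ τ) κ :=
  subst (fun l => fadd Γ (X (Sum.inl l)) (X (Sum.inr l))) A

/-- `A(X) + A(Y)` -/
def addR (A : MvPowerSeries τ κ) : MvPowerSeries (τ ⊕ τ) κ :=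
  fadd Γ (subst (fun l => (X (Sum.inl l) : MvPowerSeries (τ ⊕ τ) κ)) A)
    (subst (fun l => (X (Sum.inr l) : MvPowerSeries (τ ⊕ τ) κ)) A)

omit [Finite τ] in
theorem cc_fXX (l : τ) : constantCoeff
    (fadd Γ (X (Sum.inl l) : MvPowerSeries (τ ⊕ τ) κ) (X (Sum.inr l))) = 0 :=
  constantCoeff_fadd _ _ _ (by simp) (by simp)

theorem cc_sX {υ : Type*} (f : τ → υ) (A : MvPowerSeries τ κ) (hA : constantCoeff A = 0) :
    constantCoeff (subst (fun l => (X (f l) : MvPowerSeries υ κ)) A) = 0 := by
  rw [constantCoeff_subst_eq (hasSubst_of_constantCoeff_zero fun i => by simp)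
    (fun i => by simp), hA]

theorem ev_addL {x y : τ → Ob K} (hx : ∀ l, IsTopologicallyNilpotent (x l))
    (hy : ∀ l, IsTopologicallyNilpotent (y l)) (A : MvPowerSeries τ κ) :
    ev (Sum.elim x y) ((addL Γ A).map ι)
      = ev (fun l => padd (Γ.map ι) (x l) (y l)) (A.map ι) := by
  have hxy : ∀ k, IsTopologicallyNilpotent (Sum.elim x y k) := by
    rintro (i | j)
    · exact hx i
    · exact hy j
  unfold addL
  have hc : ∀ l : τ, constantCoeff ((fadd Γ (X (Sum.inl l) : MvPowerSeries (τ ⊕ τ) κ)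
      (X (Sum.inr l))).map ι) = 0 := by
    intro l
    rw [← coeff_zero_eq_constantCoeff_apply, coeff_map, coeff_zero_eq_constantCoeff_apply,
      cc_fXX, map_zero]
  rw [map_subst (hasSubst_of_constantCoeff_zero fun l => cc_fXX Γ l),
    ev_subst hxy _ hc]
  congr 1
  funext l
  rw [map_fadd ι Γ _ _ (by simp) (by simp), FPtAux.ev_fadd _ hxy _ _ (by simp) (by simp), map_X,
    map_X, ev_X hxy, ev_X hxy]
  rfl

theorem ev_addR {x y : τ → Ob K} (hx : ∀ l, IsTopologicallyNilpotent (x l))
    (hy : ∀ l, IsTopologicallyNilpotent (y l)) (A : MvPowerSeries τ κ)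
    (hA : constantCoeff A = 0) :
    ev (Sum.elim x y) ((addR Γ A).map ι)
      = padd (Γ.map ι) (ev x (A.map ι)) (ev y (A.map ι)) := by
  have hxy : ∀ k, IsTopologicallyNilpotent (Sum.elim x y k) := by
    rintro (i | j)
    · exact hx i
    · exact hy j
  unfold addR
  have hc : ∀ f : τ → τ ⊕ τ, constantCoeff ((subst (fun l => (X (f l) : MvPowerSeries (τ ⊕ τ) κ))
      A).map ι) = 0 := by
    intro f
    rw [← coeff_zero_eq_constantCoeff_apply, coeff_map, coeff_zero_eq_constantCoeff_apply,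
      cc_sX f A hA, map_zero]
  have he : ∀ f : τ → τ ⊕ τ, ev (Sum.elim x y) ((subst (fun l => (X (f l) :
      MvPowerSeries (τ ⊕ τ) κ)) A).map ι) = ev (fun l => Sum.elim x y (f l)) (A.map ι) := by
    intro f
    rw [map_subst (hasSubst_of_constantCoeff_zero fun l => by simp),
      ev_subst hxy _ (fun l => by simp)]
    congr 1
    funext l
    rw [map_X, ev_X hxy]
  rw [map_fadd ι Γ _ _ (cc_sX _ A hA) (cc_sX _ A hA),
    FPtAux.ev_fadd _ hxy _ _ (hc _) (hc _), he, he]
  rfl

variable {Γ}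

/-- formal additivity can be specialised -/
theorem add_spec {A : MvPowerSeries τ κ} (hA : constantCoeff A = 0) (hadd : addL Γ A = addR Γ A)
    {υ : Type*} (x y : τ → MvPowerSeries υ κ) (hx : ∀ l, constantCoeff (x l) = 0)
    (hy : ∀ l, constantCoeff (y l) = 0) :
    subst (fun l => fadd Γ (x l) (y l)) A = fadd Γ (subst x A) (subst y A) := by
  have hxy : ∀ k, constantCoeff (Sum.elim x y k) = 0 := by
    rintro (i | j)
    · exact hx i
    · exact hy j
  have hs : HasSubst (Sum.elim x y) := hasSubst_of_constantCoeff_zero hxy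
  have h := congrArg (subst (Sum.elim x y)) hadd
  unfold addL addR at h
  rw [subst_comp_subst_apply (hasSubst_of_constantCoeff_zero fun l => cc_fXX Γ l) hs,
    subst_fadd Γ _ _ (cc_sX _ A hA) (cc_sX _ A hA) _ hxy,
    subst_comp_subst_apply (hasSubst_of_constantCoeff_zero fun l => by simp) hs,
    subst_comp_subst_apply (hasSubst_of_constantCoeff_zero fun l => by simp) hs] at h
  have e1 : (fun l : τ => subst (Sum.elim x y)
      (fadd Γ (X (Sum.inl l) : MvPowerSeries (τ ⊕ τ) κ) (X (Sum.inr l))))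
      = fun l => fadd Γ (x l) (y l) := by
    funext l
    rw [subst_fadd Γ _ _ (by simp) (by simp) _ hxy, subst_X hs, subst_X hs]
    rfl
  have e2 : (fun l : τ => subst (Sum.elim x y) (X (Sum.inl l) : MvPowerSeries (τ ⊕ τ) κ)) = x := by
    funext l
    rw [subst_X hs]
    rfl
  have e3 : (fun l : τ => subst (Sum.elim x y) (X (Sum.inr l) : MvPowerSeries (τ ⊕ τ) κ)) = y := by
    funext l
    rw [subst_X hs]
    rfl
  rw [e1, e2, e3] at h
  exact h

/-- the component of a series along the variable `l` -/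
def comp [DecidableEq τ] (A : MvPowerSeries τ κ) (l : τ) : PowerSeries κ :=
  MvPowerSeries.subst (Pi.single l (PowerSeries.X : PowerSeries κ) : τ → MvPowerSeries Unit κ) A

omit [Finite τ] in
theorem cc_single [DecidableEq τ] {υ : Type*} (l : τ) {h : MvPowerSeries υ κ}
    (hh : constantCoeff h = 0) (s : τ) :
    constantCoeff ((Pi.single l h : τ → MvPowerSeries υ κ) s) = 0 := by
  by_cases hs : s = l
  · subst hs; rw [Pi.single_eq_same]; exact hh
  · rw [Pi.single_eq_of_ne hs, map_zero]

theorem subst_comp [DecidableEq τ] {υ : Type*} (A : MvPowerSeries τ κ) (l : τ)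
    {h : MvPowerSeries υ κ} (hh : constantCoeff h = 0) :
    PowerSeries.subst h (comp A l) = subst (Pi.single l h : τ → MvPowerSeries υ κ) A := by
  have hs : HasSubst (fun _ : Unit => h) := hasSubst_of_constantCoeff_zero fun _ => hh
  have h0 : HasSubst (Pi.single l (PowerSeries.X : PowerSeries κ) : τ → MvPowerSeries Unit κ) :=
    hasSubst_of_constantCoeff_zero fun s => cc_single l (ccPX (R := κ)) s
  unfold comp
  rw [PowerSeries.subst_def, subst_comp_subst_apply h0 hs]
  congr 1
  funext s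
  by_cases hsl : s = l
  · subst hsl
    rw [Pi.single_eq_same, Pi.single_eq_same]
    exact subst_X hs ()
  · rw [Pi.single_eq_of_ne hsl, Pi.single_eq_of_ne hsl, ← coe_substAlgHom hs, map_zero]

theorem cc_comp [DecidableEq τ] (A : MvPowerSeries τ κ) (hA : constantCoeff A = 0) (l : τ) :
    PowerSeries.constantCoeff (comp A l) = 0 := by
  have h0 := fun s => cc_single l (ccPX (R := κ)) s
  have := constantCoeff_subst_eq (hasSubst_of_constantCoeff_zero h0) h0 A
  rw [hA] at this
  exact this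

theorem comp_isFGHom [DecidableEq τ] {A : MvPowerSeries τ κ} (hA : constantCoeff A = 0)
    (hadd : addL Γ A = addR Γ A) (l : τ) : IsFGHom Γ Γ (comp A l) := by
  rw [isFGHom_iff]
  refine ⟨cc_comp A hA l, ?_⟩
  rw [subst_comp A l (constantCoeff_fadd _ _ _ (by simp) (by simp)), subst_comp A l (by simp),
    subst_comp A l (by simp), ← add_spec hA hadd _ _ (cc_single l (by simp))
      (cc_single l (by simp))]
  congr 1
  funext s
  by_cases hsl : s = l
  · subst hsl
    rw [Pi.single_eq_same, Pi.single_eq_same, Pi.single_eq_same]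
  · rw [Pi.single_eq_of_ne hsl, Pi.single_eq_of_ne hsl, Pi.single_eq_of_ne hsl]
    exact (zero_fadd Γ _ (by simp)).symm

/-- the additive map on points defined by an additive series -/
def ptHom [Γ.IsComm] [(Γ.map ι).IsComm] {A : MvPowerSeries τ κ} (hA : constantCoeff A = 0)
    (hadd : addL Γ A = addR Γ A) : (τ → FPt (Γ.map ι)) →+ FPt (Γ.map ι) where
  toFun e := ⟨ev (vals e) (A.map ι), by
    refine ev_tn (vals_tn e) _ ?_
    rw [← coeff_zero_eq_constantCoeff_apply, coeff_map, coeff_zero_eq_constantCoeff_apply, hA,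
      map_zero]
    exact IsTopologicallyNilpotent.zero⟩
  map_zero' := by
    apply FPt.ext
    change ev (fun _ => (0 : Ob K)) (A.map ι) = 0
    rw [ev_zero_pt, ← coeff_zero_eq_constantCoeff_apply, coeff_map,
      coeff_zero_eq_constantCoeff_apply, hA, map_zero]
  map_add' x y := by
    apply FPt.ext
    change ev (fun l => padd (Γ.map ι) (vals x l) (vals y l)) (A.map ι)
      = padd (Γ.map ι) (ev (vals x) (A.map ι)) (ev (vals y) (A.map ι))
    rw [← ev_addL ι Γ (vals_tn x) (vals_tn y), hadd, ev_addR ι Γ (vals_tn x) (vals_tn y) A hA]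

theorem ptHom_val [Γ.IsComm] [(Γ.map ι).IsComm] {A : MvPowerSeries τ κ} (hA : constantCoeff A = 0)
    (hadd : addL Γ A = addR Γ A) (e : τ → FPt (Γ.map ι)) :
    (ptHom ι hA hadd e).val = ev (vals e) (A.map ι) := rfl

theorem ptHom_single [DecidableEq τ] [Γ.IsComm] [(Γ.map ι).IsComm] {A : MvPowerSeries τ κ}
    (hA : constantCoeff A = 0) (hadd : addL Γ A = addR Γ A) (l : τ) (x : FPt (Γ.map ι)) :
    ptHom ι hA hadd (Pi.single l x) = FPt.hom (IsFGHom.map ι (comp_isFGHom hA hadd l)) x := by
  apply FPt.ext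
  rw [ptHom_val, FPt.hom_val]
  have hx : ∀ _ : Unit, IsTopologicallyNilpotent x.val := fun _ => x.tn
  have h0 := fun s : τ => cc_single l (ccPX (R := κ)) s
  have e1 : (comp A l).map ι = MvPowerSeries.subst (fun s =>
      ((Pi.single l (PowerSeries.X : PowerSeries κ) : τ → MvPowerSeries Unit κ) s).map ι)
      (A.map ι) := map_subst (hasSubst_of_constantCoeff_zero h0) A
  have e2 : ∀ s : τ, constantCoeff
      (((Pi.single l (PowerSeries.X : PowerSeries κ) : τ → MvPowerSeries Unit κ) s).map ι) = 0 := by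
    intro s
    rw [← coeff_zero_eq_constantCoeff_apply, coeff_map, coeff_zero_eq_constantCoeff_apply, h0,
      map_zero]
  rw [e1]
  have e3 := ev_subst hx _ e2 (A.map ι)
  refine Eq.trans ?_ e3.symm
  congr 1
  funext s
  by_cases hsl : s = l
  · subst hsl
    unfold vals
    rw [Pi.single_eq_same, Pi.single_eq_same]
    have : (PowerSeries.X : PowerSeries κ).map ι = PowerSeries.X := PowerSeries.map_X ι
    have h4 : MvPowerSeries.map ι (PowerSeries.X : PowerSeries κ) = X () := this
    rw [h4, ev_X hx]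
  · unfold vals
    rw [Pi.single_eq_of_ne hsl, Pi.single_eq_of_ne hsl, map_zero, ev_zero hx]
    rfl

theorem ptHom_eq_sum [Fintype τ] [DecidableEq τ] [Γ.IsComm] [(Γ.map ι).IsComm]
    {A : MvPowerSeries τ κ} (hA : constantCoeff A = 0) (hadd : addL Γ A = addR Γ A)
    (e : τ → FPt (Γ.map ι)) :
    ptHom ι hA hadd e = ∑ l, FPt.hom (IsFGHom.map ι (comp_isFGHom hA hadd l)) (e l) := by
  have h : e = ∑ l, Pi.single l (e l) := (Finset.univ_sum_single e).symm
  conv_lhs => rw [h]
  rw [map_sum]
  refine Finset.sum_congr rfl fun l _ => ?_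
  rw [ptHom_single]

end Circuit
end Crest.Agent.R227
end
end

-- ▼ part R227/Circuit3
section

/-!
Row 227 (S0351): the circuit lemma, conclusion (helper251).
-/

set_option autoImplicit false

noncomputable section

open Filter Topology

namespace Crest.Agent.R227
namespace Circuit

open Crest.LubinTate MvPowerSeries

universe u

variable {K : Type*} [NormedField K] [IsUltrametricDist K] [CompleteSpace K]
variable {κ : Type*} [Field κ] (ι : κ →+* Ob K)
variable {Γ : FormalGroup κ}

/-- forgetting one coordinate -/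
def restr {σ : Type*} {M : Type*} [AddCommMonoid M] (l₀ : σ) :
    (σ → M) →+ ({l // l ≠ l₀} → M) where
  toFun e l := e l.1
  map_zero' := rfl
  map_add' _ _ := rfl

theorem hom_fneg [Γ.IsComm] [(Γ.map ι).IsComm] (h : IsFGHom Γ Γ (fnegSeries Γ))
    (x : FPt (Γ.map ι)) : FPt.hom (IsFGHom.map ι h) x = -x := by
  apply eq_neg_of_add_eq_zero_left
  apply FPt.ext
  have h2 : ∀ _ : Unit, IsTopologicallyNilpotent x.val := fun _ => x.tn
  have h0 : constantCoeff (fnegSeries Γ : MvPowerSeries Unit κ) = 0 :=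
    (exists_fneg Γ).choose_spec.1
  have key : fadd Γ (fnegSeries Γ) (X () : MvPowerSeries Unit κ) = 0 :=
    (exists_fneg Γ).choose_spec.2.2
  have h0' : constantCoeff (MvPowerSeries.map ι (fnegSeries Γ : MvPowerSeries Unit κ)) = 0 := by
    rw [← coeff_zero_eq_constantCoeff_apply, coeff_map, coeff_zero_eq_constantCoeff_apply, h0,
      map_zero]
  have h1 : ev (fun _ : Unit => x.val) (MvPowerSeries.map ι
      (fadd Γ (fnegSeries Γ) (X () : MvPowerSeries Unit κ)))
      = ev (fun _ : Unit => x.val) (MvPowerSeries.map ι 0) := by rw [key]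
  rw [map_fadd ι Γ _ _ h0 (by simp), FPtAux.ev_fadd _ h2 _ _ h0' (by simp), map_X, ev_X h2,
    map_zero, ev_zero h2] at h1
  exact h1

theorem circuit_aux [Fintype κ] [Γ.IsComm] [(Γ.map ι).IsComm] (n : ℕ) :
    ∀ {σ : Type u} [Fintype σ] [DecidableEq σ] (_ : Fintype.card σ = n)
      (EE : AddSubmonoid (σ → FPt (Γ.map ι)))
      (_ : ∀ e ∈ EE, ∃ e' ∈ EE, ∀ l, (e' l).val = (e l).val ^ Fintype.card κ)
      (_ : ∃ G : MvPowerSeries σ κ, G ≠ 0 ∧ ∀ e ∈ EE, ev (vals e) (G.map ι) = 0),
      ∃ (A : σ → PowerSeries κ) (hA : ∀ l, IsFGHom Γ Γ (A l)), (∃ l₀, A l₀ = fnegSeries Γ) ∧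
        ∀ e ∈ EE, ∑ l, FPt.hom (IsFGHom.map ι (hA l)) (e l) = 0 := by
  classical
  induction n with
  | zero =>
    intro σ _ _ hcard EE hfrob hG
    obtain ⟨_, l, _⟩ := exists_lin ι Γ EE hfrob hG
    rw [Fintype.card_eq_zero_iff] at hcard
    exact (hcard.false l).elim
  | succ n ih =>
    intro σ _ _ hcard EE hfrob hG
    obtain ⟨G, l₀, hG1, hG0, hGv⟩ := exists_lin ι Γ EE hfrob hG
    have hcard' : Fintype.card {l // l ≠ l₀} = n := by
      rw [Fintype.card_subtype_compl, Fintype.card_subtype_eq, hcard]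
      rfl
    let EE' : AddSubmonoid ({l // l ≠ l₀} → FPt (Γ.map ι)) := EE.map (restr l₀)
    have hfrob' : ∀ e ∈ EE', ∃ e' ∈ EE', ∀ l, (e' l).val = (e l).val ^ Fintype.card κ := by
      rintro _ ⟨e, he, rfl⟩
      obtain ⟨e', he', h⟩ := hfrob e he
      exact ⟨restr l₀ e', ⟨e', he', rfl⟩, fun l => h l.1⟩
    by_cases hG' : ∃ G : MvPowerSeries {l // l ≠ l₀} κ, G ≠ 0 ∧
        ∀ e ∈ EE', ev (vals e) (G.map ι) = 0
    · obtain ⟨A', hA', ⟨l₁, hl₁⟩, hrel⟩ := ih hcard' EE' hfrob' hG'
      let A : σ → PowerSeries κ := fun l => if h : l ≠ l₀ then A' ⟨l, h⟩ else 0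
      have hA0 : A l₀ = 0 := by simp [A]
      have hA1 : ∀ l : {l // l ≠ l₀}, A l.1 = A' l := by
        intro l
        simp [A, l.2]
      have hA : ∀ l, IsFGHom Γ Γ (A l) := by
        intro l
        by_cases h : l = l₀
        · subst h; rw [hA0]; exact IsFGHom.zero Γ Γ
        · rw [hA1 ⟨l, h⟩]; exact hA' _
      refine ⟨A, hA, ⟨l₁.1, by rw [hA1, hl₁]⟩, fun e he => ?_⟩
      rw [Fintype.sum_eq_add_sum_subtype_ne _ l₀]
      have e1 : FPt.hom (IsFGHom.map ι (hA l₀)) (e l₀) = 0 := by
        apply FPt.ext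
        rw [FPt.hom_val, hA0, map_zero]
        exact ev_zero (fun _ => (e l₀).tn)
      rw [e1, zero_add, ← hrel (restr l₀ e) ⟨e, he, rfl⟩]
      refine Finset.sum_congr rfl fun l _ => ?_
      apply FPt.ext
      rw [FPt.hom_val, FPt.hom_val, hA1]
      rfl
    · push Not at hG'
      obtain ⟨A, hAc, hgraph⟩ := exists_graph (K := K) ι hG1 hG0
      let ES : Set ({l // l ≠ l₀} → Ob K) := vals '' (EE' : Set ({l // l ≠ l₀} → FPt (Γ.map ι)))
      have hES : ∀ e ∈ ES, ∀ l, ‖e l‖ < 1 := by
        rintro _ ⟨e, _, rfl⟩ l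
        exact vals_lt e l
      have hfrobS : ∀ e ∈ ES, (fun l => e l ^ Fintype.card κ) ∈ ES := by
        rintro _ ⟨e, he, rfl⟩
        obtain ⟨e', he', h⟩ := hfrob' e he
        exact ⟨e', he', funext fun l => h l⟩
      have h2 : ∀ G : MvPowerSeries {l // l ≠ l₀} κ,
          (∀ e ∈ ES, ev e (G.map ι) = 0) → G = 0 := by
        intro G hv
        by_contra hne
        obtain ⟨e, he, h⟩ := hG' G hne
        exact h (hv _ ⟨e, he, rfl⟩)
      have h1 : ∀ F : MvPowerSeries {l // l ≠ l₀} (Ob K), (∀ e ∈ ES, ev e F = 0) → F = 0 := by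
        intro F hv
        by_contra hne
        obtain ⟨I, hI⟩ : ∃ I, coeff I F ≠ 0 := by
          by_contra h
          push Not at h
          exact hne (MvPowerSeries.ext fun I => by rw [h I, map_zero])
        obtain ⟨G, hGI, hGv'⟩ := Descent.desc_exact ι ES hES hfrobS F I hI hv
        rw [h2 G hGv', map_zero] at hGI
        exact hGI rfl
      have hval : ∀ e ∈ EE, (e l₀).val = ev (vals (restr l₀ e)) (A.map ι) := by
        intro e he
        exact hgraph (vals e) (vals_tn e) (hGv e he)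
      have hadd : addL Γ A = addR Γ A := by
        rw [← sub_eq_zero]
        apply eq_zero_of_vanish ι ES ES hES hES h1 h2
        rintro _ ⟨_, ⟨x, hx, rfl⟩, rfl⟩ _ ⟨_, ⟨y, hy, rfl⟩, rfl⟩
        have hxy : ∀ k, IsTopologicallyNilpotent
            (Sum.elim (vals (restr l₀ x)) (vals (restr l₀ y)) k) := by
          rintro (i | j)
          · exact vals_tn _ i
          · exact vals_tn _ j
        rw [map_sub, ev_sub hxy, ev_addL ι Γ (vals_tn _) (vals_tn _),
          ev_addR ι Γ (vals_tn _) (vals_tn _) A hAc, ← hval x hx, ← hval y hy]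
        have h3 := hval (x + y) (EE.add_mem hx hy)
        have h4 : (fun l => padd (Γ.map ι) (vals (restr l₀ x) l) (vals (restr l₀ y) l))
            = vals (restr l₀ (x + y)) := rfl
        rw [h4, ← h3]
        have h5 : ((x + y) l₀).val = padd (Γ.map ι) (x l₀).val (y l₀).val := rfl
        rw [h5, sub_self]
      let B : σ → PowerSeries κ := fun l => if h : l ≠ l₀ then comp A ⟨l, h⟩ else fnegSeries Γ
      have hB0 : B l₀ = fnegSeries Γ := by simp [B]
      have hB1 : ∀ l : {l // l ≠ l₀}, B l.1 = comp A l := by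
        intro l
        simp [B, l.2]
      have hB : ∀ l, IsFGHom Γ Γ (B l) := by
        intro l
        by_cases h : l = l₀
        · subst h; rw [hB0]; exact isFGHom_fnegSeries Γ
        · rw [hB1 ⟨l, h⟩]; exact comp_isFGHom hAc hadd _
      refine ⟨B, hB, ⟨l₀, hB0⟩, fun e he => ?_⟩
      rw [Fintype.sum_eq_add_sum_subtype_ne _ l₀]
      have e1 : FPt.hom (IsFGHom.map ι (hB l₀)) (e l₀) = - e l₀ := by
        rw [← hom_fneg ι (isFGHom_fnegSeries Γ) (e l₀)]
        apply FPt.ext
        rw [FPt.hom_val, FPt.hom_val, hB0]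
      have e2 : ∑ l : {l // l ≠ l₀}, FPt.hom (IsFGHom.map ι (hB l.1)) (e l.1)
          = ptHom ι hAc hadd (restr l₀ e) := by
        rw [ptHom_eq_sum]
        refine Finset.sum_congr rfl fun l _ => ?_
        apply FPt.ext
        rw [FPt.hom_val, FPt.hom_val, hB1]
        rfl
      have e3 : ptHom ι hAc hadd (restr l₀ e) = e l₀ := by
        apply FPt.ext
        rw [ptHom_val, hval e he]
      rw [e1, e2, e3, neg_add_cancel]

end Circuit

open Crest.LubinTate

/-- **Circuit lemma** (E).  `Γ` a formal group over a finite field `κ`, `EE` a group of tuples of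
points of `Γ` with values in the open unit ball of a complete ultrametric field containing `κ`,
stable under `x ↦ x^{|κ|}`.  If `EE` satisfies a nonzero power series relation over `κ`, then there
are endomorphisms `A_l` of `Γ` over `κ`, one of them equal to `-1`, with `∑ A_l(e_l) = 0` on `EE`. -/
theorem circuit_fq {K : Type*} [NormedField K] [IsUltrametricDist K] [CompleteSpace K]
    {κ : Type*} [Field κ] [Fintype κ] (ι : κ →+* Ob K) (Γ : FormalGroup κ) [Γ.IsComm]
    [(Γ.map ι).IsComm] {σ : Type*} [Fintype σ]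
    (EE : AddSubmonoid (σ → FPt (Γ.map ι)))
    (hfrob : ∀ e ∈ EE, ∃ e' ∈ EE, ∀ l, (e' l).val = (e l).val ^ Fintype.card κ)
    (hG : ∃ G : MvPowerSeries σ κ, G ≠ 0 ∧ ∀ e ∈ EE, ev (fun l => (e l).val) (G.map ι) = 0) :
    ∃ (A : σ → PowerSeries κ) (hA : ∀ l, IsFGHom Γ Γ (A l)), (∃ l₀, A l₀ = fnegSeries Γ) ∧
      ∀ e ∈ EE, ∑ l, FPt.hom (IsFGHom.map ι (hA l)) (e l) = 0 := by
  classical
  exact Circuit.circuit_aux ι (Fintype.card σ) rfl EE hfrob hG

end Crest.Agent.R227
end
end

-- ▼ part R227/CoRelAux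
section

/-! # R227 / CoRelAux : from approximate relations to a relation over `End` (helper251) -/

set_option autoImplicit false
set_option linter.unusedSectionVars false

noncomputable section

namespace Crest.Agent.R227

open Crest.LubinTate MvPowerSeries Topology

theorem circuit' {K : Type*} [NormedField K] [IsUltrametricDist K] [CompleteSpace K]
    {κ : Type*} [Field κ] [Fintype κ] (ι : κ →+* Ob K) (Γ : FormalGroup κ) [Γ.IsComm]
    {G : FormalGroup (Ob K)} [G.IsComm] (hΓ : Γ.map ι = G) {σ : Type*} [Fintype σ]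
    (EE : AddSubmonoid (σ → FPt G))
    (hfrob : ∀ e ∈ EE, ∃ e' ∈ EE, ∀ l, (e' l).val = (e l).val ^ Fintype.card κ)
    (hG : ∃ F : MvPowerSeries σ κ, F ≠ 0 ∧ ∀ e ∈ EE, ev (fun l => (e l).val) (F.map ι) = 0) :
    ∃ (A : σ → PowerSeries κ) (hA : ∀ l, IsFGHom G G ((A l).map ι)),
      (∃ l₀, ∀ z, FPt.hom (hA l₀) z = -z) ∧ ∀ e ∈ EE, ∑ l, FPt.hom (hA l) (e l) = 0 := by
  subst hΓ
  obtain ⟨A, hA, ⟨l₀, hl₀⟩, h⟩ := circuit_fq ι Γ EE hfrob hG
  refine ⟨A, fun l => IsFGHom.map ι (hA l), ⟨l₀, fun z => ?_⟩, h⟩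
  rw [← Circuit.hom_fneg ι (isFGHom_fnegSeries Γ) z]
  apply FPt.ext
  rw [FPt.hom_val, FPt.hom_val, hl₀]

namespace CoRelAux

section general

variable {p : ℕ} [Fact p.Prime]
variable {K : Type} [NontriviallyNormedField K] [IsUltrametricDist K] [CompleteSpace K]
  [IsAlgClosed K] [CharP K p]

/-- the embedding of `F_{p^j}` in the ball -/
theorem exists_iotaQ (p : ℕ) [Fact p.Prime] (K : Type) [NontriviallyNormedField K]
    [IsUltrametricDist K] [CompleteSpace K] [IsAlgClosed K] [CharP K p] {j : ℕ} (hj : 1 ≤ j) :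
    ∃ ι : GaloisField p j →+* Ob K, (∀ y, ι y ^ p ^ j = ι y) ∧
      ∀ x : Ob K, x ^ p ^ j = x → ∃ y, ι y = x := by
  obtain ⟨ι, h1, h2⟩ := exists_galoisField_embedding (K := K) p j hj
  have hnorm : ∀ y, ‖ι y‖ ≤ 1 := by
    intro y
    by_contra hlt
    push Not at hlt
    have h2 : 1 < p ^ j := Nat.one_lt_pow (by omega) (Fact.out : p.Prime).one_lt
    have h3 : ‖ι y‖ ^ 1 < ‖ι y‖ ^ p ^ j := pow_lt_pow_right₀ hlt h2
    rw [pow_one, ← norm_pow, h1] at h3
    exact lt_irrefl _ h3
  refine ⟨ι.codRestrict (Ob K) (fun y => hnorm y), fun y => Subtype.ext (h1 y), fun x hx => ?_⟩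
  obtain ⟨y, hy⟩ := h2 (x : K) (by
    have := congrArg Subtype.val hx
    simpa using this)
  exact ⟨y, Subtype.ext hy⟩

variable {n h : ℕ}

theorem HO_map {R S : Type*} [CommRing R] [CommRing S] (f : R →+* S) (n j : ℕ) :
    (HO p n j R).map f = HO p n j S := by
  rw [HO, hz_map]
  congr 1
  funext i
  rw [sp, sp]
  split_ifs <;> simp

instance (n j : ℕ) (R : Type*) [CommRing R] : (HO p n j R).IsComm := by
  unfold HO; infer_instance

end general

section main

variable {p : ℕ} [Fact p.Prime] {n h : ℕ}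
variable {K : Type} [NontriviallyNormedField K] [IsUltrametricDist K] [CompleteSpace K]
  [IsAlgClosed K] [CharP K p]

theorem exists_vanish (h1 : 1 ≤ h) {r : ℕ} {G : FormalGroup (Ob K)}
    (ιQ : GaloisField p h →+* Ob K) (EE : Set (Fin r → FPt G)) (hA : ApproxPoly p h EE) :
    ∃ F : MvPowerSeries (Fin r) (GaloisField p h), F ≠ 0 ∧
      ∀ e ∈ EE, ev (fun l => (e l).val) (F.map ιQ) = 0 := by
  classical
  let _ : Fintype (GaloisField p h) := Fintype.ofFinite _
  have hcard : Fintype.card (GaloisField p h) = p ^ h := by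
    rw [← Nat.card_eq_fintype_card]; exact GaloisField.card p h (by omega)
  -- one linear coefficient works for all `N`
  obtain ⟨l, hl⟩ : ∃ l : Fin r, ∀ N : ℕ, ∃ D : ℕ, N ≤ D ∧ ∃ Φ : MvPolynomial (Fin r) K,
      Φ.coeff (Finsupp.single l 1) ≠ 0 ∧
      ∀ e ∈ EE, ∀ δ : ℝ, (∀ l, ‖(e l).val‖ ≤ δ) → ∃ B : ℝ, 0 ≤ B ∧ ∃ s₀ : ℕ, ∀ s, s₀ ≤ s →
      ‖MvPolynomial.eval (fun l => (((e l).val : Ob K) : K) ^ (p ^ h) ^ s) Φ‖
        ≤ B * (δ ^ D) ^ (p ^ h) ^ s := by
    by_contra hcon
    push Not at hcon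
    choose N hN using hcon
    obtain ⟨D, hD, Φ, ⟨l, hl⟩, hΦ⟩ := hA (Finset.univ.sup N)
    obtain ⟨e, he, δ, hδ, hc⟩ := hN l D ((Finset.le_sup (Finset.mem_univ l)).trans hD) Φ hl
    obtain ⟨B, hB, s₀, hs⟩ := hΦ e he δ hδ
    obtain ⟨s, hs1, hs2⟩ := hc B hB s₀
    exact absurd (hs s hs1) (not_le.2 hs2)
  let EE' : Set (Fin r → Ob K) := Circuit.vals '' EE
  have hEE' : ∀ e ∈ EE', ∀ l, ‖e l‖ < 1 := by
    rintro _ ⟨e, _, rfl⟩ l
    exact Circuit.vals_lt e l
  obtain ⟨F, hF, hF'⟩ := Descent.desc_gen ιQ EE' hEE' (Finsupp.single l 1) (by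
    intro N
    obtain ⟨D, hD, Φ, hΦ, hΦe⟩ := hl N
    refine ⟨D, hD, Φ, hΦ, ?_⟩
    rintro _ ⟨e, he, rfl⟩
    obtain ⟨B, hB, s₀, hs⟩ := hΦe e he (Descent.supn (Circuit.vals e))
      (fun l => Descent.norm_le_supn (Circuit.vals e) l)
    refine ⟨B, hB, s₀, fun s hss => ?_⟩
    rw [hcard]
    exact hs s hss)
  refine ⟨F, ?_, fun e he => hF' _ ⟨e, he, rfl⟩⟩
  rintro rfl
  exact hF (map_zero _)

end main

end CoRelAux
end Crest.Agent.R227
end
end

-- ▼ part R227/CoRel

/-! # R227 / CoRel : descent + circuit (task COREL), parts (D2), (E) of note 4224 -/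

set_option autoImplicit false
set_option linter.unusedSectionVars false

noncomputable section

namespace Crest.Agent.R227

open Crest.LubinTate MvPowerSeries Topology

variable {p : ℕ} [Fact p.Prime] {n h : ℕ}
variable {K : Type} [NontriviallyNormedField K] [IsUltrametricDist K] [CompleteSpace K]
  [IsAlgClosed K] [CharP K p]

theorem circuit (h1 : 1 ≤ h) (hh : h < n) {r : ℕ}
    (EE : AddSubgroup (Fin r → FPt (HO p n h (Ob K)))) (r0 : ℝ) (hr0 : r0 < 1)
    (hb : ∀ e ∈ EE, ∀ l, ‖(e l).val‖ ≤ r0)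
    (hA : ApproxPoly p h (EE : Set (Fin r → FPt (HO p n h (Ob K))))) :
    ∃ (l0 : Fin r) (A : Fin r → (FPt (HO p n h (Ob K)) →+ FPt (HO p n h (Ob K)))),
      (∀ l, IsQEnd (A l)) ∧ ∀ e ∈ EE, e l0 = ∑ l ∈ Finset.univ.erase l0, A l (e l) := by
  classical
  obtain ⟨ιQ, hQ1, -⟩ := CoRelAux.exists_iotaQ p K h1
  let _ : Fintype (GaloisField p h) := Fintype.ofFinite _
  have hcard : Fintype.card (GaloisField p h) = p ^ h := by
    rw [← Nat.card_eq_fintype_card]; exact GaloisField.card p h (by omega)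
  obtain ⟨F, hF0, hF⟩ := CoRelAux.exists_vanish h1 ιQ (EE : Set (Fin r → FPt (HO p n h (Ob K)))) hA
  have hfrob : ∀ e ∈ EE.toAddSubmonoid, ∃ e' ∈ EE.toAddSubmonoid,
      ∀ l, (e' l).val = (e l).val ^ Fintype.card (GaloisField p h) := by
    intro e he
    refine ⟨p • e, EE.toAddSubmonoid.nsmul_mem he p, fun l => ?_⟩
    have := HO_pow_smul (p := p) (K := K) h1 hh.le 1 (e l)
    rw [pow_one, mul_one] at this
    rw [hcard, Pi.smul_apply, this, nfr_val, fz_natCast]
  obtain ⟨A, hA', ⟨l₀, hl₀⟩, hrel⟩ := circuit' ιQ (HO p n h (GaloisField p h))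
    (G := HO p n h (Ob K)) (CoRelAux.HO_map ιQ n h) EE.toAddSubmonoid hfrob ⟨F, hF0, hF⟩
  refine ⟨l₀, fun l => FPt.hom (hA' l), fun l => ⟨(A l).map ιQ, hA' l, fun m => ?_, fun z => rfl⟩,
    fun e he => ?_⟩
  · rw [PowerSeries.coeff_map]
    exact hQ1 _
  · have h := hrel e he
    rw [← Finset.add_sum_erase _ _ (Finset.mem_univ l₀), hl₀, neg_add_eq_zero] at h
    exact h

end Crest.Agent.R227
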