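import Crest.Agent.R227.EasyAux2
import Crest.Agent.R227.LTComplete

-- ▼ part R227/EasyAux3
section

/-!
# R227 / EasyAux3 : stability of the ideals `II`
-/

set_option autoImplicit false

noncomputable section

namespace Crest.Agent.R227

open Crest.LubinTate MvPowerSeries Topology

section
variable {R : Type*} [CommRing R]

/-- lowest coefficient of `f ∘ a` when `a` has order `≥ m`. -/
theorem coeff_subst_low (f a : PowerSeries R) (m : ℕ) (hm : 1 ≤ m)
    (ha : ∀ i < m, PowerSeries.coeff i a = 0) (hf : PowerSeries.constantCoeff f = 0) :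
    PowerSeries.coeff m (PowerSeries.subst a f) =
      PowerSeries.coeff 1 f * PowerSeries.coeff m a := by
  have ha0 : PowerSeries.constantCoeff a = 0 := by
    have := ha 0 (by omega)
    rwa [PowerSeries.coeff_zero_eq_constantCoeff_apply] at this
  have hs : PowerSeries.HasSubst a := PowerSeries.HasSubst.of_constantCoeff_zero' ha0
  rw [PowerSeries.coeff_subst' hs, finsum_eq_single _ 1]
  · simp
  · intro d hd
    rcases Nat.lt_or_ge d 1 with h | h
    · have : d = 0 := by omega
      subst this
      rw [PowerSeries.coeff_zero_eq_constantCoeff_apply, hf, zero_smul]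
    · obtain ⟨a', ha'⟩ := PowerSeries.X_pow_dvd_iff.mpr ha
      have h2 : 2 ≤ d := by omega
      rw [ha', mul_pow, ← pow_mul, PowerSeries.coeff_X_pow_mul', if_neg, smul_zero]
      have : m * 2 ≤ m * d := Nat.mul_le_mul_left _ h2
      omega

/-- lowest coefficient of `f ∘ a` when `f` has order `≥ m`. -/
theorem coeff_subst_low' (f a : PowerSeries R) (m : ℕ)
    (hf : ∀ i < m, PowerSeries.coeff i f = 0) (ha : PowerSeries.constantCoeff a = 0) :
    PowerSeries.coeff m (PowerSeries.subst a f) =
      PowerSeries.coeff m f * PowerSeries.coeff 1 a ^ m := by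
  have hs : PowerSeries.HasSubst a := PowerSeries.HasSubst.of_constantCoeff_zero' ha
  obtain ⟨a', ha'⟩ := PowerSeries.X_dvd_iff.mpr ha
  have h1 : PowerSeries.coeff 1 a = PowerSeries.constantCoeff a' := by
    rw [ha', show (1 : ℕ) = 0 + 1 from rfl, PowerSeries.coeff_succ_X_mul,
      PowerSeries.coeff_zero_eq_constantCoeff_apply]
  have h2 : ∀ d : ℕ, a ^ d = PowerSeries.X ^ d * a' ^ d := by
    intro d; rw [ha', mul_pow]
  rw [PowerSeries.coeff_subst' hs, finsum_eq_single _ m]
  · rw [h2, smul_eq_mul, PowerSeries.coeff_X_pow_mul', if_pos le_rfl, Nat.sub_self,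
      PowerSeries.coeff_zero_eq_constantCoeff_apply, map_pow, h1]
  · intro d hd
    rcases Nat.lt_or_ge d m with h | h
    · rw [hf d h, zero_smul]
    · rw [h2, PowerSeries.coeff_X_pow_mul', if_neg (by omega), smul_zero]

/-- a surjective endomorphism of a Noetherian ring is injective -/
theorem injective_of_surjective_noeth [IsNoetherianRing R] (f : R →+* R)
    (hf : Function.Surjective f) : Function.Injective f := by
  have hmono : Monotone (fun k : ℕ => RingHom.ker (f ^ k)) := by
    apply monotone_nat_of_le_succ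
    intro k x hx
    rw [RingHom.mem_ker] at hx ⊢
    rw [pow_succ', RingHom.mul_def, RingHom.comp_apply, hx, map_zero]
  obtain ⟨k, hk⟩ := monotone_stabilizes_iff_noetherian.mpr (inferInstance : IsNoetherian R R)
    ⟨_, hmono⟩
  have hsk : Function.Surjective (f ^ k) := by
    have : ∀ j : ℕ, Function.Surjective (f ^ j) := by
      intro j
      induction j with
      | zero => exact Function.surjective_id
      | succ j ih =>
        rw [pow_succ', RingHom.mul_def, RingHom.coe_comp]
        exact hf.comp ih
    exact this k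
  rw [injective_iff_map_eq_zero]
  intro x hx
  obtain ⟨y, rfl⟩ := hsk x
  have h1 : y ∈ RingHom.ker (f ^ (k + 1)) := by
    rw [RingHom.mem_ker, pow_succ', RingHom.mul_def, RingHom.comp_apply, hx]
  have h2 := hk (k + 1) (by omega)
  have h3 : y ∈ RingHom.ker (f ^ k) := by
    have h4 : RingHom.ker (f ^ k) = RingHom.ker (f ^ (k + 1)) := h2
    rw [h4]; exact h1
  exact h3

end

variable (p : ℕ) [Fact p.Prime] (n : ℕ)

theorem II_n_eq_max (hn : 1 ≤ n) : II p n n = IsLocalRing.maximalIdeal (LTRing p n) := by
  ext a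
  rw [mem_II_n' p n hn, ← ker_residue, RingHom.mem_ker]

theorem map_II (hn : 1 ≤ n) (g : PowerSeries (GaloisField p n))
    (φ : LTRing p n →ₐ[WittVector p (GaloisField p n)] LTRing p n)
    (hg : IsUnit (PowerSeries.coeff 1 g)) (hφ : IsStabilizerMap p n (H1 p n) g φ)
    (h : ℕ) (hh : h ≤ n) : Ideal.map φ.toRingHom (II p n h) = II p n h := by
  obtain ⟨hφ1, θ, hθ, hθg⟩ := hφ
  set P := mulSeries (H1 p n) p with hP
  have ht : IsUnit (PowerSeries.coeff 1 θ) := by
    rw [isUnit_iff_residue_ne_zero]
    rw [← PowerSeries.coeff_map, hθg]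
    exact hg.ne_zero
  have hcomm := IsFGHom.comm_mulSeries hθ p
  rw [← mulSeries_map, ← hP] at hcomm
  induction h with
  | zero => simp [II]
  | succ h ih =>
    have ih := ih (by omega)
    have hcoef := coeff_mulSeries_H1 p n hn h (by omega)
    rw [← hP] at hcoef
    have huu : (if h = 0 then ((p : ℕ) : LTRing p n) else upt p n h) = uu p n h := by
      unfold uu; rfl
    have hp := (Fact.out : p.Prime)
    have h1 : 1 ≤ p ^ h := Nat.one_le_pow _ _ hp.pos
    set q := Ideal.Quotient.mk (II p n h) with hq
    have hφI : ∀ a ∈ II p n h, φ.toRingHom a ∈ II p n h := by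
      intro a ha
      rw [← ih]
      exact Ideal.mem_map_of_mem _ ha
    -- reduce the identity modulo `II h`
    have h2 := congrArg (PowerSeries.map q) hcomm
    have hθ0 : PowerSeries.constantCoeff θ = 0 := hθ.1
    have hP0 : PowerSeries.constantCoeff P = 0 := constantCoeff_mulSeries _ _
    have hPφ0 : PowerSeries.constantCoeff (PowerSeries.map φ.toRingHom P) = 0 := by
      rw [← PowerSeries.coeff_zero_eq_constantCoeff_apply, PowerSeries.coeff_map,
        PowerSeries.coeff_zero_eq_constantCoeff_apply, hP0, map_zero]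
    have hs1 : PowerSeries.HasSubst (PowerSeries.map φ.toRingHom P) :=
      PowerSeries.HasSubst.of_constantCoeff_zero' hPφ0
    have hs2 : PowerSeries.HasSubst θ := PowerSeries.HasSubst.of_constantCoeff_zero' hθ0
    have h3 : PowerSeries.subst (PowerSeries.map q (PowerSeries.map φ.toRingHom P))
        (PowerSeries.map q θ) =
        PowerSeries.subst (PowerSeries.map q θ) (PowerSeries.map q P) := by
      have e1 := PowerSeries.map_subst hs1 (h := q) θ
      have e2 := PowerSeries.map_subst hs2 (h := q) P
      exact e1.symm.trans (h2.trans e2)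
    have h4 := congrArg (PowerSeries.coeff (p ^ h)) h3
    rw [coeff_subst_low _ _ _ h1, coeff_subst_low'] at h4
    · simp only [PowerSeries.coeff_map] at h4
      rw [← map_pow, ← map_mul, ← map_mul] at h4
      have h5 := hcoef (p ^ h) le_rfl
      rw [if_pos rfl, huu] at h5
      have h6 : PowerSeries.coeff 1 θ * φ.toRingHom (uu p n h) -
          uu p n h * PowerSeries.coeff 1 θ ^ p ^ h ∈ II p n h := by
        have h7 := Ideal.Quotient.eq.mp h4
        have h8 := hφI _ h5
        rw [map_sub] at h8
        have : PowerSeries.coeff 1 θ * φ.toRingHom (uu p n h) -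
          uu p n h * PowerSeries.coeff 1 θ ^ p ^ h =
          (PowerSeries.coeff 1 θ * φ.toRingHom (PowerSeries.coeff (p ^ h) P) -
            PowerSeries.coeff (p ^ h) P * PowerSeries.coeff 1 θ ^ p ^ h) -
          PowerSeries.coeff 1 θ * (φ.toRingHom (PowerSeries.coeff (p ^ h) P) -
            φ.toRingHom (uu p n h)) +
          (PowerSeries.coeff (p ^ h) P - uu p n h) * PowerSeries.coeff 1 θ ^ p ^ h := by ring
        rw [this]
        exact Ideal.add_mem _ (Ideal.sub_mem _ h7 (Ideal.mul_mem_left _ _ h8))
          (Ideal.mul_mem_right _ _ h5)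
      rw [II_succ, Ideal.map_sup, ih, Ideal.map_span, Set.image_singleton]
      obtain ⟨t, ht⟩ := ht
      apply le_antisymm
      · apply sup_le le_sup_left
        rw [Ideal.span_singleton_le_iff_mem]
        have : φ.toRingHom (uu p n h) = ↑t⁻¹ * (PowerSeries.coeff 1 θ * φ.toRingHom (uu p n h) -
            uu p n h * PowerSeries.coeff 1 θ ^ p ^ h) +
            ↑t⁻¹ * PowerSeries.coeff 1 θ ^ p ^ h * uu p n h := by
          rw [← ht]
          have : (↑t⁻¹ : LTRing p n) * ↑t = 1 := Units.inv_mul t
          linear_combination (-(φ.toRingHom (uu p n h))) * this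
        rw [this]
        exact Ideal.add_mem _ (Ideal.mem_sup_left (Ideal.mul_mem_left _ _ h6))
          (Ideal.mem_sup_right (Ideal.mul_mem_left _ _ (Ideal.mem_span_singleton_self _)))
      · apply sup_le le_sup_left
        rw [Ideal.span_singleton_le_iff_mem]
        have : uu p n h = -(↑(t⁻¹ ^ p ^ h) * (PowerSeries.coeff 1 θ * φ.toRingHom (uu p n h) -
            uu p n h * PowerSeries.coeff 1 θ ^ p ^ h)) +
            ↑(t⁻¹ ^ p ^ h) * PowerSeries.coeff 1 θ * φ.toRingHom (uu p n h) := by
          rw [← ht]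
          have : (↑(t⁻¹ ^ p ^ h) : LTRing p n) * ↑t ^ p ^ h = 1 := by
            rw [← Units.val_pow_eq_pow_val, ← Units.val_mul, ← mul_pow, inv_mul_cancel, one_pow,
              Units.val_one]
          linear_combination (-(uu p n h)) * this
        have h9 : -(↑(t⁻¹ ^ p ^ h) * (PowerSeries.coeff 1 θ * φ.toRingHom (uu p n h) -
            uu p n h * PowerSeries.coeff 1 θ ^ p ^ h)) +
            ↑(t⁻¹ ^ p ^ h) * PowerSeries.coeff 1 θ * φ.toRingHom (uu p n h) ∈
            II p n h ⊔ Ideal.span {φ.toRingHom (uu p n h)} :=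
          Ideal.add_mem _ (neg_mem (Ideal.mem_sup_left (Ideal.mul_mem_left _ _ h6)))
            (Ideal.mem_sup_right (Ideal.mul_mem_left _ _ (Ideal.mem_span_singleton_self _)))
        rw [← this] at h9
        exact h9
    · intro i hi
      rw [PowerSeries.coeff_map, hq, Ideal.Quotient.eq_zero_iff_mem]
      have := hcoef i hi.le
      rwa [if_neg (by omega), sub_zero] at this
    · rw [← PowerSeries.coeff_zero_eq_constantCoeff_apply, PowerSeries.coeff_map,
        PowerSeries.coeff_zero_eq_constantCoeff_apply, hθ0, map_zero]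
    · intro i hi
      rw [PowerSeries.coeff_map, PowerSeries.coeff_map, hq, Ideal.Quotient.eq_zero_iff_mem]
      have := hcoef i hi.le
      rw [if_neg (by omega), sub_zero] at this
      exact hφI _ this
    · rw [← PowerSeries.coeff_zero_eq_constantCoeff_apply, PowerSeries.coeff_map,
        PowerSeries.coeff_zero_eq_constantCoeff_apply, hθ0, map_zero]

/-- a stabilizer map is bijective -/
theorem stab_bijective (hn : 1 ≤ n) (g : PowerSeries (GaloisField p n))
    (φ : LTRing p n →ₐ[WittVector p (GaloisField p n)] LTRing p n)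
    (hg : IsUnit (PowerSeries.coeff 1 g)) (hφ : IsStabilizerMap p n (H1 p n) g φ) :
    Function.Bijective φ.toRingHom := by
  have hmap := map_II p n hn g φ hg hφ n le_rfl
  rw [II_n_eq_max p n hn] at hmap
  have hsurj : Function.Surjective φ.toRingHom := by
    have : IsHausdorff (Ideal.map φ.toRingHom (IsLocalRing.maximalIdeal (LTRing p n)))
        (LTRing p n) := by
      rw [hmap]; infer_instance
    apply surjective_of_mk_map_comp_surjective (I := IsLocalRing.maximalIdeal (LTRing p n))
    intro y
    obtain ⟨y, rfl⟩ := Ideal.Quotient.mk_surjective y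
    refine ⟨algebraMap (WittVector p (GaloisField p n)) (LTRing p n)
      (MvPowerSeries.constantCoeff y), ?_⟩
    rw [RingHom.comp_apply, Ideal.Quotient.eq, hmap, ← ker_residue, RingHom.mem_ker, map_sub]
    have : φ.toRingHom (algebraMap (WittVector p (GaloisField p n)) (LTRing p n)
      (MvPowerSeries.constantCoeff y)) = algebraMap _ _ (MvPowerSeries.constantCoeff y) :=
        φ.commutes _
    rw [this]
    simp [LTRing.residue, MvPowerSeries.algebraMap_apply]
  exact ⟨injective_of_surjective_noeth _ hsurj, hsurj⟩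

theorem II_stable' (hn : 1 ≤ n) (h : ℕ) (hh : h ≤ n) (M : ℕ) (hM : 1 ≤ M) :
    IsStableIdeal p n (Fn p n) (H1 p n) M (II p n h) := by
  intro g φ hg _ hφ
  have hmap := map_II p n hn g φ hg.2 hφ h hh
  have hb := stab_bijective p n hn g φ hg.2 hφ
  conv_lhs => rw [← hmap]
  exact Ideal.comap_map_of_bijective _ hb

end Crest.Agent.R227
end
end

-- ▼ part R227/Easy

/-!
# R227 / Easy (task EASY)
-/

set_option autoImplicit false

noncomputable section

namespace Crest.Agent.R227

open Crest.LubinTate MvPowerSeries Topology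

variable (p : ℕ) [Fact p.Prime] (n : ℕ)

/-! ### Task EASY -/

/-- The height ideals of `H1`. -/
theorem heightIdeal_H1 (hn : 1 ≤ n) (h : ℕ) (hh : h ≤ n) :
    heightIdeal p n (H1 p n) h = II p n h :=
  heightIdeal_H1' p n hn h hh

theorem II_isPrime (hn : 1 ≤ n) (h : ℕ) (hh : h ≤ n) : (II p n h).IsPrime :=
  II_isPrime' p n hn h hh

/-- `II n` is the kernel of the residue map. -/
theorem mem_II_n (hn : 1 ≤ n) (a : LTRing p n) : a ∈ II p n n ↔ LTRing.residue p n a = 0 :=
  mem_II_n' p n hn a

theorem II_stable (hn : 1 ≤ n) (h : ℕ) (hh : h ≤ n) (M : ℕ) (hM : 1 ≤ M) :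
    IsStableIdeal p n (Fn p n) (H1 p n) M (II p n h) :=
  II_stable' p n hn h hh M hM

end Crest.Agent.R227
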