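import Crest.Agent.R227.FE1

-- ▼ part R227/FE2
section

/-!
# R227 / FE2 : congruences mod p and the logarithm (task FE2)
-/

set_option autoImplicit false

noncomputable section

namespace Crest.Agent.R227

open Crest.LubinTate MvPowerSeries

theorem coeff_pow_eq_zero_of_degree_lt_fe2 {R τ : Type*} [CommRing R] (Z : MvPowerSeries τ R)
    (hZ : constantCoeff Z = 0) (m : τ →₀ ℕ) (k : ℕ) (h : m.degree < k) :
    coeff m (Z ^ k) = 0 :=
  coeff_of_lt_order (lt_of_lt_of_le (by exact_mod_cast h)
    (le_order_pow_of_constantCoeff_eq_zero k hZ))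

theorem coeff_subst_pSeries_fe2 (p : ℕ) [Fact p.Prime] {R τ : Type*} [CommRing R] [Finite τ]
    (l : ℕ → R) (Z : MvPowerSeries τ R) (hZ : constantCoeff Z = 0) (m : τ →₀ ℕ) (N : ℕ)
    (hN : m.degree ≤ N) :
    coeff m (PowerSeries.subst Z (pSeries p l)) =
      ∑ k ∈ Finset.range (N + 1), l k * coeff m (Z ^ p ^ k) := by
  have hp : 1 < p := (Fact.out : p.Prime).one_lt
  rw [PowerSeries.coeff_subst (PowerSeries.HasSubst.of_constantCoeff_zero hZ)]
  have hinj : Set.InjOn (fun k : ℕ => p ^ k) (Finset.range (N + 1) : Set ℕ) :=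
    fun a _ b _ h => Nat.pow_right_injective hp h
  rw [finsum_eq_sum_of_support_subset (s := (Finset.range (N + 1)).image (fun k => p ^ k)),
    Finset.sum_image hinj]
  · refine Finset.sum_congr rfl fun k _ => ?_
    simp [pSeries, Nat.log_pow hp]
  · intro d hd
    rw [Function.mem_support] at hd
    have h1 : p ^ Nat.log p d = d := by
      by_contra h
      apply hd
      simp [pSeries, h]
    have h2 : d ≤ N := by
      by_contra h
      apply hd
      rw [coeff_pow_eq_zero_of_degree_lt_fe2 Z hZ m d (by omega), smul_zero]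
    rw [Finset.coe_image, Set.mem_image]
    refine ⟨Nat.log p d, ?_, h1⟩
    rw [Finset.coe_range, Set.mem_Iio]
    have : Nat.log p d < p ^ Nat.log p d := Nat.lt_pow_self hp
    omega

theorem exists_add_p_mul_pow (p : ℕ) (hp : p.Prime) {R : Type*} [CommRing R] (I : Ideal R)
    (Z c : R) (hc : c ∈ I) (k : ℕ) :
    ∃ e ∈ I, (Z + p * c) ^ p ^ k = Z ^ p ^ k + (p : R) ^ (k + 1) * e := by
  induction k with
  | zero => exact ⟨c, hc, by simp⟩
  | succ k ih =>
    obtain ⟨e, he, h⟩ := ih
    obtain ⟨r, hr⟩ := exists_add_pow_prime_eq hp (Z ^ p ^ k) ((p : R) ^ (k + 1) * e)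
    obtain ⟨t, ht⟩ : ∃ t, (k + 1) * p = (k + 2) + t :=
      Nat.exists_eq_add_of_le (by nlinarith [hp.two_le])
    refine ⟨(p : R) ^ t * e ^ p + Z ^ p ^ k * e * r, ?_, ?_⟩
    · refine I.add_mem (I.mul_mem_left _ (I.pow_mem_of_mem he _ hp.pos)) ?_
      exact I.mul_mem_right _ (I.mul_mem_left _ he)
    · rw [pow_succ p k, pow_mul, h, hr, mul_pow, ← pow_mul, ← pow_mul, ht, pow_add]
      ring

/-- a power series from its coefficients -/
def mkS {R τ : Type*} [CommRing R] (f : (τ →₀ ℕ) → R) : MvPowerSeries τ R := f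

theorem coeff_mkS {R τ : Type*} [CommRing R] (f : (τ →₀ ℕ) → R) (m : τ →₀ ℕ) :
    coeff m (mkS f) = f m := rfl

theorem coeff_pow_congr {R τ : Type*} [CommRing R] (a b : MvPowerSeries τ R)
    (ha : constantCoeff a = 0) (hb : constantCoeff b = 0) (m : τ →₀ ℕ)
    (h : ∀ m' : τ →₀ ℕ, m'.degree < m.degree → coeff m' a = coeff m' b) (q : ℕ) (hq : 2 ≤ q) :
    coeff m (a ^ q) = coeff m (b ^ q) := by
  rw [← sub_eq_zero, ← map_sub, ← (Commute.all a b).mul_geom_sum₂ q]
  apply coeff_of_lt_order
  have h1 : (m.degree : ℕ∞) ≤ (a - b).order := by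
    apply nat_le_order
    intro d hd
    rw [map_sub, h d hd, sub_self]
  have h2 : (1 : ℕ∞) ≤ (∑ i ∈ Finset.range q, a ^ i * b ^ (q - 1 - i)).order := by
    rw [one_le_order_iff_constCoeff_eq_zero, map_sum]
    refine Finset.sum_eq_zero fun i hi => ?_
    have hi' := Finset.mem_range.1 hi
    rw [map_mul, map_pow, map_pow, ha, hb]
    rcases Nat.eq_zero_or_pos i with h0 | h0
    · rw [zero_pow (by omega : q - 1 - i ≠ 0), mul_zero]
    · rw [zero_pow (by omega), zero_mul]
  refine lt_of_lt_of_le ?_ le_order_mul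
  calc (m.degree : ℕ∞) < m.degree + 1 := by
        exact_mod_cast Nat.lt_succ_self _
    _ ≤ _ := add_le_add h1 h2

variable {p : ℕ} [Fact p.Prime] {A B : Type*} [CommRing A] [CommRing B] [Algebra A B]
  [Algebra ℚ B]

/-- If `Z ≡ Z' mod p` then `log Z ≡ log Z' mod p`. -/
theorem log_congr (n : ℕ) (x : ℕ → A) {τ : Type*} [Finite τ]
    (Z c : MvPowerSeries τ A) (hZ : constantCoeff Z = 0) (hc : constantCoeff c = 0) :
    ∃ d : MvPowerSeries τ A, constantCoeff d = 0 ∧
      PowerSeries.subst ((Z + C (p : A) * c).map (algebraMap A B))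
        (logAt p n (fun i => algebraMap A B (x i))) =
      PowerSeries.subst (Z.map (algebraMap A B)) (logAt p n (fun i => algebraMap A B (x i))) +
        (C (p : A) * d).map (algebraMap A B) := by
  classical
  have hp : p.Prime := Fact.out
  choose a ha using fun k => hle_integral (p := p) (A := A) (B := B) n x k
  have hCp : (C (p : A) : MvPowerSeries τ A) = (p : MvPowerSeries τ A) := by
    simp
  have key := fun k => exists_add_p_mul_pow p hp
    (RingHom.ker (constantCoeff (σ := τ) (R := A))) Z c (by simpa [RingHom.mem_ker] using hc) k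
  choose e he1 he2 using key
  refine ⟨mkS fun m => ∑ k ∈ Finset.range (m.degree + 1), a k * coeff m (e k), ?_, ?_⟩
  · rw [← coeff_zero_eq_constantCoeff_apply, coeff_mkS]
    refine Finset.sum_eq_zero fun k _ => ?_
    have := he1 k
    rw [RingHom.mem_ker] at this
    rw [coeff_zero_eq_constantCoeff_apply, this, mul_zero]
  · have hZ1 : constantCoeff (Z.map (algebraMap A B)) = 0 := by
      rw [constantCoeff_map, hZ, map_zero]
    have hZ2 : constantCoeff ((Z + C (p : A) * c).map (algebraMap A B)) = 0 := by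
      rw [constantCoeff_map, map_add, map_mul, hZ, hc]; simp
    ext m
    rw [map_add (coeff m), logAt, coeff_subst_pSeries_fe2 p _ _ hZ2 m m.degree le_rfl,
      coeff_subst_pSeries_fe2 p _ _ hZ1 m m.degree le_rfl]
    rw [coeff_map, coeff_C_mul, coeff_mkS, map_mul, map_sum, Finset.mul_sum, ← Finset.sum_add_distrib]
    refine Finset.sum_congr rfl fun k _ => ?_
    rw [← map_pow, ← map_pow, coeff_map, coeff_map, hCp, he2 k]
    have h3 : (p : MvPowerSeries τ A) ^ (k + 1) = C ((p : A) ^ (k + 1)) := by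
      simp
    rw [h3, map_add, coeff_C_mul, map_add, map_mul (algebraMap A B),
      map_mul (algebraMap A B) (a k), ha, map_pow (algebraMap A B), map_natCast]
    ring

/-- Conversely `log Z ≡ log Z' mod p` implies `Z ≡ Z' mod p`. -/
theorem congr_of_log_congr (n : ℕ) (x : ℕ → A) (hinj : Function.Injective (algebraMap A B))
    {τ : Type*} [Finite τ] (Z Z' d : MvPowerSeries τ A) (hZ : constantCoeff Z = 0)
    (hZ' : constantCoeff Z' = 0)
    (h : PowerSeries.subst (Z'.map (algebraMap A B)) (logAt p n (fun i => algebraMap A B (x i))) =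
      PowerSeries.subst (Z.map (algebraMap A B)) (logAt p n (fun i => algebraMap A B (x i))) +
        (C (p : A) * d).map (algebraMap A B)) :
    ∃ c : MvPowerSeries τ A, Z' = Z + C (p : A) * c := by
  classical
  have hp : p.Prime := Fact.out
  have key : ∀ r : ℕ, ∀ m : τ →₀ ℕ, m.degree = r → (p : A) ∣ coeff m Z' - coeff m Z := by
    intro r
    induction r using Nat.strong_induction_on with
    | _ r ih =>
    intro m hm
    have ih' : ∀ m' : τ →₀ ℕ, m'.degree < r → ∃ c, coeff m' Z' - coeff m' Z = (p : A) * c :=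
      fun m' hm' => ih _ hm' m' rfl
    choose! c hc using ih'
    set c' : MvPowerSeries τ A := mkS fun m' => if m'.degree < r ∧ m' ≠ 0 then c m' else 0
      with hc'
    have hc0 : constantCoeff c' = 0 := by
      rw [← coeff_zero_eq_constantCoeff_apply, hc', coeff_mkS, if_neg (by simp)]
    obtain ⟨d', hd', hd2⟩ := log_congr (p := p) (A := A) (B := B) n x Z c' hZ hc0
    set Z'' := Z + C (p : A) * c' with hZ''
    have hagree : ∀ m' : τ →₀ ℕ, m'.degree < m.degree → coeff m' Z' = coeff m' Z'' := by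
      intro m' hm'
      rw [hm] at hm'
      rw [hZ'', map_add, coeff_C_mul, hc', coeff_mkS]
      by_cases h0 : m' = 0
      · subst h0
        rw [coeff_zero_eq_constantCoeff_apply, coeff_zero_eq_constantCoeff_apply, hZ, hZ']
        simp
      · rw [if_pos ⟨hm', h0⟩, ← hc m' hm']
        ring
    have hZ1 : constantCoeff (Z'.map (algebraMap A B)) = 0 := by
      rw [constantCoeff_map, hZ', map_zero]
    have hZ2 : constantCoeff (Z''.map (algebraMap A B)) = 0 := by
      rw [constantCoeff_map, hZ'', map_add, map_mul, hZ, hc0]; simp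
    have h4 := h
    rw [eq_sub_iff_add_eq.2 hd2.symm] at h4
    have h5 := congrArg (coeff m) h4
    rw [map_add, map_sub, logAt, coeff_subst_pSeries_fe2 p _ _ hZ1 m m.degree le_rfl,
      coeff_subst_pSeries_fe2 p _ _ hZ2 m m.degree le_rfl, Finset.sum_range_succ',
      Finset.sum_range_succ'] at h5
    have h6 : ∀ k ∈ Finset.range m.degree,
        hle p n (fun i => algebraMap A B (x i)) (k + 1) *
          coeff m ((Z'.map (algebraMap A B)) ^ p ^ (k + 1)) =
        hle p n (fun i => algebraMap A B (x i)) (k + 1) *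
          coeff m ((Z''.map (algebraMap A B)) ^ p ^ (k + 1)) := by
      intro k _
      congr 1
      apply coeff_pow_congr _ _ hZ1 hZ2
      · intro m' hm'
        rw [coeff_map, coeff_map, hagree m' hm']
      · calc 2 ≤ p := hp.two_le
          _ = p ^ 1 := (pow_one p).symm
          _ ≤ p ^ (k + 1) := Nat.pow_le_pow_right hp.pos (by omega)
    rw [Finset.sum_congr rfl h6] at h5
    have h7 : hle p n (fun i => algebraMap A B (x i)) 0 = 1 := by
      simp [hle, hl]
    rw [h7, pow_zero, pow_one, pow_one, one_mul, one_mul, coeff_map, coeff_map, coeff_map,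
      coeff_map, coeff_C_mul, coeff_C_mul] at h5
    have h8 : algebraMap A B (coeff m Z') =
        algebraMap A B (coeff m Z'' - (p : A) * coeff m d' + (p : A) * coeff m d) := by
      rw [map_add, map_sub]
      linear_combination h5
    have h9 := hinj h8
    have h10 : coeff m Z'' = coeff m Z := by
      rw [hZ'', map_add, coeff_C_mul, hc', coeff_mkS, if_neg (by rw [hm]; simp), mul_zero, add_zero]
    rw [h9, h10]
    exact ⟨coeff m d - coeff m d', by ring⟩
  choose c hc using fun m : τ →₀ ℕ => key m.degree m rfl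
  refine ⟨mkS c, ?_⟩
  ext m
  rw [map_add, coeff_C_mul, coeff_mkS, ← hc m]
  ring

end Crest.Agent.R227
end
end

-- ▼ part R227/FEAux
section

/-!
# R227 / FEAux : auxiliary lemmas for FE (logarithms, substitution in formal group laws)
-/

set_option autoImplicit false
set_option linter.unusedSectionVars false

noncomputable section

namespace Crest.Agent.R227.FEAux

open Crest.LubinTate MvPowerSeries

variable {p : ℕ} [hp : Fact p.Prime]

section pSeries

variable {R : Type*} [CommRing R]

theorem constantCoeff_pSeries (l : ℕ → R) :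
    PowerSeries.constantCoeff (pSeries p l) = 0 := by
  rw [← PowerSeries.coeff_zero_eq_constantCoeff_apply, pSeries, PowerSeries.coeff_mk]
  simp

theorem coeff_pow_pSeries (l : ℕ → R) (k : ℕ) :
    PowerSeries.coeff (p ^ k) (pSeries p l) = l k := by
  rw [pSeries, PowerSeries.coeff_mk, Nat.log_pow hp.out.one_lt, if_pos rfl]

theorem coeff_pSeries_of_forall_ne (l : ℕ → R) (m : ℕ) (hm : ∀ k, m ≠ p ^ k) :
    PowerSeries.coeff m (pSeries p l) = 0 := by
  rw [pSeries, PowerSeries.coeff_mk, if_neg]
  exact fun h => hm _ h.symm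

theorem coeff_one_pSeries (l : ℕ → R) : PowerSeries.coeff 1 (pSeries p l) = l 0 := by
  simpa using coeff_pow_pSeries (p := p) l 0

theorem map_pSeries {S : Type*} [CommRing S] (f : R →+* S) (l : ℕ → R) :
    PowerSeries.map f (pSeries p l) = pSeries p (fun k => f (l k)) := by
  ext m
  rw [PowerSeries.coeff_map, pSeries, pSeries, PowerSeries.coeff_mk, PowerSeries.coeff_mk]
  split_ifs <;> simp

end pSeries

section general

variable {R : Type*} [CommRing R] {τ : Type*}

theorem hs {a : MvPowerSeries τ R} (ha : constantCoeff a = 0) : PowerSeries.HasSubst a :=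
  PowerSeries.HasSubst.of_constantCoeff_zero ha

theorem hs2 {a b : MvPowerSeries τ R} (ha : constantCoeff a = 0) (hb : constantCoeff b = 0) :
    HasSubst ![a, b] :=
  hasSubst_of_constantCoeff_zero fun s => by fin_cases s <;> simpa

theorem cc_fadd (F : FormalGroup R) {a b : MvPowerSeries τ R}
    (ha : constantCoeff a = 0) (hb : constantCoeff b = 0) : constantCoeff (fadd F a b) = 0 :=
  constantCoeff_subst_eq_zero (hs2 ha hb) (fun i => by fin_cases i <;> simpa)
    F.zero_constantCoeff

theorem mv_map_fadd {S : Type*} [CommRing S] (f : R →+* S) (F : FormalGroup R)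
    {a b : MvPowerSeries τ R} (ha : constantCoeff a = 0) (hb : constantCoeff b = 0) :
    (fadd F a b).map f = fadd (F.map f) (a.map f) (b.map f) := by
  unfold fadd
  rw [map_subst (hs2 ha hb)]
  congr! 1
  ext1 i
  fin_cases i <;> simp

/-- composition with `PowerSeries.subst` -/
theorem subst_psubst {υ : Type*} {g : τ → MvPowerSeries υ R} (hg : HasSubst g)
    {a : MvPowerSeries τ R} (ha : constantCoeff a = 0) (f : PowerSeries R) :
    MvPowerSeries.subst g (PowerSeries.subst a f) =
      PowerSeries.subst (MvPowerSeries.subst g a) f := by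
  rw [PowerSeries.subst, PowerSeries.subst, subst_comp_subst_apply (hs ha).const hg]

/-- A power series with vanishing constant coefficient and linear coefficient one is injective
under substitution. -/
theorem psubst_inj {L : PowerSeries R} (h0 : PowerSeries.constantCoeff L = 0)
    (h1 : PowerSeries.coeff 1 L = 1) {a b : MvPowerSeries τ R} (ha : constantCoeff a = 0)
    (hb : constantCoeff b = 0) (h : PowerSeries.subst a L = PowerSeries.subst b L) : a = b := by
  have : Invertible (PowerSeries.coeff 1 L) := h1 ▸ invertibleOne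
  have hL : PowerSeries.HasSubst L := PowerSeries.HasSubst.of_constantCoeff_zero' h0
  have key : ∀ c : MvPowerSeries τ R, constantCoeff c = 0 →
      PowerSeries.subst (PowerSeries.subst c L) L.substInv = c := by
    intro c hc
    rw [← PowerSeries.subst_comp_subst_apply hL (hs hc), PowerSeries.subst_substInv_left _ h0,
      PowerSeries.subst_X (hs hc)]
  rw [← key a ha, ← key b hb, h]

/-- linear coefficients of a substitution -/
theorem coeff_single_psubst (L : PowerSeries R) {a : MvPowerSeries τ R}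
    (ha : constantCoeff a = 0) (s : τ) :
    coeff (Finsupp.single s 1) (PowerSeries.subst a L) =
      PowerSeries.coeff 1 L * coeff (Finsupp.single s 1) a := by
  classical
  rw [PowerSeries.coeff_subst (hs ha), finsum_eq_single _ 1]
  · simp
  · intro d hd
    rcases d with _ | _ | d
    · rw [pow_zero, coeff_one, if_neg (by simp), smul_zero]
    · exact absurd rfl hd
    · rw [coeff_of_lt_order, smul_zero]
      refine lt_of_lt_of_le ?_ (le_order_pow_of_constantCoeff_eq_zero (d + 1 + 1) ha)
      simp only [Finsupp.degree_single]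
      norm_cast
      omega

/-- `L(Z(a,b)) = L(a) + L(b)`. -/
theorem log_subst {L : PowerSeries R} {Z : MvPowerSeries (Fin 2) R}
    (hZ : constantCoeff Z = 0)
    (h : PowerSeries.subst Z L = PowerSeries.subst (X 0 : MvPowerSeries (Fin 2) R) L +
      PowerSeries.subst (X 1 : MvPowerSeries (Fin 2) R) L)
    {a b : MvPowerSeries τ R} (ha : constantCoeff a = 0) (hb : constantCoeff b = 0) :
    PowerSeries.subst (MvPowerSeries.subst ![a, b] Z) L =
      PowerSeries.subst a L + PowerSeries.subst b L := by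
  have h2 := hs2 ha hb
  rw [← subst_psubst h2 hZ, h, subst_add h2, subst_psubst h2 (by simp), subst_psubst h2 (by simp),
    subst_X h2, subst_X h2]
  simp

end general

section law

variable {A B : Type*} [CommRing A] [CommRing B] [Algebra A B] {τ : Type*}

theorem map_inj (hinj : Function.Injective (algebraMap A B)) :
    Function.Injective (MvPowerSeries.map (σ := τ) (algebraMap A B)) := by
  intro f g hfg
  ext d
  have := congrArg (coeff d) hfg
  rw [coeff_map, coeff_map] at this
  exact hinj this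

omit [Algebra A B] in
theorem cc_map {f : A →+* B} {a : MvPowerSeries τ A} (ha : constantCoeff a = 0) :
    constantCoeff (a.map f) = 0 := by
  rw [constantCoeff_map, ha, map_zero]

omit [Algebra A B] in
theorem cc_subst2 {Z : MvPowerSeries (Fin 2) A} (hZ : constantCoeff Z = 0)
    {a b : MvPowerSeries τ A} (ha : constantCoeff a = 0) (hb : constantCoeff b = 0) :
    constantCoeff (MvPowerSeries.subst ![a, b] Z) = 0 :=
  constantCoeff_subst_eq_zero (hs2 ha hb) (fun i => by fin_cases i <;> simpa) hZ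

omit [Algebra A B] in
theorem map_subst2 (f : A →+* B) (Z : MvPowerSeries (Fin 2) A)
    {a b : MvPowerSeries τ A} (ha : constantCoeff a = 0) (hb : constantCoeff b = 0) :
    (MvPowerSeries.subst ![a, b] Z).map f = MvPowerSeries.subst ![a.map f, b.map f] (Z.map f) := by
  rw [map_subst (hs2 ha hb)]
  congr! 1
  ext1 i
  fin_cases i <;> simp

/-- A series over `A` whose image over `B ⊇ A` has a logarithm is a commutative formal group law. -/
theorem exists_law (hinj : Function.Injective (algebraMap A B)) {L : PowerSeries B}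
    (h0 : PowerSeries.constantCoeff L = 0) (h1 : PowerSeries.coeff 1 L = 1)
    {Z : MvPowerSeries (Fin 2) A} (hZ : constantCoeff Z = 0)
    (h : PowerSeries.subst (Z.map (algebraMap A B)) L =
      PowerSeries.subst (X 0 : MvPowerSeries (Fin 2) B) L +
      PowerSeries.subst (X 1 : MvPowerSeries (Fin 2) B) L) :
    ∃ F : FormalGroup A, F.IsComm ∧ F.toPowerSeries = Z := by
  have hZ' : constantCoeff (Z.map (algebraMap A B)) = 0 := cc_map hZ
  have lin : ∀ i : Fin 2, Z.coeff (Finsupp.single i 1) = 1 := by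
    intro i
    apply hinj
    have := congrArg (coeff (Finsupp.single i 1)) h
    rw [coeff_single_psubst L hZ', map_add, coeff_single_psubst L (by simp),
      coeff_single_psubst L (by simp), h1, coeff_map] at this
    rw [map_one]
    fin_cases i <;> simpa [coeff_index_single_X] using this
  have X0 : ∀ i : Fin 3, constantCoeff (X i : MvPowerSeries (Fin 3) A) = 0 := by simp
  have X0' : ∀ i : Fin 2, constantCoeff (X i : MvPowerSeries (Fin 2) A) = 0 := by simp
  refine ⟨⟨Z, hZ, lin 0, lin 1, ?_⟩, ⟨?_⟩, rfl⟩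
  · have c1 := cc_subst2 hZ (X0 0) (X0 1)
    have c2 := cc_subst2 hZ (X0 1) (X0 2)
    apply map_inj hinj
    refine psubst_inj h0 h1 (cc_map (cc_subst2 hZ c1 (X0 2))) (cc_map (cc_subst2 hZ (X0 0) c2)) ?_
    rw [map_subst2 _ _ c1 (X0 2), map_subst2 _ _ (X0 0) c2, log_subst hZ' h (cc_map c1) (by simp),
      log_subst hZ' h (by simp) (cc_map c2), map_subst2 _ _ (X0 0) (X0 1),
      map_subst2 _ _ (X0 1) (X0 2), log_subst hZ' h (by simp) (by simp),
      log_subst hZ' h (by simp) (by simp), add_assoc]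
  · change Z = MvPowerSeries.subst ![X 1, X 0] Z
    apply map_inj hinj
    refine psubst_inj h0 h1 hZ' (cc_map (cc_subst2 hZ (X0' 1) (X0' 0))) ?_
    rw [map_subst2 _ _ (X0' 1) (X0' 0), log_subst hZ' h (by simp) (by simp), h, add_comm]
    simp

end law

section univ

variable (p)

attribute [local instance] MvPolynomial.algebraMvPolynomial

/-- The Frobenius lift on `ℤ[u]`. -/
def frobU : FrobData p (MvPolynomial ℕ ℤ) (MvPolynomial ℕ ℚ) where
  σ := (MvPolynomial.expand p : MvPolynomial ℕ ℤ →ₐ[ℤ] MvPolynomial ℕ ℤ).toRingHom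
  σB := (MvPolynomial.expand p : MvPolynomial ℕ ℚ →ₐ[ℚ] MvPolynomial ℕ ℚ).toRingHom
  comm a := by
    change MvPolynomial.expand p (MvPolynomial.map _ a) = MvPolynomial.map _ (MvPolynomial.expand p a)
    rw [MvPolynomial.map_expand]
  frob a := by
    change ((p : ℕ) : MvPolynomial ℕ ℤ) ∣ MvPolynomial.expand p a - a ^ p
    have : ((p : ℕ) : MvPolynomial ℕ ℤ) = MvPolynomial.C ((p : ℕ) : ℤ) := by simp
    rw [this, MvPolynomial.C_dvd_iff_zmod, map_sub, MvPolynomial.map_expand, map_pow,
      MvPolynomial.expand_zmod, sub_self]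
  inj := MvPolynomial.map_injective _ (RingHom.injective_int (algebraMap ℤ ℚ))

theorem hle_X (n k : ℕ) : hle p n (MvPolynomial.X : ℕ → MvPolynomial ℕ ℚ) k = hl p n k := by
  rw [hle, MvPolynomial.aeval_X_left, AlgHom.id_apply]

theorem logAt_X (n : ℕ) : logAt p n (MvPolynomial.X : ℕ → MvPolynomial ℕ ℚ) = logU p n := by
  rw [logAt, logU]
  congr 1
  ext1 k
  exact hle_X p n k

theorem expand_iter (i : ℕ) (f : MvPolynomial ℕ ℚ) :
    (((MvPolynomial.expand p : MvPolynomial ℕ ℚ →ₐ[ℚ] MvPolynomial ℕ ℚ).toRingHom) ^ i) f =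
      MvPolynomial.aeval (fun j => (MvPolynomial.X j : MvPolynomial ℕ ℚ) ^ p ^ i) f := by
  induction i with
  | zero =>
    rw [pow_zero]
    simp
  | succ i ih =>
    rw [pow_succ', RingHom.mul_def, RingHom.comp_apply, ih]
    change MvPolynomial.expand p (MvPolynomial.aeval _ f) = _
    rw [← AlgHom.comp_apply, MvPolynomial.comp_aeval]
    congr! 2
    ext1 j
    rw [map_pow, MvPolynomial.expand_X, ← pow_mul, pow_succ']

theorem sum_Icc_range {M : Type*} [AddCommMonoid M] (n k : ℕ) (f : ℕ → M) :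
    (∑ i ∈ Finset.Icc 1 n, if i ≤ k then f i else 0) =
      ∑ i ∈ Finset.range k, if i + 1 ≤ n then f (i + 1) else 0 := by
  rw [← Finset.sum_filter, ← Finset.sum_filter]
  refine Finset.sum_nbij' (fun i => i - 1) (fun i => i + 1) ?_ ?_ ?_ ?_ ?_
  · intro i hi
    simp only [Finset.mem_filter, Finset.mem_Icc, Finset.mem_range] at hi ⊢
    omega
  · intro i hi
    simp only [Finset.mem_filter, Finset.mem_Icc, Finset.mem_range] at hi ⊢
    omega
  · intro i hi
    simp only [Finset.mem_filter, Finset.mem_Icc] at hi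
    omega
  · intro i hi
    simp
  · intro i hi
    simp only [Finset.mem_filter, Finset.mem_Icc] at hi
    rw [Nat.sub_add_cancel hi.1.1]

theorem coeff_subst_logU (n i m : ℕ) :
    PowerSeries.coeff m (PowerSeries.subst
      (PowerSeries.X ^ p ^ i : PowerSeries (MvPolynomial ℕ ℚ))
          (PowerSeries.map ((frobU p).σB ^ i) (logU p n))) =
    if p ^ i ∣ m then ((frobU p).σB ^ i) (PowerSeries.coeff (m / p ^ i) (logU p n)) else 0 := by
  rw [PowerSeries.coeff_subst_X_pow (pow_ne_zero _ hp.out.ne_zero)]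
  simp

/-- one-variable functional equation -/
theorem logU_fe (n : ℕ) : logU p n = PowerSeries.X +
    PowerSeries.C ((algebraMap ℚ (MvPolynomial ℕ ℚ)) ((p : ℚ)⁻¹)) *
      ∑ i ∈ Finset.Icc 1 n, PowerSeries.C (MvPolynomial.X i : MvPolynomial ℕ ℚ) *
        PowerSeries.subst (PowerSeries.X ^ p ^ i : PowerSeries (MvPolynomial ℕ ℚ))
          (PowerSeries.map ((frobU p).σB ^ i) (logU p n)) := by
  have hp0 : (p : ℚ) ≠ 0 := Nat.cast_ne_zero.mpr hp.out.ne_zero
  ext1 m
  rw [map_add, PowerSeries.coeff_C_mul, map_sum]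
  simp only [PowerSeries.coeff_C_mul, coeff_subst_logU]
  by_cases hm : ∃ k, m = p ^ k
  · obtain ⟨k, rfl⟩ := hm
    rw [PowerSeries.coeff_X]
    rcases k with _ | k
    · rw [pow_zero, if_pos rfl, logU, coeff_one_pSeries, hl, Finset.sum_eq_zero, mul_zero, add_zero]
      intro i hi
      rw [Finset.mem_Icc] at hi
      rw [if_neg, mul_zero]
      rw [Nat.dvd_one]
      exact (Nat.one_lt_pow (by omega) hp.out.one_lt).ne'
    · rw [if_neg (Nat.one_lt_pow (by omega) hp.out.one_lt).ne', zero_add]
      have e1 : ∀ i ∈ Finset.Icc 1 n, (MvPolynomial.X i : MvPolynomial ℕ ℚ) *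
          (if p ^ i ∣ p ^ (k + 1) then
            ((frobU p).σB ^ i) (PowerSeries.coeff (p ^ (k + 1) / p ^ i) (logU p n)) else 0) =
          if i ≤ k + 1 then (MvPolynomial.X i : MvPolynomial ℕ ℚ) *
            hle p n (fun j => (MvPolynomial.X j : MvPolynomial ℕ ℚ) ^ p ^ i) (k + 1 - i) else 0 := by
        intro i _
        rw [mul_ite, mul_zero]
        by_cases hik : i ≤ k + 1
        · rw [if_pos (pow_dvd_pow p hik), if_pos hik, Nat.pow_div hik hp.out.pos, logU,
            coeff_pow_pSeries]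
          congr 1
          exact expand_iter p i _
        · rw [if_neg, if_neg hik]
          rwa [Nat.pow_dvd_pow_iff_le_right hp.out.one_lt]
      rw [Finset.sum_congr rfl e1, sum_Icc_range n (k + 1), logU, coeff_pow_pSeries]
      have e2 := hle_succ' (p := p) n (MvPolynomial.X : ℕ → MvPolynomial ℕ ℚ) k
      rw [hle_X] at e2
      have e3 : (algebraMap ℚ (MvPolynomial ℕ ℚ)) ((p : ℚ)⁻¹) * ((p : ℕ) : MvPolynomial ℕ ℚ) = 1 := by
        rw [← map_natCast (algebraMap ℚ (MvPolynomial ℕ ℚ)), ← map_mul, inv_mul_cancel₀ hp0, map_one]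
      have e4 : (∑ i ∈ Finset.range (k + 1), if i + 1 ≤ n then
          (MvPolynomial.X (i + 1) : MvPolynomial ℕ ℚ) *
            hle p n (fun j => (MvPolynomial.X j : MvPolynomial ℕ ℚ) ^ p ^ (i + 1))
              (k + 1 - (i + 1)) else 0) = ((p : ℕ) : MvPolynomial ℕ ℚ) * hl p n (k + 1) := by
        rw [e2]
        refine Finset.sum_congr rfl fun i _ => ?_
        rw [Nat.add_sub_add_right]
      rw [e4, ← mul_assoc, e3, one_mul]
  · have hm' : ∀ k, m ≠ p ^ k := fun k h => hm ⟨k, h⟩
    rw [logU, coeff_pSeries_of_forall_ne _ _ hm', PowerSeries.coeff_X,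
      if_neg (by simpa using hm' 0), Finset.sum_eq_zero, mul_zero, add_zero]
    intro i _
    split_ifs with h
    · rw [coeff_pSeries_of_forall_ne, map_zero, mul_zero]
      intro k hk
      apply hm' (k + i)
      rw [pow_add, ← hk, Nat.div_mul_cancel h]
    · rw [mul_zero]

theorem expand_map_psubst_X {R : Type*} [CommRing R] {τ : Type*} (q : ℕ) (hq : q ≠ 0) (j : τ)
    (f : PowerSeries R) (σ : R →+* R) :
    expand q hq ((PowerSeries.subst (X j : MvPowerSeries τ R) f).map σ) =
      PowerSeries.subst (X j : MvPowerSeries τ R)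
        (PowerSeries.subst (PowerSeries.X ^ q : PowerSeries R) (PowerSeries.map σ f)) := by
  have h1 : (PowerSeries.subst (X j : MvPowerSeries τ R) f).map σ =
      PowerSeries.subst (X j : MvPowerSeries τ R) (PowerSeries.map σ f) := by
    rw [PowerSeries.map_subst (PowerSeries.HasSubst.X j), map_X]
  rw [h1, expand, substAlgHom_apply, subst_psubst (HasSubst.X_pow hq) (by simp),
    subst_X (HasSubst.X_pow hq), PowerSeries.subst_comp_subst_apply
      (PowerSeries.HasSubst.X_pow hq) (PowerSeries.HasSubst.X j),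
    PowerSeries.subst_pow (PowerSeries.HasSubst.X j), PowerSeries.subst_X (PowerSeries.HasSubst.X j)]

theorem fe_X_aux {R : Type*} [CommRing R] {τ : Type*} (j : τ) (L : PowerSeries R) (c : R)
    (x : ℕ → R) (σ : ℕ → (R →+* R)) (q : ℕ → ℕ) (hq : ∀ i, q i ≠ 0) (s : Finset ℕ)
    (h : L = PowerSeries.X + PowerSeries.C c * ∑ i ∈ s, PowerSeries.C (x i) *
      PowerSeries.subst (PowerSeries.X ^ q i : PowerSeries R) (PowerSeries.map (σ i) L)) :
    PowerSeries.subst (X j : MvPowerSeries τ R) L = X j + C c * ∑ i ∈ s, C (x i) *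
      expand (q i) (hq i) ((PowerSeries.subst (X j : MvPowerSeries τ R) L).map (σ i)) := by
  have hX : PowerSeries.HasSubst (X j : MvPowerSeries τ R) := PowerSeries.HasSubst.X j
  have h' := congrArg (PowerSeries.substAlgHom hX) h
  rw [map_add, map_mul, map_sum] at h'
  simp only [map_mul, PowerSeries.coe_substAlgHom, PowerSeries.subst_C, PowerSeries.subst_X hX] at h'
  rw [h']
  congr 2
  refine Finset.sum_congr rfl fun i _ => ?_
  rw [← h', expand_map_psubst_X]

/-- functional equation for `L(X_j)` -/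
theorem logU_fe_X (n : ℕ) {τ : Type*} (j : τ) :
    PowerSeries.subst (X j : MvPowerSeries τ (MvPolynomial ℕ ℚ)) (logU p n) = X j +
    C ((algebraMap ℚ (MvPolynomial ℕ ℚ)) ((p : ℚ)⁻¹)) *
      ∑ i ∈ Finset.Icc 1 n, C (MvPolynomial.X i : MvPolynomial ℕ ℚ) *
        expand (p ^ i) (pow_ne_zero _ hp.out.ne_zero)
          ((PowerSeries.subst (X j : MvPowerSeries τ (MvPolynomial ℕ ℚ)) (logU p n)).map
            ((frobU p).σB ^ i)) :=
  fe_X_aux j (logU p n) _ (fun i => (MvPolynomial.X i : MvPolynomial ℕ ℚ))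
    (fun i => (frobU p).σB ^ i) (fun i => p ^ i) (fun _ => pow_ne_zero _ hp.out.ne_zero) _
    (logU_fe p n)

/-- functional equation for `L(X_0) + L(X_1)` -/
theorem logU_fe_add (n : ℕ) :
    PowerSeries.subst (X 0 : MvPowerSeries (Fin 2) (MvPolynomial ℕ ℚ)) (logU p n) +
    PowerSeries.subst (X 1 : MvPowerSeries (Fin 2) (MvPolynomial ℕ ℚ)) (logU p n) =
    (X 0 + X 1 : MvPowerSeries (Fin 2) (MvPolynomial ℕ ℤ)).map
      (algebraMap (MvPolynomial ℕ ℤ) (MvPolynomial ℕ ℚ)) +
    C ((algebraMap ℚ (MvPolynomial ℕ ℚ)) ((p : ℚ)⁻¹)) *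
      ∑ i ∈ Finset.Icc 1 n, C (algebraMap (MvPolynomial ℕ ℤ) (MvPolynomial ℕ ℚ)
          (MvPolynomial.X i : MvPolynomial ℕ ℤ)) *
        expand (p ^ i) (pow_ne_zero _ hp.out.ne_zero)
          ((PowerSeries.subst (X 0 : MvPowerSeries (Fin 2) (MvPolynomial ℕ ℚ)) (logU p n) +
            PowerSeries.subst (X 1 : MvPowerSeries (Fin 2) (MvPolynomial ℕ ℚ)) (logU p n)).map
            ((frobU p).σB ^ i)) := by
  have hX : ∀ i : ℕ, algebraMap (MvPolynomial ℕ ℤ) (MvPolynomial ℕ ℚ)
          (MvPolynomial.X i : MvPolynomial ℕ ℤ) = MvPolynomial.X i := fun i =>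
    MvPolynomial.map_X _ i
  simp only [map_add, mul_add, Finset.sum_add_distrib, hX, map_X]
  refine (congrArg₂ (· + ·) (logU_fe_X p n (0 : Fin 2)) (logU_fe_X p n (1 : Fin 2))).trans ?_
  abel

theorem hzU_exists_aux (n : ℕ) : ∃ F : FormalGroup (MvPolynomial ℕ ℤ), F.IsComm ∧
    PowerSeries.subst (F.toPowerSeries.map (MvPolynomial.map (Int.castRingHom ℚ))) (logU p n) =
      PowerSeries.subst (X 0 : MvPowerSeries (Fin 2) (MvPolynomial ℕ ℚ)) (logU p n) +
      PowerSeries.subst (X 1 : MvPowerSeries (Fin 2) (MvPolynomial ℕ ℚ)) (logU p n) := by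
  have hlog : logAt p n (fun i => algebraMap (MvPolynomial ℕ ℤ) (MvPolynomial ℕ ℚ)
      (MvPolynomial.X i : MvPolynomial ℕ ℤ)) = logU p n := by
    rw [← logAt_X]
    congr 1
    ext1 i
    exact MvPolynomial.map_X _ i
  have h0 : PowerSeries.constantCoeff (logU p n) = 0 := constantCoeff_pSeries _
  have h1 : PowerSeries.coeff 1 (logU p n) = 1 := by
    rw [logU, coeff_one_pSeries, hl]
  obtain ⟨Z, hZ, hZL⟩ := fe_integral (frobU p) n (MvPolynomial.X : ℕ → MvPolynomial ℕ ℤ)
    (fun i => MvPolynomial.expand_X p i) (lam := PowerSeries.subst (X 0 : MvPowerSeries (Fin 2) (MvPolynomial ℕ ℚ)) (logU p n) +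
      PowerSeries.subst (X 1 : MvPowerSeries (Fin 2) (MvPolynomial ℕ ℚ)) (logU p n))
    (by
      rw [map_add, PowerSeries.constantCoeff_subst_eq_zero (by simp) _ h0,
        PowerSeries.constantCoeff_subst_eq_zero (by simp) _ h0, add_zero])
    (X 0 + X 1) (logU_fe_add p n)
  rw [hlog] at hZL
  obtain ⟨F, hF, hFZ⟩ := exists_law (B := MvPolynomial ℕ ℚ) (frobU p).inj h0 h1 hZ hZL
  refine ⟨F, hF, ?_⟩
  rw [hFZ]
  exact hZL

end univ

end Crest.Agent.R227.FEAux
end
end

-- ▼ part R227/FE

/-!
# R227 / FE : the universal p-typical law `hz` (task FE3)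
-/

set_option autoImplicit false

noncomputable section

namespace Crest.Agent.R227

open Crest.LubinTate MvPowerSeries

variable {p : ℕ} [Fact p.Prime] {A B : Type*} [CommRing A] [CommRing B] [Algebra A B]
  [Algebra ℚ B]

variable (p)

/-- Existence of the universal `p`-typical law (apply `fe_integral` to
`A = MvPolynomial ℕ ℤ`, `B = MvPolynomial ℕ ℚ`, `σ = expand p`, `x = X`). -/
theorem hzU_exists (n : ℕ) : ∃ F : FormalGroup (MvPolynomial ℕ ℤ), F.IsComm ∧
    PowerSeries.subst (F.toPowerSeries.map (MvPolynomial.map (Int.castRingHom ℚ))) (logU p n) =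
      PowerSeries.subst (X 0 : MvPowerSeries (Fin 2) (MvPolynomial ℕ ℚ)) (logU p n) +
      PowerSeries.subst (X 1 : MvPowerSeries (Fin 2) (MvPolynomial ℕ ℚ)) (logU p n) :=
  FEAux.hzU_exists_aux p n

/-- The universal `p`-typical formal group law over `ℤ[u_1,u_2,…]` (only `u_1..u_n` occur). -/
def hzU (n : ℕ) : FormalGroup (MvPolynomial ℕ ℤ) := (hzU_exists p n).choose

namespace FEAux

theorem hzU_isComm (n : ℕ) : (hzU p n).IsComm := (hzU_exists p n).choose_spec.1

theorem log_hzU (n : ℕ) :
    PowerSeries.subst ((hzU p n).toPowerSeries.map (MvPolynomial.map (Int.castRingHom ℚ)))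
      (logU p n) =
      PowerSeries.subst (X 0 : MvPowerSeries (Fin 2) (MvPolynomial ℕ ℚ)) (logU p n) +
      PowerSeries.subst (X 1 : MvPowerSeries (Fin 2) (MvPolynomial ℕ ℚ)) (logU p n) :=
  (hzU_exists p n).choose_spec.2

end FEAux

/-- The law at the point `x` of a ring `R`. -/
def hz (n : ℕ) {R : Type*} [CommRing R] (x : ℕ → R) : FormalGroup R :=
  (hzU p n).map (MvPolynomial.eval₂Hom (Int.castRingHom R) x)

instance hz_isComm (n : ℕ) {R : Type*} [CommRing R] (x : ℕ → R) : (hz p n x).IsComm := by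
  have h := (FEAux.hzU_isComm p n).comm
  constructor
  change (hzU p n).toPowerSeries.map _ =
    MvPowerSeries.subst ![X 1, X 0] ((hzU p n).toPowerSeries.map _)
  conv_lhs => rw [h]
  rw [FEAux.map_subst2 _ _ (by simp) (by simp), map_X, map_X]

namespace FEAux

theorem map_map_hzU (n : ℕ) {R S : Type*} [CommRing R] [CommRing S]
    (f : MvPolynomial ℕ ℤ →+* R) (g : R →+* S) :
    ((hzU p n).map f).map g = (hzU p n).map (g.comp f) := by
  apply FormalGroup.ext
  ext d
  simp only [FormalGroup.map_toPowerSeries, coeff_map, RingHom.comp_apply]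

end FEAux

theorem hz_map (n : ℕ) {R S : Type*} [CommRing R] [CommRing S] (f : R →+* S) (x : ℕ → R) :
    (hz p n x).map f = hz p n (fun i => f (x i)) := by
  rw [hz, hz, FEAux.map_map_hzU]
  congr 1
  ext i
  · simp
  · simp

namespace FEAux

theorem hle_congr (n : ℕ) (x y : ℕ → B) (h : ∀ i, 1 ≤ i → i ≤ n → x i = y i) (k : ℕ) :
    hle p n x k = hle p n y k := by
  induction k using Nat.strong_induction_on with
  | _ k ih =>
    rcases k with _ | k
    · simp [hle, hl]
    · have h1 := hle_succ (p := p) n x k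
      have h2 := hle_succ (p := p) n y k
      have h3 : (p : B) * hle p n x (k + 1) = (p : B) * hle p n y (k + 1) := by
        rw [h1, h2]
        refine Finset.sum_congr rfl fun i hi => ?_
        split_ifs with hin
        · rw [ih _ (by omega), h _ (by omega) hin]
        · rfl
      have h4 : (algebraMap ℚ B) ((p : ℚ)⁻¹) * (p : B) = 1 := by
        rw [← map_natCast (algebraMap ℚ B), ← map_mul, inv_mul_cancel₀, map_one]
        exact Nat.cast_ne_zero.mpr (Fact.out : p.Prime).ne_zero
      have h5 := congrArg (fun z => (algebraMap ℚ B) ((p : ℚ)⁻¹) * z) h3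
      simpa only [← mul_assoc, h4, one_mul] using h5

theorem logAt_congr (n : ℕ) (x y : ℕ → B) (h : ∀ i, 1 ≤ i → i ≤ n → x i = y i) :
    logAt p n x = logAt p n y := by
  rw [logAt, logAt]
  congr 1
  ext1 k
  exact hle_congr p n x y h k

theorem constantCoeff_logAt (n : ℕ) (x : ℕ → B) :
    PowerSeries.constantCoeff (logAt p n x) = 0 := FEAux.constantCoeff_pSeries _

theorem coeff_one_logAt (n : ℕ) (x : ℕ → B) : PowerSeries.coeff 1 (logAt p n x) = 1 := by
  rw [logAt, FEAux.coeff_one_pSeries]
  simp [hle, hl]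

theorem map_logAt (n : ℕ) {B' : Type*} [CommRing B'] [Algebra ℚ B'] (f : B →+* B') (x : ℕ → B) :
    PowerSeries.map f (logAt p n x) = logAt p n (fun i => f (x i)) := by
  rw [logAt, logAt, FEAux.map_pSeries]
  congr 1
  ext1 k
  rw [hle, hle]
  have : f.toRatAlgHom.comp (MvPolynomial.aeval x) = MvPolynomial.aeval (fun i => f (x i)) := by
    ext i
    simp
  exact DFunLike.congr_fun this _

end FEAux

/-- logarithm of `hz` over a `ℚ`-algebra -/
theorem log_hz (n : ℕ) (x : ℕ → B) :
    PowerSeries.subst (hz p n x).toPowerSeries (logAt p n x) =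
      PowerSeries.subst (X 0 : MvPowerSeries (Fin 2) B) (logAt p n x) +
      PowerSeries.subst (X 1 : MvPowerSeries (Fin 2) B) (logAt p n x) := by
  have hF : (hz p n x).toPowerSeries =
      ((hzU p n).toPowerSeries.map (MvPolynomial.map (Int.castRingHom ℚ))).map
        (MvPolynomial.aeval x : MvPolynomial ℕ ℚ →ₐ[ℚ] B).toRingHom := by
    rw [hz]
    ext d
    simp only [FormalGroup.map_toPowerSeries, coeff_map]
    rw [← RingHom.comp_apply]
    congr 1
    ext i
    · simp
    · simp
  have hL : logAt p n x = PowerSeries.map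
      (MvPolynomial.aeval x : MvPolynomial ℕ ℚ →ₐ[ℚ] B).toRingHom (logU p n) := by
    rw [← FEAux.logAt_X, FEAux.map_logAt]
    simp
  have hc : constantCoeff ((hzU p n).toPowerSeries.map (MvPolynomial.map (Int.castRingHom ℚ))) = 0 :=
    FEAux.cc_map (hzU p n).zero_constantCoeff
  have h := congrArg (MvPowerSeries.map
    (MvPolynomial.aeval x : MvPolynomial ℕ ℚ →ₐ[ℚ] B).toRingHom) (FEAux.log_hzU p n)
  rw [PowerSeries.map_subst (FEAux.hs hc), map_add,
    PowerSeries.map_subst (PowerSeries.HasSubst.X _), PowerSeries.map_subst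
    (PowerSeries.HasSubst.X _), ← hF, ← hL, map_X, map_X] at h
  exact h

namespace FEAux

theorem hz_congr_rat (n : ℕ) (x y : ℕ → B) (h : ∀ i, 1 ≤ i → i ≤ n → x i = y i) :
    hz p n x = hz p n y := by
  apply FormalGroup.ext
  refine FEAux.psubst_inj (constantCoeff_logAt p n x) (coeff_one_logAt p n x)
    (hz p n x).zero_constantCoeff (hz p n y).zero_constantCoeff ?_
  rw [log_hz, logAt_congr p n x y h, log_hz]

theorem map_injective_of_injective {R S : Type*} [CommRing R] [CommRing S] (f : R →+* S)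
    (hf : Function.Injective f) (F G : FormalGroup R) (h : F.map f = G.map f) : F = G := by
  apply FormalGroup.ext
  ext d
  apply hf
  have := congrArg (fun H : FormalGroup S => coeff d H.toPowerSeries) h
  simpa only [FormalGroup.map_toPowerSeries, coeff_map] using this

theorem hzU_eq_hz (n : ℕ) : hzU p n = hz p n (MvPolynomial.X : ℕ → MvPolynomial ℕ ℤ) := by
  have : MvPolynomial.eval₂Hom (Int.castRingHom (MvPolynomial ℕ ℤ)) MvPolynomial.X =
      RingHom.id _ := by
    ext i <;> simp
  rw [hz, this]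
  apply FormalGroup.ext
  ext d
  simp

theorem hzU_trunc (n : ℕ) : hzU p n = hz p n (fun i =>
    if 1 ≤ i ∧ i ≤ n then (MvPolynomial.X i : MvPolynomial ℕ ℤ) else 0) := by
  rw [hzU_eq_hz]
  apply map_injective_of_injective (MvPolynomial.map (Int.castRingHom ℚ))
    (MvPolynomial.map_injective _ (RingHom.injective_int _))
  rw [hz_map, hz_map]
  refine hz_congr_rat p n _ _ fun i h1 h2 => ?_
  rw [if_pos ⟨h1, h2⟩]

end FEAux

/-- the law only depends on `x 1, …, x n` -/
theorem hz_congr (n : ℕ) {R : Type*} [CommRing R] (x y : ℕ → R)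
    (h : ∀ i, 1 ≤ i → i ≤ n → x i = y i) : hz p n x = hz p n y := by
  rw [hz, hz, FEAux.hzU_trunc, hz_map, hz_map]
  congr 1
  ext1 i
  split_ifs with hi
  · simp [h i hi.1 hi.2]
  · simp

namespace FEAux

section log

variable {R : Type*} [CommRing R] {τ : Type*}

theorem cc_mulSeries (F : FormalGroup R) (m : ℕ) :
    MvPowerSeries.constantCoeff (mulSeries F m) = 0 := by
  induction m with
  | zero => exact map_zero _
  | succ m ih => exact FEAux.cc_fadd F ih (by exact MvPowerSeries.constantCoeff_X _)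

theorem cc_fsum (F : FormalGroup R) (l : List (MvPowerSeries τ R))
    (hl : ∀ a ∈ l, constantCoeff a = 0) : constantCoeff (fsum F l) = 0 := by
  induction l with
  | nil => exact map_zero _
  | cons a l ih =>
    exact FEAux.cc_fadd F (hl a (by simp)) (ih fun b hb => hl b (by simp [hb]))

theorem map_mulSeries' {S : Type*} [CommRing S] (f : R →+* S) (F : FormalGroup R) (m : ℕ) :
    MvPowerSeries.map f (mulSeries F m) = mulSeries (F.map f) m := by
  induction m with
  | zero => exact map_zero _
  | succ m ih =>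
    refine (FEAux.mv_map_fadd f F (cc_mulSeries F m) (by exact MvPowerSeries.constantCoeff_X _)).trans ?_
    rw [ih]
    have : MvPowerSeries.map f (PowerSeries.X : PowerSeries R) = (PowerSeries.X : PowerSeries S) :=
      MvPowerSeries.map_X _ _
    rw [this]
    rfl

theorem map_fsum {S : Type*} [CommRing S] (f : R →+* S) (F : FormalGroup R)
    (l : List (MvPowerSeries τ R)) (hl : ∀ a ∈ l, constantCoeff a = 0) :
    MvPowerSeries.map f (fsum F l) = fsum (F.map f) (l.map (MvPowerSeries.map f)) := by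
  induction l with
  | nil => exact map_zero _
  | cons a l ih =>
    refine (FEAux.mv_map_fadd f F (hl a (by simp))
      (cc_fsum F l fun b hb => hl b (by simp [hb]))).trans ?_
    rw [ih fun b hb => hl b (by simp [hb])]
    rfl

variable {F : FormalGroup R} {L : PowerSeries R}

theorem log_mulSeries (h0 : PowerSeries.constantCoeff L = 0)
    (h : PowerSeries.subst F.toPowerSeries L = PowerSeries.subst (X 0 : MvPowerSeries (Fin 2) R) L +
      PowerSeries.subst (X 1 : MvPowerSeries (Fin 2) R) L) (m : ℕ) :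
    PowerSeries.subst (mulSeries F m) L = (m : PowerSeries R) * L := by
  induction m with
  | zero =>
    rw [Nat.cast_zero, zero_mul]
    exact PowerSeries.subst_zero_of_constantCoeff_zero h0
  | succ m ih =>
    refine (FEAux.log_subst F.zero_constantCoeff h (cc_mulSeries F m)
      (by exact MvPowerSeries.constantCoeff_X _)).trans ?_
    rw [ih, PowerSeries.X_subst, Nat.cast_succ, add_mul, one_mul]

theorem log_fsum (h0 : PowerSeries.constantCoeff L = 0)
    (h : PowerSeries.subst F.toPowerSeries L = PowerSeries.subst (X 0 : MvPowerSeries (Fin 2) R) L +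
      PowerSeries.subst (X 1 : MvPowerSeries (Fin 2) R) L) (l : List (MvPowerSeries τ R))
    (hl : ∀ a ∈ l, constantCoeff a = 0) :
    PowerSeries.subst (fsum F l) L = (l.map fun a => PowerSeries.subst a L).sum := by
  induction l with
  | nil => exact PowerSeries.subst_zero_of_constantCoeff_zero h0
  | cons a l ih =>
    refine (FEAux.log_subst F.zero_constantCoeff h (hl a (by simp))
      (cc_fsum F l fun b hb => hl b (by simp [hb]))).trans ?_
    rw [ih fun b hb => hl b (by simp [hb]), List.map_cons, List.sum_cons]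

end log

theorem coeff_psubst_C_mul_X_pow {R : Type*} [CommRing R] (u : R) (q : ℕ) (hq : q ≠ 0)
    (L : PowerSeries R) (m : ℕ) :
    PowerSeries.coeff m (PowerSeries.subst
      (PowerSeries.C u * PowerSeries.X ^ q : PowerSeries R) L) =
      if q ∣ m then u ^ (m / q) * PowerSeries.coeff (m / q) L else 0 := by
  have h1 : PowerSeries.subst (PowerSeries.C u * PowerSeries.X ^ q : PowerSeries R) L =
      PowerSeries.subst (PowerSeries.X ^ q : PowerSeries R) (PowerSeries.rescale u L) := by
    rw [PowerSeries.rescale_eq_subst, PowerSeries.subst_comp_subst_apply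
      (PowerSeries.HasSubst.smul_X' u) (PowerSeries.HasSubst.X_pow hq),
      PowerSeries.subst_smul (PowerSeries.HasSubst.X_pow hq),
      PowerSeries.subst_X (PowerSeries.HasSubst.X_pow hq), PowerSeries.smul_eq_C_mul]
  rw [h1, PowerSeries.coeff_subst_X_pow hq, PowerSeries.coeff_rescale]
  simp

theorem list_sum_range {M : Type*} [AddCommMonoid M] (f : ℕ → M) (n : ℕ) :
    ((List.range n).map f).sum = ∑ i ∈ Finset.range n, f i := by
  induction n with
  | zero => simp
  | succ n ih => rw [List.range_succ, List.map_append, List.sum_append, ih, Finset.sum_range_succ]; simp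

/-- `p L(X) = ∑ L(x_i X^{p^i}) + p X`. -/
theorem p_mul_logAt (n : ℕ) (x : ℕ → B) :
    (p : PowerSeries B) * logAt p n x =
      ((List.range n).map fun i => PowerSeries.subst
        (PowerSeries.C (x (i + 1)) * PowerSeries.X ^ p ^ (i + 1) : PowerSeries B)
          (logAt p n x)).sum + PowerSeries.C (p : B) * PowerSeries.X := by
  have hp : p.Prime := Fact.out
  have hsum : ((List.range n).map fun i => PowerSeries.subst
        (PowerSeries.C (x (i + 1)) * PowerSeries.X ^ p ^ (i + 1) : PowerSeries B)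
          (logAt p n x)).sum = ∑ i ∈ Finset.range n, PowerSeries.subst
        (PowerSeries.C (x (i + 1)) * PowerSeries.X ^ p ^ (i + 1) : PowerSeries B)
          (logAt p n x) := by
    exact list_sum_range _ n
  rw [hsum]
  ext1 m
  have hpC : (p : PowerSeries B) = PowerSeries.C (p : B) := by simp
  rw [hpC, PowerSeries.coeff_C_mul, map_add, PowerSeries.coeff_C_mul, map_sum, PowerSeries.coeff_X]
  simp only [coeff_psubst_C_mul_X_pow _ _ (pow_ne_zero _ hp.ne_zero)]
  by_cases hm : ∃ k, m = p ^ k
  · obtain ⟨k, rfl⟩ := hm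
    rcases k with _ | k
    · rw [pow_zero, if_pos rfl, coeff_one_logAt, Finset.sum_eq_zero, zero_add]
      intro i _
      rw [if_neg]
      rw [Nat.dvd_one]
      exact (Nat.one_lt_pow (by omega) hp.one_lt).ne'
    · rw [if_neg (Nat.one_lt_pow (by omega) hp.one_lt).ne', mul_zero, add_zero, logAt,
        FEAux.coeff_pow_pSeries, hle_succ]
      have e1 : ∀ i ∈ Finset.range n, (if p ^ (i + 1) ∣ p ^ (k + 1) then
          x (i + 1) ^ (p ^ (k + 1) / p ^ (i + 1)) *
            PowerSeries.coeff (p ^ (k + 1) / p ^ (i + 1)) (pSeries p (hle p n x)) else 0) =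
          if i + 1 ≤ k + 1 then hle p n x (k - i) * x (i + 1) ^ p ^ (k - i) else 0 := by
        intro i _
        by_cases hik : i + 1 ≤ k + 1
        · rw [if_pos (pow_dvd_pow p hik), if_pos hik, Nat.pow_div hik hp.pos,
            Nat.add_sub_add_right, FEAux.coeff_pow_pSeries, mul_comm]
        · rw [if_neg, if_neg hik]
          rwa [Nat.pow_dvd_pow_iff_le_right hp.one_lt]
      rw [Finset.sum_congr rfl e1, ← Finset.sum_filter, ← Finset.sum_filter]
      refine Finset.sum_congr ?_ fun _ _ => rfl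
      ext i
      simp only [Finset.mem_filter, Finset.mem_range]
      omega
  · have hm' : ∀ k, m ≠ p ^ k := fun k h => hm ⟨k, h⟩
    rw [logAt, FEAux.coeff_pSeries_of_forall_ne _ _ hm', mul_zero,
      if_neg (by simpa using hm' 0), mul_zero, add_zero, Finset.sum_eq_zero]
    intro i _
    split_ifs with h
    · rw [FEAux.coeff_pSeries_of_forall_ne, mul_zero]
      intro k hk
      apply hm' (k + (i + 1))
      rw [pow_add, ← hk, Nat.div_mul_cancel h]
    · rfl

section mulSeries

attribute [local instance] MvPolynomial.algebraMvPolynomial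

theorem cc_terms {R : Type*} [CommRing R] (x : ℕ → R) (n : ℕ) :
    ∀ a ∈ ((List.range n).map fun i =>
      (PowerSeries.C (x (i + 1)) * PowerSeries.X ^ p ^ (i + 1) : PowerSeries R)),
      MvPowerSeries.constantCoeff a = 0 := by
  intro a ha
  rw [List.mem_map] at ha
  obtain ⟨i, _, rfl⟩ := ha
  change PowerSeries.constantCoeff (PowerSeries.C (x (i + 1)) * PowerSeries.X ^ p ^ (i + 1)) = 0
  rw [map_mul, map_pow, PowerSeries.constantCoeff_X, zero_pow
    (pow_ne_zero _ (Fact.out : p.Prime).ne_zero), mul_zero]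

omit [Fact (Nat.Prime p)] in
theorem map_terms {R S : Type*} [CommRing R] [CommRing S] (f : R →+* S) (x : ℕ → R) (n : ℕ) :
    ((List.range n).map fun i =>
      (PowerSeries.C (x (i + 1)) * PowerSeries.X ^ p ^ (i + 1) : PowerSeries R)).map
        (MvPowerSeries.map f) = ((List.range n).map fun i =>
      (PowerSeries.C (f (x (i + 1))) * PowerSeries.X ^ p ^ (i + 1) : PowerSeries S)) := by
  rw [List.map_map]
  refine List.map_congr_left fun i _ => ?_
  change PowerSeries.map f (PowerSeries.C (x (i + 1)) * PowerSeries.X ^ p ^ (i + 1)) = _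
  rw [map_mul, map_pow, PowerSeries.map_C, PowerSeries.map_X]

theorem mulSeries_hzU (n : ℕ) : ∃ c : PowerSeries (MvPolynomial ℕ ℤ),
    mulSeries (hz p n (MvPolynomial.X : ℕ → MvPolynomial ℕ ℤ)) p =
      fsum (hz p n (MvPolynomial.X : ℕ → MvPolynomial ℕ ℤ)) ((List.range n).map fun i =>
        (PowerSeries.C (MvPolynomial.X (i + 1) : MvPolynomial ℕ ℤ) *
          PowerSeries.X ^ p ^ (i + 1) : PowerSeries (MvPolynomial ℕ ℤ))) +
      C (p : MvPolynomial ℕ ℤ) * c := by
  have hinj : Function.Injective (algebraMap (MvPolynomial ℕ ℤ) (MvPolynomial ℕ ℚ)) :=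
    (FEAux.frobU p).inj
  refine congr_of_log_congr (p := p) (B := MvPolynomial ℕ ℚ) n MvPolynomial.X hinj _ _
    PowerSeries.X (cc_fsum _ _ (cc_terms p _ n)) (cc_mulSeries _ _) ?_
  rw [map_mulSeries', map_fsum _ _ _ (cc_terms p _ n), map_terms, hz_map]
  generalize hy : (fun i => algebraMap (MvPolynomial ℕ ℤ) (MvPolynomial ℕ ℚ)
    (MvPolynomial.X i : MvPolynomial ℕ ℤ)) = y
  have hy' : ∀ i, algebraMap (MvPolynomial ℕ ℤ) (MvPolynomial ℕ ℚ)
    (MvPolynomial.X i : MvPolynomial ℕ ℤ) = y i := fun i => congrFun hy i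
  simp only [hy']
  refine (log_mulSeries (constantCoeff_logAt p n y) (log_hz p n y) p).trans ?_
  refine Eq.trans ?_ (congrArg₂ (· + ·) (log_fsum (constantCoeff_logAt p n y)
    (log_hz p n y) _ (cc_terms p y n)).symm rfl)
  rw [p_mul_logAt, List.map_map, map_mul, map_C]
  refine congrArg₂ (· + ·) rfl (congrArg₂ (· * ·) ?_ ?_)
  · rw [map_natCast (algebraMap (MvPolynomial ℕ ℤ) (MvPolynomial ℕ ℚ))]
    rfl
  · exact (MvPowerSeries.map_X _ _).symm

end mulSeries

end FEAux

/-- In characteristic `p`, `[p](X) = ∑^F x_i X^{p^i}`. -/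
theorem mulSeries_hz (n : ℕ) {R : Type*} [CommRing R] [CharP R p] (x : ℕ → R) :
    mulSeries (hz p n x) p = fsum (hz p n x) ((List.range n).map fun i =>
      (PowerSeries.C (x (i + 1)) * PowerSeries.X ^ p ^ (i + 1) : PowerSeries R)) := by
  obtain ⟨c, hc⟩ := FEAux.mulSeries_hzU p n
  have h := congrArg (MvPowerSeries.map (MvPolynomial.eval₂Hom (Int.castRingHom R) x)) hc
  rw [FEAux.map_mulSeries', map_add, map_mul, map_C, map_natCast, CharP.cast_eq_zero, map_zero, zero_mul,
    add_zero, FEAux.map_fsum _ _ _ (FEAux.cc_terms p _ n), FEAux.map_terms, hz_map] at h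
  simpa using h

/-- The series `V` with `[p](X) = V(X^{p^h})` when `x i = 0` for `i < h`. -/
def Vs (n h : ℕ) {R : Type*} [CommRing R] (x : ℕ → R) : PowerSeries R :=
  fsum (hz p n x) ((List.range (n - h + 1)).map fun i =>
    (PowerSeries.C (x (h + i)) * PowerSeries.X ^ p ^ i : PowerSeries R))

namespace FEAux

theorem hle_sp (n h : ℕ) (hh : 1 ≤ h) (k : ℕ) (hk : ¬ h ∣ k) :
    hle p n (sp h : ℕ → B) k = 0 := by
  have hp : p.Prime := Fact.out
  induction k using Nat.strong_induction_on with
  | _ k ih =>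
    rcases k with _ | k
    · exact absurd (dvd_zero h) hk
    · have h1 := hle_succ (p := p) n (sp h : ℕ → B) k
      have h2 : (p : B) * hle p n (sp h : ℕ → B) (k + 1) = 0 := by
        rw [h1]
        refine Finset.sum_eq_zero fun i hi => ?_
        rw [Finset.mem_range] at hi
        by_cases hih : i + 1 = h
        · rw [ih (k - i) (by omega), zero_mul, ite_self]
          intro hd
          apply hk
          have : k + 1 = (k - i) + h := by omega
          rw [this]
          exact dvd_add hd dvd_rfl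
        · rw [sp, if_neg hih, zero_pow (pow_ne_zero _ hp.ne_zero), mul_zero, ite_self]
      have h4 : (algebraMap ℚ B) ((p : ℚ)⁻¹) * (p : B) = 1 := by
        rw [← map_natCast (algebraMap ℚ B), ← map_mul, inv_mul_cancel₀, map_one]
        exact Nat.cast_ne_zero.mpr hp.ne_zero
      have h5 := congrArg (fun z => (algebraMap ℚ B) ((p : ℚ)⁻¹) * z) h2
      simpa only [← mul_assoc, h4, one_mul, mul_zero] using h5

omit [Fact p.Prime] in
theorem pow_pow_eq {R : Type*} [CommRing R] (h : ℕ) (ω : R) (hω : ω ^ p ^ h = ω) (m : ℕ) :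
    ω ^ p ^ (h * m) = ω := by
  induction m with
  | zero => simp
  | succ m ih => rw [Nat.mul_succ, pow_add, pow_mul, ih, hω]

theorem rescale_logAt_sp (n h : ℕ) (hh : 1 ≤ h) (ω : B) (hω : ω ^ p ^ h = ω) :
    PowerSeries.rescale ω (logAt p n (sp h : ℕ → B)) =
      PowerSeries.C ω * logAt p n (sp h : ℕ → B) := by
  ext1 m
  rw [PowerSeries.coeff_rescale, PowerSeries.coeff_C_mul]
  by_cases hm : ∃ k, m = p ^ k
  · obtain ⟨k, rfl⟩ := hm
    rw [logAt, FEAux.coeff_pow_pSeries]
    by_cases hk : h ∣ k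
    · obtain ⟨j, rfl⟩ := hk
      rw [pow_pow_eq p h ω hω]
    · rw [hle_sp p n h hh k hk, mul_zero, mul_zero]
  · have hm' : ∀ k, m ≠ p ^ k := fun k h => hm ⟨k, h⟩
    rw [logAt, FEAux.coeff_pSeries_of_forall_ne _ _ hm', mul_zero, mul_zero]

theorem psubst_C_mul {R : Type*} [CommRing R] {τ : Type*} (L : PowerSeries R) (ω : R)
    (hL : PowerSeries.rescale ω L = PowerSeries.C ω * L) (a : MvPowerSeries τ R)
    (ha : constantCoeff a = 0) :
    PowerSeries.subst (C ω * a) L = C ω * PowerSeries.subst a L := by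
  have hs := FEAux.hs ha
  have h1 : PowerSeries.subst a (PowerSeries.rescale ω L) = PowerSeries.subst (C ω * a) L := by
    rw [PowerSeries.rescale_eq_subst, PowerSeries.subst_comp_subst_apply
      (PowerSeries.HasSubst.smul_X' ω) hs,
      PowerSeries.subst_smul hs, PowerSeries.subst_X hs, smul_eq_C_mul]
  rw [← h1, hL, PowerSeries.subst_mul hs, PowerSeries.subst_C]

theorem hz_sp_smul_rat (n h : ℕ) (hh : 1 ≤ h) (ω : B) (hω : ω ^ p ^ h = ω) :
    (hz p n (sp h : ℕ → B)).toPowerSeries.subst
      ![C ω * X 0, (C ω * X 1 : MvPowerSeries (Fin 2) B)] =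
      C ω * (hz p n (sp h : ℕ → B)).toPowerSeries := by
  have hL := rescale_logAt_sp p n h hh ω hω
  have c0 : ∀ i : Fin 2, constantCoeff (C ω * X i : MvPowerSeries (Fin 2) B) = 0 := fun i => by simp
  have cF := (hz p n (sp h : ℕ → B)).zero_constantCoeff
  refine FEAux.psubst_inj (constantCoeff_logAt p n (sp h)) (coeff_one_logAt p n (sp h))
    (FEAux.cc_subst2 cF (c0 0) (c0 1)) (by rw [map_mul, cF, mul_zero]) ?_
  rw [FEAux.log_subst cF (log_hz p n _) (c0 0) (c0 1), psubst_C_mul _ _ hL _ (by simp),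
    psubst_C_mul _ _ hL _ (by simp), psubst_C_mul _ _ hL _ cF, log_hz, mul_add]

theorem coeff_subst_C_mul {R : Type*} [CommRing R] (ω : R) (F : MvPowerSeries (Fin 2) R)
    (e : Fin 2 →₀ ℕ) :
    coeff e (F.subst ![C ω * X 0, (C ω * X 1 : MvPowerSeries (Fin 2) R)]) =
      ω ^ e.degree * coeff e F := by
  have h1 : (![C ω * X 0, (C ω * X 1 : MvPowerSeries (Fin 2) R)] : Fin 2 → MvPowerSeries (Fin 2) R)
      = (fun _ => ω : Fin 2 → R) • (X : Fin 2 → MvPowerSeries (Fin 2) R) := by
    ext1 i
    fin_cases i <;> simp [smul_eq_C_mul]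
  rw [h1, ← rescale_eq_subst, coeff_rescale]
  congr 1
  rw [Finsupp.prod, Finset.prod_pow_eq_pow_sum]
  rfl

/-- over `ℤ`, only monomials of degree `≡ 1 mod p^h - 1` occur -/
theorem degree_modEq (n h : ℕ) (hh : 1 ≤ h) (e : Fin 2 →₀ ℕ)
    (he : coeff e (hz p n (sp h : ℕ → ℤ)).toPowerSeries ≠ 0) :
    e.degree ≡ 1 [MOD p ^ h - 1] := by
  have hp : p.Prime := Fact.out
  have hq : 1 < p ^ h := Nat.one_lt_pow (by omega) hp.one_lt
  have hprim := Complex.isPrimitiveRoot_exp (p ^ h - 1) (by omega)
  set ω := Complex.exp (2 * Real.pi * Complex.I / ((p ^ h - 1 : ℕ) : ℂ)) with hωdef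
  have hω : ω ^ p ^ h = ω := by
    have : p ^ h = (p ^ h - 1) + 1 := by omega
    rw [this, pow_succ, hprim.pow_eq_one, one_mul]
  have h1 := congrArg (coeff e) (hz_sp_smul_rat p n h hh ω hω)
  have h2 : (hz p n (sp h : ℕ → ℂ)) = (hz p n (sp h : ℕ → ℤ)).map (Int.castRingHom ℂ) := by
    rw [hz_map]
    congr 1
    ext1 i
    simp only [sp]
    split_ifs <;> simp
  rw [coeff_subst_C_mul, coeff_C_mul, h2, FormalGroup.map_toPowerSeries, coeff_map] at h1
  have h3 : (Int.castRingHom ℂ) (coeff e (hz p n (sp h : ℕ → ℤ)).toPowerSeries) ≠ 0 := by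
    simpa using he
  have h4 := mul_right_cancel₀ h3 h1
  rw [hprim.eq_orderOf, ← (hprim.isOfFinOrder (by omega)).pow_eq_pow_iff_modEq, pow_one]
  exact h4

end FEAux

/-- multiplication by `ω` with `ω^{p^n-1} = 1` is an endomorphism of the Honda law:
`F(ωX, ωY) = ω F(X,Y)` for `x = sp n`; more generally for `sp h` and `ω ^ p ^ h = ω`. -/
theorem hz_sp_smul (n h : ℕ) (hh : 1 ≤ h) {R : Type*} [CommRing R] (ω : R)
    (hω : ω ^ p ^ h = ω) :
    (hz p n (sp h : ℕ → R)).toPowerSeries.subst
      ![C ω * X 0, (C ω * X 1 : MvPowerSeries (Fin 2) R)] =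
      C ω * (hz p n (sp h : ℕ → R)).toPowerSeries := by
  have hp : p.Prime := Fact.out
  have hq : 1 < p ^ h := Nat.one_lt_pow (by omega) hp.one_lt
  have h2 : (hz p n (sp h : ℕ → R)) = (hz p n (sp h : ℕ → ℤ)).map (Int.castRingHom R) := by
    rw [hz_map]
    congr 1
    ext1 i
    simp only [sp]
    split_ifs <;> simp
  ext e
  rw [FEAux.coeff_subst_C_mul, coeff_C_mul, h2, FormalGroup.map_toPowerSeries, coeff_map]
  by_cases he : coeff e (hz p n (sp h : ℕ → ℤ)).toPowerSeries = 0
  · rw [he, map_zero, mul_zero, mul_zero]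
  · congr 1
    have hm := FEAux.degree_modEq p n h hh e he
    have he0 : e.degree ≠ 0 := by
      intro h0
      rw [Finsupp.degree_eq_zero_iff] at h0
      rw [h0, coeff_zero_eq_constantCoeff_apply] at he
      exact he (hz p n (sp h : ℕ → ℤ)).zero_constantCoeff
    obtain ⟨m, hm⟩ := (Nat.modEq_iff_dvd' (by omega : 1 ≤ e.degree)).mp hm.symm
    have hdeg : e.degree = 1 + (p ^ h - 1) * m := by omega
    rw [hdeg]
    clear hdeg hm
    induction m with
    | zero => simp
    | succ m ih =>
      rw [Nat.mul_succ, ← add_assoc, pow_add, ih, ← pow_succ']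
      have : p ^ h - 1 + 1 = p ^ h := by omega
      rw [this, hω]

end Crest.Agent.R227
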