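import Crest.Agent.R227.TopDefs
import Crest.Agent.R227.LTComplete
import Crest.Agent.R227.PtData
import Crest.Agent.R227.FG2
import Crest.Agent.R227.FE
import Crest.Agent.R227.ExStab
import Crest.Agent.R227.EasyAux2
import Crest.Agent.R227.D0Cont
import Crest.Agent.R227.D0Per
import Crest.Agent.R227.Ball
import Crest.Agent.R227.D0Lin
import Crest.Agent.R227.D0Tay
import Crest.Agent.R227.Easy

-- ▼ part R227/Points0
section

/-!
# R227 / Points0 (task POINTS0)
-/

set_option autoImplicit false

noncomputable section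

namespace Crest.Agent.R227

open Crest.LubinTate MvPowerSeries Topology

variable (p : ℕ) [Fact p.Prime] (n : ℕ)

instance finite_residueField_LTRing : Finite (IsLocalRing.ResidueField (LTRing p n)) := by
  have h1 : Finite (LTRing p n ⧸ RingHom.ker (LTRing.residue p n)) :=
    Finite.of_injective _ (RingHom.kerLift_injective (LTRing.residue p n))
  rw [ker_residue] at h1
  exact h1

instance isAdicComplete_padicInt : IsAdicComplete (Ideal.span {(p : ℤ_[p])}) ℤ_[p] := by
  rw [← PadicInt.maximalIdeal_eq_span_p]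
  infer_instance

/-- the map `ℤ_p → E₀` -/
def zpTo : ℤ_[p] →+* LTRing p n :=
  (algebraMap (WittVector p (GaloisField p n)) (LTRing p n)).comp
    ((WittVector.map (algebraMap (ZMod p) (GaloisField p n))).comp
      (WittVector.equiv p).symm.toRingHom)

theorem zpTo_p : zpTo p n (p : ℤ_[p]) = (p : LTRing p n) := map_natCast _ _

theorem residue_p : LTRing.residue p n (p : LTRing p n) = 0 := by
  rw [map_natCast]
  exact CharP.cast_eq_zero _ p

/-- Characteristic zero points. -/
theorem exists_point_zero (hn : 1 ≤ n) (J : Ideal (LTRing p n)) (hJ : J.IsRadical)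
    (hp : (p : LTRing p n) ∉ J) :
    ∃ X : LTRing p n →+* Ob ℂ_[p], (∀ a ∈ J, X a = 0) ∧
      ∀ a, LTRing.residue p n a = 0 → ‖X a‖ < 1 := by
  have hnorm : ∀ r : ℤ_[p], ‖algebraMap ℚ_[p] ℂ_[p] (r : ℚ_[p])‖ = ‖r‖ := by
    intro r
    have := PadicComplex.norm_extends' p (r : ℚ_[p])
    rw [PadicInt.norm_def]
    exact this
  obtain ⟨X, hX1, hX2, hX3, hX4⟩ := PtAux.point_of_data J (R := ℤ_[p]) (p : ℤ_[p])
    (fun r hr => ⟨r.valuation, (PadicInt.unitCoeff hr)⁻¹.1, by
      conv_lhs => rw [← mul_one ((p : ℤ_[p]) ^ _)]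
      nth_rw 2 [PadicInt.unitCoeff_spec hr]
      rw [mul_comm ((PadicInt.unitCoeff hr : ℤ_[p])) _, mul_assoc, Units.mul_inv]⟩)
    (zpTo p n) (by
      rw [zpTo_p, ← residue_eq_zero_iff]
      exact residue_p p n)
    (fun N h => by
      rw [zpTo_p] at h
      exact hp (hJ ⟨N, h⟩))
    (K := ℂ_[p]) ((algebraMap ℚ_[p] ℂ_[p]).comp PadicInt.Coe.ringHom)
    (by
      refine (algebraMap ℚ_[p] ℂ_[p]).injective.comp ?_
      intro a b h
      exact PadicInt.ext h)
    (fun r => by
      rw [RingHom.comp_apply]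
      exact (hnorm r).trans_le (PadicInt.norm_le_one r))
    (by
      rw [RingHom.comp_apply]
      refine (hnorm _).trans_lt ?_
      rw [PadicInt.norm_p]
      exact inv_lt_one_of_one_lt₀ (by exact_mod_cast (Fact.out : p.Prime).one_lt))
  refine ⟨X.codRestrict (Ob ℂ_[p]) hX3, fun a ha => Subtype.ext (hX1 a ha), fun a ha => ?_⟩
  exact hX4 a ((residue_eq_zero_iff p n a).1 ha)

end Crest.Agent.R227
end
end

-- ▼ part R227/D0Eq
section

/-!
# R227 / D0Eq : comparison of logarithms along a homomorphism congruent to `X + ω X^{p^i}`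
-/

set_option autoImplicit false

noncomputable section

namespace Crest.Agent.R227

open Crest.LubinTate MvPowerSeries Topology

variable {p : ℕ} [Fact p.Prime]

namespace D0Eq

theorem cc_one {B : Type*} [CommRing B] {f : PowerSeries B}
    (h : PowerSeries.constantCoeff f = 0) : MvPowerSeries.constantCoeff (σ := Unit) f = 0 := h

/-- an additive series over a `ℚ`-algebra without linear term is zero -/
theorem additive_eq_zero {B : Type*} [CommRing B] [Algebra ℚ B] (ν : PowerSeries B)
    (h0 : PowerSeries.constantCoeff ν = 0) (h1 : PowerSeries.coeff 1 ν = 0)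
    (h : PowerSeries.subst ((2 : B) • (PowerSeries.X : PowerSeries B)) ν = ν + ν) : ν = 0 := by
  rw [← PowerSeries.rescale_eq_subst] at h
  ext1 m
  have hm := congrArg (PowerSeries.coeff m) h
  rw [PowerSeries.coeff_rescale, map_add] at hm
  rw [map_zero]
  rcases m with _ | _ | m
  · simpa using h0
  · exact h1
  · have h2 : ((2 : B) ^ (m + 1 + 1) - 2) * PowerSeries.coeff (m + 1 + 1) ν = 0 := by
      rw [sub_mul, hm]; ring
    have h3 : (algebraMap ℚ B ((2 ^ (m + 1 + 1) - 2 : ℚ)⁻¹)) * ((2 : B) ^ (m + 1 + 1) - 2) = 1 := by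
      have : ((2 : B) ^ (m + 1 + 1) - 2) = algebraMap ℚ B (2 ^ (m + 1 + 1) - 2 : ℚ) := by
        rw [map_sub, map_pow, map_ofNat]
      rw [this, ← map_mul, inv_mul_cancel₀, map_one]
      have h4 : (2 : ℚ) < 2 ^ (m + 1 + 1) := by
        calc (2 : ℚ) = 2 ^ 1 := by norm_num
          _ < 2 ^ (m + 1 + 1) := pow_lt_pow_right₀ (by norm_num) (by omega)
      exact ne_of_gt (by linarith)
    calc PowerSeries.coeff (m + 1 + 1) ν
        = (algebraMap ℚ B ((2 ^ (m + 1 + 1) - 2 : ℚ)⁻¹)) *
          (((2 : B) ^ (m + 1 + 1) - 2) * PowerSeries.coeff (m + 1 + 1) ν) := by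
            rw [← mul_assoc, h3, one_mul]
      _ = 0 := by rw [h2, mul_zero]

end D0Eq

/-- uniqueness of the logarithm: `log_G ∘ ψ = ψ'(0) log_F` for a homomorphism `ψ : F → G` over a
`ℚ`-algebra, when `log_F`, `log_G` are additive for `F`, `G` and have linear coefficient `1`. -/
theorem log_hom {B : Type*} [CommRing B] [Algebra ℚ B] (F G : FormalGroup B) (ψ : PowerSeries B)
    (hψ : IsFGHom F G ψ) (lF lG : PowerSeries B) (hF1 : PowerSeries.coeff 1 lF = 1)
    (hG1 : PowerSeries.coeff 1 lG = 1) (hF0 : PowerSeries.constantCoeff lF = 0)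
    (hG0 : PowerSeries.constantCoeff lG = 0)
    (hF : PowerSeries.subst F.toPowerSeries lF =
      PowerSeries.subst (X 0 : MvPowerSeries (Fin 2) B) lF +
        PowerSeries.subst (X 1 : MvPowerSeries (Fin 2) B) lF)
    (hG : PowerSeries.subst G.toPowerSeries lG =
      PowerSeries.subst (X 0 : MvPowerSeries (Fin 2) B) lG +
        PowerSeries.subst (X 1 : MvPowerSeries (Fin 2) B) lG) :
    PowerSeries.subst ψ lG = PowerSeries.C (PowerSeries.coeff 1 ψ) * lF := by
  have hFc : constantCoeff F.toPowerSeries = 0 := F.zero_constantCoeff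
  have hGc : constantCoeff G.toPowerSeries = 0 := G.zero_constantCoeff
  have hψ0 := hψ.1
  -- the inverse of `lF`
  have hinv : Invertible (PowerSeries.coeff 1 lF) := hF1 ▸ invertibleOne
  set e : PowerSeries B := lF.substInv with he
  have he0 : MvPowerSeries.constantCoeff (σ := Unit) e = 0 := PowerSeries.constantCoeff_substInv _
  have hle : PowerSeries.subst e lF = PowerSeries.X := PowerSeries.subst_substInv_right _ hF0
  have hel : PowerSeries.subst lF e = PowerSeries.X := PowerSeries.subst_substInv_left _ hF0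
  -- the two-fold sum
  set s : PowerSeries B := fadd F e e with hs
  have hs0 : MvPowerSeries.constantCoeff (σ := Unit) s = 0 := constantCoeff_fadd F e e he0 he0
  have hls : PowerSeries.subst s lF = (PowerSeries.X + PowerSeries.X : PowerSeries B) := by
    rw [hs, fadd]
    refine (FEAux.log_subst hFc hF he0 he0).trans ?_
    rw [hle]
  have h2X : MvPowerSeries.constantCoeff (σ := Unit) ((2 : B) • (PowerSeries.X : PowerSeries B)) = 0 := by
    change PowerSeries.constantCoeff ((2 : B) • (PowerSeries.X : PowerSeries B)) = 0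
    simp
  have hse : s = PowerSeries.subst ((2 : B) • (PowerSeries.X : PowerSeries B)) e := by
    refine FEAux.psubst_inj hF0 hF1 hs0 (constantCoeff_psubst h2X he0) ?_
    rw [hls, ← psubst_psubst he0 h2X, hle, psubst_X h2X]
    simp [two_smul]
  -- the difference
  set μ : PowerSeries B := PowerSeries.subst ψ lG - PowerSeries.C (PowerSeries.coeff 1 ψ) * lF with hμ
  have hμ0 : PowerSeries.constantCoeff μ = 0 := by
    rw [hμ, map_sub, map_mul, hF0, mul_zero, sub_zero]
    exact constantCoeff_psubst (D0Eq.cc_one hψ0) hG0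
  have hμs : ∀ {τ : Type} (a : MvPowerSeries τ B), constantCoeff a = 0 →
      PowerSeries.subst a μ = PowerSeries.subst (PowerSeries.subst a ψ) lG -
        C (PowerSeries.coeff 1 ψ) * PowerSeries.subst a lF := by
    intro τ a ha
    have hsub := PowerSeries.HasSubst.of_constantCoeff_zero ha
    rw [hμ, PowerSeries.subst_sub hsub, psubst_psubst hψ0 ha, PowerSeries.subst_mul hsub,
      PowerSeries.subst_C]
  have hμadd : PowerSeries.subst s μ = PowerSeries.subst e μ + PowerSeries.subst e μ := by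
    rw [hμs s hs0, hμs e he0, hls, hle, hs, IsFGHom.subst_fadd hψ e e he0 he0, fadd,
      FEAux.log_subst hGc hG (constantCoeff_psubst he0 hψ0) (constantCoeff_psubst he0 hψ0)]
    ring
  set ν : PowerSeries B := PowerSeries.subst e μ with hν
  have hν0 : PowerSeries.constantCoeff ν = 0 := constantCoeff_psubst he0 hμ0
  have hν2 : PowerSeries.subst ((2 : B) • (PowerSeries.X : PowerSeries B)) ν = ν + ν := by
    rw [← hμadd, hν, psubst_psubst he0 h2X, ← hse]
  have hc1 : ∀ (L a : PowerSeries B), PowerSeries.constantCoeff a = 0 →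
      PowerSeries.coeff 1 (PowerSeries.subst a L) = PowerSeries.coeff 1 L * PowerSeries.coeff 1 a := by
    intro L a ha
    exact FEAux.coeff_single_psubst L (D0Eq.cc_one ha) ()
  have hν1 : PowerSeries.coeff 1 ν = 0 := by
    rw [hν, hc1 _ _ he0, hμ, map_sub, hc1 _ _ hψ0, PowerSeries.coeff_C_mul, hF1, hG1]
    ring
  have hνz := D0Eq.additive_eq_zero ν hν0 hν1 hν2
  have hμz : μ = 0 := by
    have h1 : PowerSeries.subst lF ν = μ := by
      rw [hν, psubst_psubst he0 (D0Eq.cc_one hF0), hel]
      exact PowerSeries.X_subst μ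
    rw [← h1, hνz, psubst_zero _ (D0Eq.cc_one hF0)]
  rwa [hμ, sub_eq_zero] at hμz


variable {K : Type*} [NontriviallyNormedField K] [IsUltrametricDist K] [Algebra ℚ K]

namespace D0Eq

/-- the closed ball ideal -/
def cball (K : Type*) [NormedField K] [IsUltrametricDist K] (c : ℝ) (hc : 0 ≤ c) :
    Ideal (Ob K) where
  carrier := {x | ‖(x : K)‖ ≤ c}
  add_mem' := by
    intro a b ha hb
    simp only [Set.mem_ofPred_eq, Subring.coe_add] at *
    exact (IsUltrametricDist.norm_add_le_max _ _).trans (max_le ha hb)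
  zero_mem' := by simpa using hc
  smul_mem' := by
    intro a x hx
    simp only [Set.mem_ofPred_eq, smul_eq_mul, Subring.coe_mul, norm_mul] at *
    have ha : ‖(a : K)‖ ≤ 1 := a.2
    calc ‖(a : K)‖ * ‖(x : K)‖ ≤ 1 * ‖(x : K)‖ := by gcongr
      _ = ‖(x : K)‖ := one_mul _
      _ ≤ c := hx

omit [Algebra ℚ K] in
/-- ultrametric bound for the coefficients of a product -/
theorem norm_coeff_mul_le {τ : Type*} {a b : MvPowerSeries τ K} {u v : ℝ} (hu : 0 ≤ u)
    (ha : ∀ d, ‖coeff d a‖ ≤ u) (hb : ∀ d, ‖coeff d b‖ ≤ v) (hv : 0 ≤ v) (d : τ →₀ ℕ) :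
    ‖coeff d (a * b)‖ ≤ u * v := by
  classical
  rw [coeff_mul]
  refine IsUltrametricDist.norm_sum_le_of_forall_le_of_nonneg (mul_nonneg hu hv) fun x _ => ?_
  rw [norm_mul]
  exact mul_le_mul (ha _) (hb _) (norm_nonneg _) hu

omit [Algebra ℚ K] in
theorem norm_coeff_pow_le {τ : Type*} {a : MvPowerSeries τ K} {u : ℝ} (hu : 0 ≤ u)
    (ha : ∀ d, ‖coeff d a‖ ≤ u) (k : ℕ) (d : τ →₀ ℕ) :
    ‖coeff d (a ^ k)‖ ≤ u ^ k := by
  classical
  induction k generalizing d with
  | zero =>
    rw [pow_zero, pow_zero, coeff_one]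
    split_ifs <;> simp
  | succ k ih =>
    rw [pow_succ, pow_succ]
    exact norm_coeff_mul_le (pow_nonneg hu _) ih ha hu d

/-- `r^j c^{p^j}` is bounded -/
theorem exists_bound (p : ℕ) (hp : 2 ≤ p) (r c : ℝ) (hr : 0 ≤ r) (hc0 : 0 ≤ c) (hc : c < 1) :
    ∃ B : ℝ, 0 ≤ B ∧ ∀ j : ℕ, r ^ j * c ^ p ^ j ≤ B := by
  obtain ⟨k, hk⟩ : ∃ k : ℕ, r ≤ (p : ℝ) ^ k := by
    obtain ⟨k, hk⟩ := pow_unbounded_of_one_lt r (show (1 : ℝ) < p by exact_mod_cast hp)
    exact ⟨k, hk.le⟩
  have ht := tendsto_pow_const_mul_const_pow_of_abs_lt_one k (r := c) (by rwa [abs_of_nonneg hc0])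
  obtain ⟨B, hB⟩ := ht.bddAbove_range
  have hB' : ∀ n : ℕ, (n : ℝ) ^ k * c ^ n ≤ B := fun n => hB ⟨n, rfl⟩
  refine ⟨max B 0, le_max_right _ _, fun j => le_trans ?_ (le_max_left _ _)⟩
  calc r ^ j * c ^ p ^ j ≤ ((p : ℝ) ^ k) ^ j * c ^ p ^ j := by gcongr
    _ = ((p ^ j : ℕ) : ℝ) ^ k * c ^ (p ^ j) := by
        push_cast; rw [← pow_mul, ← pow_mul, mul_comm k j]
    _ ≤ B := hB' _

end D0Eq

/-- If `ψ : F_y → F_x` is a homomorphism over the unit ball and
`ψ ≡ X +_{F_x} ω X^{p^i} mod c` with `c < 1`, then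
`ψ'(0) l_k(y) = l_k(x) + ω^{p^{k-i}} l_{k-i}(x) + O(1)`. -/
theorem coeff_rel {n : ℕ} (hn : 1 ≤ n) (hp : ‖(p : K)‖ < 1) {c : ℝ} (hc0 : 0 ≤ c) (hc : c < 1)
    (x y : ℕ → Ob K) (hx : Adm n c (fun i => (x i : K))) (hy : Adm n c (fun i => (y i : K)))
    (ψ : PowerSeries (Ob K)) (hψ : IsFGHom (hz p n y) (hz p n x) ψ) (ω : Ob K) (i : ℕ)
    (hcong : ∀ d, ‖PowerSeries.coeff d ψ - PowerSeries.coeff d
      (fadd (hz p n x) PowerSeries.X (PowerSeries.C ω * PowerSeries.X ^ p ^ i) :
        PowerSeries (Ob K))‖ ≤ c) :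
    ∃ B : ℝ, ∀ k, i ≤ k → ‖((PowerSeries.coeff 1 ψ : Ob K) : K) * hle p n (fun i => (y i : K)) k -
      hle p n (fun i => (x i : K)) k -
      hle p n (fun i => (x i : K)) (k - i) * (ω : K) ^ p ^ (k - i)‖ ≤ B := by
  have hp2 : 2 ≤ p := (Fact.out : p.Prime).two_le
  have hpi : p ^ i ≠ 0 := pow_ne_zero _ (by omega)
  set m : PowerSeries (Ob K) := PowerSeries.C ω * PowerSeries.X ^ p ^ i with hm
  have hm0 : MvPowerSeries.constantCoeff (σ := Unit) m = 0 := by
    change PowerSeries.constantCoeff m = 0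
    rw [hm, map_mul, map_pow, PowerSeries.constantCoeff_X, zero_pow hpi, mul_zero]
  set g : PowerSeries (Ob K) := fadd (hz p n x) PowerSeries.X m with hg
  have hg0 : MvPowerSeries.constantCoeff (σ := Unit) g = 0 :=
    constantCoeff_fadd _ _ _ mvConstantCoeff_X hm0
  have hψ0 : MvPowerSeries.constantCoeff (σ := Unit) ψ = 0 := hψ.1
  set ε : PowerSeries (Ob K) := fadd (hz p n x) ψ (fneg (hz p n x) g) with hε
  have hng := constantCoeff_fneg (hz p n x) g hg0
  have hε0 : MvPowerSeries.constantCoeff (σ := Unit) ε = 0 := constantCoeff_fadd _ _ _ hψ0 hng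
  have hεI : ∀ d, coeff d ε ∈ D0Eq.cball K c hc0 := by
    rw [hε]
    rw [fsub_mem_iff (hz p n x) ψ g hψ0 hg0]
    intro d
    rw [map_sub]
    have := hcong (d ())
    have hd : d = Finsupp.single () (d ()) := by
      ext; simp
    rw [hd]
    exact this
  have hψe : fadd (hz p n x) g ε = ψ := by
    rw [fadd_comm _ g ε hg0 hε0, hε, fadd_assoc _ ψ _ g hψ0 hng hg0, fneg_fadd _ g hg0,
      fadd_zero _ ψ hψ0]
  -- everything over `K`
  set xK : ℕ → K := fun i => (x i : K) with hxK
  set yK : ℕ → K := fun i => (y i : K) with hyK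
  set ι : Ob K →+* K := (Ob K).subtype with hι
  have hmapx : (hz p n x).map ι = hz p n xK := hz_map p n ι x
  have hmapy : (hz p n y).map ι = hz p n yK := hz_map p n ι y
  have hψK : IsFGHom (hz p n yK) (hz p n xK) (PowerSeries.map ι ψ) := by
    rw [← hmapx, ← hmapy]
    exact IsFGHom.map ι hψ
  have hlog := log_hom (hz p n yK) (hz p n xK) (PowerSeries.map ι ψ) hψK (logAt p n yK)
    (logAt p n xK) (coeff_one_logAt n yK) (coeff_one_logAt n xK) (constantCoeff_logAt n yK)
    (constantCoeff_logAt n xK) (log_hz p n yK) (log_hz p n xK)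
  set mK : PowerSeries K := PowerSeries.C (ω : K) * PowerSeries.X ^ p ^ i with hmK
  have hmK' : MvPowerSeries.map ι m = mK := by
    change PowerSeries.map ι m = mK
    rw [hm, hmK, map_mul, map_pow, PowerSeries.map_X, PowerSeries.map_C]
    rfl
  have hmK0 : MvPowerSeries.constantCoeff (σ := Unit) mK = 0 := by
    rw [← hmK']; exact FEAux.cc_map hm0
  set εK : PowerSeries K := MvPowerSeries.map ι ε with hεK
  have hεK0 : MvPowerSeries.constantCoeff (σ := Unit) εK = 0 := FEAux.cc_map hε0
  have hεKn : ∀ d, ‖coeff d εK‖ ≤ c := by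
    intro d
    rw [hεK, coeff_map]
    exact hεI d
  have hgK : (MvPowerSeries.map ι g : PowerSeries K) = fadd (hz p n xK) PowerSeries.X mK := by
    rw [hg, map_fadd ι _ _ _ mvConstantCoeff_X hm0, hmapx, hmK']
    congr 1
    exact PowerSeries.map_X ι
  have hgK0 : MvPowerSeries.constantCoeff (σ := Unit) (MvPowerSeries.map ι g) = 0 :=
    FEAux.cc_map hg0
  have hψKe : PowerSeries.map ι ψ = fadd (hz p n xK) (MvPowerSeries.map ι g) εK := by
    rw [← hψe]
    change MvPowerSeries.map ι _ = _
    rw [map_fadd ι _ _ _ hg0 hε0, hmapx]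
  have hadd : ∀ a b : PowerSeries K, MvPowerSeries.constantCoeff (σ := Unit) a = 0 →
      MvPowerSeries.constantCoeff (σ := Unit) b = 0 →
      PowerSeries.subst (fadd (hz p n xK) a b : PowerSeries K) (logAt p n xK) =
        PowerSeries.subst a (logAt p n xK) + PowerSeries.subst b (logAt p n xK) := fun a b ha hb =>
    FEAux.log_subst (hz p n xK).zero_constantCoeff (log_hz p n xK) ha hb
  rw [PowerSeries.coeff_map, hψKe, hadd _ _ hgK0 hεK0, hgK, hadd _ _ mvConstantCoeff_X hmK0,
    PowerSeries.X_subst] at hlog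
  obtain ⟨B, hB0, hB⟩ := D0Eq.exists_bound p hp2 ‖(p : K)‖⁻¹ c (inv_nonneg.2 (norm_nonneg _)) hc0 hc
  refine ⟨B, fun k hk => ?_⟩
  have hco := congrArg (PowerSeries.coeff (p ^ k)) hlog
  rw [map_add, map_add, PowerSeries.coeff_C_mul] at hco
  have e1 : ∀ z : ℕ → K, PowerSeries.coeff (p ^ k) (logAt p n z) = hle p n z k := fun z =>
    FEAux.coeff_pow_pSeries _ _
  have e2 : PowerSeries.coeff (p ^ k) (PowerSeries.subst mK (logAt p n xK)) =
      hle p n xK (k - i) * (ω : K) ^ p ^ (k - i) := by
    rw [hmK, FEAux.coeff_psubst_C_mul_X_pow _ _ hpi, if_pos (pow_dvd_pow p hk),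
      Nat.pow_div hk (by omega), logAt, FEAux.coeff_pow_pSeries, mul_comm]
  rw [e1, e1, e2] at hco
  have e3 : ‖PowerSeries.coeff (p ^ k) (PowerSeries.subst εK (logAt p n xK))‖ ≤ B := by
    change ‖coeff (Finsupp.single () (p ^ k)) (PowerSeries.subst εK (pSeries p (hle p n xK)))‖ ≤ B
    rw [coeff_subst_pSeries _ hεK0 _ _ le_rfl]
    refine IsUltrametricDist.norm_sum_le_of_forall_le_of_nonneg hB0 fun j _ => ?_
    rw [norm_mul]
    refine le_trans (mul_le_mul (norm_hle_le hn hp hc.le hx j)
      (D0Eq.norm_coeff_pow_le hc0 hεKn _ _) (norm_nonneg _) (by positivity)) (hB j)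
  have e4 : ((PowerSeries.coeff 1 ψ : Ob K) : K) * hle p n yK k - hle p n xK k -
      hle p n xK (k - i) * (ω : K) ^ p ^ (k - i) =
      PowerSeries.coeff (p ^ k) (PowerSeries.subst εK (logAt p n xK)) := by
    have : ι (PowerSeries.coeff 1 ψ) = ((PowerSeries.coeff 1 ψ : Ob K) : K) := rfl
    rw [← this, ← hco]
    ring
  rw [e4]
  exact e3

end Crest.Agent.R227
end
end

-- ▼ part R227/D0Core
section

/-!
# R227 / D0Core : assembly of the characteristic zero core
-/

set_option autoImplicit false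
set_option linter.unusedSectionVars false
set_option linter.unusedVariables false

noncomputable section

namespace Crest.Agent.R227

open Crest.LubinTate MvPowerSeries Topology Filter

namespace D0Core

variable (p : ℕ) [Fact p.Prime] (n : ℕ)
variable {K : Type*} [NontriviallyNormedField K] [IsUltrametricDist K] [CompleteSpace K]
  [Algebra ℚ K] [CharZero K]

theorem exists_c (hn : 1 ≤ n) (X : LTRing p n →+* Ob K)
    (hX : ∀ a, LTRing.residue p n a = 0 → ‖X a‖ < 1) :
    ∃ c : ℝ, 0 < c ∧ c < 1 ∧ ∀ a, LTRing.residue p n a = 0 → ‖X a‖ ≤ c := by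
  have h1 : ∀ i ∈ Finset.range n, ‖X (uu p n i)‖ < 1 := by
    intro i hi
    refine hX _ ((mem_II_n p n hn _).1 (Ideal.subset_span ⟨i, Finset.mem_range.1 hi, rfl⟩))
  set s : ℝ := (Finset.range n).sup' ⟨0, Finset.mem_range.2 hn⟩ (fun i => ‖X (uu p n i)‖) with hs
  have hs1 : s < 1 := (Finset.sup'_lt_iff _).2 h1
  obtain ⟨c, hc1, hc2⟩ := exists_between (max_lt hs1 one_pos)
  refine ⟨c, (le_max_right _ _).trans_lt hc1, hc2, fun a ha => ?_⟩
  have hc0 : 0 ≤ c := ((le_max_right _ _).trans_lt hc1).le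
  have ha' := (mem_II_n p n hn a).2 ha
  rw [II] at ha'
  refine Submodule.span_induction (p := fun a _ => ‖X a‖ ≤ c) ?_ ?_ ?_ ?_ ha'
  · rintro _ ⟨i, hi, rfl⟩
    refine le_trans ?_ ((le_max_left _ _).trans hc1.le)
    exact Finset.le_sup' (fun i => ‖X (uu p n i)‖) (Finset.mem_range.2 hi)
  · rw [map_zero, norm_zero]; exact hc0
  · intro a b _ _ ha hb
    rw [map_add]
    exact (IsUltrametricDist.norm_add_le_max _ _).trans (max_le ha hb)
  · intro a b _ hb
    rw [smul_eq_mul, map_mul]
    calc ‖X a * X b‖ ≤ ‖X a‖ * ‖X b‖ := norm_mul_le _ _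
      _ ≤ 1 * c := mul_le_mul (X a).2 hb (norm_nonneg _) zero_le_one
      _ = c := one_mul c

theorem norm_pow_le (X : LTRing p n →+* Ob K) (c : ℝ) (hc0 : 0 ≤ c)
    (hc : ∀ a, LTRing.residue p n a = 0 → ‖X a‖ ≤ c) (k : ℕ) :
    ∀ a ∈ RingHom.ker (LTRing.residue p n) ^ k, ‖X a‖ ≤ c ^ k := by
  induction k with
  | zero =>
    intro a _
    rw [pow_zero]
    exact (X a).2
  | succ k ih =>
    intro a ha
    rw [pow_succ] at ha
    refine Submodule.mul_induction_on ha ?_ ?_
    · intro a ha b hb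
      rw [map_mul, pow_succ]
      exact (norm_mul_le _ _).trans (mul_le_mul (ih a ha) (hc b hb) (norm_nonneg _)
        (pow_nonneg hc0 _))
    · intro a b ha hb
      rw [map_add]
      exact (IsUltrametricDist.norm_add_le_max _ _).trans (max_le ha hb)

/-- functional with prescribed values on the basis `Λ, ∂₁Λ, …` -/
theorem exists_functional (hn : 1 ≤ n) (L0 : Fin n → K) (L1 : ℕ → Fin n → K)
    (hind : ∀ s : ℕ → K, (∀ r, s 0 * L0 r + ∑ m ∈ Finset.Ico 1 n, s m * L1 m r = 0) →
      ∀ m < n, s m = 0) (γ : ℕ → K) :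
    ∃ l : Fin n → K, ∑ r, l r * L0 r = 0 ∧ ∀ m, 1 ≤ m → m < n → ∑ r, l r * L1 m r = γ m := by
  set b : Fin n → (Fin n → K) := fun m => if (m : ℕ) = 0 then L0 else L1 m with hb
  have hli : LinearIndependent K b := by
    rw [Fintype.linearIndependent_iff]
    intro g hg m
    let s : ℕ → K := fun k => if hk : k < n then g ⟨k, hk⟩ else 0
    have hs := hind s (by
      intro r
      have h1 := congrFun hg r
      simp only [Finset.sum_apply, Pi.smul_apply, smul_eq_mul, Pi.zero_apply] at h1
      rw [← h1]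
      have h2 : ∑ x : Fin n, g x * b x r = ∑ k ∈ Finset.range n,
          (s k * (if k = 0 then L0 else L1 k) r) := by
        rw [Finset.sum_range]
        refine Finset.sum_congr rfl fun x _ => ?_
        simp only [s, b, x.2, dite_true]
      rw [h2, Finset.range_eq_Ico, Finset.sum_eq_sum_Ico_succ_bot (by omega : 0 < n)]
      simp only [if_true, zero_add]
      congr 1
      refine Finset.sum_congr rfl fun k hk => ?_
      rw [if_neg (by have := (Finset.mem_Ico.1 hk).1; omega)]) m m.2
    simpa [s, m.2] using hs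
  have : Nonempty (Fin n) := ⟨⟨0, hn⟩⟩
  have hcard : Fintype.card (Fin n) = Module.finrank K (Fin n → K) := by simp
  set B := basisOfLinearIndependentOfCardEqFinrank hli hcard with hB
  set L : (Fin n → K) →ₗ[K] K := B.constr K (fun m => if (m : ℕ) = 0 then 0 else γ m) with hL
  have hLb : ∀ m, L (b m) = if (m : ℕ) = 0 then 0 else γ m := by
    intro m
    have : b m = B m := by rw [hB, coe_basisOfLinearIndependentOfCardEqFinrank]
    rw [this, hL, Module.Basis.constr_basis]
  have hLs : ∀ v : Fin n → K, ∑ r, L (Pi.single r 1) * v r = L v := by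
    intro v
    conv_rhs => rw [pi_eq_sum_univ' v, map_sum]
    refine Finset.sum_congr rfl fun r _ => ?_
    rw [map_smul, smul_eq_mul, mul_comm]
  refine ⟨fun r => L (Pi.single r 1), ?_, fun m hm1 hmn => ?_⟩
  · rw [hLs]
    have := hLb ⟨0, hn⟩
    simpa [hb] using this
  · rw [hLs]
    have := hLb ⟨m, hmn⟩
    have hm0 : m ≠ 0 := by omega
    simpa [hb, hm0] using this

/-- the character `ω ↦ X([ω])` -/
def tau (X : LTRing p n →+* Ob K) : GaloisField p n →* K :=
  ((Ob K).subtype.comp (X.comp MvPowerSeries.C)).toMonoidHom.comp (WittVector.teichmuller p)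

theorem tau_apply (X : LTRing p n →+* Ob K) (ω : GaloisField p n) :
    tau p n X ω = (X (MvPowerSeries.C (WittVector.teichmuller p ω)) : K) := rfl

theorem tau_injective (X : LTRing p n →+* Ob K) : Function.Injective (tau p n X) := by
  have : CharZero (Ob K) := inferInstance
  intro a b hab
  rw [tau_apply, tau_apply] at hab
  have h1 := witt_hom_injective p n (X.comp MvPowerSeries.C) (Subtype.ext hab)
  have h2 := congrArg WittVector.constantCoeff h1
  simpa using h2

theorem residue_X (m : Fin (n - 1)) : LTRing.residue p n (MvPowerSeries.X m) = 0 := by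
  simp [LTRing.residue]

theorem residue_C_teich (ω : GaloisField p n) :
    LTRing.residue p n (MvPowerSeries.C (WittVector.teichmuller p ω)) = ω := by
  simp [LTRing.residue]

theorem upt_of_lt {i : ℕ} (h1 : 1 ≤ i) (h2 : i < n) :
    upt p n i = MvPowerSeries.X ⟨i - 1, by omega⟩ := by
  rw [upt, dif_pos ⟨h1, h2⟩]

theorem upt_n : upt p n n = 1 := by
  rw [upt, dif_neg (by omega), if_pos rfl]

theorem sum_Ico_eq (f : ℕ → K) (g : Fin (n - 1) → K) (h : ∀ m : Fin (n - 1), f (m + 1) = g m) :
    ∑ m ∈ Finset.Ico 1 n, f m = ∑ m, g m := by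
  rw [Finset.sum_Ico_eq_sum_range, Finset.sum_range]
  exact Finset.sum_congr rfl fun m _ => by rw [← h m, add_comm]

theorem adm_point (X : LTRing p n →+* Ob K) (c : ℝ)
    (hc : ∀ a, LTRing.residue p n a = 0 → ‖X a‖ ≤ c)
    (φ : LTRing p n →+* LTRing p n) (hφ : (LTRing.residue p n).comp φ = LTRing.residue p n) :
    Adm n c (fun i => (X (φ (upt p n i)) : K)) where
  le i h1 h2 := by
    refine hc _ ?_
    rw [← RingHom.comp_apply, hφ, upt_of_lt p n h1 h2, residue_X]
  one := by simp only [upt_n, map_one]; rfl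

theorem step_data (hn : 1 ≤ n) (hU : IsUniversalDeformation p n (Fn p n) (H1 p n))
    (hp : ‖(p : K)‖ < 1) (X : LTRing p n →+* Ob K) (c : ℝ) (hc0 : 0 ≤ c) (hc1 : c < 1)
    (hc : ∀ a, LTRing.residue p n a = 0 → ‖X a‖ ≤ c) (ω : GaloisField p n) (i J : ℕ) (hi : i < n)
    (hJ : 1 ≤ i + n * J) :
    ∃ φ, IsStabilizerMap p n (H1 p n) (gAut p n ω (i + n * J)) φ ∧ ∃ a : K, ‖a‖ = 1 ∧
      ∀ r, a * Lam p n (fun k => (X (φ (upt p n k)) : K)) r =
        Lam p n (fun k => (X (upt p n k) : K)) r +
        (p : K) ^ J * actM p n (tau p n X ω) i (Lam p n (fun k => (X (upt p n k) : K))) r := by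
  obtain ⟨φ, hφ⟩ := exists_stab p n hn hU _ (gAut_isFGAut p n hn ω (i + n * J) hJ)
  refine ⟨φ, hφ, ?_⟩
  obtain ⟨hres, θ, hθ, hθg⟩ := hφ
  have hx : Adm n c (fun k => (X (upt p n k) : K)) :=
    adm_point p n X c hc (RingHom.id _) (RingHom.comp_id _)
  have hy : Adm n c (fun k => (X (φ (upt p n k)) : K)) := adm_point p n X c hc φ.toRingHom hres
  set ψ : PowerSeries (Ob K) := PowerSeries.map X θ with hψ
  have hψhom : IsFGHom (hz p n (fun k => X (φ (upt p n k)))) (hz p n (fun k => X (upt p n k))) ψ := by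
    have h1 := IsFGHom.map X hθ
    rw [H1, hz_map, hz_map, hz_map] at h1
    exact h1
  have hcong : ∀ d, ‖PowerSeries.coeff d ψ - PowerSeries.coeff d
      (fadd (hz p n (fun k => X (upt p n k))) PowerSeries.X
        (PowerSeries.C (X (MvPowerSeries.C (WittVector.teichmuller p ω))) *
          PowerSeries.X ^ p ^ (i + n * J)) : PowerSeries (Ob K))‖ ≤ c := by
    intro d
    have hpi : p ^ (i + n * J) ≠ 0 := pow_ne_zero _ (Fact.out : p.Prime).ne_zero
    have h1 : (fadd (hz p n (fun k => X (upt p n k))) PowerSeries.X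
        (PowerSeries.C (X (MvPowerSeries.C (WittVector.teichmuller p ω))) *
          PowerSeries.X ^ p ^ (i + n * J)) : PowerSeries (Ob K)) =
        PowerSeries.map X (fadd (H1 p n) PowerSeries.X
          (PowerSeries.C (MvPowerSeries.C (WittVector.teichmuller p ω)) *
          PowerSeries.X ^ p ^ (i + n * J)) : PowerSeries (LTRing p n)) := by
      have h2 := map_fadd X (H1 p n) (PowerSeries.X : PowerSeries (LTRing p n))
        (PowerSeries.C (MvPowerSeries.C (WittVector.teichmuller p ω)) *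
          PowerSeries.X ^ p ^ (i + n * J) : PowerSeries (LTRing p n))
        (PowerSeries.constantCoeff_X) (by
          change PowerSeries.constantCoeff _ = 0
          rw [map_mul, map_pow, PowerSeries.constantCoeff_X, zero_pow hpi, mul_zero])
      refine Eq.trans ?_ h2.symm
      rw [H1, hz_map]
      change _ = fadd _ (PowerSeries.map X PowerSeries.X) (PowerSeries.map X _)
      simp
    have h3 : LTRing.residue p n (PowerSeries.coeff d θ - PowerSeries.coeff d
        (fadd (H1 p n) PowerSeries.X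
          (PowerSeries.C (MvPowerSeries.C (WittVector.teichmuller p ω)) *
          PowerSeries.X ^ p ^ (i + n * J)) : PowerSeries (LTRing p n))) = 0 := by
      rw [map_sub, sub_eq_zero, ← PowerSeries.coeff_map, ← PowerSeries.coeff_map, hθg]
      congr 1
      rw [gAut]
      have h2 := map_fadd (LTRing.residue p n) (H1 p n)
        (PowerSeries.X : PowerSeries (LTRing p n))
        (PowerSeries.C (MvPowerSeries.C (WittVector.teichmuller p ω)) *
          PowerSeries.X ^ p ^ (i + n * J) : PowerSeries (LTRing p n))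
        (PowerSeries.constantCoeff_X) (by
          change PowerSeries.constantCoeff _ = 0
          rw [map_mul, map_pow, PowerSeries.constantCoeff_X, zero_pow hpi, mul_zero])
      refine Eq.trans ?_ h2.symm
      rw [hU.1]
      change _ = fadd _ (PowerSeries.map (LTRing.residue p n) PowerSeries.X)
        (PowerSeries.map (LTRing.residue p n) _)
      simp [residue_C_teich]
    rw [h1, hψ, PowerSeries.coeff_map, PowerSeries.coeff_map, ← map_sub]
    exact hc _ h3
  obtain ⟨B, hB⟩ := coeff_rel hn hp hc0 hc1 (fun k => X (upt p n k)) (fun k => X (φ (upt p n k)))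
    hx hy ψ hψhom (X (MvPowerSeries.C (WittVector.teichmuller p ω))) (i + n * J) hcong
  refine ⟨((PowerSeries.coeff 1 ψ : Ob K) : K), ?_, fun r => ?_⟩
  · -- norm one
    have h1 : LTRing.residue p n (PowerSeries.coeff 1 θ - 1) = 0 := by
      rw [map_sub, map_one, ← PowerSeries.coeff_map, hθg, gAut_coeff p n hn ω (i + n * J) 2 ?_ 1
        (by omega), PowerSeries.coeff_one_X, sub_self]
      calc 2 ≤ p := (Fact.out : p.Prime).two_le
        _ = p ^ 1 := (pow_one p).symm
        _ ≤ p ^ (i + n * J) := Nat.pow_le_pow_right (Fact.out : p.Prime).pos hJ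
    have h2 := hc _ h1
    rw [map_sub, map_one] at h2
    have h3 : ‖((PowerSeries.coeff 1 ψ : Ob K) : K) - 1‖ < 1 := by
      rw [hψ, PowerSeries.coeff_map]
      exact lt_of_le_of_lt h2 hc1
    have h4 : ((PowerSeries.coeff 1 ψ : Ob K) : K) =
        1 + (((PowerSeries.coeff 1 ψ : Ob K) : K) - 1) := by ring
    rw [h4, IsUltrametricDist.norm_add_eq_max_of_norm_ne_norm (by rw [norm_one]; exact h3.ne'),
      norm_one, max_eq_left h3.le]
  · refine Lam_equivariant hn hp hc0 hc1 hx hy _ _ ?_ i J hi B (fun k hk => hB k hk) r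
    have h1 : tau p n X ω ^ p ^ n = tau p n X ω := by
      rw [← map_pow, D0Cont.galois_pow p n hn]
    exact h1

/-- key: derivatives of functions vanishing on the orbit vanish -/
theorem key (hn : 1 ≤ n) (hU : IsUniversalDeformation p n (Fn p n) (H1 p n)) (M : ℕ)
    (hM : 1 ≤ M) (X : LTRing p n →+* Ob K)
    (hX : ∀ a, LTRing.residue p n a = 0 → ‖X a‖ < 1) (g : LTRing p n)
    (hg : ∀ φ, IsStab p n M φ → X (φ g) = 0) (m0 : Fin (n - 1)) :
    X (pderiv _ m0 g) = 0 := by
  have hn2 : 2 ≤ n := by have := m0.2; omega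
  obtain ⟨c, hc0, hc1, hc⟩ := exists_c p n hn X hX
  have hp : ‖(p : K)‖ < 1 := by
    have h1 : LTRing.residue p n (p : LTRing p n) = 0 := by
      rw [map_natCast, CharP.cast_eq_zero]
    have h2 := hX _ h1
    rw [map_natCast] at h2
    exact h2
  set xK : ℕ → K := fun k => (X (upt p n k) : K) with hxK
  have hx : Adm n c xK := adm_point p n X c hc (RingHom.id _) (RingHom.comp_id _)
  have hind := Lam_indep hn hp hc0.le hc1 hx
  set γ : ℕ → K := fun k => if h : 1 ≤ k ∧ k < n then
    (X (pderiv _ (⟨k - 1, by omega⟩ : Fin (n - 1)) g) : K) else 0 with hγ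
  have hγm : ∀ m : Fin (n - 1), γ (m + 1) = (X (pderiv _ m g) : K) := by
    intro m
    have := m.2
    simp only [hγ]
    rw [dif_pos ⟨by omega, by omega⟩]
    rfl
  obtain ⟨l, hl0, hl1⟩ := exists_functional n hn (Lam p n xK) (fun m => dLam p n m xK) hind γ
  -- `l` kills all `actM`
  have hl : l = 0 := by
    refine actM_span hn (tau p n X) (tau_injective p n X) (Lam p n xK) ?_ l ?_
    · intro h0
      have := hind (fun k => if k = 0 then 1 else 0) (fun r => by
        rw [h0]
        simp only [Pi.zero_apply, mul_zero, zero_add]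
        refine Finset.sum_eq_zero fun m hm => ?_
        rw [if_neg (by have := (Finset.mem_Ico.1 hm).1; omega), zero_mul]) 0 (by omega)
      simp at this
    · intro ω i hi
      -- data
      have hJ : ∀ j : ℕ, 1 ≤ i + n * (j + (M + 1)) := by
        intro j
        nlinarith
      choose φ hφ a ha hrel using fun j : ℕ =>
        step_data p n hn hU hp X c hc0.le hc1 hc ω i (j + (M + 1)) hi (hJ j)
      have hstab : ∀ j, IsStab p n M (φ j) := by
        intro j
        refine ⟨gAut p n ω (i + n * (j + (M + 1))), gAut_isFGAut p n hn ω _ (hJ j), ?_, hφ j⟩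
        refine gAut_coeff p n hn ω _ M ?_
        have h1 : M ≤ i + n * (j + (M + 1)) := by nlinarith
        exact h1.trans (Nat.lt_pow_self (Fact.out : p.Prime).one_lt).le
      have hclose : ∀ j, ∀ b : LTRing p n, ‖X (φ j b) - X b‖ ≤ c ^ (j + (M + 1) + 1) := by
        intro j b
        rw [← map_sub]
        exact norm_pow_le p n X c hc0.le hc _ _
          (gAut_close p n hn hU ω i (j + (M + 1)) (hJ j) (φ j) (hφ j) b)
      set d : ℕ → ℕ → K := fun j m => (X (φ j (upt p n m)) : K) - xK m with hd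
      have hne : (Finset.Ico 1 n).Nonempty := ⟨1, Finset.mem_Ico.2 ⟨le_rfl, by omega⟩⟩
      set δ : ℕ → ℝ := fun j => (Finset.Ico 1 n).sup' hne (fun m => ‖d j m‖) with hδdef
      have hδle : ∀ j m, 1 ≤ m → m < n → ‖d j m‖ ≤ δ j := fun j m h1 h2 =>
        Finset.le_sup' (fun m => ‖d j m‖) (Finset.mem_Ico.2 ⟨h1, h2⟩)
      have hδex : ∀ j, ∃ m, 1 ≤ m ∧ m < n ∧ δ j = ‖d j m‖ := by
        intro j
        obtain ⟨m, hm, hm'⟩ := Finset.exists_mem_eq_sup' hne (fun m => ‖d j m‖)
        exact ⟨m, (Finset.mem_Ico.1 hm).1, (Finset.mem_Ico.1 hm).2, hm'⟩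
      have hδnn : ∀ j, 0 ≤ δ j := fun j => by
        obtain ⟨m, _, _, h⟩ := hδex j
        rw [h]; exact norm_nonneg _
      have hδ0 : Tendsto δ atTop (𝓝 0) := by
        refine squeeze_zero (g := fun j => c ^ j) hδnn (fun j => ?_)
          (tendsto_pow_atTop_nhds_zero_of_lt_one hc0.le hc1)
        obtain ⟨m, _, _, h⟩ := hδex j
        rw [h]
        exact (hclose j _).trans (pow_le_pow_of_le_one hc0.le hc1.le (by omega))
      obtain ⟨C1, hC1, hT⟩ := Lam_taylor (K := K) (p := p) hn hp hc0 hc1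
      have hfo := first_order hn hp (Lam p n xK) (fun m => dLam p n m xK)
        (fun r => (p : K) ^ (M + 1) * actM p n (tau p n X ω) i (Lam p n xK) r) hind γ (max C1 1)
        (by positivity) a ha d δ hδle hδex hδ0
        (fun j r => Lam p n (fun k => (X (φ j (upt p n k)) : K)) r - Lam p n xK r)
        (fun j r => by
          have := hrel j r
          rw [mul_sub, this, pow_add]
          ring)
        (fun j r => by
          have hy : Adm n c (fun k => (X (φ j (upt p n k)) : K)) :=
            adm_point p n X c hc (φ j).toRingHom (hφ j).1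
          refine (hT xK _ hx hy (δ j) (hδle j) r).trans ?_
          exact mul_le_mul_of_nonneg_right (le_max_left _ _) (by positivity))
        (fun j => by
          have h1 := X_taylor p n X (X.comp (φ j).toRingHom) hX
            (fun b hb => hX _ (by
              have h2 := RingHom.congr_fun (hφ j).1 b
              rw [hb] at h2
              exact h2))
            (fun b => by
              have h2 : (φ j) (MvPowerSeries.C b) = MvPowerSeries.C b := (φ j).commutes b
              change X (MvPowerSeries.C b) = X ((φ j) (MvPowerSeries.C b))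
              rw [h2])
            (δ j) (fun m => by
              have h2 := hδle j (m + 1) (by omega) (by have := m.2; omega)
              simp only [hd, hxK] at h2
              rw [upt_of_lt p n (by omega : 1 ≤ (m : ℕ) + 1) (by have := m.2; omega)] at h2
              exact h2) g
          have h3 : (X.comp (φ j).toRingHom) g = 0 := hg (φ j) (hstab j)
          have h4 : X g = 0 := hg (AlgHom.id _ _) (isStab_id p n M)
          rw [h3, h4, sub_zero, zero_sub, norm_neg] at h1
          refine le_trans ?_ (h1.trans ?_)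
          · refine le_of_eq ?_
            change _ = ‖((∑ m : Fin (n - 1), _ : Ob K) : K)‖
            rw [sum_Ico_eq n (fun m => d j m * γ m) (fun m => d j (m + 1) * γ (m + 1))
              (fun m => rfl)]
            rw [← Subring.subtype_apply, map_sum]
            congr 1
            refine Finset.sum_congr rfl fun m _ => ?_
            rw [hγm, map_mul]
            congr 1
            simp only [hd, hxK]
            rw [upt_of_lt p n (by omega : 1 ≤ (m : ℕ) + 1) (by have := m.2; omega)]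
            rfl
          · calc δ j ^ 2 = 1 * δ j ^ 2 := (one_mul _).symm
              _ ≤ _ := mul_le_mul_of_nonneg_right (le_max_right _ _) (by positivity))
        l hl0 hl1
      have hpne : (p : K) ^ (M + 1) ≠ 0 := pow_ne_zero _
        (Nat.cast_ne_zero.2 (Fact.out : p.Prime).ne_zero)
      have h5 : (p : K) ^ (M + 1) * ∑ r, l r * actM p n (tau p n X ω) i (Lam p n xK) r = 0 := by
        rw [← hfo, Finset.mul_sum]
        exact Finset.sum_congr rfl fun r _ => by ring
      exact (mul_eq_zero.1 h5).resolve_left hpne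
  have h6 := hl1 (m0 + 1) (by omega) (by have := m0.2; omega)
  rw [hl, hγm] at h6
  simp only [Pi.zero_apply, zero_mul, Finset.sum_const_zero] at h6
  exact Subtype.ext h6.symm

end D0Core

end Crest.Agent.R227
end
end

-- ▼ part R227/D0

/-!
# R227 / D0 (task D0)
-/

set_option autoImplicit false

noncomputable section

namespace Crest.Agent.R227

open Crest.LubinTate MvPowerSeries Topology

variable (p : ℕ) [Fact p.Prime] (n : ℕ)

/-- the characteristic zero core over a general complete ultrametric field -/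
theorem thmD0_general {K : Type*} [NontriviallyNormedField K] [IsUltrametricDist K]
    [CompleteSpace K] [Algebra ℚ K] [CharZero K] (hn : 1 ≤ n)
    (hU : IsUniversalDeformation p n (Fn p n) (H1 p n)) (M : ℕ)
    (hM : 1 ≤ M) (X : LTRing p n →+* Ob K)
    (hX : ∀ a, LTRing.residue p n a = 0 → ‖X a‖ < 1) (f : LTRing p n)
    (hf : ∀ φ, IsStab p n M φ → X (φ f) = 0) : f = 0 := by
  refine eq_zero_of_pderiv_closed p n X hX {g | ∀ φ, IsStab p n M φ → X (φ g) = 0} ?_ ?_ f hf
  · intro g hg
    exact hg (AlgHom.id _ _) (isStab_id p n M)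
  · intro g hg m φ₁ hφ₁
    obtain ⟨g₁, hg₁, hg₁', hr, hθ⟩ := hφ₁
    have hφ₁ : IsStab p n M φ₁ := ⟨g₁, hg₁, hg₁', hr, hθ⟩
    refine D0Core.key p n hn hU M hM (X.comp φ₁.toRingHom) ?_ g ?_ m
    · intro a ha
      refine hX _ ?_
      have h2 := RingHom.congr_fun hr a
      rw [ha] at h2
      exact h2
    · intro φ hφ
      exact hg (φ₁.comp φ) (isStab_comp p n hn M hM φ₁ φ hφ₁ hφ)

theorem thmD0 (hn : 1 ≤ n) (hU : IsUniversalDeformation p n (Fn p n) (H1 p n)) (M : ℕ)
    (hM : 1 ≤ M) (X : LTRing p n →+* Ob ℂ_[p])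
    (hX : ∀ a, LTRing.residue p n a = 0 → ‖X a‖ < 1) (f : LTRing p n)
    (hf : ∀ φ, IsStab p n M φ → X (φ f) = 0) : f = 0 :=
  thmD0_general p n hn hU M hM X hX f hf

end Crest.Agent.R227
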