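import Crest.Agent.R227.CoRho
import Crest.Agent.R227.Typical
import Crest.Agent.R227.CoExpAux
import Mathlib
import Crest.Agent.R227.WittL
import Crest.Agent.R227.Est
import Crest.Agent.R227.WittRW
import Crest.Agent.R227.EndExp
import Crest.Agent.R227.CoDefs
import Crest.Agent.R227.CoRel_Mg
import Crest.Agent.R227.Easy
import Crest.Agent.R227.D0_Mg
import Crest.Agent.R227.CoApproxAux_Mg

-- ▼ part R227/CoExp
section

/-! # R227 / CoExp : typical expansions (task COEXP), part (F) of note 4224 -/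

set_option autoImplicit false
set_option linter.unusedSectionVars false

noncomputable section

namespace Crest.Agent.R227

open Crest.LubinTate MvPowerSeries Topology

variable {p : ℕ} [Fact p.Prime] {n h : ℕ}
variable {K : Type} [NontriviallyNormedField K] [IsUltrametricDist K] [CompleteSpace K]
  [IsAlgClosed K] [CharP K p]

/-- Over `A_i = Ob K / (‖·‖ ≤ c^{Q^i})` the series `φ^{(Q^i)}` is a homomorphism from the Honda law
of height `n` to the one of height `h`, so `φ^{(Q^i)} = ∑^{HO h} c^{(i)}_k X^{p^k}` (typical lemma);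
`c_k = lim_i c^{(i)}_{k+ri}`. -/
theorem hasExp_of_hom (h1 : 1 ≤ h) (hh : h < n) (P : HPoint p n h K)
    {ρ : FPt (HO p n n (Ob K)) →+ FPt P.F} (hρ : IsRho P ρ) {φ : PowerSeries (Ob K)}
    (hφ : IsFGHom P.F (HO p n h (Ob K)) φ) : HasExp ((FPt.hom hφ).comp ρ) := by
  have hc0 := P.c_nonneg
  have hc1 := P.c_lt_one
  have hp := (Fact.out : p.Prime)
  obtain ⟨C, hC, hC1, hC2⟩ := CoExp.exists_C h1 hh P hφ
  obtain ⟨b, hbC, hbr, hbs, hb1⟩ := CoExp.exists_b h1 hh P C hC1 hC2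
  have hr : 1 ≤ n - h := by omega
  obtain ⟨c, hc⟩ := CoExp.exists_ext (h := h) b (n - h) hr hbr
  have hrep : ∀ K : ℤ, ∃ k i : ℕ, K = (k : ℤ) - (((n - h) * (i + 1) : ℕ) : ℤ) := by
    intro K
    refine ⟨(K + (((n - h) * ((-K).toNat + 1) : ℕ) : ℤ)).toNat, (-K).toNat, ?_⟩
    have : (-K).toNat + 1 ≤ (n - h) * ((-K).toNat + 1) := Nat.le_mul_of_pos_left _ hr
    omega
  have hsmall : ∀ (i : ℕ) (J : ℤ), J < -(((n - h) * i : ℕ) : ℤ) →
      ‖c J‖ ≤ P.c ^ p ^ (h * i) := by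
    intro i J hJ
    have hr' : (0 : ℤ) < ((n - h : ℕ) : ℤ) := by exact_mod_cast hr
    have hdiv := Int.emod_add_mul_ediv J ((n - h : ℕ) : ℤ)
    have hm0 := Int.emod_nonneg J hr'.ne'
    have hm1 := Int.emod_lt_of_pos J hr'
    have hq : J / ((n - h : ℕ) : ℤ) < -(i : ℤ) := by
      apply Int.ediv_lt_of_lt_mul hr'
      push_cast at hJ ⊢
      linarith
    obtain ⟨m, hm⟩ : ∃ m : ℕ, J / ((n - h : ℕ) : ℤ) = -((m : ℤ) + 1) :=
      ⟨(-(J / ((n - h : ℕ) : ℤ)) - 1).toNat, by omega⟩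
    obtain ⟨k, hk⟩ : ∃ k : ℕ, J % ((n - h : ℕ) : ℤ) = k := ⟨_, (Int.toNat_of_nonneg hm0).symm⟩
    have him : i ≤ m := by omega
    have hkr : k < n - h := by omega
    have hJ2 : J = (k : ℤ) - (((n - h) * (m + 1) : ℕ) : ℤ) := by
      rw [← hdiv, hk, hm]
      push_cast
      ring
    rw [hJ2, hc, CoExp.norm_pow', show h * (m + 1) = h + h * m by ring, pow_add, pow_mul]
    refine (pow_le_pow_left₀ (by positivity) (hbs k hkr) _).trans ?_
    exact pow_le_pow_of_le_one hc0 hc1.le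
      (Nat.pow_le_pow_right hp.pos (Nat.mul_le_mul_left h him))
  refine ⟨c, ?_, ?_, ?_⟩
  · intro J
    obtain ⟨k, i, rfl⟩ := hrep J
    have e1 : (k : ℤ) - (((n - h) * (i + 1) : ℕ) : ℤ) + ((n - h : ℕ) : ℤ) =
        (k : ℤ) - (((n - h) * i : ℕ) : ℤ) := by
      rw [Nat.mul_succ, Nat.cast_add]; ring
    rw [e1, hc, hc, ← pow_mul, ← pow_add, Nat.mul_succ]
  · intro J
    obtain ⟨k, i, rfl⟩ := hrep J
    rw [hc, CoExp.norm_pow']
    exact pow_lt_one₀ (norm_nonneg _) (hb1 k) (pow_ne_zero _ hp.ne_zero)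
  · intro z
    rw [tendsto_zero_iff_norm_tendsto_zero]
    have hz : ‖z.val‖ < 1 := FPt.norm_lt _ z
    have hbound : ∀ s : ℕ, ‖(((FPt.hom hφ).comp ρ) z - ∑ k ∈ Finset.Ico (-(s : ℤ)) s,
        toPt (HO p n h (Ob K)) (c k * fz p k z.val)).val‖ ≤
          max (P.c ^ p ^ (h * (s / (n - h)))) (‖z.val‖ ^ p ^ s) := by
      intro s
      set i := s / (n - h) with hi
      have his : (n - h) * i ≤ s := Nat.mul_div_le s (n - h)
      have e1 := CoExp.Ei h1 hh ((FPt.hom hφ).comp ρ) b c P.c hc0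
        (fun z N => CoExp.E0 hρ hφ b C hC hbC z N) hc z i s
      have hle1 : (-(s : ℤ)) ≤ -(((n - h) * i : ℕ) : ℤ) := by omega
      have hle2 : -(((n - h) * i : ℕ) : ℤ) ≤ (s : ℤ) := by omega
      rw [← Finset.Ico_union_Ico_eq_Ico hle1 hle2,
        Finset.sum_union (Finset.Ico_disjoint_Ico_consecutive _ _ _)]
      have e2 : ((FPt.hom hφ).comp ρ) z -
          (∑ k ∈ Finset.Ico (-(s : ℤ)) (-(((n - h) * i : ℕ) : ℤ)),
            toPt (HO p n h (Ob K)) (c k * fz p k z.val) +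
          ∑ k ∈ Finset.Ico (-(((n - h) * i : ℕ) : ℤ)) s,
            toPt (HO p n h (Ob K)) (c k * fz p k z.val)) =
          (((FPt.hom hφ).comp ρ) z - ∑ k ∈ Finset.Ico (-(((n - h) * i : ℕ) : ℤ)) s,
            toPt (HO p n h (Ob K)) (c k * fz p k z.val)) +
          -(∑ k ∈ Finset.Ico (-(s : ℤ)) (-(((n - h) * i : ℕ) : ℤ)),
            toPt (HO p n h (Ob K)) (c k * fz p k z.val)) := by abel
      rw [e2]
      refine FPt.norm_add_le _ _ _ _ e1 ?_
      rw [FPt.norm_neg]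
      refine (FPt.norm_sum_le _ _ _ (P.c ^ p ^ (h * i)) (by positivity) fun k hk => ?_).trans
        (le_max_left _ _)
      rw [toPt_val _ (CoExp.mul_fz_lt _ _ _)]
      rw [Finset.mem_Ico] at hk
      exact (CoExp.norm_mul_le_left _ _).trans (hsmall i k hk.2)
    refine squeeze_zero (fun _ => norm_nonneg _) hbound ?_
    have t1 : Filter.Tendsto (fun s : ℕ => P.c ^ p ^ (h * (s / (n - h)))) Filter.atTop (𝓝 0) :=
      (tendsto_pow_tower (p := p) h1 hc0 hc1).comp
        (Nat.tendsto_div_const_atTop (by omega))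
    have t2 : Filter.Tendsto (fun s : ℕ => ‖z.val‖ ^ p ^ s) Filter.atTop (𝓝 0) := by
      have := tendsto_pow_tower (p := p) (h := 1) le_rfl (norm_nonneg z.val) hz
      simpa using this
    have := t1.max t2
    rwa [max_self] at this

/-- typical expansion of the endomorphisms of `HO h` with `Q`-fixed coefficients -/
theorem IsQEnd.exp (h1 : 1 ≤ h) (hh : h ≤ n)
    {A : FPt (HO p n h (Ob K)) →+ FPt (HO p n h (Ob K))} (hA : IsQEnd A) :
    ∃ c : ℕ → Ob K, (∀ k, c k ^ p ^ h = c k) ∧ ∀ z, Filter.Tendsto (fun s : ℕ =>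
      (A z - ∑ k ∈ Finset.range s, toPt (HO p n h (Ob K)) (c k * z.val ^ p ^ k)).val)
      Filter.atTop (𝓝 0) := by
  have hp := (Fact.out : p.Prime)
  obtain ⟨φ, hφ, hφQ, hAφ⟩ := hA
  have hfix : PowerSeries.map (iterateFrobenius (Ob K) p h) φ = φ := by
    ext m
    rw [PowerSeries.coeff_map, iterateFrobenius_def, hφQ]
  obtain ⟨c, hc, hcφ⟩ := EndExp.exists_typical_fixed p n h φ hφ hfix
  refine ⟨c, hc, fun z => ?_⟩
  have hz : ‖z.val‖ < 1 := FPt.norm_lt _ z
  rw [tendsto_zero_iff_norm_tendsto_zero]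
  have hbound : ∀ s : ℕ, ‖(A z - ∑ k ∈ Finset.range s,
      toPt (HO p n h (Ob K)) (c k * z.val ^ p ^ k)).val‖ ≤ ‖z.val‖ ^ p ^ s := by
    intro s
    obtain ⟨d, hd, hA, hAd⟩ := EndExp.exists_err (p := p) (HO p n h (Ob K)) c φ hφ.1 s
      (hcφ s) z.val hz
    have e1 : A z = ⟨ev₁ z.val φ, hA⟩ := FPt.ext (hAφ z)
    have e2 : ∑ k ∈ Finset.range s, toPt (HO p n h (Ob K)) (c k * z.val ^ p ^ k) =
        ∑ k ∈ Finset.range s, EndExp.mpt p (HO p n h (Ob K)) (c k) z.val hz k := by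
      refine Finset.sum_congr rfl fun k _ => ?_
      apply FPt.ext
      rw [toPt_val _ (EndExp.norm_mul_pow_lt (c k) z.val hz _ (pow_ne_zero _ hp.ne_zero))]
      rfl
    rw [e1, hAd, e2, add_sub_cancel_right]
    exact hd
  refine squeeze_zero (fun _ => norm_nonneg _) hbound ?_
  have := tendsto_pow_tower (p := p) (h := 1) le_rfl (norm_nonneg z.val) hz
  simpa using this

end Crest.Agent.R227
end
end

-- ▼ part R227/SwapAbs
section

/-!
# R227 / SwapAbs : unconditional sums in a filtered ring, abstract swap lemma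
-/

set_option autoImplicit false

noncomputable section

namespace Crest.Agent.R227

/-- a separated decreasing filtration of a commutative ring by subgroups, such that
multiplications are continuous -/
structure NAFilt (A : Type*) [CommRing A] where
  F : ℕ → AddSubgroup A
  anti : ∀ m, F (m + 1) ≤ F m
  mul : ∀ (a : A) (m : ℕ), ∃ m', ∀ x ∈ F m', a * x ∈ F m
  sep : ∀ x, (∀ m, x ∈ F m) → x = 0

variable {A : Type*} [CommRing A] (Φ : NAFilt A)


/-- unconditional sum with respect to a filtration -/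
def HS {ι : Type*} (u : ι → A) (s : A) : Prop :=
  ∀ m, ∃ I₀ : Finset ι, ∀ I, I₀ ⊆ I → ∑ i ∈ I, u i - s ∈ Φ.F m

variable {Φ}

theorem HS.unique {ι : Type*} {u : ι → A} {s s' : A} (h : HS Φ u s) (h' : HS Φ u s') :
    s = s' := by
  classical
  rw [← sub_eq_zero]
  refine Φ.sep _ fun m => ?_
  obtain ⟨I, hI⟩ := h m
  obtain ⟨I', hI'⟩ := h' m
  have h1 := hI (I ∪ I') Finset.subset_union_left
  have h2 := hI' (I ∪ I') Finset.subset_union_right
  have h3 := (Φ.F m).sub_mem h2 h1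
  have : s - s' = ∑ i ∈ I ∪ I', u i - s' - (∑ i ∈ I ∪ I', u i - s) := by ring
  rw [this]
  exact h3

theorem HS.mul_left {ι : Type*} {u : ι → A} {s : A} (h : HS Φ u s) (a : A) :
    HS Φ (fun i => a * u i) (a * s) := by
  intro m
  obtain ⟨m', hm'⟩ := Φ.mul a m
  obtain ⟨I, hI⟩ := h m'
  refine ⟨I, fun J hJ => ?_⟩
  rw [← Finset.mul_sum, ← mul_sub]
  exact hm' _ (hI J hJ)

theorem HS.mul_right {ι : Type*} {u : ι → A} {s : A} (h : HS Φ u s) (a : A) :
    HS Φ (fun i => u i * a) (s * a) := by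
  simpa only [mul_comm] using h.mul_left a

theorem HS.of_equiv {ι κ : Type*} (e : ι ≃ κ) {u : κ → A} {s : A}
    (h : HS Φ (fun i => u (e i)) s) : HS Φ u s := by
  classical
  intro m
  obtain ⟨I, hI⟩ := h m
  refine ⟨I.map e.toEmbedding, fun J hJ => ?_⟩
  have h1 := hI (J.map e.symm.toEmbedding) (by
    intro i hi
    rw [Finset.mem_map_equiv]
    apply hJ
    simpa using hi)
  simpa using h1


theorem HS.finite {ι : Type*} [Fintype ι] (u : ι → A) : HS Φ u (∑ i, u i) := by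
  classical
  intro m
  refine ⟨Finset.univ, fun J hJ => ?_⟩
  have : J = Finset.univ := Finset.eq_univ_of_forall fun i => hJ (Finset.mem_univ i)
  rw [this, sub_self]
  exact (Φ.F m).zero_mem

/-- iterated sums of a family tending to zero -/
theorem HS.of_iter {ι κ : Type*} {U : ι × κ → A} {s : ι → A} {t : A}
    (hz : ∀ m, {x : ι × κ | U x ∉ Φ.F m}.Finite) (h1 : ∀ i, HS Φ (fun k => U (i, k)) (s i))
    (h2 : HS Φ s t) : HS Φ U t := by
  classical
  intro m
  obtain ⟨I, hI⟩ := h2 m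
  set D : Finset (ι × κ) := (hz m).toFinset with hD
  set J : Finset ι := I ∪ D.image Prod.fst with hJ
  choose L hL using fun i => h1 i m
  set T : Finset (ι × κ) := J.biUnion fun i => (L i ∪ D.image Prod.snd).image fun k => (i, k)
    with hT
  refine ⟨T, fun X hX => ?_⟩
  -- split `X` in `T` and the rest
  have hrest : ∑ x ∈ X \ T, U x ∈ Φ.F m := by
    refine (Φ.F m).sum_mem fun x hx => ?_
    by_contra hc
    have hxD : x ∈ D := by
      rw [hD, Set.Finite.mem_toFinset]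
      exact hc
    have : x ∈ T := by
      rw [hT, Finset.mem_biUnion]
      refine ⟨x.1, ?_, ?_⟩
      · rw [hJ]
        exact Finset.mem_union_right _ (Finset.mem_image_of_mem _ hxD)
      · rw [Finset.mem_image]
        exact ⟨x.2, Finset.mem_union_right _ (Finset.mem_image_of_mem _ hxD), rfl⟩
    exact (Finset.mem_sdiff.1 hx).2 this
  have hsumT : ∑ x ∈ T, U x = ∑ i ∈ J, ∑ k ∈ L i ∪ D.image Prod.snd, U (i, k) := by
    rw [hT, Finset.sum_biUnion]
    · refine Finset.sum_congr rfl fun i _ => ?_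
      rw [Finset.sum_image]
      intro a _ b _ hab
      exact (Prod.ext_iff.1 hab).2
    · intro i _ j _ hij
      change Disjoint _ _
      rw [Finset.disjoint_left]
      intro x hx hx'
      rw [Finset.mem_image] at hx hx'
      obtain ⟨k, _, hk⟩ := hx
      obtain ⟨k', _, hk'⟩ := hx'
      apply hij
      rw [← hk'] at hk
      exact (Prod.ext_iff.1 hk).1
  have hJsum : ∑ i ∈ J, ∑ k ∈ L i ∪ D.image Prod.snd, U (i, k) - ∑ i ∈ J, s i ∈ Φ.F m := by
    rw [← Finset.sum_sub_distrib]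
    exact (Φ.F m).sum_mem fun i _ => hL i _ Finset.subset_union_left
  have hIs := hI J Finset.subset_union_left
  have : ∑ x ∈ X, U x - t = ∑ x ∈ X \ T, U x +
      (∑ i ∈ J, ∑ k ∈ L i ∪ D.image Prod.snd, U (i, k) - ∑ i ∈ J, s i) +
      (∑ i ∈ J, s i - t) := by
    rw [← Finset.sum_sdiff hX, hsumT]
    ring
  rw [this]
  exact (Φ.F m).add_mem ((Φ.F m).add_mem hrest hJsum) hIs

/-- a family tending to zero is summed by any exhausting sequence of finite sets -/
theorem HS.of_seq {ι : Type*} {u : ι → A} {s : A} (hz : ∀ m, {x : ι | u x ∉ Φ.F m}.Finite)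
    (S : ℕ → Finset ι) (hS : ∀ i, ∃ N, ∀ N' ≥ N, i ∈ S N')
    (h : ∀ m, ∃ N, ∀ N' ≥ N, ∑ i ∈ S N', u i - s ∈ Φ.F m) : HS Φ u s := by
  classical
  intro m
  obtain ⟨N, hN⟩ := h m
  choose ν hν using hS
  set D : Finset ι := (hz m).toFinset with hD
  set N' := max N (D.sup ν) with hN'
  refine ⟨S N', fun X hX => ?_⟩
  have h1 := hN N' (le_max_left _ _)
  have hrest : ∑ x ∈ X \ S N', u x ∈ Φ.F m := by
    refine (Φ.F m).sum_mem fun x hx => ?_
    by_contra hc
    have hxD : x ∈ D := by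
      rw [hD, Set.Finite.mem_toFinset]
      exact hc
    exact (Finset.mem_sdiff.1 hx).2 (hν x N' ((Finset.le_sup hxD).trans (le_max_right _ _)))
  have : ∑ x ∈ X, u x - s = ∑ x ∈ X \ S N', u x + (∑ x ∈ S N', u x - s) := by
    rw [← Finset.sum_sdiff hX]; ring
  rw [this]
  exact (Φ.F m).add_mem hrest h1

/-! ## separation of characters -/

/-- if the nodes differ by units then the Vandermonde relations force all coefficients to vanish -/
theorem eq_zero_of_power_sums {n : ℕ} (x a : Fin n → A)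
    (hx : ∀ i j, i ≠ j → IsUnit (x i - x j)) (h : ∀ k : ℕ, ∑ i, a i * x i ^ k = 0) (i : Fin n) :
    a i = 0 := by
  classical
  set P : Polynomial A := ∏ j ∈ Finset.univ.erase i, (Polynomial.X - Polynomial.C (x j)) with hP
  have h1 : ∑ j, a j * P.eval (x j) = 0 := by
    have : ∀ j, a j * P.eval (x j) = ∑ k ∈ P.support, P.coeff k * (a j * x j ^ k) := by
      intro j
      rw [Polynomial.eval_eq_sum, Polynomial.sum, Finset.mul_sum]
      refine Finset.sum_congr rfl fun k _ => by ring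
    simp_rw [this]
    rw [Finset.sum_comm]
    refine Finset.sum_eq_zero fun k _ => ?_
    rw [← Finset.mul_sum, h k, mul_zero]
  have h2 : ∀ j, j ≠ i → P.eval (x j) = 0 := by
    intro j hj
    rw [hP, Polynomial.eval_prod]
    exact Finset.prod_eq_zero (Finset.mem_erase.2 ⟨hj, Finset.mem_univ _⟩) (by simp)
  have h3 : IsUnit (P.eval (x i)) := by
    rw [hP, Polynomial.eval_prod]
    refine (IsUnit.prod_iff).2 fun j hj => ?_
    simp only [Polynomial.eval_sub, Polynomial.eval_X, Polynomial.eval_C]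
    exact hx i j (Finset.ne_of_mem_erase hj).symm
  rw [Finset.sum_eq_single i (fun j _ hj => by rw [h2 j hj, mul_zero]) (by simp)] at h1
  exact (h3.mul_left_eq_zero).1 h1

/-! ## the abstract swap -/

/-- The abstract swap lemma. `π` = `p` (a unit), `T l i = L_n(t_l^{p^i})`, `M l e` the coefficients
of the expansion of `L_h ∘ A_l ∘ θ`, `η` a primitive root of unity. -/
theorem abstract_swap {n : ℕ} {ι : Type*} [Fintype ι] (π : A) (hπ : IsUnit π)
    (T : ι → ℕ → A) (hT : ∀ l i, T l (i + n) = π * T l i) (M : ι → Fin n → A)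
    (x : Fin n → A) (hx : ∀ i j, i ≠ j → IsUnit (x i - x j))
    (hrel : ∀ (j k : ℕ), ∑ l, ∑ e : Fin n, M l e * (x e ^ k * T l (j + e)) = 0)
    (e : Fin n) (i : ℕ) : ∑ l, M l e * T l i = 0 := by
  have h1 : ∀ j : ℕ, ∑ l, M l e * T l (j + e) = 0 := by
    intro j
    refine eq_zero_of_power_sums x (fun e => ∑ l, M l e * T l (j + e)) hx (fun k => ?_) e
    rw [← hrel j k, Finset.sum_comm]
    refine Finset.sum_congr rfl fun e _ => ?_
    rw [Finset.sum_mul]
    refine Finset.sum_congr rfl fun l _ => by ring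
  have h2 := h1 (i + n - e)
  have h3 : i + n - (e : ℕ) + e = i + n := Nat.sub_add_cancel (by have := e.2; omega)
  rw [h3] at h2
  simp_rw [hT] at h2
  have h4 : π * ∑ l, M l e * T l i = 0 := by
    rw [Finset.mul_sum, ← h2]
    refine Finset.sum_congr rfl fun l _ => by ring
  exact (hπ.mul_right_eq_zero).1 h4

theorem abstract_swap' {n : ℕ} {ι : Type*} [Fintype ι] (π : A) (hπ : IsUnit π)
    (T : ι → ℕ → A) (hT : ∀ l i, T l (i + n) = π * T l i) (M : ι → Fin n → A)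
    (x : Fin n → A) (hx : ∀ i j, i ≠ j → IsUnit (x i - x j))
    (hrel : ∀ (j k : ℕ), ∑ l, ∑ e : Fin n, M l e * (x e ^ k * T l (j + e)) = 0)
    (Z : Fin n → A) (i : ℕ) : ∑ l, T l i * ∑ e : Fin n, M l e * Z e = 0 := by
  have h := fun e => abstract_swap π hπ T hT M x hx hrel e i
  simp_rw [Finset.mul_sum]
  rw [Finset.sum_comm]
  refine Finset.sum_eq_zero fun e _ => ?_
  have : ∀ l, T l i * (M l e * Z e) = M l e * T l i * Z e := fun l => by ring
  simp_rw [this]
  rw [← Finset.sum_mul, h e, zero_mul]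

end Crest.Agent.R227
end
end

-- ▼ part R227/SwapExp
section

/-!
# R227 / SwapExp : expansion of `L_h(∑ c_K z^{p^K})` in terms of `L_n(z^{p^e})`
-/

set_option autoImplicit false

noncomputable section

namespace Crest.Agent.R227

open WittVector

section fr

variable (p : ℕ) [Fact p.Prime] {K : Type*} [NormedField K] [IsUltrametricDist K]
  [CharP K p] [PerfectRing K p]

/-- `x ↦ x^{p^k}` for `k : ℤ` -/
def fr (k : ℤ) : Ob K ≃+* Ob K := ((frobeniusEquiv (Ob K) p : RingAut (Ob K)) ^ k)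

theorem fr_add (j k : ℤ) (x : Ob K) : fr p (j + k) x = fr p j (fr p k x) := by
  unfold fr
  rw [zpow_add]
  rfl

theorem fr_zero (x : Ob K) : fr p 0 x = x := by
  unfold fr
  rw [zpow_zero]
  rfl

theorem fr_natCast (k : ℕ) (x : Ob K) : fr p (k : ℤ) x = x ^ p ^ k := by
  induction k with
  | zero => simp [fr_zero]
  | succ k ih =>
    rw [Nat.cast_succ, add_comm, fr_add, ih]
    have h1 : fr p (1 : ℤ) (x ^ p ^ k) = (x ^ p ^ k) ^ p := by
      unfold fr
      rw [zpow_one]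
      rfl
    rw [h1, ← pow_mul, ← pow_succ]

theorem fr_neg_natCast (k : ℕ) (x : Ob K) : fr p (-(k : ℤ)) x = proot p k x := by
  have h1 : (fr p (-(k : ℤ)) x) ^ p ^ k = x := by
    rw [← fr_natCast, ← fr_add]
    simp [fr_zero]
  unfold proot
  rw [RingEquiv.eq_symm_apply]
  rw [iterateFrobeniusEquiv_def]
  exact h1

theorem norm_fr (k : ℤ) (x : Ob K) : ‖fr p k x‖ = ‖x‖ ^ ((p : ℝ) ^ k) := by
  have hp0 : (0 : ℝ) < p := by exact_mod_cast (Fact.out : p.Prime).pos
  obtain ⟨k, rfl | rfl⟩ := Int.eq_nat_or_neg k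
  · rw [fr_natCast]
    rw [norm_pow, zpow_natCast, ← Real.rpow_natCast]
    push_cast
    rfl
  · have h1 : (fr p (-(k : ℤ)) x) ^ p ^ k = x := by
      rw [← fr_natCast, ← fr_add]
      simp [fr_zero]
    have h2 : ‖fr p (-(k : ℤ)) x‖ ^ p ^ k = ‖x‖ := by
      rw [← norm_pow, h1]
    rw [← h2, ← Real.rpow_natCast, ← Real.rpow_mul (norm_nonneg _)]
    push_cast
    rw [← zpow_natCast, ← zpow_add₀ hp0.ne']
    simp

end fr

variable (p : ℕ) [Fact p.Prime] {K : Type*} [NormedField K] [IsUltrametricDist K]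
  [CompleteSpace K] [CharP K p] [PerfectRing K p]

/-- the `p`-adic filtration of `RW w` -/
def naW (w : Ob K) (hw : w ≠ 0) : NAFilt (RW p w) where
  F m :=
    { carrier := {x | ∃ b, x = (p : RW p w) ^ m * toRW p w b}
      add_mem' := by
        rintro x y ⟨b, rfl⟩ ⟨c, rfl⟩
        exact ⟨b + c, by rw [map_add, mul_add]⟩
      zero_mem' := ⟨0, by simp⟩
      neg_mem' := by
        rintro x ⟨b, rfl⟩
        exact ⟨-b, by rw [map_neg, mul_neg]⟩ }
  anti m := by
    rintro x ⟨b, rfl⟩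
    refine ⟨p * b, ?_⟩
    rw [map_mul, map_natCast, pow_succ, mul_assoc]
  mul a m := by
    obtain ⟨k, b, rfl⟩ := exists_eq_pinv_pow p w a
    refine ⟨k + m, ?_⟩
    rintro x ⟨c, rfl⟩
    refine ⟨b * c, ?_⟩
    have h1 : (p : RW p w) ^ k * pinv p w ^ k = 1 := by
      rw [← mul_pow, p_mul_pinv, one_pow]
    rw [pow_add, map_mul]
    calc pinv p w ^ k * toRW p w b * ((p : RW p w) ^ k * (p : RW p w) ^ m * toRW p w c)
        = ((p : RW p w) ^ k * pinv p w ^ k) * ((p : RW p w) ^ m * (toRW p w b * toRW p w c)) := by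
          ring
      _ = _ := by rw [h1, one_mul]
  sep x h := eq_zero_of_forall_pow p w hw x h

theorem mem_naW {w : Ob K} {hw : w ≠ 0} {m : ℕ} {x : RW p w} :
    x ∈ (naW p w hw).F m ↔ ∃ b, x = (p : RW p w) ^ m * toRW p w b := Iff.rfl

/-- `p` as a unit -/
def pu (w : Ob K) : (RW p w)ˣ := (isUnit_p p w).unit

@[simp] theorem coe_pu (w : Ob K) : ((pu p w : (RW p w)ˣ) : RW p w) = p := IsUnit.unit_spec _

/-- `p^i [a]` -/
def tm (w : Ob K) (i : ℤ) (a : Ob K) : RW p w :=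
  ((pu p w ^ i : (RW p w)ˣ) : RW p w) * toRW p w (teichmuller p a)

theorem tm_eq_zero {w : Ob K} (hw : w ≠ 0) {a : Ob K} (h : w ∣ a) (i : ℤ) : tm p w i a = 0 := by
  obtain ⟨b, rfl⟩ := h
  unfold tm
  rw [map_mul, (toRW_eq_zero_iff p w hw _).2 (dvd_mul_right _ _), mul_zero]

theorem tm_mul (w : Ob K) (i j : ℤ) (a b : Ob K) :
    tm p w (i + j) (a * b) = tm p w i a * tm p w j b := by
  unfold tm
  rw [zpow_add, Units.val_mul, map_mul, map_mul]
  ring

theorem tm_mem {w : Ob K} (hw : w ≠ 0) {a : Ob K} {i : ℤ} {m : ℕ} (h : (m : ℤ) ≤ i) :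
    tm p w i a ∈ (naW p w hw).F m := by
  obtain ⟨k, rfl⟩ := Int.le.dest h
  refine ⟨(p : WittVector p (Ob K)) ^ k * teichmuller p a, ?_⟩
  unfold tm
  rw [map_mul, map_pow, map_natCast, ← Nat.cast_add, zpow_natCast, Units.val_pow_eq_pow_val,
    coe_pu, pow_add, mul_assoc]

/-- sums of Teichmüller series -/
theorem HS_series (w : Ob K) (hw : w ≠ 0) (a : ℤ → Ob K) (B : ℕ)
    (ha : ∀ i : ℤ, i < -(B : ℤ) → w ∣ a i) :
    HS (naW p w hw) (fun i : ℤ => tm p w i (a i))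
      (pinv p w ^ B * toRW p w (WittVector.mk p fun j => (a ((j : ℤ) - B)) ^ p ^ j)) := by
  classical
  intro m
  refine ⟨(Finset.range (B + m + 1)).image fun j : ℕ => (j : ℤ) - B, fun I hI => ?_⟩
  rw [← Finset.sum_sdiff hI]
  have hrest : ∑ i ∈ I \ (Finset.range (B + m + 1)).image (fun j : ℕ => (j : ℤ) - B),
      tm p w i (a i) ∈ (naW p w hw).F m := by
    refine ((naW p w hw).F m).sum_mem fun i hi => ?_
    rcases lt_or_ge i (-(B : ℤ)) with h | h
    · rw [tm_eq_zero p hw (ha i h)]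
      exact ((naW p w hw).F m).zero_mem
    · apply tm_mem
      by_contra hlt
      push Not at hlt
      refine (Finset.mem_sdiff.1 hi).2 ?_
      rw [Finset.mem_image]
      refine ⟨(i + B).toNat, ?_, ?_⟩
      · rw [Finset.mem_range]
        omega
      · omega
  have hsum : ∑ i ∈ (Finset.range (B + m + 1)).image (fun j : ℕ => (j : ℤ) - B),
      tm p w i (a i) = pinv p w ^ B * toRW p w (∑ j ∈ Finset.range (B + m + 1),
        (teichmuller p (a ((j : ℤ) - B)) * (p : WittVector p (Ob K)) ^ j)) := by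
    rw [Finset.sum_image (by intro x _ y _ hxy; simpa using hxy), map_sum, Finset.mul_sum]
    refine Finset.sum_congr rfl fun j _ => ?_
    have h1 : (p : RW p w) ^ B * pinv p w ^ B = 1 := by
      rw [← mul_pow, p_mul_pinv, one_pow]
    have h2 : ((pu p w ^ ((j : ℤ) - B) : (RW p w)ˣ) : RW p w) = pinv p w ^ B * (p : RW p w) ^ j := by
      have h3 : (p : RW p w) ^ B * ((pu p w ^ ((j : ℤ) - B) : (RW p w)ˣ) : RW p w) =
          (p : RW p w) ^ j := by
        rw [← coe_pu, ← Units.val_pow_eq_pow_val, ← Units.val_pow_eq_pow_val, ← Units.val_mul]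
        congr 1
        rw [← zpow_natCast, ← zpow_natCast, ← zpow_add]
        congr 1
        ring
      calc ((pu p w ^ ((j : ℤ) - B) : (RW p w)ˣ) : RW p w)
          = ((p : RW p w) ^ B * pinv p w ^ B) * ((pu p w ^ ((j : ℤ) - B) : (RW p w)ˣ) : RW p w) := by
            rw [h1, one_mul]
        _ = pinv p w ^ B * ((p : RW p w) ^ B * ((pu p w ^ ((j : ℤ) - B) : (RW p w)ˣ) : RW p w)) := by
            ring
        _ = _ := by rw [h3]
    unfold tm
    rw [h2, map_mul, map_pow, map_natCast]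
    ring
  rw [add_sub_assoc]
  refine ((naW p w hw).F m).add_mem hrest ?_
  rw [hsum, ← mul_sub, ← map_sub]
  have hser := dvd_sub_sum_teichmuller_iterateFrobeniusEquiv_coeff
    (WittVector.mk p fun j => (a ((j : ℤ) - B)) ^ p ^ j) (B + m)
  obtain ⟨b, hb⟩ := hser
  have hcoef : ∀ j : ℕ, ((_root_.frobeniusEquiv (Ob K) p).symm ^ j)
      ((WittVector.mk p fun j => (a ((j : ℤ) - B)) ^ p ^ j).coeff j) = a ((j : ℤ) - B) := by
    intro j
    rw [WittVector.coeff_mk]
    have : ∀ (k : ℕ) (x : Ob K), ((_root_.frobeniusEquiv (Ob K) p).symm ^ k) (x ^ p ^ k) = x := by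
      intro k
      induction k with
      | zero => intro x; simp
      | succ k ih =>
        intro x
        rw [pow_succ, pow_succ, pow_mul]
        change ((_root_.frobeniusEquiv (Ob K) p).symm ^ k)
          ((_root_.frobeniusEquiv (Ob K) p).symm ((x ^ p ^ k) ^ p)) = x
        rw [show (x ^ p ^ k) ^ p = _root_.frobeniusEquiv (Ob K) p (x ^ p ^ k) from rfl,
          RingEquiv.symm_apply_apply, ih]
    exact this j _
  rw [mem_naW]
  refine ⟨-(p * b), ?_⟩
  have hIic : (Finset.Iic (B + m)) = Finset.range (B + m + 1) := by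
    ext x; simp
  rw [hIic] at hb
  simp_rw [hcoef] at hb
  have h4 : ∑ j ∈ Finset.range (B + m + 1),
      (teichmuller p (a ((j : ℤ) - B)) * (p : WittVector p (Ob K)) ^ j) -
      (WittVector.mk p fun j => (a ((j : ℤ) - B)) ^ p ^ j) =
      -((p : WittVector p (Ob K)) ^ (B + m + 1) * b) := by
    rw [← hb]; ring
  rw [h4, map_neg, map_mul, map_pow, map_natCast, map_neg, map_mul, map_natCast]
  have h1 : (p : RW p w) ^ B * pinv p w ^ B = 1 := by
    rw [← mul_pow, p_mul_pinv, one_pow]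
  calc pinv p w ^ B * -((p : RW p w) ^ (B + m + 1) * toRW p w b)
      = ((p : RW p w) ^ B * pinv p w ^ B) * ((p : RW p w) ^ m * -(p * toRW p w b)) := by ring
    _ = _ := by rw [h1, one_mul]

theorem HS_Lw (n : ℕ) (hn : 1 ≤ n) (w : Ob K) (hw : w ≠ 0) (z : Ob K) (hz : ‖z‖ < 1) :
    HS (naW p w hw) (fun i : ℤ => tm p w i (fr p (-(n * i)) z)) (Lw p n w z) := by
  obtain ⟨B, hB⟩ := exists_dvd_pow p n hn w z hw hz
  rw [Lw_eq p n hn w z B hB]
  have h1 := HS_series p w hw (fun i : ℤ => fr p (-(n * i)) z) B (by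
    intro i hi
    obtain ⟨k, hk⟩ := Int.le.dest (show (B : ℤ) + 1 ≤ -i by omega)
    have : -((n : ℤ) * i) = ((n * k : ℕ) : ℤ) + ((n * (B + 1) : ℕ) : ℤ) := by
      push_cast
      have : i = -((B : ℤ) + 1 + k) := by omega
      rw [this]; ring
    rw [this, fr_add, fr_natCast p (n * (B + 1)), pow_mul p n (B + 1), fr_natCast]
    exact hB.trans (dvd_pow_self _ (pow_ne_zero _ (Fact.out : p.Prime).ne_zero)))
  convert h1 using 3
  unfold Lp
  ext j
  rw [WittVector.coeff_mk, WittVector.coeff_mk]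
  rw [← fr_neg_natCast, ← fr_natCast p j, ← pow_mul, ← fr_natCast p (n * B), ← fr_add, ← fr_add]
  congr 2
  have : ((n - 1 : ℕ) : ℤ) = n - 1 := by omega
  push_cast
  rw [this]
  congr 1
  ring

omit [CompleteSpace K] [CharP K p] [PerfectRing K p] in
theorem Ob_dvd_of_norm_le {w a : Ob K} (hw : w ≠ 0) (h : ‖a‖ ≤ ‖w‖) : w ∣ a := by
  have hw' : (w : K) ≠ 0 := fun h0 => hw (Subtype.ext h0)
  have hwn : 0 < ‖(w : K)‖ := norm_pos_iff.2 hw'
  refine ⟨⟨(a : K) / w, ?_⟩, ?_⟩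
  · rw [mem_Ob, norm_div]
    exact (div_le_one hwn).2 h
  · apply Subtype.ext
    simp only [Subring.coe_mul]
    field_simp

/-- The typical coefficients: `|c_K| < 1` and `c_{K+r}^Q = c_K`, `Q = p^h`. -/
structure CSys (h r : ℕ) (c : ℤ → Ob K) : Prop where
  lt : ∀ k, ‖c k‖ < 1
  rel : ∀ k, c (k + r) ^ p ^ h = c k

omit [CompleteSpace K] in
theorem CSys.rel' {h r : ℕ} {c : ℤ → Ob K} (hc : CSys p h r c) (j k : ℤ) :
    c (k - r * j) = fr p (h * j) (c k) := by
  have h0 : ∀ (j : ℕ) (k : ℤ), c (k - r * j) = fr p (h * j) (c k) := by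
    intro j
    induction j with
    | zero => intro k; simp [fr_zero]
    | succ j ih =>
      intro k
      have h1 := hc.rel (k - r * (j + 1))
      have h2 : k - (r : ℤ) * (j + 1) + r = k - r * j := by ring
      rw [h2, ih] at h1
      have h3 : k - (r : ℤ) * ((j + 1 : ℕ) : ℤ) = k - (r : ℤ) * (j + 1) := by push_cast; ring
      rw [h3, ← h1, ← fr_natCast p h, ← fr_add]
      congr 2
      push_cast; ring
  obtain ⟨j, rfl | rfl⟩ := Int.eq_nat_or_neg j
  · exact h0 j k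
  · have h1 := h0 j (k - r * (-(j : ℤ)))
    have h2 : k - (r : ℤ) * (-(j : ℤ)) - r * j = k := by ring
    rw [h2] at h1
    rw [h1, ← fr_add]
    have h3 : (h : ℤ) * -(j : ℤ) + h * j = 0 := by ring
    rw [h3, fr_zero]

omit [CompleteSpace K] in
/-- bound on a left half line -/
theorem CSys.bound {h r : ℕ} (hr : 1 ≤ r) {c : ℤ → Ob K} (hc : CSys p h r c) (k₀ : ℤ) :
    ∃ ρ : ℝ, 0 < ρ ∧ ρ < 1 ∧ ∀ k ≤ k₀, ‖c k‖ ≤ ρ := by
  classical
  have hne : (Finset.Ioc (k₀ - r) k₀).Nonempty := ⟨k₀, by simp; omega⟩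
  obtain ⟨k₁, hk₁, hmax⟩ := Finset.exists_max_image (Finset.Ioc (k₀ - r) k₀) (fun k => ‖c k‖) hne
  refine ⟨max ‖c k₁‖ (1 / 2), lt_max_of_lt_right (by norm_num),
    max_lt (hc.lt k₁) (by norm_num), ?_⟩
  have key : ∀ (d : ℕ) (k : ℤ), k ≤ k₀ → (k₀ - k).toNat ≤ d → ‖c k‖ ≤ ‖c k₁‖ := by
    intro d
    induction d with
    | zero =>
      intro k hk hd
      have : k = k₀ := by omega
      subst this
      exact hmax _ (by simp; omega)
    | succ d ih =>
      intro k hk hd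
      rcases lt_or_ge (k₀ - r) k with h1 | h1
      · exact hmax k (by simp; omega)
      · have h2 := ih (k + r) (by omega) (by omega)
        rw [← hc.rel k, norm_pow]
        refine le_trans (pow_le_of_le_one (norm_nonneg _) (hc.lt _).le ?_) h2
        exact pow_ne_zero _ (Fact.out : p.Prime).ne_zero
  intro k hk
  exact (key _ k hk le_rfl).trans (le_max_left _ _)

theorem tendsto_pow_pow {ρ : ℝ} (h0 : 0 ≤ ρ) (h1 : ρ < 1) {m : ℕ} (hm : 1 ≤ m) {ε : ℝ}
    (hε : 0 < ε) : ∃ J : ℕ, ∀ j ≥ J, ρ ^ p ^ (m * j) < ε := by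
  obtain ⟨N, hN⟩ := exists_pow_lt_of_lt_one hε h1
  refine ⟨N, fun j hj => lt_of_le_of_lt (pow_le_pow_of_le_one h0 h1.le ?_) hN⟩
  have h2 : 1 < p := (Fact.out : p.Prime).one_lt
  calc N ≤ j := hj
    _ ≤ m * j := Nat.le_mul_of_pos_left _ hm
    _ ≤ p ^ (m * j) := (Nat.lt_pow_self h2).le

omit [CompleteSpace K] in
theorem CSys.finite {h r : ℕ} (hh : 1 ≤ h) (hr : 1 ≤ r) {c : ℤ → Ob K} (hc : CSys p h r c)
    {z : Ob K} (hz : ‖z‖ < 1) {ε : ℝ} (hε : 0 < ε) :
    {k : ℤ | ε ≤ ‖c k * fr p k z‖}.Finite := by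
  obtain ⟨ρ, hρ0, hρ1, hρ⟩ := hc.bound p hr 0
  obtain ⟨J, hJ⟩ := tendsto_pow_pow p hρ0.le hρ1 hh hε
  obtain ⟨N, hN⟩ := tendsto_pow_pow p (norm_nonneg z) hz (le_refl 1) hε
  refine (Set.finite_Icc (-(r * J : ℤ)) N).subset ?_
  intro k hk
  rw [Set.mem_ofPred_eq] at hk
  rw [Set.mem_Icc]
  constructor
  · by_contra hlt
    push Not at hlt
    have h1 : ‖c k * fr p k z‖ ≤ ‖c k‖ := by
      rw [norm_mul]
      exact mul_le_of_le_one_right (norm_nonneg _) (Ob_norm_le_one _)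
    have h2 := hc.rel' p J (k + r * J)
    have h3 : k + (r : ℤ) * J - r * J = k := by ring
    rw [h3] at h2
    have h4 : ‖c k‖ < ε := by
      rw [h2, show ((h : ℤ) * (J : ℤ)) = ((h * J : ℕ) : ℤ) by push_cast; ring, fr_natCast,
        norm_pow]
      refine lt_of_le_of_lt (pow_le_pow_left₀ (norm_nonneg _) (hρ _ ?_) _) (hJ J le_rfl)
      linarith
    linarith
  · by_contra hlt
    push Not at hlt
    obtain ⟨k', rfl⟩ := Int.eq_ofNat_of_zero_le (show 0 ≤ k by omega)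
    have h1 : ‖c k' * fr p k' z‖ ≤ ‖fr p k' z‖ := by
      rw [norm_mul]
      exact mul_le_of_le_one_left (norm_nonneg _) (Ob_norm_le_one _)
    have h2 := hN k' (by omega)
    rw [one_mul] at h2
    have h3 : ‖fr p k' z‖ = ‖z‖ ^ p ^ k' := by rw [fr_natCast, norm_pow]
    linarith

omit [CompleteSpace K] in
theorem CSys.sup {h r : ℕ} (hh : 1 ≤ h) (hr : 1 ≤ r) {c : ℤ → Ob K} (hc : CSys p h r c)
    {z : Ob K} (hz : ‖z‖ < 1) : ∃ ρ : ℝ, 0 < ρ ∧ ρ < 1 ∧ ∀ k, ‖c k * fr p k z‖ ≤ ρ := by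
  classical
  have hf := hc.finite p hh hr hz (ε := 1 / 2) (by norm_num)
  have hlt : ∀ k, ‖c k * fr p k z‖ < 1 := by
    intro k
    rw [norm_mul]
    exact lt_of_le_of_lt (mul_le_of_le_one_right (norm_nonneg _) (Ob_norm_le_one _)) (hc.lt k)
  set S := insert 0 hf.toFinset
  obtain ⟨k₁, hk₁, hmax⟩ := Finset.exists_max_image S (fun k => ‖c k * fr p k z‖)
    ⟨0, Finset.mem_insert_self _ _⟩
  refine ⟨max ‖c k₁ * fr p k₁ z‖ (1 / 2), lt_max_of_lt_right (by norm_num),
    max_lt (hlt _) (by norm_num), fun k => ?_⟩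
  by_cases hk : k ∈ hf.toFinset
  · exact (hmax k (Finset.mem_insert_of_mem hk)).trans (le_max_left _ _)
  · rw [Set.Finite.mem_toFinset, Set.mem_ofPred_eq] at hk
    push Not at hk
    exact hk.le.trans (le_max_right _ _)

/-- the double family -/
def UU (h : ℕ) (w : Ob K) (c : ℤ → Ob K) (z : Ob K) (x : ℤ × ℤ) : RW p w :=
  tm p w x.2 (fr p (-(h * x.2)) (c x.1 * fr p x.1 z))

theorem UU_mk (h : ℕ) (w : Ob K) (c : ℤ → Ob K) (z : Ob K) (k i : ℤ) :
    UU p h w c z (k, i) = tm p w i (fr p (-(h * i)) (c k * fr p k z)) := rfl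

theorem UU_finite {h r : ℕ} (hh : 1 ≤ h) (hr : 1 ≤ r) {c : ℤ → Ob K} (hc : CSys p h r c)
    {z : Ob K} (hz : ‖z‖ < 1) (w : Ob K) (hw : w ≠ 0) (m : ℕ) :
    {x : ℤ × ℤ | UU p h w c z x ∉ (naW p w hw).F m}.Finite := by
  have hp0 : (0 : ℝ) < p := by exact_mod_cast (Fact.out : p.Prime).pos
  have hp1 : (1 : ℝ) ≤ p := by exact_mod_cast (Fact.out : p.Prime).one_lt.le
  have hw' : 0 < ‖w‖ := norm_pos_iff.2 hw
  obtain ⟨ρ, hρ0, hρ1, hρ⟩ := hc.sup p hh hr hz
  obtain ⟨B, hB⟩ := tendsto_pow_pow p hρ0.le hρ1 hh hw'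
  set ε : ℝ := ‖w‖ ^ ((p : ℝ) ^ (h * m : ℤ)) with hεdef
  have hε : 0 < ε := Real.rpow_pos_of_pos hw' _
  refine ((hc.finite p hh hr hz hε).prod (Set.finite_Icc (-(B : ℤ)) m)).subset ?_
  rintro ⟨k, i⟩ hx
  rw [Set.mem_ofPred_eq] at hx
  have hi : i < m := by
    by_contra hge
    push Not at hge
    exact hx (tm_mem p hw hge)
  have hnd : ‖w‖ < ‖fr p (-(h * i)) (c k * fr p k z)‖ := by
    by_contra hge
    push Not at hge
    apply hx
    unfold UU
    rw [tm_eq_zero p hw (Ob_dvd_of_norm_le hw hge)]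
    exact ((naW p w hw).F m).zero_mem
  rw [norm_fr] at hnd
  have hg0 : 0 ≤ ‖c k * fr p k z‖ := norm_nonneg _
  rw [Set.mem_prod]
  constructor
  · rw [Set.mem_ofPred_eq, hεdef]
    have h1 : ‖c k * fr p k z‖ ^ ((p : ℝ) ^ (-((h : ℤ) * i))) ≤
        ‖c k * fr p k z‖ ^ ((p : ℝ) ^ (-((h : ℤ) * m))) := by
      rcases hg0.eq_or_lt with h0 | h0
      · rw [← h0, Real.zero_rpow (zpow_pos hp0 _).ne', Real.zero_rpow (zpow_pos hp0 _).ne']
      · refine Real.rpow_le_rpow_of_exponent_ge h0 (Ob_norm_le_one _) ?_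
        exact zpow_le_zpow_right₀ hp1 (by nlinarith)
    have h2 := Real.rpow_le_rpow hw'.le (hnd.le.trans h1)
      (zpow_pos hp0 ((h : ℤ) * m)).le
    rw [← Real.rpow_mul hg0, ← zpow_add₀ hp0.ne'] at h2
    simpa using h2
  · rw [Set.mem_Icc]
    refine ⟨?_, hi.le⟩
    by_contra hlt
    push Not at hlt
    obtain ⟨i', hi'⟩ := Int.eq_ofNat_of_zero_le (show 0 ≤ -i by omega)
    have h1 : -((h : ℤ) * i) = ((h * i' : ℕ) : ℤ) := by
      push_cast
      rw [← hi']; ring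
    rw [h1, zpow_natCast] at hnd
    have h2 : ‖c k * fr p k z‖ ^ ((p : ℝ) ^ (h * i')) ≤ ρ ^ ((p : ℝ) ^ (h * i')) :=
      Real.rpow_le_rpow hg0 (hρ k) (by positivity)
    have h3 : ρ ^ ((p : ℝ) ^ (h * i')) < ‖w‖ := by
      have := hB i' (by omega)
      rw [← Real.rpow_natCast] at this
      push_cast at this
      exact this
    linarith

theorem exists_mu {h r : ℕ} (hh : 1 ≤ h) (hr : 1 ≤ r) {c : ℤ → Ob K} (hc : CSys p h r c)
    (w : Ob K) (hw : w ≠ 0) (e : ℤ) :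
    ∃ μ : RW p w, HS (naW p w hw)
      (fun i : ℤ => tm p w i (fr p (-(h * i)) (c (e + h * i)))) μ := by
  have hw' : 0 < ‖w‖ := norm_pos_iff.2 hw
  obtain ⟨ρ, hρ0, hρ1, hρ⟩ := hc.bound p hr e
  obtain ⟨B, hB⟩ := tendsto_pow_pow p hρ0.le hρ1 hh hw'
  refine ⟨_, HS_series p w hw (fun i : ℤ => fr p (-(h * i)) (c (e + h * i))) B ?_⟩
  intro i hi
  obtain ⟨i', hi'⟩ := Int.eq_ofNat_of_zero_le (show 0 ≤ -i by omega)
  refine Ob_dvd_of_norm_le hw ?_
  have h1 : -((h : ℤ) * i) = ((h * i' : ℕ) : ℤ) := by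
    push_cast
    rw [← hi']; ring
  rw [h1, fr_natCast, norm_pow]
  refine le_trans (pow_le_pow_left₀ (norm_nonneg _) (hρ _ ?_) _) (hB i' (by omega)).le
  nlinarith

/-- the reindexing -/
def EE (n h r : ℕ) (hn : n = h + r) (hn0 : 1 ≤ n) : (Fin n × (ℤ × ℤ)) ≃ (ℤ × ℤ) where
  toFun x := ((x.1 : ℤ) + h * x.2.2 - r * x.2.1, x.2.2 + x.2.1)
  invFun y := (⟨((y.1 - h * y.2) % n).toNat, by
      have h1 := Int.emod_nonneg (y.1 - h * y.2) (show (n : ℤ) ≠ 0 by omega)
      have h2 := Int.emod_lt_of_pos (y.1 - h * y.2) (show (0 : ℤ) < n by omega)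
      omega⟩, (-((y.1 - h * y.2) / n), y.2 + (y.1 - h * y.2) / n))
  left_inv := by
    rintro ⟨e, j, i⟩
    have hn2 : (n : ℤ) = h + r := by exact_mod_cast hn
    have hJ : (e : ℤ) + h * i - r * j - h * (i + j) = e - n * j := by
      rw [hn2]; ring
    have he : (0 : ℤ) ≤ (e : ℤ) := by omega
    have he' : (e : ℤ) < n := by exact_mod_cast e.2
    have hn' : (n : ℤ) ≠ 0 := by omega
    have hmod : ((e : ℤ) - n * j) % n = e := by
      rw [Int.sub_mul_emod_self_left]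
      exact Int.emod_eq_of_lt he he'
    have hdiv : ((e : ℤ) - n * j) / n = -j := by
      rw [Int.sub_mul_ediv_left _ _ hn', Int.ediv_eq_zero_of_lt he he']
      ring
    simp only [hJ, hmod, hdiv]
    ext
    · simp
    · simp
    · simp
  right_inv := by
    rintro ⟨k, i⟩
    have h1 := Int.emod_nonneg (k - h * i) (show (n : ℤ) ≠ 0 by omega)
    have h2 := Int.emod_add_mul_ediv (k - h * i) n
    ext
    · simp only
      rw [Int.toNat_of_nonneg h1]
      have h3 : (n : ℤ) = h + r := by exact_mod_cast hn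
      have h4 : (k - h * i) % n = k - h * i - n * ((k - h * i) / n) := by linarith
      rw [h4, h3]; ring
    · simp only
      ring

/-- **Expansion lemma.** -/
theorem expansion {n h r : ℕ} (hn : n = h + r) (hh : 1 ≤ h) (hr : 1 ≤ r) {c : ℤ → Ob K}
    (hc : CSys p h r c) (w : Ob K) (hw : w ≠ 0) :
    ∃ μ : Fin n → RW p w, ∀ z : Ob K, ‖z‖ < 1 → ∀ s : RW p w,
      HS (naW p w hw) (fun k : ℤ => Lw p h w (c k * fr p k z)) s →
      s = ∑ e : Fin n, μ e * Lw p n w (z ^ p ^ (e : ℕ)) := by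
  choose μ hμ using fun e : Fin n => exists_mu p hh hr hc w hw (e : ℤ)
  refine ⟨μ, fun z hz s hs => ?_⟩
  have hlt : ∀ k, ‖c k * fr p k z‖ < 1 := by
    intro k
    rw [norm_mul]
    exact lt_of_le_of_lt (mul_le_of_le_one_right (norm_nonneg _) (Ob_norm_le_one _)) (hc.lt k)
  have h1 : HS (naW p w hw) (UU p h w c z) s := by
    have h0 : ∀ k : ℤ, HS (naW p w hw) (fun i : ℤ => UU p h w c z (k, i))
        (Lw p h w (c k * fr p k z)) := by
      intro k
      simp only [UU_mk]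
      exact HS_Lw p h hh w hw _ (hlt k)
    exact HS.of_iter (UU_finite p hh hr hc hz w hw) h0 hs
  have hUE : ∀ (e : Fin n) (j i : ℤ), UU p h w c z (EE n h r hn (by omega) (e, (j, i))) =
      tm p w i (fr p (-(h * i)) (c (e + h * i))) *
        tm p w j (fr p (-(n * j)) (z ^ p ^ (e : ℕ))) := by
    intro e j i
    unfold UU
    simp only [EE, Equiv.coe_fn_mk]
    rw [← tm_mul, hc.rel', map_mul, ← fr_add, ← fr_add, ← fr_natCast, ← fr_add]
    congr 3
    · congr 1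
      ring
    · have hn2 : (n : ℤ) = h + r := by exact_mod_cast hn
      congr 1
      rw [hn2]; ring
  have h2 : HS (naW p w hw) (UU p h w c z) (∑ e : Fin n, μ e * Lw p n w (z ^ p ^ (e : ℕ))) := by
    refine HS.of_equiv (EE n h r hn (by omega)) ?_
    refine HS.of_iter (s := fun e : Fin n => μ e * Lw p n w (z ^ p ^ (e : ℕ))) ?_ ?_
      (HS.finite _)
    · intro m
      exact (UU_finite p hh hr hc hz w hw m).preimage (Equiv.injective _).injOn
    · intro e
      refine HS.of_iter (s := fun j : ℤ => μ e * tm p w j (fr p (-(n * j)) (z ^ p ^ (e : ℕ))))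
        ?_ ?_ ?_
      · intro m
        have hf := (UU_finite p hh hr hc hz w hw m).preimage
          ((Equiv.injective (EE n h r hn (by omega))).comp
            (f := fun x : ℤ × ℤ => ((e, x) : Fin n × (ℤ × ℤ)))
            (fun a b hab => (Prod.ext_iff.1 hab).2)).injOn
        exact hf
      · intro j
        have := (hμ e).mul_right (tm p w j (fr p (-(n * j)) (z ^ p ^ (e : ℕ))))
        simpa only [hUE] using this
      · refine HS.mul_left (HS_Lw p n (by omega) w hw _ ?_) (μ e)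
        rw [norm_pow]
        exact pow_lt_one₀ (norm_nonneg _) hz
          (pow_ne_zero _ (Fact.out : p.Prime).ne_zero)
  exact h1.unique h2

end Crest.Agent.R227
end
end

-- ▼ part R227/Swap
section

/-!
# R227 / Swap : the swap identity (part (G) of note 4224)
-/

set_option autoImplicit false

noncomputable section

namespace Crest.Agent.R227

open WittVector Crest.LubinTate

variable (p : ℕ) [Fact p.Prime] {K : Type*} [NormedField K] [IsUltrametricDist K]
  [CompleteSpace K] [CharP K p] [PerfectRing K p]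

/-! ## units and roots of unity -/

theorem isUnit_witt_of_coeff {O : Type*} [CommRing O] [CharP O p] [PerfectRing O p]
    (x : WittVector p O) (hx : IsUnit (x.coeff 0)) : IsUnit x := by
  obtain ⟨u, hu⟩ := hx
  have h1 : (teichmuller p ((u⁻¹ : Oˣ) : O) * x).coeff 0 = 1 := by
    rw [WittVector.mul_coeff_zero, teichmuller_coeff_zero, ← hu, Units.inv_mul]
  have h2 : teichmuller p ((u⁻¹ : Oˣ) : O) * x - 1 ∈ Ideal.span {(p : WittVector p O)} := by
    rw [mem_span_p_iff_coeff_zero_eq_zero]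
    have := (le_coeff_eq_iff_le_sub_coeff_eq_zero (x := teichmuller p ((u⁻¹ : Oˣ) : O) * x)
      (y := 1) (n := 1)).1 (by
        intro i hi
        obtain rfl : i = 0 := by omega
        rw [h1, WittVector.one_coeff_zero])
    exact this 0 (by norm_num)
  have h3 := IsAdicComplete.le_jacobson_bot (Ideal.span {(p : WittVector p O)}) h2
  rw [Ideal.mem_jacobson_bot] at h3
  have h4 := h3 1
  rw [mul_one, sub_add_cancel] at h4
  exact isUnit_of_mul_isUnit_right h4

theorem isUnit_toRW_sub (w : Ob K) (a b : Ob K) (hab : ‖a - b‖ = 1) :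
    IsUnit (toRW p w (teichmuller p a) - toRW p w (teichmuller p b)) := by
  rw [← map_sub]
  refine IsUnit.map _ (isUnit_witt_of_coeff p _ ?_)
  have h1 : (teichmuller p a - teichmuller p b).coeff 0 = a - b := by
    have := RingHom.map_sub (WittVector.constantCoeff (p := p) (R := Ob K))
      (teichmuller p a) (teichmuller p b)
    simpa using this
  rw [h1, Ob_isUnit_iff]
  exact hab

/-- existence of a root of unity of order `p^n - 1` with good differences -/
theorem exists_zeta [IsAlgClosed K] (n : ℕ) (hn : 1 ≤ n) :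
    ∃ ζ : Ob K, ζ ^ p ^ n = ζ ∧ ∀ i j : Fin n, i ≠ j → ‖ζ ^ p ^ (i : ℕ) - ζ ^ p ^ (j : ℕ)‖ = 1 := by
  have hp : p.Prime := Fact.out
  have hp1 := hp.one_lt
  have hpn : 1 < p ^ n := Nat.one_lt_pow (by omega) hp1
  have hne : ((p ^ n - 1 : ℕ) : K) ≠ 0 := by
    rw [Nat.cast_sub hpn.le, Nat.cast_pow, CharP.cast_eq_zero, zero_pow (by omega)]
    simp
  have : NeZero ((p ^ n - 1 : ℕ) : K) := ⟨hne⟩
  have : NeZero (p ^ n - 1) := ⟨by omega⟩
  obtain ⟨ζ, hζ⟩ := HasEnoughRootsOfUnity.exists_primitiveRoot K (p ^ n - 1)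
  have hζ1 : ζ ^ p ^ n = ζ := by
    have := hζ.pow_eq_one
    calc ζ ^ p ^ n = ζ ^ (p ^ n - 1 + 1) := by congr 1; omega
      _ = ζ := by rw [pow_succ, this, one_mul]
  have hnorm : ∀ d : K, d ^ p ^ n = d → d ≠ 0 → ‖d‖ = 1 := by
    intro d hd hd0
    have h1 : d ^ (p ^ n - 1) = 1 := by
      have h2 : d ^ (p ^ n - 1) * d = 1 * d := by
        rw [← pow_succ, one_mul]
        conv_rhs => rw [← hd]
        congr 1; omega
      exact mul_right_cancel₀ hd0 h2
    have h3 : ‖d‖ ^ (p ^ n - 1) = 1 := by rw [← norm_pow, h1, norm_one]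
    exact (pow_eq_one_iff_of_nonneg (norm_nonneg _) (by omega)).1 h3
  have hζ0 : ζ ≠ 0 := hζ.ne_zero (by omega)
  refine ⟨⟨ζ, (hnorm ζ hζ1 hζ0).le⟩, Subtype.ext hζ1, fun i j hij => ?_⟩
  change ‖ζ ^ p ^ (i : ℕ) - ζ ^ p ^ (j : ℕ)‖ = 1
  apply hnorm
  · have hexp : ExpChar K p := ExpChar.prime hp
    rw [sub_pow_char_pow, ← pow_mul, ← pow_mul, mul_comm (p ^ (i : ℕ)), mul_comm (p ^ (j : ℕ)),
      pow_mul, pow_mul, hζ1]
  · rw [sub_ne_zero]
    intro heq
    have hlt : ∀ k : Fin n, p ^ (k : ℕ) < p ^ n - 1 ∨ (p ^ (k : ℕ) = 1 ∧ n = 1) := by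
      intro k
      rcases Nat.lt_or_ge 1 n with h1 | h1
      · left
        have h2 : p ^ (k : ℕ) ≤ p ^ (n - 1) := Nat.pow_le_pow_right hp.pos (by have := k.2; omega)
        have h3 : p ^ n = p ^ (n - 1) * p := by rw [← pow_succ]; congr 1; omega
        have h4 : 2 ≤ p ^ (n - 1) := le_trans hp.two_le (Nat.le_self_pow (by omega) p)
        have h5 : p ^ (n - 1) * 2 ≤ p ^ (n - 1) * p := Nat.mul_le_mul_left _ hp.two_le
        omega
      · right
        have : n = 1 := by omega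
        subst this
        have : (k : ℕ) = 0 := by omega
        simp
    apply hij
    rcases hlt i with hi | ⟨hi, hn1⟩
    · rcases hlt j with hj | ⟨hj, hn1⟩
      · have := hζ.pow_inj hi hj heq
        exact Fin.ext (Nat.pow_right_injective hp.two_le this)
      · subst hn1; exact Subsingleton.elim _ _
    · subst hn1; exact Subsingleton.elim _ _

/-! ## functions expandable in `L_n(z^{p^e})` -/

/-- `Λ(z) = ∑_{e<n} M_e L_n(z^{p^e})` -/
def Expandable (n : ℕ) (w : Ob K) (Λ : Ob K → RW p w) : Prop :=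
  ∃ M : Fin n → RW p w, ∀ z : Ob K, ‖z‖ < 1 → Λ z = ∑ e : Fin n, M e * Lw p n w (z ^ p ^ (e : ℕ))

variable {p}

theorem Expandable.add {n : ℕ} {w : Ob K} {Λ Λ' : Ob K → RW p w} (h : Expandable p n w Λ)
    (h' : Expandable p n w Λ') : Expandable p n w (fun z => Λ z + Λ' z) := by
  obtain ⟨M, hM⟩ := h
  obtain ⟨M', hM'⟩ := h'
  refine ⟨fun e => M e + M' e, fun z hz => ?_⟩
  beta_reduce
  rw [hM z hz, hM' z hz, ← Finset.sum_add_distrib]
  exact Finset.sum_congr rfl fun e _ => by ring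

theorem Expandable.mul {n : ℕ} {w : Ob K} {Λ : Ob K → RW p w} (h : Expandable p n w Λ)
    (g : RW p w) : Expandable p n w (fun z => g * Λ z) := by
  obtain ⟨M, hM⟩ := h
  refine ⟨fun e => g * M e, fun z hz => ?_⟩
  beta_reduce
  rw [hM z hz, Finset.mul_sum]
  exact Finset.sum_congr rfl fun e _ => by ring

theorem Expandable.sum {n : ℕ} {w : Ob K} {ι : Type*} (s : Finset ι) {Λ : ι → Ob K → RW p w}
    (h : ∀ i ∈ s, Expandable p n w (Λ i)) : Expandable p n w (fun z => ∑ i ∈ s, Λ i z) := by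
  classical
  induction s using Finset.induction_on with
  | empty => exact ⟨0, fun z _ => by simp⟩
  | insert i s hi ih =>
    have := (h i (Finset.mem_insert_self _ _)).add
      (ih fun j hj => h j (Finset.mem_insert_of_mem hj))
    simpa only [Finset.sum_insert hi] using this

theorem Expandable.congr {n : ℕ} {w : Ob K} {Λ Λ' : Ob K → RW p w} (h : Expandable p n w Λ)
    (h' : ∀ z, ‖z‖ < 1 → Λ' z = Λ z) : Expandable p n w Λ' := by
  obtain ⟨M, hM⟩ := h
  exact ⟨M, fun z hz => by rw [h' z hz, hM z hz]⟩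

variable (p) in
theorem Lw_expandable {n : ℕ} (hn : 1 ≤ n) {w : Ob K} (hw : w ≠ 0) (k : ℕ) :
    Expandable p n w (fun z => Lw p n w (z ^ p ^ k)) := by
  classical
  have hk : k % n < n := Nat.mod_lt _ hn
  refine ⟨fun e => if e = ⟨k % n, hk⟩ then (p : RW p w) ^ (k / n) else 0, fun z hz => ?_⟩
  rw [Finset.sum_eq_single ⟨k % n, hk⟩]
  · beta_reduce
    rw [if_pos rfl, ← Lw_frobq_pow p n hn w _ hw, ← pow_mul, ← pow_mul, ← pow_add]
    · congr 2
      congr 1
      exact (Nat.mod_add_div k n).symm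
    · rw [norm_pow]
      exact pow_lt_one₀ (norm_nonneg _) hz (pow_ne_zero _ (Fact.out : p.Prime).ne_zero)
  · intro b _ hb
    beta_reduce
    rw [if_neg hb, zero_mul]
  · simp

theorem Expandable.comp_pow {n : ℕ} (hn : 1 ≤ n) {w : Ob K} (hw : w ≠ 0) {Λ : Ob K → RW p w}
    (h : Expandable p n w Λ) (m : ℕ) : Expandable p n w (fun z => Λ (z ^ p ^ m)) := by
  obtain ⟨M, hM⟩ := h
  have h1 : Expandable p n w (fun z => ∑ e : Fin n, M e * Lw p n w (z ^ p ^ (m + (e : ℕ)))) :=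
    Expandable.sum _ fun e _ => (Lw_expandable p hn hw _).mul _
  refine h1.congr fun z hz => ?_
  rw [hM]
  · refine Finset.sum_congr rfl fun e _ => ?_
    rw [← pow_mul, ← pow_add]
  · rw [norm_pow]
    exact pow_lt_one₀ (norm_nonneg _) hz (pow_ne_zero _ (Fact.out : p.Prime).ne_zero)

/-! ## the swap identity, `L`-form -/

/-- The swap identity from expansions: `Λ_l(z) = L_h(A_l θ(z))`. -/
theorem swap_core [IsAlgClosed K] {n : ℕ} (hn : 1 ≤ n) {w : Ob K} (hw : w ≠ 0) {ι : Type*}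
    [Fintype ι] (Λ : ι → Ob K → RW p w) (hΛ : ∀ l, Expandable p n w (Λ l)) (t : ι → Ob K)
    (ht : ∀ l, ‖t l‖ < 1)
    (hrel : ∀ b : Ob K, b ^ p ^ n = b → ∀ j : ℕ, ∑ l, Λ l (b * t l ^ p ^ j) = 0)
    (z : Ob K) (hz : ‖z‖ < 1) (e : ℕ) : ∑ l, Lw p n w (t l ^ p ^ e) * Λ l z = 0 := by
  obtain ⟨ζ, hζ, hζd⟩ := exists_zeta (K := K) p n hn
  choose M hM using hΛ
  have hpow : ∀ (x : Ob K) (k : ℕ), ‖x‖ < 1 → ‖x ^ p ^ k‖ < 1 := by
    intro x k hx
    rw [norm_pow]
    exact pow_lt_one₀ (norm_nonneg _) hx (pow_ne_zero _ (Fact.out : p.Prime).ne_zero)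
  have hζk : ∀ k : ℕ, (ζ ^ k) ^ p ^ n = ζ ^ k := by
    intro k; rw [← pow_mul, mul_comm, pow_mul, hζ]
  have key := abstract_swap' (A := RW p w) (n := n) (ι := ι) (p : RW p w) (isUnit_p p w)
    (fun l i => Lw p n w (t l ^ p ^ i)) (fun l i => by
      rw [pow_add, pow_mul, Lw_frobq p n hn w _ hw (hpow _ _ (ht l))]) M
    (fun e => toRW p w (teichmuller p (ζ ^ p ^ (e : ℕ))))
    (fun i j hij => isUnit_toRW_sub p w _ _ (hζd i j hij)) (fun j k => by
      rw [← hrel (ζ ^ k) (hζk k) j]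
      refine Finset.sum_congr rfl fun l _ => ?_
      rw [hM]
      · refine Finset.sum_congr rfl fun e _ => ?_
        rw [mul_pow, ← pow_mul (t l), ← pow_add,
          Lw_smul p n hn w _ _ hw (hpow _ _ (ht l)) (by
            rw [← pow_mul (ζ ^ k), mul_comm (p ^ (e : ℕ)), pow_mul (ζ ^ k), hζk]),
          ← map_pow, ← map_pow, ← pow_mul, ← pow_mul, mul_comm (p ^ (e : ℕ)) k]
      · have h1 : ‖ζ ^ k‖ ≤ 1 := Ob_norm_le_one _
        have h2 := hpow _ j (ht l)
        rw [norm_mul]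
        exact lt_of_le_of_lt (mul_le_of_le_one_left (norm_nonneg _) h1) h2)
    (fun e => Lw p n w (z ^ p ^ (e : ℕ))) e
  rw [← key]
  refine Finset.sum_congr rfl fun l _ => ?_
  rw [hM l z hz]

end Crest.Agent.R227
end
end

-- ▼ part R227/SwapId
section

/-!
# R227 / SwapId : the swap identity for `θ = ∑^{G_h} c_K z^{p^K}`
-/

set_option autoImplicit false

noncomputable section

namespace Crest.Agent.R227

open WittVector Crest.LubinTate

variable (p : ℕ) [Fact p.Prime] {K : Type*} [NormedField K] [IsUltrametricDist K]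
  [CompleteSpace K] [CharP K p] [PerfectRing K p]

/-- the point `c_k z^{p^k}` -/
def cpt {h r : ℕ} (F : FormalGroup (Ob K)) {c : ℤ → Ob K} (hc : CSys p h r c) {z : Ob K}
    (hz : ‖z‖ < 1) (k : ℤ) : FPt F :=
  ⟨c k * fr p k z, (Ob_tn_iff _).2 (by
    rw [norm_mul]
    exact lt_of_le_of_lt (mul_le_of_le_one_right (norm_nonneg _) (Ob_norm_le_one _)) (hc.lt k))⟩

@[simp] theorem cpt_val {h r : ℕ} (F : FormalGroup (Ob K)) {c : ℤ → Ob K} (hc : CSys p h r c)
    {z : Ob K} (hz : ‖z‖ < 1) (k : ℤ) : (cpt p F hc hz k).val = c k * fr p k z := rfl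

theorem SwapId.norm_val_lt {F : FormalGroup (Ob K)} (P : FPt F) : ‖P.val‖ < 1 := (Ob_tn_iff _).1 P.tn

theorem sp_map_frob (N h m : ℕ) :
    (hz p N (sp h : ℕ → Ob K)).map (iterateFrobenius (Ob K) p m) = hz p N (sp h : ℕ → Ob K) := by
  rw [hz_map]
  congr 1
  funext i
  unfold sp
  split_ifs <;> simp

/-- `Lw` is small on small arguments -/
theorem Lw_mem_naW (h : ℕ) (hh : 1 ≤ h) (w : Ob K) (hw : w ≠ 0) (hw1 : ‖w‖ < 1) (m : ℕ) :
    ∃ ε > 0, ∀ x : Ob K, ‖x‖ ≤ ε → Lw p h w x ∈ (naW p w hw).F m := by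
  refine ⟨‖w ^ (p ^ h) ^ m‖, norm_pos_iff.2 (pow_ne_zero _ hw), fun x hx => ?_⟩
  obtain ⟨a, ha⟩ := Lw_small p h hh w x hw hw1 m (Ob_dvd_of_norm_le (pow_ne_zero _ hw) hx)
  refine (naW p w hw).anti m ?_
  exact ⟨a, ha⟩

theorem norm_add_val_le {F : FormalGroup (Ob K)} [F.IsComm] (a b : FPt F) {r : ℝ} (hr : 0 ≤ r)
    (ha : ‖a.val‖ ≤ r) (hb : ‖b.val‖ ≤ r) : ‖(a + b).val‖ ≤ r :=
  FPt.add_mem F a b (normIdeal K r hr) (isClosed_normIdeal r hr) ha hb

theorem norm_sub_val_iff {F : FormalGroup (Ob K)} [F.IsComm] (a b : FPt F) {r : ℝ} (hr : 0 ≤ r) :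
    ‖(a - b).val‖ ≤ r ↔ ‖a.val - b.val‖ ≤ r :=
  FPt.sub_mem_iff F a b (normIdeal K r hr) (isClosed_normIdeal r hr)

/-- `θ(z)` is the sum of the points `c_k z^{p^k}`. -/
def IsTypSum {h r : ℕ} (F : FormalGroup (Ob K)) [F.IsComm] {c : ℤ → Ob K} (hc : CSys p h r c)
    {z : Ob K} (hz : ‖z‖ < 1) (P : FPt F) : Prop :=
  ∀ ε > 0, ∃ N₀ : ℕ, ∀ N' ≥ N₀,
    ‖(P - ∑ k ∈ Finset.Icc (-(N' : ℤ)) N', cpt p F hc hz k).val‖ ≤ ε

/-- the sum of the `L`-values -/
theorem HS_of_typSum {N h r : ℕ} (hh : 1 ≤ h) (hr : 1 ≤ r) (hN : h ≤ N) {c : ℤ → Ob K}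
    (hc : CSys p h r c) {z : Ob K} (hz : ‖z‖ < 1) (P : FPt (Crest.Agent.R227.hz p N (sp h : ℕ → Ob K)))
    (hP : IsTypSum p _ hc hz P) (w : Ob K) (hw : w ≠ 0) (hw1 : ‖w‖ < 1) (m : ℕ) :
    HS (naW p w hw) (fun k : ℤ => Lw p h w ((c k * fr p k z) ^ p ^ m))
      (Lw p h w (P.val ^ p ^ m)) := by
  classical
  have hfr := sp_map_frob (K := K) p N h m
  have hpm : p ^ m ≠ 0 := pow_ne_zero _ (Fact.out : p.Prime).ne_zero
  refine HS.of_seq ?_ (fun N' => Finset.Icc (-(N' : ℤ)) N') ?_ ?_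
  · intro M
    obtain ⟨ε, hε, hs⟩ := Lw_mem_naW p h hh w hw hw1 M
    refine (hc.finite p hh hr hz hε).subset ?_
    intro k hk
    rw [Set.mem_ofPred_eq] at hk ⊢
    by_contra hlt
    push Not at hlt
    apply hk
    apply hs
    rw [norm_pow]
    exact (pow_le_of_le_one (norm_nonneg _) (Ob_norm_le_one _) hpm).trans hlt.le
  · intro k
    refine ⟨k.natAbs, fun N' hN' => ?_⟩
    rw [Finset.mem_Icc]
    omega
  · intro M
    obtain ⟨ε, hε, hs⟩ := Lw_mem_naW p h hh w hw hw1 M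
    obtain ⟨N₀, hN₀⟩ := hP ε hε
    refine ⟨N₀, fun N' hN' => ?_⟩
    have h1 := hN₀ N' hN'
    set S := ∑ k ∈ Finset.Icc (-(N' : ℤ)) N', cpt p (Crest.Agent.R227.hz p N (sp h : ℕ → Ob K)) hc hz k
      with hS
    have h2 : Lw p h w ((P - S).val ^ p ^ m) ∈ (naW p w hw).F M := by
      apply hs
      rw [norm_pow]
      exact (pow_le_of_le_one (norm_nonneg _) (Ob_norm_le_one _) hpm).trans h1
    have h3 : (FPt.frob p m hfr P).val = P.val ^ p ^ m := rfl
    have h4 : FPt.frob p m hfr P = FPt.frob p m hfr (P - S) +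
        ∑ k ∈ Finset.Icc (-(N' : ℤ)) N', FPt.frob p m hfr
          (cpt p (Crest.Agent.R227.hz p N (sp h : ℕ → Ob K)) hc hz k) := by
      rw [← map_sum, ← map_add, sub_add_cancel]
    have h5 : Lw p h w (P.val ^ p ^ m) = Lw p h w ((P - S).val ^ p ^ m) +
        ∑ k ∈ Finset.Icc (-(N' : ℤ)) N', Lw p h w ((c k * fr p k z) ^ p ^ m) := by
      rw [← h3, h4, Lw_add p N h hh hN w hw, Lw_sum p N h hh hN w hw]
      rfl
    have h6 : ∑ k ∈ Finset.Icc (-(N' : ℤ)) N', Lw p h w ((c k * fr p k z) ^ p ^ m) -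
        Lw p h w (P.val ^ p ^ m) = -Lw p h w ((P - S).val ^ p ^ m) := by
      rw [h5]; ring
    rw [h6]
    exact ((naW p w hw).F M).neg_mem h2

omit [CompleteSpace K] in
theorem CSys.twist {h r : ℕ} {c : ℤ → Ob K} (hc : CSys p h r c) (m : ℕ) :
    CSys p h r (fun k => c k ^ p ^ m) := by
  refine ⟨fun k => ?_, fun k => ?_⟩
  · rw [norm_pow]
    exact pow_lt_one₀ (norm_nonneg _) (hc.lt k) (pow_ne_zero _ (Fact.out : p.Prime).ne_zero)
  · rw [← pow_mul, mul_comm, pow_mul, hc.rel]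

/-- **The swap identity.** -/
theorem swap_identity [IsAlgClosed K] {n h r N : ℕ} (hn : n = h + r) (hh : 1 ≤ h) (hr : 1 ≤ r)
    (hN : h ≤ N) {c : ℤ → Ob K} (hc : CSys p h r c)
    (θ : Ob K → FPt (Crest.Agent.R227.hz p N (sp h : ℕ → Ob K)))
    (hθ : ∀ (z : Ob K) (hz : ‖z‖ < 1), IsTypSum p _ hc hz (θ z))
    (hsurj : ∀ y : FPt (Crest.Agent.R227.hz p N (sp h : ℕ → Ob K)), ∃ z : Ob K, ‖z‖ < 1 ∧ θ z = y)
    {ι : Type*} [Fintype ι] (A : ι → PowerSeries (Ob K))
    (hA : ∀ l, IsFGHom (Crest.Agent.R227.hz p N (sp h : ℕ → Ob K))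
      (Crest.Agent.R227.hz p N (sp h : ℕ → Ob K)) (A l))
    (hAexp : ∀ l, ∀ w : Ob K, w ≠ 0 → ‖w‖ < 1 → ∃ g : Fin h → RW p w, ∀ y : Ob K, ‖y‖ < 1 →
      Lw p h w (ev₁ y (A l)) = ∑ m : Fin h, g m * Lw p h w (y ^ p ^ (m : ℕ)))
    (t : ι → Ob K) (ht : ∀ l, ‖t l‖ < 1)
    (hrel : ∀ b : Ob K, b ^ p ^ n = b → ∀ j : ℕ,
      ∑ l, FPt.hom (hA l) (θ (b * t l ^ p ^ j)) = 0)
    (w : Ob K) (hw : w ≠ 0) (hw1 : ‖w‖ < 1) (e : ℕ) (y : Ob K) (hy : ‖y‖ < 1) :
    ∑ l, Lw p n w (t l ^ p ^ e) * Lw p h w (ev₁ y (A l)) = 0 := by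
  classical
  have hn1 : 1 ≤ n := by omega
  -- expansion of `L_h(A_l θ(z))`
  have hexp : ∀ l, Expandable p n w (fun z => Lw p h w (ev₁ (θ z).val (A l))) := by
    intro l
    obtain ⟨g, hg⟩ := hAexp l w hw hw1
    have h1 : ∀ m : Fin h, Expandable p n w (fun z => Lw p h w ((θ z).val ^ p ^ (m : ℕ))) := by
      intro m
      obtain ⟨μ, hμ⟩ := expansion p hn hh hr (hc.twist p m) w hw
      have h2 : Expandable p n w
          (fun z => ∑ e : Fin n, μ e * Lw p n w ((z ^ p ^ (m : ℕ)) ^ p ^ (e : ℕ))) := by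
        refine Expandable.comp_pow (Λ := fun z => ∑ e : Fin n, μ e * Lw p n w (z ^ p ^ (e : ℕ)))
          hn1 hw ?_ m
        exact ⟨μ, fun z _ => rfl⟩
      refine h2.congr fun z hz => ?_
      have hzm : ‖z ^ p ^ (m : ℕ)‖ < 1 := by
        rw [norm_pow]
        exact pow_lt_one₀ (norm_nonneg _) hz (pow_ne_zero _ (Fact.out : p.Prime).ne_zero)
      apply hμ _ hzm
      have h3 := HS_of_typSum p hh hr hN hc hz (θ z) (hθ z hz) w hw hw1 m
      have h4 : ∀ k : ℤ, (c k * fr p k z) ^ p ^ (m : ℕ) =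
          c k ^ p ^ (m : ℕ) * fr p k (z ^ p ^ (m : ℕ)) := by
        intro k
        rw [mul_pow, map_pow]
      simpa only [h4] using h3
    have h5 : Expandable p n w (fun z => ∑ m : Fin h, g m * Lw p h w ((θ z).val ^ p ^ (m : ℕ))) :=
      Expandable.sum _ fun m _ => (h1 m).mul _
    exact h5.congr fun z _ => hg _ (SwapId.norm_val_lt (θ z))
  -- relation
  have hrel' : ∀ b : Ob K, b ^ p ^ n = b → ∀ j : ℕ,
      ∑ l, Lw p h w (ev₁ (θ (b * t l ^ p ^ j)).val (A l)) = 0 := by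
    intro b hb j
    have h1 := hrel b hb j
    have h2 := Lw_sum p N h hh hN w hw Finset.univ
      (fun l => FPt.hom (hA l) (θ (b * t l ^ p ^ j)))
    rw [h1, FPt.val_zero, Lw_zero p h hh] at h2
    exact h2.symm
  obtain ⟨z, hz, hzy⟩ := hsurj ⟨y, (Ob_tn_iff _).2 hy⟩
  have key := swap_core hn1 hw (fun l z => Lw p h w (ev₁ (θ z).val (A l))) hexp t ht hrel' z hz e
  simpa only [hzy] using key

end Crest.Agent.R227
end
end

-- ▼ part R227/WittSize
section

/-!
# R227 / WittSize : `L_n(t) L_h(t) = [t²] + …` modulo `[t³]`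
-/

set_option autoImplicit false
set_option linter.unusedSectionVars false

noncomputable section

namespace Crest.Agent.R227

open Crest.LubinTate MvPowerSeries Topology WittVector

variable (p : ℕ) [Fact p.Prime] {K : Type*} [NormedField K] [IsUltrametricDist K]
  [CharP K p] [PerfectRing K p]

theorem Lp_coeff_zero {O : Type*} [CommRing O] [CharP O p] [PerfectRing O p] (n : ℕ) (z : O) :
    (Lp p n z).coeff 0 = z := by
  rw [Lp, WittVector.coeff_mk, mul_zero, proot, RingEquiv.symm_apply_eq, iterateFrobeniusEquiv_def,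
    pow_zero, pow_one]

theorem Lp_eq_add {O : Type*} [CommRing O] [CharP O p] [PerfectRing O p] (n : ℕ) (hn : 1 ≤ n)
    (z : O) : Lp p n z = (p : WittVector p O) * Lp p n (proot p n z) + teichmuller p z := by
  have h1 : (proot p n z) ^ p ^ n = z := by
    have := (iterateFrobeniusEquiv O p n).apply_symm_apply z
    rwa [iterateFrobeniusEquiv_def] at this
  have h2 := Lp_pow p n hn (proot p n z)
  rwa [h1] at h2

/-- `p L_n(t) = p Lp_n(t) + [t^q]` in `RW (t^3)` -/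
theorem p_mul_Lw_cube (n : ℕ) (hn : 1 ≤ n) (t : Ob K) :
    (p : RW p (t ^ 3)) * Lw p n (t ^ 3) t =
      toRW p (t ^ 3) ((p : WittVector p (Ob K)) * Lp p n t + teichmuller p (t ^ p ^ n)) := by
  have hp2 : 2 ≤ p := (Fact.out : p.Prime).two_le
  have hq : 2 ≤ p ^ n := by
    calc 2 ≤ p := hp2
      _ = p ^ 1 := (pow_one p).symm
      _ ≤ p ^ n := Nat.pow_le_pow_right (by omega) hn
  have h0 : 2 ^ 2 ≤ (p ^ n) ^ (1 + 1) := Nat.pow_le_pow_left hq 2
  have h1 : t ^ 3 ∣ t ^ (p ^ n) ^ (1 + 1) := pow_dvd_pow t (by omega)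
  rw [Lw_eq p n hn (t ^ 3) t 1 h1, pow_one, ← mul_assoc, p_mul_pinv, one_mul, pow_one, Lp_pow p n hn]

/-- for `0 < |t| < 1`, `n, h ≥ 1`: in `RW (t^3)`, `L_n(t) L_h(t) = a` with `a ∈ W(O)` and
`t^3 ∤ a_0`. -/
theorem Lw_mul_Lw_size (n h : ℕ) (hn : 1 ≤ n) (hh : 1 ≤ h) (t : Ob K) (ht0 : t ≠ 0)
    (ht : ‖t‖ < 1) : ∃ a : WittVector p (Ob K),
    Lw p n (t ^ 3) t * Lw p h (t ^ 3) t = toRW p (t ^ 3) a ∧ ¬ t ^ 3 ∣ a.coeff 0 := by
  have hp2 : 2 ≤ p := (Fact.out : p.Prime).two_le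
  have hq : ∀ m : ℕ, 1 ≤ m → 2 ≤ p ^ m := fun m hm => by
    calc 2 ≤ p := hp2
      _ = p ^ 1 := (pow_one p).symm
      _ ≤ p ^ m := Nat.pow_le_pow_right (by omega) hm
  have ht0' : 0 < ‖t‖ := norm_pos_iff.2 ht0
  set W := WittVector p (Ob K)
  set a : WittVector p (Ob K) := Lp p n t * Lp p h t + teichmuller p (t ^ p ^ n) * Lp p h (proot p h t) +
    teichmuller p (t ^ p ^ h) * Lp p n (proot p n t) with ha
  refine ⟨a, ?_, ?_⟩
  · apply p_pow_mul_cancel p (t ^ 3) 2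
    have e1 := p_mul_Lw_cube p n hn t
    have e2 := p_mul_Lw_cube p h hh t
    have e3 : (p : RW p (t ^ 3)) ^ 2 * (Lw p n (t ^ 3) t * Lw p h (t ^ 3) t) =
        ((p : RW p (t ^ 3)) * Lw p n (t ^ 3) t) * ((p : RW p (t ^ 3)) * Lw p h (t ^ 3) t) := by ring
    rw [e3, e1, e2, ← map_mul, ← toRW_p_pow_mul, ← sub_eq_zero, ← map_sub]
    have e4 : ((p : WittVector p (Ob K)) * Lp p n t + teichmuller p (t ^ p ^ n)) *
        ((p : WittVector p (Ob K)) * Lp p h t + teichmuller p (t ^ p ^ h)) -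
          (p : WittVector p (Ob K)) ^ 2 * a =
        (p : WittVector p (Ob K)) * (teichmuller p (t ^ p ^ n) * teichmuller p t) +
        (p : WittVector p (Ob K)) * (teichmuller p (t ^ p ^ h) * teichmuller p t) +
          teichmuller p (t ^ p ^ n) * teichmuller p (t ^ p ^ h) := by
      have e5 := Lp_eq_add p n hn t
      have e6 := Lp_eq_add p h hh t
      have e7 : teichmuller p (t ^ p ^ n) * Lp p h t = teichmuller p (t ^ p ^ n) *
        ((p : WittVector p (Ob K)) * Lp p h (proot p h t) + teichmuller p t) := by rw [← e6]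
      have e8 : teichmuller p (t ^ p ^ h) * Lp p n t = teichmuller p (t ^ p ^ h) *
        ((p : WittVector p (Ob K)) * Lp p n (proot p n t) + teichmuller p t) := by rw [← e5]
      rw [ha]
      linear_combination (p : WittVector p (Ob K)) * e7 + (p : WittVector p (Ob K)) * e8
    have e9 : teichmuller p (t ^ p ^ n) * teichmuller p t = teichmuller p (t ^ (p ^ n + 1)) := by
      rw [← map_mul, ← pow_succ]
    have e10 : teichmuller p (t ^ p ^ h) * teichmuller p t = teichmuller p (t ^ (p ^ h + 1)) := by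
      rw [← map_mul, ← pow_succ]
    have e11 : teichmuller p (t ^ p ^ n) * teichmuller p (t ^ p ^ h) =
        teichmuller p (t ^ (p ^ n + p ^ h)) := by
      rw [← map_mul, ← pow_add]
    rw [e4, e9, e10, e11, map_add, map_add, map_mul, map_mul]
    have hqn := hq n hn
    have hqh := hq h hh
    rw [toRW_teichmuller_of_dvd p (t ^ 3) _ (pow_dvd_pow t (by omega : 3 ≤ p ^ n + 1)),
      toRW_teichmuller_of_dvd p (t ^ 3) _ (pow_dvd_pow t (by omega : 3 ≤ p ^ h + 1)),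
      toRW_teichmuller_of_dvd p (t ^ 3) _ (pow_dvd_pow t (by omega : 3 ≤ p ^ n + p ^ h)),
      mul_zero, add_zero, add_zero]
  · have hc : a.coeff 0 = t * t + t ^ p ^ n * proot p h t + t ^ p ^ h * proot p n t := by
      have h1 : a.coeff 0 = WittVector.constantCoeff a := rfl
      have h2 : ∀ b : WittVector p (Ob K), WittVector.constantCoeff b = b.coeff 0 := fun _ => rfl
      rw [h1, ha, map_add, map_add, map_mul, map_mul, map_mul]
      simp only [h2, Lp_coeff_zero, teichmuller_coeff_zero]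
    rw [hc]
    intro hd
    have h3 : t ^ 3 ≠ 0 := pow_ne_zero _ ht0
    rw [Ob_dvd_iff _ _ h3, Ob_norm_pow] at hd
    have hs : ∀ m : ℕ, 1 ≤ m → ∀ k, ‖t ^ p ^ m * proot p k t‖ < ‖t‖ ^ 2 := by
      intro m hm k
      have hpk : ‖proot p k t‖ < 1 := by
        by_contra hlt
        have h5 : (proot p k t) ^ p ^ k = t := by
          have := (iterateFrobeniusEquiv (Ob K) p k).apply_symm_apply t
          rwa [iterateFrobeniusEquiv_def] at this
        have h6 : 1 ≤ ‖proot p k t‖ ^ p ^ k := one_le_pow₀ (not_lt.1 hlt)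
        rw [← Ob_norm_pow, h5] at h6
        exact absurd ht (not_lt.2 h6)
      rw [Ob_norm_mul, Ob_norm_pow]
      calc ‖t‖ ^ p ^ m * ‖proot p k t‖ < ‖t‖ ^ p ^ m * 1 := by
            apply mul_lt_mul_of_pos_left hpk (pow_pos ht0' _)
        _ = ‖t‖ ^ p ^ m := mul_one _
        _ ≤ ‖t‖ ^ 2 := pow_le_pow_of_le_one (norm_nonneg _) ht.le (hq m hm)
    have h7 : ‖t * t‖ = ‖t‖ ^ 2 := by rw [Ob_norm_mul, sq]
    have h8 : t * t = (t * t + t ^ p ^ n * proot p h t + t ^ p ^ h * proot p n t) -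
        t ^ p ^ n * proot p h t - t ^ p ^ h * proot p n t := by ring
    have h9 : ‖t * t‖ < ‖t‖ ^ 2 := by
      have hadd : ∀ x y : Ob K, ‖x - y‖ ≤ max ‖x‖ ‖y‖ := by
        intro x y
        have h10 := IsUltrametricDist.norm_add_le_max (x : K) (-(y : K))
        rw [norm_neg, ← sub_eq_add_neg] at h10
        exact h10
      rw [h8]
      refine (hadd _ _).trans_lt (max_lt ((hadd _ _).trans_lt (max_lt ?_ (hs n hn h))) (hs h hh n))
      refine hd.trans_lt ?_
      exact pow_lt_pow_right_of_lt_one₀ ht0' ht (by norm_num)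
    rw [h7] at h9
    exact lt_irrefl _ h9

end Crest.Agent.R227
end
end

-- ▼ part R227/SwapEnd
section

/-!
# R227 / SwapEnd : from the swap identity to a contradiction (helper106)
-/

set_option autoImplicit false

noncomputable section

namespace Crest.Agent.R227

open Crest.LubinTate MvPowerSeries Topology WittVector

variable (p : ℕ) [Fact p.Prime] {K : Type*} [NormedField K] [IsUltrametricDist K]
  [CompleteSpace K] [CharP K p] [PerfectRing K p]

theorem SwapEnd.norm_eq (b : K) (h : ℕ) (hh : 1 ≤ h) (hb : b ^ p ^ h = b) : ‖b‖ ≤ 1 := by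
  by_contra hcon
  push Not at hcon
  have h1 : ‖b‖ ^ p ^ h = ‖b‖ := by rw [← norm_pow, hb]
  have h2 : 1 < p ^ h := Nat.one_lt_pow (by omega) (Fact.out : p.Prime).one_lt
  have h3 : ‖b‖ ^ 1 < ‖b‖ ^ p ^ h := pow_lt_pow_right₀ hcon h2
  rw [h1, pow_one] at h3
  exact lt_irrefl _ h3

/-- a unit of `O` fixed by a power of Frobenius -/
theorem SwapEnd.isUnit_of_fixed (d : Ob K) (h : ℕ) (hh : 1 ≤ h) (hd : d ^ p ^ h = d)
    (h0 : d ≠ 0) : IsUnit d := by
  have h2 : 1 < p ^ h := Nat.one_lt_pow (by omega) (Fact.out : p.Prime).one_lt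
  have h3 : d * d ^ (p ^ h - 1) = d * 1 := by
    rw [mul_one, ← pow_succ', Nat.sub_add_cancel (by omega), hd]
  have h4 : d ^ (p ^ h - 1) = 1 := mul_left_cancel₀ h0 h3
  exact IsUnit.of_pow_eq_one h4 (by omega)

theorem SwapEnd.isUnit_teich_sub (b c : Ob K) (hu : IsUnit (b - c)) :
    IsUnit (teichmuller p b - teichmuller p c) := by
  obtain ⟨u, hu⟩ := hu
  have h1 : (teichmuller p b - teichmuller p c).coeff 0 = u := by
    have : constantCoeff (teichmuller p b - teichmuller p c) = (u : Ob K) := by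
      rw [map_sub, hu]
      change (teichmuller p b).coeff 0 - (teichmuller p c).coeff 0 = b - c
      rw [teichmuller_coeff_zero, teichmuller_coeff_zero]
    exact this
  exact ⟨mkUnit h1, coe_mkUnit h1⟩

/-- separation of the `F_{p^h}`-characters -/
theorem SwapEnd.stepA [IsAlgClosed K] (h : ℕ) (h1 : 1 ≤ h) {ι : Type*} [Fintype ι]
    (g : ι → ℕ → WittVector p (Ob K)) (w : Ob K) (hw : w ≠ 0) (T : ι → RW p w)
    (hswap : ∀ y : Ob K, ‖y‖ < 1 → ∑ l, T l * ∑ m ∈ Finset.range h,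
      toRW p w (g l m) * Lw p h w (y ^ p ^ m) = 0)
    (y : Ob K) (hy : ‖y‖ < 1) :
    ∑ l, toRW p w (g l 0) * T l * Lw p h w y = 0 := by
  have hp0 : p ≠ 0 := (Fact.out : p.Prime).ne_zero
  obtain ⟨b0, hb0, hbd⟩ := exists_generator (p := p) (K := K) h h1
  set b : Ob K := ⟨b0, SwapEnd.norm_eq p b0 h h1 hb0⟩ with hbdef
  have hb : b ^ p ^ h = b := Subtype.ext hb0
  have hbd' : ∀ d, 0 < d → d < h → b ^ p ^ d ≠ b := by
    intro d hd1 hd2 hbd0
    exact hbd d hd1 hd2 (congrArg Subtype.val hbd0)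
  -- powers of b
  have hbm : ∀ m, (b ^ p ^ m) ^ p ^ h = b ^ p ^ m := by
    intro m
    rw [← pow_mul, mul_comm, pow_mul, hb]
  set v : Fin h → RW p w := fun m => toRW p w (teichmuller p (b ^ p ^ (m : ℕ))) with hv
  set X : Fin h → RW p w := fun m => ∑ l, T l * (toRW p w (g l m) * Lw p h w (y ^ p ^ (m : ℕ)))
    with hX
  have hunit : ∀ i j : Fin h, i < j → IsUnit (v j - v i) := by
    intro i j hij
    rw [hv]
    simp only
    rw [← map_sub]
    apply IsUnit.map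
    apply SwapEnd.isUnit_teich_sub
    apply SwapEnd.isUnit_of_fixed p _ h h1
    · rw [sub_pow_char_pow, hbm, hbm]
    · intro h0
      rw [sub_eq_zero] at h0
      have hij' : (i : ℕ) < (j : ℕ) := hij
      apply hbd' ((j : ℕ) - (i : ℕ)) (by omega) (by omega)
      have h5 : (b ^ p ^ ((j : ℕ) - (i : ℕ)) - b) ^ p ^ (i : ℕ) = 0 := by
        rw [sub_pow_char_pow, ← pow_mul, ← pow_add, Nat.sub_add_cancel hij'.le, h0, sub_self]
      exact sub_eq_zero.mp (pow_eq_zero_iff (pow_ne_zero _ hp0) |>.1 h5)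
  have hsum : ∀ k : Fin h, ∑ m, v m ^ (k : ℕ) * X m = 0 := by
    intro k
    have hyk : ‖b ^ (k : ℕ) * y‖ < 1 := by
      have h3 : ‖b ^ (k : ℕ) * y‖ = ‖b‖ ^ (k : ℕ) * ‖y‖ := by simp
      rw [h3]
      calc ‖b‖ ^ (k : ℕ) * ‖y‖ ≤ 1 * ‖y‖ := by
            apply mul_le_mul_of_nonneg_right (pow_le_one₀ (norm_nonneg _) (Ob_norm_le_one b))
              (norm_nonneg _)
        _ < 1 := by rw [one_mul]; exact hy
    have h2 := hswap (b ^ (k : ℕ) * y) hyk
    rw [← h2]
    have h4 : ∀ m : ℕ, Lw p h w ((b ^ (k : ℕ) * y) ^ p ^ m) =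
        toRW p w (teichmuller p (b ^ p ^ m)) ^ (k : ℕ) * Lw p h w (y ^ p ^ m) := by
      intro m
      have hym : ‖y ^ p ^ m‖ < 1 := by
        have : ‖y ^ p ^ m‖ = ‖y‖ ^ p ^ m := by simp
        rw [this]
        exact pow_lt_one₀ (norm_nonneg _) hy (pow_ne_zero _ hp0)
      rw [mul_pow, ← pow_mul, mul_comm (k : ℕ), pow_mul,
        Lw_smul p h h1 w _ _ hw hym (by rw [← pow_mul, mul_comm, pow_mul, hbm]), map_pow, map_pow]
    simp only [h4]
    rw [hX]
    simp only [Finset.mul_sum]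
    rw [Finset.sum_comm]
    apply Finset.sum_congr rfl
    intro l _
    rw [Finset.sum_range]
    apply Finset.sum_congr rfl
    intro m _
    rw [hv]
    ring
  have hX0 := vandermonde_cancel v hunit X hsum
  have h6 := congrFun hX0 ⟨0, h1⟩
  rw [hX] at h6
  simp only [pow_zero, pow_one, Pi.zero_apply] at h6
  rw [← h6]
  apply Finset.sum_congr rfl
  intro l _
  ring

theorem SwapEnd.norm_pow_lt (y : Ob K) (hy : ‖y‖ < 1) (k : ℕ) (hk : k ≠ 0) : ‖y ^ k‖ < 1 := by
  have : ‖y ^ k‖ = ‖y‖ ^ k := by simp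
  rw [this]
  exact pow_lt_one₀ (norm_nonneg _) hy hk

/-- Frobenius twists of the relation -/
theorem SwapEnd.stepC (n h : ℕ) (hn : 1 ≤ n) (h1 : 1 ≤ h) {ι : Type*} [Fintype ι]
    (t : ι → Ob K) (ht : ∀ l, ‖t l‖ < 1) (x : ι → WittVector p (Ob K))
    (hx : ∀ (e : ℕ) (w y : Ob K), w ≠ 0 → ‖w‖ < 1 → ‖y‖ < 1 →
      ∑ l, toRW p w (x l) * Lw p n w (t l ^ p ^ e) * Lw p h w y = 0) (j : ℕ) :
    ∀ (e : ℕ) (w y : Ob K), w ≠ 0 → ‖w‖ < 1 → ‖y‖ < 1 →
      ∑ l, toRW p w (WittVector.frobenius^[j] (x l)) * Lw p n w (t l ^ p ^ (e + j)) *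
        Lw p h w y = 0 := by
  have hp0 : p ≠ 0 := (Fact.out : p.Prime).ne_zero
  induction j with
  | zero => exact hx
  | succ j ih =>
    intro e w y hw hw1 hy
    obtain ⟨w0, rfl⟩ : ∃ w0 : Ob K, w0 ^ p = w := (bijective_frobenius (Ob K) p).surjective w
    obtain ⟨y0, rfl⟩ : ∃ y0 : Ob K, y0 ^ p = y := (bijective_frobenius (Ob K) p).surjective y
    have hw0 : w0 ≠ 0 := by
      rintro rfl
      exact hw (zero_pow hp0)
    have hw01 : ‖w0‖ < 1 := by
      have h3 : ‖w0 ^ p‖ = ‖w0‖ ^ p := by simp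
      rw [h3] at hw1
      exact (pow_lt_one_iff_of_nonneg (norm_nonneg _) hp0).1 hw1
    have hy01 : ‖y0‖ < 1 := by
      have h3 : ‖y0 ^ p‖ = ‖y0‖ ^ p := by simp
      rw [h3] at hy
      exact (pow_lt_one_iff_of_nonneg (norm_nonneg _) hp0).1 hy
    have h4 := congrArg (frobRW p w0 hw0) (ih e w0 y0 hw0 hw01 hy01)
    rw [map_sum, map_zero] at h4
    rw [← h4]
    apply Finset.sum_congr rfl
    intro l _
    rw [map_mul, map_mul, frobRW_toRW, frobRW_Lw p n hn w0 _ hw0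
      (SwapEnd.norm_pow_lt _ (ht l) _ (pow_ne_zero _ hp0)), frobRW_Lw p h h1 w0 _ hw0 hy01,
      Function.iterate_succ_apply', ← pow_mul, ← pow_succ, add_assoc]

/-- the relation with the sum over Frobenius conjugates -/
theorem SwapEnd.stepD (n h : ℕ) (hn : 1 ≤ n) (h1 : 1 ≤ h) {ι : Type*} [Fintype ι]
    (t : ι → Ob K) (ht : ∀ l, ‖t l‖ < 1) (x : ι → WittVector p (Ob K))
    (hx : ∀ (e : ℕ) (w y : Ob K), w ≠ 0 → ‖w‖ < 1 → ‖y‖ < 1 →
      ∑ l, toRW p w (x l) * Lw p n w (t l ^ p ^ e) * Lw p h w y = 0)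
    (w y : Ob K) (hw : w ≠ 0) (hw1 : ‖w‖ < 1) (hy : ‖y‖ < 1) :
    ∑ l, toRW p w (∑ j ∈ Finset.range h, WittVector.frobenius^[j] (x l)) *
      Lw p n w (t l) * Lw p h w y = 0 := by
  have hj : ∀ j, ∑ l, toRW p w (WittVector.frobenius^[j] (x l)) * Lw p n w (t l) *
      Lw p h w y = 0 := by
    intro j
    have h2 := SwapEnd.stepC p n h hn h1 t ht x hx j ((n - 1) * j) w y hw hw1 hy
    have h3 : (n - 1) * j + j = n * j := by
      obtain ⟨m, rfl⟩ : ∃ m, n = m + 1 := ⟨n - 1, by omega⟩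
      simp; ring
    have h4 : ∀ l, Lw p n w (t l ^ p ^ (n * j)) = (p : RW p w) ^ j * Lw p n w (t l) := by
      intro l
      rw [pow_mul, Lw_frobq_pow p n hn w _ hw (ht l)]
    simp only [h3, h4] at h2
    have hu : IsUnit ((p : RW p w) ^ j) := (isUnit_p p w).pow j
    apply hu.mul_left_cancel
    rw [mul_zero, ← h2, Finset.mul_sum]
    apply Finset.sum_congr rfl
    intro l _
    ring
  simp only [map_sum, Finset.sum_mul]
  rw [Finset.sum_comm]
  apply Finset.sum_eq_zero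
  intro j _
  exact hj j

theorem SwapEnd.frobenius_trace (h : ℕ) (x : WittVector p (Ob K))
    (hx : WittVector.frobenius^[h] x = x) :
    WittVector.frobenius (∑ j ∈ Finset.range h, WittVector.frobenius^[j] x) =
      ∑ j ∈ Finset.range h, WittVector.frobenius^[j] x := by
  rw [map_sum]
  have h1 : ∀ j, WittVector.frobenius (WittVector.frobenius^[j] x) =
      WittVector.frobenius^[j + 1] x := fun j => (Function.iterate_succ_apply' _ _ _).symm
  simp only [h1]
  have h2 := Finset.sum_range_succ (fun j => WittVector.frobenius^[j] x) h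
  have h3 := Finset.sum_range_succ' (fun j => WittVector.frobenius^[j] x) h
  rw [h2] at h3
  simp only [Function.iterate_zero, id_eq] at h3
  rw [hx] at h3
  exact (add_right_cancel h3).symm

theorem SwapEnd.coeff_zero_frobenius_iterate (x : WittVector p (Ob K)) (j : ℕ) :
    (WittVector.frobenius^[j] x).coeff 0 = x.coeff 0 ^ p ^ j := by
  rw [iterate_frobenius_coeff]

/-- **End of (G)**: from the swap identity (in expanded form) to a contradiction. -/
theorem swap_end_aux [IsAlgClosed K] (n N h : ℕ) (hn : 1 ≤ n) (hnN : n ≤ N) (h1 : 1 ≤ h)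
    {ι : Type*} [Fintype ι]
    (t : ι → FPt (hz p N (sp n : ℕ → Ob K))) (δ : ℝ) (hδ : 0 < δ)
    (hind : ∀ m : ι → ℤ, (∃ l, ¬ (p : ℤ) ∣ m l) → δ ≤ ‖(∑ l, m l • t l).val‖)
    (g : ι → ℕ → WittVector p (Ob K)) (hg : ∀ l m, WittVector.frobenius^[h] (g l m) = g l m)
    (l0 : ι) (hg0 : (g l0 0).coeff 0 ≠ 0)
    (hswap : ∀ (e : ℕ) (w y : Ob K), w ≠ 0 → ‖w‖ < 1 → ‖y‖ < 1 →
      ∑ l, Lw p n w ((t l).val ^ p ^ e) * ∑ m ∈ Finset.range h,
        toRW p w (g l m) * Lw p h w (y ^ p ^ m) = 0) : False := by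
  have hp0 : p ≠ 0 := (Fact.out : p.Prime).ne_zero
  have hp1 : 1 < p := (Fact.out : p.Prime).one_lt
  have htn : ∀ l, ‖(t l).val‖ < 1 := fun l => (Ob_tn_iff _).1 (t l).tn
  -- Step A
  have hA : ∀ (e : ℕ) (w y : Ob K), w ≠ 0 → ‖w‖ < 1 → ‖y‖ < 1 →
      ∑ l, toRW p w (g l 0) * Lw p n w ((t l).val ^ p ^ e) * Lw p h w y = 0 := by
    intro e w y hw hw1 hy
    exact SwapEnd.stepA p h h1 g w hw (fun l => Lw p n w ((t l).val ^ p ^ e))
      (fun y hy => hswap e w y hw hw1 hy) y hy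
  -- choice of the multiplier
  have hg0' : ((g l0 0).coeff 0 : K) ≠ 0 := fun h0 => hg0 (Subtype.ext h0)
  obtain ⟨b0, hb0, hbt⟩ := exists_trace_ne_zero (p := p) (K := K) h h1 _ hg0'
  set b : Ob K := ⟨b0, SwapEnd.norm_eq p b0 h h1 hb0⟩ with hbdef
  have hb : b ^ p ^ h = b := Subtype.ext hb0
  set x : ι → WittVector p (Ob K) := fun l => teichmuller p b * g l 0 with hx
  have hB : ∀ (e : ℕ) (w y : Ob K), w ≠ 0 → ‖w‖ < 1 → ‖y‖ < 1 →
      ∑ l, toRW p w (x l) * Lw p n w ((t l).val ^ p ^ e) * Lw p h w y = 0 := by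
    intro e w y hw hw1 hy
    have h2 := congrArg (fun X => toRW p w (teichmuller p b) * X) (hA e w y hw hw1 hy)
    simp only [mul_zero, Finset.mul_sum] at h2
    rw [← h2]
    apply Finset.sum_congr rfl
    intro l _
    rw [hx]
    simp only [map_mul]
    ring
  have hxfix : ∀ l, WittVector.frobenius^[h] (x l) = x l := by
    intro l
    rw [hx]
    have h3 : WittVector.frobenius^[h] (teichmuller p b * g l 0) =
        WittVector.frobenius^[h] (teichmuller p b) * WittVector.frobenius^[h] (g l 0) :=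
      iterate_map_mul _ _ _ _
    rw [h3, hg]
    congr 1
    ext i
    rw [iterate_frobenius_coeff]
    cases i with
    | zero => rw [teichmuller_coeff_zero, hb]
    | succ i => rw [teichmuller_coeff_pos p _ _ (Nat.succ_pos i),
        zero_pow (pow_ne_zero _ hp0)]
  set s : ι → WittVector p (Ob K) :=
    fun l => ∑ j ∈ Finset.range h, WittVector.frobenius^[j] (x l) with hs
  have hsfix : ∀ l, WittVector.frobenius (s l) = s l := fun l =>
    SwapEnd.frobenius_trace p h (x l) (hxfix l)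
  have hs0 : (s l0).coeff 0 ≠ 0 := by
    have h2 : (constantCoeff (s l0) : Ob K) = ∑ j ∈ Finset.range h,
        (b * (g l0 0).coeff 0) ^ p ^ j := by
      rw [hs]
      simp only [map_sum]
      apply Finset.sum_congr rfl
      intro j _
      change (WittVector.frobenius^[j] (x l0)).coeff 0 = _
      rw [SwapEnd.coeff_zero_frobenius_iterate, hx]
      simp only [WittVector.mul_coeff_zero, teichmuller_coeff_zero]
    intro h0
    apply hbt
    have h3 : (constantCoeff (s l0) : Ob K) = 0 := h0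
    rw [h2] at h3
    have h4 := congrArg (fun z : Ob K => (z : K)) h3
    simpa using h4
  -- Step D
  have hD := fun w y hw hw1 hy => SwapEnd.stepD p n h hn h1 (fun l => (t l).val) htn x hB w y hw hw1 hy
  -- choose B
  have hBex : ∃ B : ℕ, ∀ l, ‖(t l).val‖ ^ (p ^ n) ^ (B + 1) ≤ δ ^ 3 := by
    have h2 : ∀ l, ∃ B0 : ℕ, ∀ B ≥ B0, ‖(t l).val‖ ^ (p ^ n) ^ (B + 1) ≤ δ ^ 3 := by
      intro l
      obtain ⟨m, hm⟩ := exists_pow_lt_of_lt_one (show (0 : ℝ) < δ ^ 3 by positivity) (htn l)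
      refine ⟨m, ?_⟩
      intro B hBm
      refine le_trans ?_ hm.le
      apply pow_le_pow_of_le_one (norm_nonneg _) (htn l).le
      calc m ≤ B + 1 := by omega
        _ ≤ (p ^ n) ^ (B + 1) := (Nat.lt_pow_self (Nat.one_lt_pow (by omega) hp1)).le
    choose B0 hB0 using h2
    refine ⟨∑ l, B0 l, fun l => hB0 l _ ?_⟩
    exact Finset.single_le_sum (f := B0) (fun _ _ => Nat.zero_le _) (Finset.mem_univ l)
  obtain ⟨B, hBl⟩ := hBex
  set k := B + 2 with hk
  -- integer approximations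
  have happ := fun l => witt_fixed_approx (p := p) k (s l) (hsfix l)
  choose m c hmc using happ
  have hm0 : ¬ (p : ℤ) ∣ ((m l0 : ℕ) : ℤ) := by
    intro hdvd
    have h2 : p ∣ m l0 := by exact_mod_cast hdvd
    apply hs0
    have h3 : (constantCoeff (s l0) : Ob K) = 0 := by
      rw [hmc l0, map_add, map_natCast, map_mul, map_pow, map_natCast]
      rw [(CharP.cast_eq_zero_iff (Ob K) p (m l0)).2 h2, CharP.cast_eq_zero, zero_pow (by omega)]
      simp
    exact h3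
  set t' : FPt (hz p N (sp n : ℕ → Ob K)) := ∑ l, ((m l : ℕ) : ℤ) • t l with ht'
  have hδt : δ ≤ ‖t'.val‖ := hind (fun l => ((m l : ℕ) : ℤ)) ⟨l0, hm0⟩
  have ht'1 : ‖t'.val‖ < 1 := (Ob_tn_iff _).1 t'.tn
  have ht'0 : t'.val ≠ 0 := by
    intro h0
    rw [h0] at hδt
    simp at hδt
    linarith
  set w : Ob K := t'.val ^ 3 with hw
  have hw0 : w ≠ 0 := pow_ne_zero _ ht'0
  have hw1 : ‖w‖ < 1 := SwapEnd.norm_pow_lt _ ht'1 _ (by norm_num)
  have hLt' : Lw p n w t'.val = ∑ l, (m l : RW p w) * Lw p n w (t l).val := by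
    rw [ht', Lw_sum p N n hn hnN w hw0]
    apply Finset.sum_congr rfl
    intro l _
    rw [Lw_zsmul p N n hn hnN w hw0]
    simp
  have hmem : ∀ l, ∃ a, (p : RW p w) ^ B * Lw p n w (t l).val = toRW p w a := by
    intro l
    apply Lw_mem p n hn w
    apply EndExp.dvd_of_norm_le hw0
    have h2 : ‖(t l).val ^ (p ^ n) ^ (B + 1)‖ = ‖(t l).val‖ ^ (p ^ n) ^ (B + 1) := by simp
    have h3 : ‖w‖ = ‖t'.val‖ ^ 3 := by rw [hw]; simp
    rw [h2, h3]
    exact (hBl l).trans (pow_le_pow_left₀ hδ.le hδt 3)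
  choose a ha using hmem
  have hmem' : ∃ a', (p : RW p w) ^ 1 * Lw p h w t'.val = toRW p w a' := by
    apply Lw_mem p h h1 w
    rw [hw]
    apply pow_dvd_pow
    have h2 : 2 ≤ p ^ h := Nat.one_lt_pow (by omega) hp1
    calc 3 ≤ 2 ^ 2 := by norm_num
      _ ≤ (p ^ h) ^ (1 + 1) := Nat.pow_le_pow_left h2 2
  obtain ⟨a', ha'⟩ := hmem'
  obtain ⟨z, hz1, hz2⟩ := Lw_mul_Lw_size p n h hn h1 t'.val ht'0 ht'1
  have hfin := hD w t'.val hw0 hw1 ht'1
  have hterm : ∀ l, toRW p w (s l) * Lw p n w (t l).val * Lw p h w t'.val =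
      (m l : RW p w) * Lw p n w (t l).val * Lw p h w t'.val +
        (p : RW p w) * toRW p w (c l * a l * a') := by
    intro l
    rw [hmc l, map_add, map_natCast, map_mul, map_pow, map_natCast, hk, map_mul, map_mul,
      ← ha l, ← ha']
    ring
  have hfin2 : ∑ l, toRW p w (s l) * Lw p n w (t l).val * Lw p h w t'.val = 0 := hfin
  simp only [hterm, Finset.sum_add_distrib] at hfin2
  rw [← Finset.sum_mul, ← hLt', hz1, ← Finset.mul_sum, ← map_sum] at hfin2
  apply toRW_ne_zero_of_coeff p w hw0 z hz2 (-∑ l, c l * a l * a')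
  rw [map_neg, mul_neg]
  exact eq_neg_of_add_eq_zero_left hfin2

/-- **End of (G)**: from the swap identity to a contradiction. -/
theorem swap_end [IsAlgClosed K] (n N h N' : ℕ) (hn : 1 ≤ n) (hnN : n ≤ N) (h1 : 1 ≤ h)
    (hN : h ≤ N') {ι : Type*} [Fintype ι]
    (t : ι → FPt (hz p N (sp n : ℕ → Ob K))) (δ : ℝ) (hδ : 0 < δ)
    (hind : ∀ m : ι → ℤ, (∃ l, ¬ (p : ℤ) ∣ m l) → δ ≤ ‖(∑ l, m l • t l).val‖)
    (A : ι → PowerSeries (Ob K))
    (hA : ∀ l, IsFGHom (hz p N' (sp h : ℕ → Ob K)) (hz p N' (sp h : ℕ → Ob K)) (A l))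
    (hAf : ∀ l, PowerSeries.map (iterateFrobenius (Ob K) p h) (A l) = A l)
    (l0 : ι) (hl0 : PowerSeries.coeff 1 (A l0) ≠ 0)
    (hswap : ∀ (e : ℕ) (w y : Ob K), w ≠ 0 → ‖w‖ < 1 → ‖y‖ < 1 →
      ∑ l, Lw p n w ((t l).val ^ p ^ e) * Lw p h w (ev₁ y (A l)) = 0) : False := by
  choose g hg hg0 hgL using fun l => Lw_end_expand p N' h h1 hN (A l) (hA l) (hAf l)
  refine swap_end_aux p n N h hn hnN h1 t δ hδ hind g hg l0 ?_ ?_
  · rw [hg0]; exact hl0
  · intro e w y hw hw1 hy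
    rw [← hswap e w y hw hw1 hy]
    apply Finset.sum_congr rfl
    intro l _
    rw [hgL l w y hw hw1 hy]

end Crest.Agent.R227
end
end

-- ▼ part R227/CoEndAux
section

/-!
# R227 / CoEndAux : the final contradiction from a relation
-/

set_option autoImplicit false
set_option linter.unusedSectionVars false

noncomputable section

namespace Crest.Agent.R227

open Crest.LubinTate MvPowerSeries Topology

variable {p : ℕ} [Fact p.Prime] {n h : ℕ}
variable {K : Type} [NontriviallyNormedField K] [IsUltrametricDist K] [CompleteSpace K]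
  [IsAlgClosed K] [CharP K p]

/-- The final contradiction: a nontrivial relation between the points `Θ(b t_l^{p^j})` over the
endomorphisms of `HO h` is impossible. -/
theorem co_end (h1 : 1 ≤ h) (hh : h < n)
    (Θ : FPt (HO p n n (Ob K)) →+ FPt (HO p n h (Ob K))) (hΘ : HasExp Θ)
    (hsurj : Function.Surjective Θ) {ι : Type*} [Fintype ι]
    (t : ι → FPt (HO p n n (Ob K))) (δ : ℝ) (hδ : 0 < δ)
    (hind : ∀ m : ι → ℤ, (∃ l, ¬ (p : ℤ) ∣ m l) → δ ≤ ‖(∑ l, m l • t l).val‖)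
    (A : ι → PowerSeries (Ob K))
    (hA : ∀ l, IsFGHom (HO p n h (Ob K)) (HO p n h (Ob K)) (A l))
    (hAf : ∀ l m, PowerSeries.coeff m (A l) ^ p ^ h = PowerSeries.coeff m (A l))
    (l0 : ι) (hl0 : PowerSeries.coeff 1 (A l0) ≠ 0)
    (hrel : ∀ b : Ob K, b ^ p ^ n = b → ∀ j : ℕ,
      ∑ l, FPt.hom (hA l) (Θ (toPt (HO p n n (Ob K)) (b * (t l).val ^ p ^ j))) = 0) : False := by
  obtain ⟨c, hcr, hc1, hc⟩ := hΘ
  have hcs : CSys p h (n - h) c := ⟨hc1, hcr⟩
  have hAf' : ∀ l, PowerSeries.map (iterateFrobenius (Ob K) p h) (A l) = A l := by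
    intro l
    ext m
    rw [PowerSeries.coeff_map, iterateFrobenius_def, hAf]
  refine swap_end p n n h n (by omega) le_rfl h1 hh.le t δ hδ hind A hA hAf' l0 hl0 ?_
  intro e w y hw hw1 hy
  refine swap_identity p (n := n) (h := h) (r := n - h) (N := n) (by omega) h1 (by omega) hh.le
    hcs (fun z => Θ (toPt (HO p n n (Ob K)) z)) ?_ ?_ A hA ?_ (fun l => (t l).val)
    (fun l => SwapId.norm_val_lt (t l)) hrel w hw hw1 e y hy
  · intro z hz ε hε
    have h2 := hc (toPt (HO p n n (Ob K)) z)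
    rw [toPt_val _ hz] at h2
    have h3 := (tendsto_zero_iff_norm_tendsto_zero.1 h2).eventually_lt_const hε
    obtain ⟨N₀, hN₀⟩ := Filter.eventually_atTop.1 h3
    -- compare `Ico (-s) s` and `Icc (-s) s`
    obtain ⟨J, hJ⟩ := tendsto_pow_pow p (norm_nonneg z) hz (le_refl 1) hε
    refine ⟨max N₀ J, fun N' hN' => ?_⟩
    have h4 := hN₀ N' (le_trans (le_max_left _ _) hN')
    have h5 : Finset.Icc (-(N' : ℤ)) N' = insert (N' : ℤ) (Finset.Ico (-(N' : ℤ)) N') := by
      rw [← Finset.Ico_insert_right (by omega)]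
    have h6 : (N' : ℤ) ∉ Finset.Ico (-(N' : ℤ)) N' := by simp
    have h7 : ∀ k : ℤ, cpt p (HO p n h (Ob K)) hcs hz k =
        toPt (HO p n h (Ob K)) (c k * fz p k z) := by
      intro k
      have hk : ‖c k * fz p k z‖ < 1 := SwapId.norm_val_lt (cpt p (HO p n h (Ob K)) hcs hz k)
      apply FPt.ext
      rw [toPt_val _ hk]
      rfl
    rw [h5, Finset.sum_insert h6]
    simp_rw [h7]
    set S := ∑ k ∈ Finset.Ico (-(N' : ℤ)) N', toPt (HO p n h (Ob K)) (c k * fz p k z) with hS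
    set x := toPt (HO p n h (Ob K)) (c (N' : ℤ) * fz p (N' : ℤ) z) with hx
    have h8 : Θ (toPt (HO p n n (Ob K)) z) - (x + S) =
        (Θ (toPt (HO p n n (Ob K)) z) - S) + (0 - x) := by abel
    rw [h8]
    refine norm_add_val_le _ _ hε.le h4.le ?_
    rw [norm_sub_val_iff _ _ hε.le, FPt.val_zero, zero_sub, norm_neg, hx, ← h7, cpt_val]
    have h9 := hJ N' (le_trans (le_max_right _ _) hN')
    rw [one_mul] at h9
    have h10 : ‖fr p (N' : ℤ) z‖ = ‖z‖ ^ p ^ N' := by rw [fr_natCast, norm_pow]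
    rw [norm_mul, h10]
    exact (mul_le_of_le_one_left (by positivity) (Ob_norm_le_one _)).trans h9.le
  · intro y
    obtain ⟨z, hz⟩ := hsurj y
    refine ⟨z.val, SwapId.norm_val_lt z, ?_⟩
    rw [← hz]
    congr 1
    apply FPt.ext
    rw [toPt_val _ (SwapId.norm_val_lt z)]
  · intro l w' hw' hw1'
    obtain ⟨g, _, _, hg⟩ := Lw_end_expand p n h h1 hh.le (A l) (hA l) (hAf' l)
    refine ⟨fun m => toRW p w' (g m), fun y hy => ?_⟩
    rw [hg w' y hw' hw1' hy, Finset.sum_range]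

end Crest.Agent.R227
end
end

-- ▼ part R227/CoEnd
section

/-! # R227 / CoEnd : the end of the proof (task COEND), part (G) of note 4224 + note 4352 -/

set_option autoImplicit false
set_option linter.unusedSectionVars false

noncomputable section

namespace Crest.Agent.R227

open Crest.LubinTate MvPowerSeries Topology

variable {p : ℕ} [Fact p.Prime] {n h : ℕ}
variable {K : Type} [NontriviallyNormedField K] [IsUltrametricDist K] [CompleteSpace K]
  [IsAlgClosed K] [CharP K p]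

/-- the series of `-1` -/
theorem CoEnd.exists_neg (F : FormalGroup (Ob K)) [F.IsComm] (h1 : 1 ≤ h)
    (hF : F.map (iterateFrobenius (Ob K) p h) = F) :
    ∃ (ν : PowerSeries (Ob K)) (hν : IsFGHom F F ν),
      (∀ m, PowerSeries.coeff m ν ^ p ^ h = PowerSeries.coeff m ν) ∧
      PowerSeries.coeff 1 ν ≠ 0 ∧ ∀ P : FPt F, FPt.hom hν P = -P := by
  have hν : IsFGHom F F (fnegSeries F) := isFGHom_fnegSeries F
  have h0 : PowerSeries.constantCoeff (fnegSeries F) = 0 := (exists_fneg F).choose_spec.1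
  have h2 : fadd F PowerSeries.X (fnegSeries F) = 0 := (exists_fneg F).choose_spec.2.1
  have hX0 : PowerSeries.constantCoeff (PowerSeries.X : PowerSeries (Ob K)) = 0 := by simp
  have h3 : fnegSeries F = fneg F PowerSeries.X := Typical.fneg_unique F _ _ hX0 h0 h2
  have h4 : PowerSeries.map (iterateFrobenius (Ob K) p h) (fnegSeries F) = fnegSeries F := by
    have h5 := congrArg (MvPowerSeries.map (iterateFrobenius (Ob K) p h)) h2
    rw [map_fadd _ F _ _ hX0 h0, hF, map_zero] at h5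
    have h6 : MvPowerSeries.map (iterateFrobenius (Ob K) p h)
        (PowerSeries.X : PowerSeries (Ob K)) = (PowerSeries.X : PowerSeries (Ob K)) :=
      PowerSeries.map_X _
    rw [h6] at h5
    have h7 : PowerSeries.constantCoeff
        (PowerSeries.map (iterateFrobenius (Ob K) p h) (fnegSeries F)) = 0 :=
      Typical.cc_map _ h0
    rw [Typical.fneg_unique F _ _ hX0 h7 h5, ← h3]
  refine ⟨fnegSeries F, hν, ?_, ?_, fun P => FPt.ext rfl⟩
  · intro m
    conv_rhs => rw [← h4]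
    rw [PowerSeries.coeff_map, iterateFrobenius_def]
  · rw [h3, Typical.coeff_fneg F PowerSeries.X 1 le_rfl (by simp) 1 le_rfl]
    simp

theorem witt_contradiction (h1 : 1 ≤ h) (hh : h < n)
    (t : Fin (n - h) → FPt (HO p n n (Ob K))) (δ : ℝ) (hδ : 0 < δ)
    (ht : ∀ m : Fin (n - h) → ℤ, (∃ l, ¬ (p : ℤ) ∣ m l) → δ ≤ ‖(∑ l, m l • t l).val‖)
    (θ : FPt (HO p n n (Ob K)) →+ FPt (HO p n h (Ob K))) (hθ : Function.Surjective θ)
    (hθE : HasExp θ) (l0 : Fin (n - h))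
    (A : Fin (n - h) → (FPt (HO p n h (Ob K)) →+ FPt (HO p n h (Ob K))))
    (hA : ∀ l, IsQEnd (A l)) (hAE : ∀ l, HasExp ((A l).comp θ))
    (hrel : ∀ b : Ob K, b ^ p ^ n = b → ∀ j : ℕ, ∀ bt : Fin (n - h) → FPt (HO p n n (Ob K)),
      (∀ l, (bt l).val = b * (t l).val ^ p ^ j) →
      θ (bt l0) = ∑ l ∈ Finset.univ.erase l0, A l (θ (bt l))) : False := by
  classical
  choose φ hφ hφf hφv using hA
  obtain ⟨B, hB, hBf, hB1, hBv⟩ : ∃ (B : Fin (n - h) → PowerSeries (Ob K))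
      (hB : ∀ l, IsFGHom (HO p n h (Ob K)) (HO p n h (Ob K)) (B l)),
      (∀ l m, PowerSeries.coeff m (B l) ^ p ^ h = PowerSeries.coeff m (B l)) ∧
      PowerSeries.coeff 1 (B l0) ≠ 0 ∧
      ∀ P : Fin (n - h) → FPt (HO p n h (Ob K)), P l0 = ∑ l ∈ Finset.univ.erase l0, A l (P l) →
        ∑ l, FPt.hom (hB l) (P l) = 0 := by
    -- replace `A_l` by `-A_l` for `l ≠ l0`, `A_{l0} = X`
    obtain ⟨ν, hν, hνf, hν1, hνv⟩ := CoEnd.exists_neg (p := p) (h := h) (HO p n h (Ob K)) h1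
      (sp_map_frob p n h h)
    refine ⟨fun l => if l = l0 then ν else φ l, ?_, ?_, ?_, ?_⟩
    · intro l
      by_cases hl : l = l0
      · simpa only [if_pos hl] using hν
      · simpa only [if_neg hl] using hφ l
    · intro l m
      by_cases hl : l = l0
      · simpa only [if_pos hl] using hνf m
      · simpa only [if_neg hl] using hφf l m
    · simpa only [if_true] using hν1
    · intro P hP
      rw [← Finset.add_sum_erase _ _ (Finset.mem_univ l0)]
      have h2 : ∀ (l : Fin (n - h)) (ψ : PowerSeries (Ob K))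
          (hψ : IsFGHom (HO p n h (Ob K)) (HO p n h (Ob K)) ψ),
          ψ = (if l = l0 then ν else φ l) → ∀ (hψ' : IsFGHom (HO p n h (Ob K))
            (HO p n h (Ob K)) (if l = l0 then ν else φ l)), FPt.hom hψ' (P l) =
            FPt.hom hψ (P l) := by
        intro l ψ hψ he hψ'
        subst he
        rfl
      rw [h2 l0 ν hν (by simp) _, hνv]
      have h3 : ∀ l ∈ Finset.univ.erase l0, ∀ (hψ' : IsFGHom (HO p n h (Ob K))
            (HO p n h (Ob K)) (if l = l0 then ν else φ l)),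
          FPt.hom hψ' (P l) = A l (P l) := by
        intro l hl hψ'
        rw [h2 l (φ l) (hφ l) (by simp [Finset.ne_of_mem_erase hl]) hψ']
        apply FPt.ext
        rw [hφv l (P l)]
        rfl
      rw [Finset.sum_congr rfl fun l hl => h3 l hl _, ← hP]
      exact neg_add_cancel _
  refine co_end h1 hh θ hθE hθ t δ hδ ht B hB hBf l0 hB1 ?_
  intro b hb j
  apply hBv (fun l => θ (toPt (HO p n n (Ob K)) (b * (t l).val ^ p ^ j)))
  apply hrel b hb j
  intro l
  apply toPt_val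
  rw [norm_mul, norm_pow]
  exact lt_of_le_of_lt (mul_le_of_le_one_left (by positivity) (Ob_norm_le_one _))
    (pow_lt_one₀ (norm_nonneg _) (SwapId.norm_val_lt (t l))
      (pow_ne_zero _ (Fact.out : p.Prime).ne_zero))

end Crest.Agent.R227
end
end

-- ▼ part R227/Dh
section

/-!
# R227 / Dh (task DH): assembly of `thmDh` from the files `Co*.lean`
-/

set_option autoImplicit false

noncomputable section

namespace Crest.Agent.R227

open Crest.LubinTate MvPowerSeries Topology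

/-- there is no relation between the `θ(A t_l)` -/
theorem no_relation {p : ℕ} [Fact p.Prime] {n h : ℕ}
    {K : Type} [NontriviallyNormedField K] [IsUltrametricDist K] [CompleteSpace K]
    [IsAlgClosed K] [CharP K p] (h1 : 1 ≤ h) (hh : h < n) {ι : GaloisField p n →+* Ob K}
    (x : Mk p n h K ι) {ψ : PowerSeries (Ob K)} (hψ : IsFGHom x.P.F (HO p n h (Ob K)) ψ)
    (hψ1 : PowerSeries.coeff 1 ψ ≠ 0) (l0 : Fin (n - h))
    (A : Fin (n - h) → (FPt (HO p n h (Ob K)) →+ FPt (HO p n h (Ob K))))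
    (hA : ∀ l, IsQEnd (A l))
    (hrel : ∀ e ∈ EEset x hψ, e l0 = ∑ l ∈ Finset.univ.erase l0, A l (e l)) : False := by
  obtain ⟨δ, hδ, ht⟩ := x.ht.lower h1 hh x.hρ
  refine witt_contradiction h1 hh x.t δ hδ ht ((FPt.hom hψ).comp x.ρ)
    ((psi_surjective h1 hh hψ hψ1).comp (x.hρ.surjective h1 hh))
    (hasExp_of_hom h1 hh x.P x.hρ hψ) l0 A hA ?_ ?_
  · intro l
    obtain ⟨φ, hφ, -, hφA⟩ := hA l
    have hcomp := IsFGHom.comp hψ hφ
    have := hasExp_of_hom h1 hh x.P x.hρ hcomp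
    convert this using 1
    ext z
    rw [AddMonoidHom.comp_apply, AddMonoidHom.comp_apply, AddMonoidHom.comp_apply, hφA]
    rw [FPt.hom_val, FPt.hom_val]
    exact congrArg Subtype.val (ev₁_subst (x.ρ z).tn ψ hψ.1 φ).symm
  · intro b hb j bt hbt
    obtain ⟨a, ha, hav⟩ := exists_isAct_smul (ι := ι) (by omega : 1 ≤ n) b hb j
    have hbt' : ∀ l, bt l = a (x.t l) := fun l => FPt.ext (by rw [hbt, hav])
    have := hrel (fun l => FPt.hom hψ (x.ρ (a (x.t l)))) ⟨a, ha, fun l => rfl⟩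
    simpa only [AddMonoidHom.comp_apply, hbt'] using this

variable (p : ℕ) [Fact p.Prime] (n : ℕ)

theorem thmDh (hn : 1 ≤ n) (hU : IsUniversalDeformation p n (Fn p n) (H1 p n)) (M : ℕ)
    (hM : 1 ≤ M) (h : ℕ) (h1 : 1 ≤ h) (hh : h < n)
    (K : Type) [NontriviallyNormedField K] [IsUltrametricDist K] [CompleteSpace K]
    [IsAlgClosed K] [CharP K p] (X : LTRing p n →+* Ob K)
    (hX : ∀ a, LTRing.residue p n a = 0 → ‖X a‖ < 1)
    (hXI : ∀ a ∈ II p n h, X a = 0) (hXh : X (uu p n h) ≠ 0) (f : LTRing p n)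
    (hf : ∀ φ, IsStab p n M φ → X (φ f) = 0) : f ∈ II p n h := by
  by_contra hfI
  let P : HPoint p n h K := ⟨X, hX, hXI, hXh⟩
  obtain ⟨ι, hι⟩ := exists_iota P
  obtain ⟨ρ, hρ⟩ := exists_rho h1 hh P
  obtain ⟨t, ht⟩ := exists_tbasis h1 hh hρ
  let x : Mk p n h K ι := ⟨P, hι, ρ, hρ, t, ht⟩
  obtain ⟨ψ, hψ, hψ1⟩ := exists_psi_point h1 hh P
  have hap := approxPoly hn hU h1 hh hM x hψ hψ1 f hfI hf
  obtain ⟨r, hr, hb⟩ := EEset_bound h1 hh x hψ
  obtain ⟨l0, A, hA, hrel⟩ := circuit h1 hh (EEsub x hψ) r hr hb hap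
  exact no_relation h1 hh x hψ hψ1 l0 A hA hrel

end Crest.Agent.R227
end
end

-- ▼ part R227/Standard

/-!
# R227 / Standard : assembly for the standard pair (task STANDARD)
-/

set_option autoImplicit false

noncomputable section

namespace Crest.Agent.R227

open Crest.LubinTate MvPowerSeries Topology

variable (p : ℕ) [Fact p.Prime] (n : ℕ)

theorem std_II_zero : II p n 0 = ⊥ := by
  have : (Set.Iio 0 : Set ℕ) = ∅ := by ext; simp
  rw [II, this, Set.image_empty, Ideal.span_empty]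

theorem std_uu_mem_II {i h : ℕ} (hi : i < h) : uu p n i ∈ II p n h :=
  Ideal.subset_span ⟨i, hi, rfl⟩

theorem std_II_succ_le {h : ℕ} {J : Ideal (LTRing p n)} (h1 : II p n h ≤ J) (h2 : uu p n h ∈ J) :
    II p n (h + 1) ≤ J := by
  rw [II, Ideal.span_le]
  rintro _ ⟨i, hi, rfl⟩
  rcases Nat.lt_succ_iff_lt_or_eq.1 (Set.mem_Iio.1 hi) with h3 | h3
  · exact h1 (std_uu_mem_II p n h3)
  · rw [h3]; exact h2

/-- the hard direction -/
theorem standard_hard (hn : 1 ≤ n) (hU : IsUniversalDeformation p n (Fn p n) (H1 p n)) (M : ℕ)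
    (hM : 1 ≤ M) (J : Ideal (LTRing p n)) (hJ : J.IsRadical) (hJt : J ≠ ⊤)
    (hst : IsStableIdeal p n (Fn p n) (H1 p n) M J) : ∃ h : ℕ, h ≤ n ∧ J = II p n h := by
  classical
  -- `φ f ∈ J` for `f ∈ J`
  have hst' : ∀ φ, IsStab p n M φ → ∀ f ∈ J, φ f ∈ J := by
    rintro φ ⟨g, hg1, hg2, hg3⟩ f hf
    have := hst g φ hg1 hg2 hg3
    rw [← this] at hf
    exact hf
  let P : ℕ → Prop := fun h => II p n h ≤ J
  have hP0 : P 0 := by
    change II p n 0 ≤ J
    rw [std_II_zero]; exact bot_le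
  set h := Nat.findGreatest P n with hh
  have hPh : P h := Nat.findGreatest_spec (Nat.zero_le n) hP0
  have hhn : h ≤ n := Nat.findGreatest_le n
  refine ⟨h, hhn, ?_⟩
  rcases hhn.lt_or_eq with hlt | heq
  · have hnot : uu p n h ∉ J := by
      intro hmem
      have h1 : P (h + 1) := std_II_succ_le p n hPh hmem
      have h2 : h + 1 ≤ h := Nat.le_findGreatest (by omega) h1
      omega
    refine le_antisymm ?_ hPh
    intro f hf
    rcases Nat.eq_zero_or_pos h with h0 | hpos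
    · rw [h0] at hnot
      have hp : (p : LTRing p n) ∉ J := by
        have : uu p n 0 = (p : LTRing p n) := by simp [uu]
        rwa [this] at hnot
      obtain ⟨X, hX1, hX2⟩ := exists_point_zero p n hn J hJ hp
      have : f = 0 := thmD0 p n hn hU M hM X hX2 f (fun φ hφ => hX1 _ (hst' φ hφ f hf))
      rw [this]; exact Ideal.zero_mem _
    · have hp : (p : LTRing p n) ∈ J := by
        have h1 : uu p n 0 = (p : LTRing p n) := by simp [uu]
        rw [← h1]
        exact hPh (std_uu_mem_II p n hpos)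
      have hres : LTRing.residue p n (uu p n h) = 0 :=
        (mem_II_n p n hn _).1 (std_uu_mem_II p n hlt)
      obtain ⟨K, i1, i2, i3, i4, i5, X, hX1, hX2, hX3⟩ :=
        exists_point_p p n hn J hJ hp (uu p n h) hnot hres
      exact thmDh p n hn hU M hM h hpos hlt K X hX3 (fun a ha => hX1 a (hPh ha)) hX2 f
        (fun φ hφ => hX1 _ (hst' φ hφ f hf))
  · have hmax : II p n n = IsLocalRing.maximalIdeal (LTRing p n) := by
      ext a
      rw [mem_II_n p n hn, residue_eq_zero_iff]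
    have h1 : II p n n ≤ J := by
      have := hPh
      rw [heq] at this
      exact this
    rw [heq, hmax]
    rw [hmax] at h1
    exact (IsLocalRing.le_maximalIdeal hJt).antisymm h1

/-- Assembly for the standard pair. -/
theorem standard (hn : 1 ≤ n) (hU : IsUniversalDeformation p n (Fn p n) (H1 p n)) (M : ℕ)
    (hM : 1 ≤ M) : Concl p n (Fn p n) (H1 p n) M := by
  have hard := standard_hard p n hn hU M hM
  refine ⟨fun P => ⟨?_, ?_⟩, fun J => ⟨?_, ?_⟩⟩
  · rintro ⟨h1, h2⟩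
    obtain ⟨h, hh, rfl⟩ := hard P h1.isRadical h1.ne_top h2
    exact ⟨h, hh, (heightIdeal_H1 p n hn h hh).symm⟩
  · rintro ⟨h, hh, rfl⟩
    rw [heightIdeal_H1 p n hn h hh]
    exact ⟨II_isPrime p n hn h hh, II_stable p n hn h hh M hM⟩
  · rintro ⟨h1, h2⟩
    by_cases ht : J = ⊤
    · exact Or.inr ht
    · obtain ⟨h, hh, rfl⟩ := hard J h1 ht h2
      exact Or.inl ⟨h, hh, (heightIdeal_H1 p n hn h hh).symm⟩
  · rintro (⟨h, hh, rfl⟩ | rfl)
    · rw [heightIdeal_H1 p n hn h hh]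
      exact ⟨(II_isPrime p n hn h hh).isRadical, II_stable p n hn h hh M hM⟩
    · refine ⟨fun a _ => Submodule.mem_top, ?_⟩
      intro g φ _ _ _
      exact Ideal.comap_top

end Crest.Agent.R227
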