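import Crest.Agent.R227.FE
import Crest.Agent.R227.FPt

/-!
# R227 / TopDefs : standard objects
-/

set_option autoImplicit false

noncomputable section

namespace Crest.Agent.R227

open Crest.LubinTate MvPowerSeries Topology

variable (p : ℕ) [Fact p.Prime] (n : ℕ)

/-- The Honda law of height `n` over `F_{p^n}`. -/
abbrev Fn : FormalGroup (GaloisField p n) := hz p n (sp n)

/-- The standard universal deformation. -/
abbrev H1 : FormalGroup (LTRing p n) := hz p n (upt p n)

/-- `uu 0 = p`, `uu i = u_i` for `1 ≤ i < n`. -/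
def uu (i : ℕ) : LTRing p n := if i = 0 then (p : LTRing p n) else upt p n i

/-- The ideals `(p, u_1, …, u_{h-1})`. -/
def II (h : ℕ) : Ideal (LTRing p n) := Ideal.span (uu p n '' Set.Iio h)

/-- The conclusion of the main theorem. -/
def Concl (Γ : FormalGroup (GaloisField p n)) (H : FormalGroup (LTRing p n)) (M : ℕ) : Prop :=
  (∀ P : Ideal (LTRing p n),
      (P.IsPrime ∧ IsStableIdeal p n Γ H M P) ↔ ∃ h : ℕ, h ≤ n ∧ P = heightIdeal p n H h) ∧
  (∀ J : Ideal (LTRing p n),
      (J.IsRadical ∧ IsStableIdeal p n Γ H M J) ↔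
        (∃ h : ℕ, h ≤ n ∧ J = heightIdeal p n H h) ∨ J = ⊤)

/-- the set of stabilizer maps of automorphisms `≡ X mod X^M` -/
def IsStab (M : ℕ) (φ : LTRing p n →ₐ[WittVector p (GaloisField p n)] LTRing p n) : Prop :=
  ∃ g : PowerSeries (GaloisField p n), IsFGAut (Fn p n) g ∧
    (∀ i : ℕ, i < M → PowerSeries.coeff i g = PowerSeries.coeff i PowerSeries.X) ∧
    IsStabilizerMap p n (H1 p n) g φ

end Crest.Agent.R227
end
private theorem rz_bc93671943 : type_of% @_root_.Crest.LubinTate.heightIdeal.eq_def := @_root_.Crest.LubinTate.heightIdeal.eq_def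
private theorem rz_4353a792d5 : type_of% @_root_.Crest.LubinTate.heightIdeal.eq_1 := @_root_.Crest.LubinTate.heightIdeal.eq_1
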