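import Crest.Agent.R227.FG2
import Crest.Agent.R227.TopDefs

-- ▼ part R227/TrLT
section

/-!
# R227 / TrLT : the Lubin–Tate lemma (part of task TRANSFER)
-/

set_option autoImplicit false

noncomputable section

namespace Crest.Agent.R227

open Crest.LubinTate MvPowerSeries Finsupp

namespace LT

variable {A : Type*} [CommRing A]

/-- `g(X) - g(Y) = (X - Y) U(X, Y)` -/
theorem exists_diff_quot (g : PowerSeries A) : ∃ U : MvPowerSeries (Fin 2) A,
    constantCoeff U = PowerSeries.coeff 1 g ∧
    PowerSeries.subst (X 0 : MvPowerSeries (Fin 2) A) g -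
      PowerSeries.subst (X 1 : MvPowerSeries (Fin 2) A) g = (X 0 - X 1) * U := by
  classical
  obtain ⟨U, hU⟩ : ∃ U : MvPowerSeries (Fin 2) A,
      ∀ e, coeff e U = PowerSeries.coeff (e 0 + e 1 + 1) g :=
    ⟨fun e => PowerSeries.coeff (e 0 + e 1 + 1) g, fun e => rfl⟩
  refine ⟨U, ?_, ?_⟩
  · rw [← coeff_zero_eq_constantCoeff_apply, hU]
    simp
  · ext e
    rw [map_sub, PowerSeries.coeff_subst_single, PowerSeries.coeff_subst_single, sub_mul, map_sub]
    have hX : ∀ s : Fin 2, coeff e ((X s : MvPowerSeries (Fin 2) A) * U) =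
        if 1 ≤ e s then PowerSeries.coeff (e 0 + e 1) g else 0 := by
      intro s
      rw [X_def, coeff_monomial_mul]
      by_cases h : 1 ≤ e s
      · have h' : single s 1 ≤ e := by
          rw [Finsupp.single_le_iff]; exact h
        rw [if_pos h, if_pos h', one_mul, hU]
        congr 1
        congr 1
        fin_cases s
        · simp only [Fin.zero_eta, Fin.isValue, Finsupp.coe_tsub, Pi.sub_apply,
            Finsupp.single_eq_same]
          have : (single (0 : Fin 2) 1) 1 = 0 := by simp
          rw [this]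
          simp only [Fin.zero_eta] at h
          omega
        · simp only [Fin.mk_one, Fin.isValue, Finsupp.coe_tsub, Pi.sub_apply,
            Finsupp.single_eq_same]
          have : (single (1 : Fin 2) 1) 0 = 0 := by simp
          rw [this]
          simp only [Fin.mk_one] at h
          omega
      · have h' : ¬ single s 1 ≤ e := by
          rw [Finsupp.single_le_iff]; exact h
        rw [if_neg h, if_neg h']
    rw [hX, hX]
    have e0 : (e = single 0 (e 0)) ↔ e 1 = 0 := by
      constructor
      · intro h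
        rw [h]; simp
      · intro h
        ext i
        fin_cases i
        · simp
        · simp [h]
    have e1 : (e = single 1 (e 1)) ↔ e 0 = 0 := by
      constructor
      · intro h
        rw [h]; simp
      · intro h
        ext i
        fin_cases i
        · simp [h]
        · simp
    simp only [e0, e1]
    by_cases h0 : e 0 = 0 <;> by_cases h1 : e 1 = 0
    · simp [h0, h1]
    · have : 1 ≤ e 1 := by omega
      simp [h0, h1, this]
    · have : 1 ≤ e 0 := by omega
      simp [h0, h1, this]
    · have h0' : 1 ≤ e 0 := by omega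
      have h1' : 1 ≤ e 1 := by omega
      simp [h0, h1, h0', h1']

theorem constantCoeff_subst_of_zero {σ τ : Type*} [Finite σ] (a : σ → MvPowerSeries τ A)
    (ha : ∀ i, constantCoeff (a i) = 0) (f : MvPowerSeries σ A) :
    constantCoeff (subst a f) = constantCoeff f := by
  have hs : HasSubst a := hasSubst_of_constantCoeff_zero ha
  have h1 : constantCoeff (subst a (f - C (constantCoeff f))) = 0 :=
    constantCoeff_subst_eq_zero hs ha (by simp)
  rw [subst_sub hs, subst_C, map_sub, constantCoeff_C, sub_eq_zero] at h1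
  exact h1

/-- `g(a) - g(b) = (a - b) u` -/
theorem subst_sub_subst {τ : Type*} (g : PowerSeries A) (a b : MvPowerSeries τ A)
    (ha : constantCoeff a = 0) (hb : constantCoeff b = 0) :
    ∃ u : MvPowerSeries τ A, constantCoeff u = PowerSeries.coeff 1 g ∧
      PowerSeries.subst a g - PowerSeries.subst b g = (a - b) * u := by
  obtain ⟨U, hU, h⟩ := exists_diff_quot g
  have hab : ∀ i, constantCoeff (![a, b] i) = 0 := fun i => by fin_cases i <;> simpa
  have hs : HasSubst ![a, b] := hasSubst_of_constantCoeff_zero hab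
  refine ⟨subst ![a, b] U, ?_, ?_⟩
  · rw [constantCoeff_subst_of_zero _ hab, hU]
  · have := congrArg (subst ![a, b]) h
    rw [subst_sub hs, subst_mul hs, subst_sub hs, subst_X hs, subst_X hs,
      PowerSeries.subst_def, PowerSeries.subst_def,
      subst_comp_subst_apply (PowerSeries.HasSubst.X 0).const hs,
      subst_comp_subst_apply (PowerSeries.HasSubst.X 1).const hs] at this
    simpa [subst_X hs, PowerSeries.subst_def] using this

theorem coeff_diff_left (g φ ψ : PowerSeries A) (hφ : PowerSeries.constantCoeff φ = 0)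
    (hψ : PowerSeries.constantCoeff ψ = 0) (d : ℕ)
    (h : ∀ i < d, PowerSeries.coeff i φ = PowerSeries.coeff i ψ) :
    PowerSeries.coeff d (PowerSeries.subst φ g) - PowerSeries.coeff d (PowerSeries.subst ψ g) =
      PowerSeries.coeff 1 g * (PowerSeries.coeff d φ - PowerSeries.coeff d ψ) := by
  obtain ⟨u, hu, hgu⟩ := subst_sub_subst g φ ψ hφ hψ
  obtain ⟨w, hw⟩ : (PowerSeries.X : PowerSeries A) ^ d ∣ φ - ψ := by
    rw [PowerSeries.X_pow_dvd_iff]
    intro i hi
    rw [map_sub, h i hi, sub_self]
  have hw' : PowerSeries.coeff d φ - PowerSeries.coeff d ψ = PowerSeries.constantCoeff w := by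
    rw [← map_sub, hw, PowerSeries.coeff_X_pow_mul', if_pos le_rfl, Nat.sub_self,
      PowerSeries.coeff_zero_eq_constantCoeff_apply]
  rw [← map_sub]
  change PowerSeries.coeff d (PowerSeries.subst φ g - PowerSeries.subst ψ g : PowerSeries A) = _
  rw [hgu, hw, mul_assoc, PowerSeries.coeff_X_pow_mul', if_pos le_rfl, Nat.sub_self,
      PowerSeries.coeff_zero_eq_constantCoeff_apply, map_mul, hw', mul_comm]
  congr 1

theorem coeff_diff_right (f φ ψ : PowerSeries A) (hf : PowerSeries.constantCoeff f = 0) (d : ℕ)
    (h : ∀ i < d, PowerSeries.coeff i φ = PowerSeries.coeff i ψ) :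
    PowerSeries.coeff d (PowerSeries.subst f φ) - PowerSeries.coeff d (PowerSeries.subst f ψ) =
      PowerSeries.coeff 1 f ^ d * (PowerSeries.coeff d φ - PowerSeries.coeff d ψ) := by
  have hs : PowerSeries.HasSubst f := PowerSeries.HasSubst.of_constantCoeff_zero' hf
  obtain ⟨w, hw⟩ : (PowerSeries.X : PowerSeries A) ^ d ∣ φ - ψ := by
    rw [PowerSeries.X_pow_dvd_iff]
    intro i hi
    rw [map_sub, h i hi, sub_self]
  have hw' : PowerSeries.coeff d φ - PowerSeries.coeff d ψ = PowerSeries.constantCoeff w := by
    rw [← map_sub, hw, PowerSeries.coeff_X_pow_mul', if_pos le_rfl, Nat.sub_self,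
      PowerSeries.coeff_zero_eq_constantCoeff_apply]
  obtain ⟨v, hv⟩ : (PowerSeries.X : PowerSeries A) ∣ f := by
    rwa [PowerSeries.X_dvd_iff]
  have hv' : PowerSeries.coeff 1 f = PowerSeries.constantCoeff v := by
    rw [hv, show (1 : ℕ) = 0 + 1 from rfl, PowerSeries.coeff_succ_X_mul,
      PowerSeries.coeff_zero_eq_constantCoeff_apply]
  rw [← map_sub, ← PowerSeries.subst_sub hs, hw, PowerSeries.subst_mul hs,
    PowerSeries.subst_pow hs, PowerSeries.subst_X hs, hw', hv']
  have : (f : PowerSeries A) ^ d * PowerSeries.subst f w = PowerSeries.X ^ d *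
      (v ^ d * PowerSeries.subst f w) := by
    nth_rewrite 1 [hv]
    rw [mul_pow, mul_assoc]
  have h2 : PowerSeries.constantCoeff (PowerSeries.subst f w : PowerSeries A) =
      PowerSeries.constantCoeff w :=
    constantCoeff_subst_of_zero (fun _ : Unit => (f : MvPowerSeries Unit A)) (fun _ => hf) w
  rw [this, PowerSeries.coeff_X_pow_mul', if_pos le_rfl, Nat.sub_self,
    PowerSeries.coeff_zero_eq_constantCoeff_apply, map_mul, map_pow, h2]

/-- recursive construction of a sequence -/
def recSeq (step : (ℕ → A) → ℕ → A) (d : ℕ) : A :=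
  step (fun i => if _h : i < d then recSeq step i else 0) d
termination_by d

theorem recSeq_eq (step : (ℕ → A) → ℕ → A) (d : ℕ) :
    recSeq step d = step (fun i => if i < d then recSeq step i else 0) d := by
  rw [recSeq]
  simp only [dite_eq_ite]

section exist

variable (P : A) (N : ℕ) (f f' : PowerSeries A)

/-- the defect `f'(φ) - φ(f)` -/
def defect (φ : PowerSeries A) : PowerSeries A := PowerSeries.subst φ f' - PowerSeries.subst f φ

variable {P N f f'}

theorem coeff_defect (hf : PowerSeries.constantCoeff f = 0)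
    (hf1 : PowerSeries.coeff 1 f = P) (hf1' : PowerSeries.coeff 1 f' = P)
    (φ ψ : PowerSeries A) (hφ : PowerSeries.constantCoeff φ = 0)
    (hψ : PowerSeries.constantCoeff ψ = 0) (d : ℕ)
    (h : ∀ i < d, PowerSeries.coeff i φ = PowerSeries.coeff i ψ) :
    PowerSeries.coeff d (defect f f' φ) - PowerSeries.coeff d (defect f f' ψ) =
      (P - P ^ d) * (PowerSeries.coeff d φ - PowerSeries.coeff d ψ) := by
  have h1 := coeff_diff_left f' φ ψ hφ hψ d h
  have h2 := coeff_diff_right f φ ψ hf d h
  rw [hf1'] at h1
  rw [hf1] at h2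
  unfold defect
  rw [map_sub, map_sub]
  have e1 : PowerSeries.coeff d (PowerSeries.subst φ f' : PowerSeries A) =
    PowerSeries.coeff d (PowerSeries.subst ψ f') +
      P * (PowerSeries.coeff d φ - PowerSeries.coeff d ψ) := by
    rw [← h1]; ring
  have e2 : PowerSeries.coeff d (PowerSeries.subst f φ : PowerSeries A) =
    PowerSeries.coeff d (PowerSeries.subst f ψ) +
      P ^ d * (PowerSeries.coeff d φ - PowerSeries.coeff d ψ) := by
    rw [← h2]; ring
  rw [e1, e2]
  ring

/-- Lubin–Tate lemma, existence (one variable) -/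
theorem exists_series {p n : ℕ} [Fact p.Prime] {k : Type*} [Field k] [CharP k p]
    (r : A →+* k) (hker : ∀ a, r a = 0 → (p : A) ∣ a) (hk : ∀ a : k, a ^ p ^ n = a)
    (hunit : ∀ a : A, r a ≠ 0 → IsUnit a)
    (hf : PowerSeries.constantCoeff f = 0) (hf' : PowerSeries.constantCoeff f' = 0)
    (hf1 : PowerSeries.coeff 1 f = (p : A)) (hf1' : PowerSeries.coeff 1 f' = (p : A))
    (hfr : PowerSeries.map r f = PowerSeries.X ^ p ^ n)
    (hfr' : PowerSeries.map r f' = PowerSeries.X ^ p ^ n) :
    ∃ φ : PowerSeries A, PowerSeries.constantCoeff φ = 0 ∧ PowerSeries.coeff 1 φ = 1 ∧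
      PowerSeries.subst f φ = PowerSeries.subst φ f' := by
  classical
  have hp0 : (p : k) = 0 := CharP.cast_eq_zero k p
  have hn0 : p ^ n ≠ 0 := pow_ne_zero _ (Fact.out : p.Prime).ne_zero
  have hfrob : ∀ φ : PowerSeries k, φ ^ p ^ n = PowerSeries.subst (PowerSeries.X ^ p ^ n) φ := by
    intro φ
    have h := MvPowerSeries.map_iterateFrobenius_expand (σ := Unit) (R := k) p
      (Fact.out : p.Prime).ne_zero φ n
    have hid : iterateFrobenius k p n = RingHom.id k := by
      ext a
      rw [iterateFrobenius_def, hk, RingHom.id_apply]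
    rw [hid, map_id, RingHom.id_apply] at h
    rw [← PowerSeries.expand_apply _ hn0]
    exact h.symm
  -- the defect is divisible by `p`
  have hdiv : ∀ (φ : PowerSeries A), PowerSeries.constantCoeff φ = 0 → ∀ d, (p : A) ∣
      PowerSeries.coeff d (defect f f' φ) := by
    intro φ hφ d
    apply hker
    rw [← PowerSeries.coeff_map]
    unfold defect
    rw [map_sub]
    have h1 : PowerSeries.map r (PowerSeries.subst φ f' : PowerSeries A) =
        PowerSeries.subst (PowerSeries.map r φ) (PowerSeries.map r f') :=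
      PowerSeries.map_subst (PowerSeries.HasSubst.of_constantCoeff_zero' hφ) f'
    have h2 : PowerSeries.map r (PowerSeries.subst f φ : PowerSeries A) =
        PowerSeries.subst (PowerSeries.map r f) (PowerSeries.map r φ) :=
      PowerSeries.map_subst (PowerSeries.HasSubst.of_constantCoeff_zero' hf) φ
    have hφ' : PowerSeries.HasSubst (PowerSeries.map r φ) := by
      apply PowerSeries.HasSubst.of_constantCoeff_zero'
      rw [← PowerSeries.coeff_zero_eq_constantCoeff_apply, PowerSeries.coeff_map,
        PowerSeries.coeff_zero_eq_constantCoeff_apply, hφ, map_zero]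
    rw [h1, h2, hfr, hfr', PowerSeries.subst_pow hφ', PowerSeries.subst_X hφ', ← hfrob, sub_self,
      map_zero]
  have hunit' : ∀ d : ℕ, 2 ≤ d → IsUnit ((1 : A) - (p : A) ^ (d - 1)) := by
    intro d hd
    apply hunit
    rw [map_sub, map_one, map_pow, map_natCast, hp0, zero_pow (by omega), sub_zero]
    exact one_ne_zero
  have hstep : ∀ (φ : PowerSeries A) (d : ℕ), PowerSeries.constantCoeff φ = 0 → 2 ≤ d →
      ∃ c : A, PowerSeries.coeff d (defect f f' φ) + ((p : A) - (p : A) ^ d) * c = 0 := by
    intro φ d hφ hd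
    obtain ⟨e, he⟩ := hdiv φ hφ d
    obtain ⟨v, hv⟩ := (hunit' d hd).exists_left_inv
    refine ⟨-(v * e), ?_⟩
    have : (p : A) ^ d = p * (p : A) ^ (d - 1) := by
      rw [← pow_succ']; congr 1; omega
    rw [he, this]
    linear_combination (-(p : A) * e) * hv
  let step : (ℕ → A) → ℕ → A := fun g d => if d = 0 then 0 else if d = 1 then 1 else
    if h : ∃ c : A, PowerSeries.coeff d (defect f f' (PowerSeries.mk g)) +
      ((p : A) - (p : A) ^ d) * c = 0 then h.choose else 0
  let φ : PowerSeries A := PowerSeries.mk (recSeq step)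
  have hc : ∀ d, PowerSeries.coeff d φ = recSeq step d := fun d => PowerSeries.coeff_mk _ _
  have h0 : PowerSeries.constantCoeff φ = 0 := by
    rw [← PowerSeries.coeff_zero_eq_constantCoeff_apply, hc, recSeq_eq]
    simp [step]
  have h1 : PowerSeries.coeff 1 φ = 1 := by
    rw [hc, recSeq_eq]
    simp [step]
  refine ⟨φ, h0, h1, ?_⟩
  suffices h : defect f f' φ = 0 from (sub_eq_zero.mp h).symm
  ext d
  rw [map_zero]
  let ψ : PowerSeries A := PowerSeries.mk (fun i => if i < d then recSeq step i else 0)
  have hψ : ∀ i < d, PowerSeries.coeff i φ = PowerSeries.coeff i ψ := by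
    intro i hi
    rw [hc, PowerSeries.coeff_mk, if_pos hi]
  have hψd : PowerSeries.coeff d ψ = 0 := by
    rw [PowerSeries.coeff_mk, if_neg (lt_irrefl d)]
  have hψ0 : PowerSeries.constantCoeff ψ = 0 := by
    rcases Nat.eq_zero_or_pos d with hd | hd
    · rw [← PowerSeries.coeff_zero_eq_constantCoeff_apply, PowerSeries.coeff_mk, if_neg (by omega)]
    · rw [← PowerSeries.coeff_zero_eq_constantCoeff_apply, ← hψ 0 hd,
        PowerSeries.coeff_zero_eq_constantCoeff_apply, h0]
  have key := coeff_defect hf hf1 hf1' φ ψ h0 hψ0 d hψ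
  rw [hψd, sub_zero] at key
  rcases Nat.lt_or_ge d 2 with hd | hd
  · have hd' : ((p : A) - (p : A) ^ d) * PowerSeries.coeff d φ = 0 := by
      interval_cases d
      · rw [PowerSeries.coeff_zero_eq_constantCoeff_apply, h0, mul_zero]
      · rw [pow_one, sub_self, zero_mul]
    rw [hd'] at key
    rw [sub_eq_zero.mp key]
    have hψz : ψ = 0 := by
      ext i
      rw [PowerSeries.coeff_mk, map_zero]
      split_ifs with hi
      · have : i = 0 := by omega
        rw [this, recSeq_eq]
        simp [step]
      · rfl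
    rw [hψz]
    have hs : PowerSeries.HasSubst f := PowerSeries.HasSubst.of_constantCoeff_zero' hf
    have e1 : (PowerSeries.subst (0 : PowerSeries A) f' : PowerSeries A) = 0 :=
      PowerSeries.subst_zero_of_constantCoeff_zero hf'
    have e2 : (PowerSeries.subst f (0 : PowerSeries A) : PowerSeries A) = 0 := by
      rw [← PowerSeries.coe_substAlgHom hs, map_zero]
    unfold defect
    rw [e1, e2, sub_zero, map_zero]
  · have hcd : PowerSeries.coeff d φ = step (fun i => if i < d then recSeq step i else 0) d := by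
      rw [hc, recSeq_eq]
    have hex := hstep ψ d hψ0 hd
    have : step (fun i => if i < d then recSeq step i else 0) d = hex.choose := by
      simp only [step]
      rw [if_neg (by omega), if_neg (by omega), dif_pos hex]
    have hsp := hex.choose_spec
    rw [← this, ← hcd] at hsp
    linear_combination key + hsp

end exist

/-! ### Uniqueness in several variables -/

theorem coeff_mul_of_low {τ : Type*} (E u : MvPowerSeries τ A) (m : τ →₀ ℕ)
    (h : ∀ m' : τ →₀ ℕ, m'.degree < m.degree → coeff m' E = 0) :
    coeff m (E * u) = coeff m E * constantCoeff u := by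
  classical
  rw [coeff_mul, Finset.sum_eq_single (m, 0)]
  · simp
  · rintro ⟨a, b⟩ hab hne
    rw [Finset.HasAntidiagonal.mem_antidiagonal] at hab
    have hb : b ≠ 0 := by
      rintro rfl
      apply hne
      simp only at hab
      rw [add_zero] at hab
      rw [hab]
    have : a.degree < m.degree := by
      have h1 : m.degree = a.degree + b.degree := by
        rw [← hab]; simp
      have h2 : 0 < b.degree := by
        rw [Nat.pos_iff_ne_zero]
        intro h0
        exact hb ((Finsupp.degree_eq_zero_iff b).mp h0)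
      omega
    rw [h a this, zero_mul]
  · intro h
    simp at h

theorem coeff_subst_of_low {τ : Type*} [Finite τ] (E : MvPowerSeries τ A)
    (v : τ → MvPowerSeries τ A) (c : A) (hv : ∀ i, constantCoeff (v i) = c) (m : τ →₀ ℕ)
    (h : ∀ m' : τ →₀ ℕ, m'.degree < m.degree → coeff m' E = 0) :
    coeff m (subst (fun i => X i * v i) E) = c ^ m.degree * coeff m E := by
  classical
  have hs : HasSubst (fun i => X i * v i : τ → MvPowerSeries τ A) :=
    hasSubst_of_constantCoeff_zero (fun i => by simp)
  have hprod : ∀ x : τ →₀ ℕ, (x.prod fun s e => (X s * v s : MvPowerSeries τ A) ^ e) =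
      monomial x 1 * x.prod fun s e => v s ^ e := by
    intro x
    simp only [mul_pow]
    rw [Finsupp.prod_mul]
    congr 1
    rw [monomial_eq']
    simp
  rw [coeff_subst hs, finsum_eq_single _ m]
  · rw [hprod, coeff_monomial_mul, if_pos le_rfl, tsub_self, one_mul, smul_eq_mul, mul_comm]
    congr 1
    rw [coeff_zero_eq_constantCoeff_apply, Finsupp.prod, map_prod]
    simp only [map_pow, hv]
    rw [Finset.prod_pow_eq_pow_sum]
    rfl
  · intro x hx
    by_cases hlt : x.degree < m.degree
    · rw [h x hlt, zero_smul]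
    · rw [hprod, coeff_monomial_mul, if_neg, smul_zero]
      intro hle
      apply hx
      obtain ⟨y, rfl⟩ := le_iff_exists_add.mp hle
      have : y.degree = 0 := by
        have h1 : (x + y).degree = x.degree + y.degree := by simp
        omega
      rw [(Finsupp.degree_eq_zero_iff y).mp this, add_zero]

/-- Lubin–Tate lemma, uniqueness -/
theorem unique_series {τ : Type*} [Finite τ] {P : A}
    (hreg : ∀ d : ℕ, 2 ≤ d → ∀ a : A, (P - P ^ d) * a = 0 → a = 0)
    {f f' : PowerSeries A} (hf : PowerSeries.constantCoeff f = 0)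
    (hf1 : PowerSeries.coeff 1 f = P) (hf1' : PowerSeries.coeff 1 f' = P)
    (φ ψ : MvPowerSeries τ A) (hφ0 : constantCoeff φ = 0) (hψ0 : constantCoeff ψ = 0)
    (hlin : ∀ i, coeff (single i 1) φ = coeff (single i 1) ψ)
    (hφ : subst (fun i => PowerSeries.subst (X i : MvPowerSeries τ A) f) φ =
      PowerSeries.subst φ f')
    (hψ : subst (fun i => PowerSeries.subst (X i : MvPowerSeries τ A) f) ψ =
      PowerSeries.subst ψ f') : φ = ψ := by
  classical
  obtain ⟨u, hu, hgu⟩ := subst_sub_subst f' φ ψ hφ0 hψ0
  obtain ⟨v, hv⟩ : (PowerSeries.X : PowerSeries A) ∣ f := by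
    rwa [PowerSeries.X_dvd_iff]
  have hv' : PowerSeries.constantCoeff v = P := by
    rw [← hf1, hv, show (1 : ℕ) = 0 + 1 from rfl, PowerSeries.coeff_succ_X_mul,
      PowerSeries.coeff_zero_eq_constantCoeff_apply]
  have hfX : ∀ i : τ, PowerSeries.subst (X i : MvPowerSeries τ A) f =
      X i * PowerSeries.subst (X i : MvPowerSeries τ A) v := by
    intro i
    rw [hv, PowerSeries.subst_mul (PowerSeries.HasSubst.X i),
      PowerSeries.subst_X (PowerSeries.HasSubst.X i)]
  have hsX : HasSubst (fun i => X i * PowerSeries.subst (X i : MvPowerSeries τ A) v) :=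
    hasSubst_of_constantCoeff_zero (fun i => by simp)
  simp only [hfX] at hφ hψ
  have hE : subst (fun i => X i * PowerSeries.subst (X i : MvPowerSeries τ A) v) (φ - ψ) =
      (φ - ψ) * u := by
    rw [subst_sub hsX, hφ, hψ, hgu]
  have hcv : ∀ i : τ, constantCoeff (PowerSeries.subst (X i : MvPowerSeries τ A) v) = P := by
    intro i
    rw [PowerSeries.subst_def, constantCoeff_subst_of_zero (fun _ : Unit => (X i)) (fun _ => by simp)]
    exact hv'
  suffices h : ∀ (d : ℕ) (m : τ →₀ ℕ), m.degree = d → coeff m (φ - ψ) = 0 by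
    ext m
    have := h _ m rfl
    rwa [map_sub, sub_eq_zero] at this
  intro d
  induction d using Nat.strong_induction_on with
  | _ d ih =>
    intro m hm
    have hlow : ∀ m' : τ →₀ ℕ, m'.degree < m.degree → coeff m' (φ - ψ) = 0 := fun m' hm' =>
      ih _ (by omega) m' rfl
    rcases Nat.lt_or_ge d 2 with hd | hd
    · interval_cases d
      · rw [Finsupp.degree_eq_zero_iff] at hm
        rw [hm, coeff_zero_eq_constantCoeff_apply, map_sub, hφ0, hψ0, sub_zero]
      · obtain ⟨i, rfl⟩ : ∃ i, m = single i 1 := by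
          have h1 : m ∈ {d : τ →₀ ℕ | d.degree = 1} := hm
          rw [← Finsupp.range_single_one] at h1
          obtain ⟨i, hi⟩ := h1
          exact ⟨i, hi.symm⟩
        rw [map_sub, hlin, sub_self]
    · have h1 := coeff_subst_of_low (φ - ψ) _ P hcv m hlow
      rw [hE, coeff_mul_of_low _ _ _ hlow, hu, hf1', hm] at h1
      apply hreg d hd
      linear_combination h1

/-! ### the homomorphism property -/

theorem fadd_X_X (F : FormalGroup A) :
    fadd F (X 0 : MvPowerSeries (Fin 2) A) (X 1) = F.toPowerSeries := by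
  unfold fadd
  have : (![X 0, X 1] : Fin 2 → MvPowerSeries (Fin 2) A) = X := by
    ext i : 1
    fin_cases i <;> rfl
  rw [this, subst_self, id]

theorem mv_subst_subst {σ τ : Type*} [Finite σ] (g : σ → MvPowerSeries τ A)
    (hg : ∀ i, constantCoeff (g i) = 0) (a : MvPowerSeries σ A) (ha : constantCoeff a = 0)
    (φ : PowerSeries A) :
    subst g (PowerSeries.subst a φ) = PowerSeries.subst (subst g a) φ := by
  rw [PowerSeries.subst_def, subst_comp_subst_apply
    (PowerSeries.HasSubst.of_constantCoeff_zero ha).const (hasSubst_of_constantCoeff_zero hg)]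
  rfl

theorem ps_subst_subst {τ : Type*} (a : MvPowerSeries τ A) (ha : constantCoeff a = 0)
    (f : PowerSeries A) (hf : PowerSeries.constantCoeff f = 0) (φ : PowerSeries A) :
    PowerSeries.subst (PowerSeries.subst a f) φ = PowerSeries.subst a (PowerSeries.subst f φ) :=
  (PowerSeries.subst_comp_subst_apply (PowerSeries.HasSubst.of_constantCoeff_zero' hf)
    (PowerSeries.HasSubst.of_constantCoeff_zero ha) φ).symm

theorem isFGHom_of_comm {P : A} {m : ℕ} (hm : (m : A) = P)
    (hreg : ∀ d : ℕ, 2 ≤ d → ∀ a : A, (P - P ^ d) * a = 0 → a = 0)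
    (G G' : FormalGroup A) [G.IsComm] [G'.IsComm] (φ : PowerSeries A)
    (h0 : PowerSeries.constantCoeff φ = 0) (h1 : PowerSeries.coeff 1 φ = 1)
    (hφ : PowerSeries.subst (mulSeries G m) φ = PowerSeries.subst φ (mulSeries G' m)) :
    IsFGHom G G' φ := by
  classical
  have hG0 : constantCoeff G.toPowerSeries = 0 := G.zero_constantCoeff
  have hG0' : constantCoeff G'.toPowerSeries = 0 := G'.zero_constantCoeff
  have hX0 : ∀ i : Fin 2, constantCoeff (X i : MvPowerSeries (Fin 2) A) = 0 := fun i => by simp
  have hφX0 : ∀ i : Fin 2, constantCoeff (PowerSeries.subst (X i : MvPowerSeries (Fin 2) A) φ) = 0 :=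
    fun i => PowerSeries.constantCoeff_subst_eq_zero (hX0 i) φ h0
  have hf0 := constantCoeff_mulSeries G m
  have hf0' := constantCoeff_mulSeries G' m
  have hfX0 : ∀ i : Fin 2, constantCoeff (PowerSeries.subst (X i : MvPowerSeries (Fin 2) A)
      (mulSeries G m)) = 0 :=
    fun i => PowerSeries.constantCoeff_subst_eq_zero (hX0 i) _ hf0
  refine ⟨h0, ?_⟩
  have hψ : G'.toPowerSeries.subst ![PowerSeries.subst (X 0 : MvPowerSeries (Fin 2) A) φ,
        PowerSeries.subst (X 1 : MvPowerSeries (Fin 2) A) φ] =
        fadd G' (PowerSeries.subst (X 0 : MvPowerSeries (Fin 2) A) φ)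
          (PowerSeries.subst (X 1 : MvPowerSeries (Fin 2) A) φ) := rfl
  have hlow : ∀ (E : MvPowerSeries (Fin 2) A), constantCoeff E = 0 → ∀ i : Fin 2,
      ∀ m' : Fin 2 →₀ ℕ, m'.degree < (single i 1 : Fin 2 →₀ ℕ).degree → coeff m' E = 0 := by
    intro E hE i m' hm'
    rw [Finsupp.degree_single, Nat.lt_one_iff, Finsupp.degree_eq_zero_iff] at hm'
    rw [hm', coeff_zero_eq_constantCoeff_apply, hE]
  apply unique_series (P := P) hreg (f := mulSeries G m) (f' := mulSeries G' m) hf0
    (by rw [coeff_one_mulSeries, hm]) (by rw [coeff_one_mulSeries, hm])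
  · exact PowerSeries.constantCoeff_subst_eq_zero hG0 φ h0
  · rw [hψ]
    exact constantCoeff_fadd G' _ _ (hφX0 0) (hφX0 1)
  · intro i
    have e1 : coeff (single i 1) (PowerSeries.subst G.toPowerSeries φ) = 1 := by
      obtain ⟨u, hu, hgu⟩ := subst_sub_subst φ G.toPowerSeries 0 hG0 (map_zero _)
      rw [PowerSeries.subst_zero_of_constantCoeff_zero h0, sub_zero, sub_zero] at hgu
      rw [hgu, coeff_mul_of_low _ _ _ (hlow _ hG0 i), hu, h1, mul_one]
      fin_cases i
      · exact G.lin_coeff_X
      · exact G.lin_coeff_Y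
    have e2 : coeff (single i 1) (G'.toPowerSeries.subst
        ![PowerSeries.subst (X 0 : MvPowerSeries (Fin 2) A) φ,
          PowerSeries.subst (X 1 : MvPowerSeries (Fin 2) A) φ]) = 1 := by
      obtain ⟨v, hv⟩ : (PowerSeries.X : PowerSeries A) ∣ φ := by
        rwa [PowerSeries.X_dvd_iff]
      have hv' : PowerSeries.constantCoeff v = 1 := by
        rw [← h1, hv, show (1 : ℕ) = 0 + 1 from rfl, PowerSeries.coeff_succ_X_mul,
          PowerSeries.coeff_zero_eq_constantCoeff_apply]
      have hfX : ∀ i : Fin 2, PowerSeries.subst (X i : MvPowerSeries (Fin 2) A) φ =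
          X i * PowerSeries.subst (X i : MvPowerSeries (Fin 2) A) v := by
        intro i
        rw [hv, PowerSeries.subst_mul (PowerSeries.HasSubst.X i),
          PowerSeries.subst_X (PowerSeries.HasSubst.X i)]
      have hcv : ∀ i : Fin 2, constantCoeff
          (PowerSeries.subst (X i : MvPowerSeries (Fin 2) A) v) = 1 := by
        intro i
        rw [PowerSeries.subst_def,
          constantCoeff_subst_of_zero (fun _ : Unit => (X i)) (fun _ => by simp)]
        exact hv'
      have e : (![PowerSeries.subst (X 0 : MvPowerSeries (Fin 2) A) φ,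
          PowerSeries.subst (X 1 : MvPowerSeries (Fin 2) A) φ]) =
          fun i => X i * PowerSeries.subst (X i : MvPowerSeries (Fin 2) A) v := by
        ext i : 1
        fin_cases i
        · exact hfX 0
        · exact hfX 1
      rw [e, coeff_subst_of_low _ _ 1 hcv _ (hlow _ hG0' i), one_pow, one_mul]
      fin_cases i
      · exact G'.lin_coeff_X
      · exact G'.lin_coeff_Y
    rw [e1, e2]
  · rw [mv_subst_subst _ hfX0 _ hG0, ← fadd_X_X G,
      Crest.Agent.R227.subst_fadd G _ _ (hX0 0) (hX0 1) _ hfX0,
      subst_X (hasSubst_of_constantCoeff_zero hfX0), subst_X (hasSubst_of_constantCoeff_zero hfX0),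
      ← IsFGHom.subst_fadd (IsFGHom.mulSeries G m) _ _ (hX0 0) (hX0 1), fadd_X_X,
      ps_subst_subst _ hG0 _ hf0, hφ, ps_subst_subst _ hG0 _ h0]
  · rw [hψ, Crest.Agent.R227.subst_fadd G' _ _ (hφX0 0) (hφX0 1) _ hfX0,
      mv_subst_subst _ hfX0 _ (hX0 0), mv_subst_subst _ hfX0 _ (hX0 1),
      subst_X (hasSubst_of_constantCoeff_zero hfX0), subst_X (hasSubst_of_constantCoeff_zero hfX0),
      IsFGHom.subst_fadd (IsFGHom.mulSeries G' m) _ _ (hφX0 0) (hφX0 1),
      ps_subst_subst _ (hX0 0) _ hf0, ps_subst_subst _ (hX0 1) _ hf0, hφ,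
      ps_subst_subst _ (hX0 0) _ h0, ps_subst_subst _ (hX0 1) _ h0]

end LT

end Crest.Agent.R227
end
private theorem rz_05779d797b : type_of% @_root_.Crest.Agent.R227.LT.recSeq.eq_1 := @_root_.Crest.Agent.R227.LT.recSeq.eq_1 -- L164
end

-- ▼ part R227/TrIso

/-!
# R227 / TrIso : every law over `F_{p^n}` with `[p] = X^{p^n}` admitting a lift to `W` is
isomorphic to the Honda law (part of task TRANSFER)
-/

set_option autoImplicit false

noncomputable section

namespace Crest.Agent.R227

open Crest.LubinTate MvPowerSeries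

namespace LT

theorem map_isComm {R S : Type*} [CommRing R] [CommRing S] (F : FormalGroup R) [F.IsComm]
    (f : R →+* S) : (F.map f).IsComm := by
  constructor
  have h := congrArg (MvPowerSeries.map f) (FormalGroup.IsComm.comm (F := F))
  rw [MvPowerSeries.map_subst HasSubst.X_X] at h
  rw [FormalGroup.map_toPowerSeries]
  refine h.trans ?_
  congr 1
  ext i : 1
  fin_cases i <;> simp

theorem map_map {R S T : Type*} [CommRing R] [CommRing S] [CommRing T] (F : FormalGroup R)
    (f : R →+* S) (g : S →+* T) : (F.map f).map g = F.map (g.comp f) := by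
  ext : 1
  simp only [FormalGroup.map_toPowerSeries]
  ext d
  simp

theorem map_id (R : Type*) [CommRing R] (F : FormalGroup R) : F.map (RingHom.id R) = F := by
  ext : 1
  simp only [FormalGroup.map_toPowerSeries]
  ext d
  simp

end LT

variable (p : ℕ) [Fact p.Prime] (n : ℕ)

theorem LT.fsum_sp {R : Type*} [CommRing R] (F : FormalGroup R) (m : ℕ) (g : ℕ → PowerSeries R)
    (hg : ∀ i < m, g i = 0) (hgm : PowerSeries.constantCoeff (g m) = 0) :
    fsum F ((List.range (m + 1)).map g) = g m := by
  unfold fsum
  rw [List.range_succ, List.map_append, List.foldr_append]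
  have h1 : List.foldr (fadd F) 0 (List.map g [m]) = g m := by
    simp only [List.map_cons, List.map_nil, List.foldr_cons, List.foldr_nil]
    exact fadd_zero F _ hgm
  rw [h1]
  have h2 : ∀ l : List ℕ, (∀ i ∈ l, i < m) →
      List.foldr (fadd F) (g m) (List.map g l) = g m := by
    intro l
    induction l with
    | nil => intro _; rfl
    | cons a l ih =>
      intro hl
      rw [List.map_cons, List.foldr_cons, ih (fun i hi => hl i (List.mem_cons_of_mem _ hi)),
        hg a (hl a List.mem_cons_self)]
      exact zero_fadd F _ hgm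
  exact h2 _ (fun i hi => List.mem_range.mp hi)

/-- the `p`-series of the Honda law -/
theorem mulSeries_Fn (hn : 1 ≤ n) : mulSeries (Fn p n) p = PowerSeries.X ^ p ^ n := by
  obtain ⟨m, rfl⟩ : ∃ m, n = m + 1 := ⟨n - 1, by omega⟩
  rw [mulSeries_hz]
  have := LT.fsum_sp (Fn p (m + 1)) m (fun i => (PowerSeries.C (sp (m + 1) (i + 1)) *
    PowerSeries.X ^ p ^ (i + 1) : PowerSeries (GaloisField p (m + 1)))) ?_ ?_
  · rw [this]
    simp [sp]
  · intro i hi
    have : ¬ i = m := by omega
    simp [sp, this]
  · simp [(Fact.out : p.Prime).ne_zero]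

/-- the residue of the universal point -/
theorem hz_residue : (H1 p n).map (LTRing.residue p n) = Fn p n := by
  unfold H1 Fn
  rw [hz_map]
  congr 1
  ext i
  unfold upt sp
  by_cases h1 : 1 ≤ i ∧ i < n
  · have : ¬ i = n := by omega
    simp only [dif_pos h1, if_neg this]
    simp [LTRing.residue]
  · rw [dif_neg h1]
    by_cases h2 : i = n
    · simp [h2]
    · simp [h2]

/-- existence of an isomorphism `Γ → Fn` with linear coefficient `1`. -/
theorem exists_lam (hn : 1 ≤ n) (Γ : FormalGroup (GaloisField p n)) [Γ.IsComm]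
    (hΓ : mulSeries Γ p = PowerSeries.X ^ (p ^ n))
    (H : FormalGroup (LTRing p n)) [H.IsComm] (hH : H.map (LTRing.residue p n) = Γ) :
    ∃ lam : PowerSeries (GaloisField p n), IsFGHom Γ (Fn p n) lam ∧
      PowerSeries.coeff 1 lam = 1 := by
  let W := WittVector p (GaloisField p n)
  let r : W →+* GaloisField p n := WittVector.constantCoeff
  let G : FormalGroup W := H.map (MvPowerSeries.constantCoeff : LTRing p n →+* W)
  let G' : FormalGroup W := hz p n (sp n)
  have : G.IsComm := LT.map_isComm H _
  have hG : G.map r = Γ := by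
    rw [← hH]
    exact LT.map_map H _ _
  have hG' : G'.map r = Fn p n := by
    simp only [G', Fn]
    rw [hz_map]
    congr 1
    ext i
    simp only [sp]
    split_ifs <;> simp
  have hk : ∀ a : GaloisField p n, a ^ p ^ n = a := by
    intro a
    have hc : Nat.card (GaloisField p n) = p ^ n := GaloisField.card p n (by omega)
    have := Fintype.ofFinite (GaloisField p n)
    have h := FiniteField.pow_card a
    rwa [← Nat.card_eq_fintype_card, hc] at h
  have hker : ∀ a : W, r a = 0 → (p : W) ∣ a := by
    intro a ha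
    have : a ∈ RingHom.ker (WittVector.constantCoeff : W →+* GaloisField p n) := ha
    rw [WittVector.ker_constantCoeff, Ideal.mem_span_singleton] at this
    exact this
  have hunit : ∀ a : W, r a ≠ 0 → IsUnit a := by
    intro a ha
    exact WittVector.isUnit_of_coeff_zero_ne_zero a ha
  have hreg : ∀ d : ℕ, 2 ≤ d → ∀ a : W, ((p : W) - (p : W) ^ d) * a = 0 → a = 0 := by
    intro d hd a ha
    have h1 : IsUnit ((1 : W) - (p : W) ^ (d - 1)) := by
      apply hunit
      rw [map_sub, map_one, map_pow, map_natCast, CharP.cast_eq_zero, zero_pow (by omega), sub_zero]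
      exact one_ne_zero
    have h2 : (p : W) - (p : W) ^ d = p * (1 - (p : W) ^ (d - 1)) := by
      have : (p : W) ^ d = p * (p : W) ^ (d - 1) := by
        rw [← pow_succ']; congr 1; omega
      rw [this]; ring
    rw [h2, mul_assoc] at ha
    rcases mul_eq_zero.mp ha with h | h
    · exact absurd h (WittVector.p_nonzero p (GaloisField p n))
    · exact (h1.mul_right_eq_zero).mp h
  obtain ⟨φ, h0, h1, hφ⟩ := LT.exists_series (p := p) (n := n) r hker hk hunit
    (constantCoeff_mulSeries G p) (constantCoeff_mulSeries G' p)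
    (coeff_one_mulSeries G p) (coeff_one_mulSeries G' p)
    (by rw [mulSeries_map, hG, hΓ]) (by rw [mulSeries_map, hG', mulSeries_Fn p n hn])
  have hhom := LT.isFGHom_of_comm (P := (p : W)) (m := p) rfl hreg G G' φ h0 h1 hφ
  refine ⟨PowerSeries.map r φ, ?_, ?_⟩
  · have := IsFGHom.map r hhom
    rwa [hG, hG'] at this
  · rw [PowerSeries.coeff_map, h1, map_one]

end Crest.Agent.R227
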