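import Crest.Agent.R227.TrIso
import Crest.Agent.R227.Easy
import Crest.Agent.R227.LTComplete

-- ▼ part R227/TrHeight
section

/-!
# R227 / TrHeight : height ideals, base change and invariance (part of task TRANSFER)
-/

set_option autoImplicit false

noncomputable section

namespace Crest.Agent.R227

open Crest.LubinTate MvPowerSeries

variable {p : ℕ} [Fact p.Prime]

/-- a homomorphism in characteristic `p` with vanishing coefficients at `X^{p^j}`, `j < h`, is a
series in `X^{p^h}` -/
theorem exists_frob_iterate {R : Type*} [CommRing R] [CharP R p] (h : ℕ) :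
    ∀ {F G : FormalGroup R} {φ : PowerSeries R} (_ : IsFGHom F G φ)
    (_ : ∀ j < h, PowerSeries.coeff (p ^ j) φ = 0),
    ∃ ψ : PowerSeries R, IsFGHom (F.map (iterateFrobenius R p h)) G ψ ∧
      φ = PowerSeries.subst (PowerSeries.X ^ p ^ h : PowerSeries R) ψ := by
  induction h with
  | zero =>
    intro F G φ hφ _
    refine ⟨φ, ?_, ?_⟩
    · rw [iterateFrobenius_zero, LT.map_id]; exact hφ
    · rw [pow_zero, pow_one, PowerSeries.X_subst]
  | succ h ih =>
    intro F G φ hφ hj
    have hp0 : p ≠ 0 := (Fact.out : p.Prime).ne_zero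
    obtain ⟨ψ, hψ, rfl⟩ := IsFGHom.exists_frob (p := p) hφ (by
      have := hj 0 (by omega)
      rwa [pow_zero] at this)
    have hj' : ∀ j < h, PowerSeries.coeff (p ^ j) ψ = 0 := by
      intro j hjh
      have := hj (j + 1) (by omega)
      rw [PowerSeries.coeff_subst_X_pow hp0, if_pos (dvd_pow_self p (by omega)), pow_succ,
        Nat.mul_div_cancel _ (Fact.out : p.Prime).pos] at this
      simpa using this
    obtain ⟨χ, hχ, rfl⟩ := ih hψ hj'
    refine ⟨χ, ?_, ?_⟩
    · rw [LT.map_map] at hχ
      convert hχ using 2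
      ext a
      rw [iterateFrobenius_def, RingHom.comp_apply, iterateFrobenius_def, frobenius_def, ← pow_mul,
        pow_succ', mul_comm]
    · have h1 : PowerSeries.HasSubst (PowerSeries.X ^ p ^ h : PowerSeries R) :=
        PowerSeries.HasSubst.X_pow (pow_ne_zero _ hp0)
      have h2 : PowerSeries.HasSubst (PowerSeries.X ^ p : PowerSeries R) :=
        PowerSeries.HasSubst.X_pow hp0
      have h3 := PowerSeries.subst_comp_subst_apply h1 h2 χ
      refine h3.trans ?_
      congr 1
      have h4 := PowerSeries.subst_pow h2 (PowerSeries.X : PowerSeries R) (p ^ h)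
      refine h4.trans ?_
      rw [PowerSeries.subst_X h2, ← pow_mul]
      congr 1
      rw [pow_succ', mul_comm]

theorem coeff_lt_eq_zero {R : Type*} [CommRing R] [CharP R p] (h : ℕ)
    {F G : FormalGroup R} {φ : PowerSeries R} (hφ : IsFGHom F G φ)
    (hj : ∀ j < h, PowerSeries.coeff (p ^ j) φ = 0) :
    ∀ i < p ^ h, PowerSeries.coeff i φ = 0 := by
  intro i hi
  have hp0 : p ≠ 0 := (Fact.out : p.Prime).ne_zero
  obtain ⟨ψ, hψ, h1⟩ := exists_frob_iterate h hφ hj
  rw [h1, PowerSeries.coeff_subst_X_pow (pow_ne_zero _ hp0)]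
  split_ifs with hd
  · have : i = 0 := Nat.eq_zero_of_dvd_of_lt hd hi
    rw [this, Nat.zero_div, PowerSeries.coeff_zero_eq_constantCoeff_apply, hψ.1, map_zero]
  · rfl

/-- comparison of the leading coefficients -/
theorem leading_coeff_comm {R : Type*} [CommRing R] (N : ℕ) {φ f g : PowerSeries R}
    (hφ : PowerSeries.constantCoeff φ = 0) (hf0 : PowerSeries.constantCoeff f = 0)
    (h : PowerSeries.subst f φ = PowerSeries.subst φ g)
    (hf : ∀ i < N, PowerSeries.coeff i f = 0) (hg : ∀ i < N, PowerSeries.coeff i g = 0) :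
    PowerSeries.coeff 1 φ * PowerSeries.coeff N f =
      PowerSeries.coeff 1 φ ^ N * PowerSeries.coeff N g := by
  have h1 := LT.coeff_diff_left φ f 0 hf0 (by simp) N (fun i hi => by rw [hf i hi]; simp)
  have h2 := LT.coeff_diff_right φ g 0 hφ N (fun i hi => by rw [hg i hi]; simp)
  have hs : PowerSeries.HasSubst φ := PowerSeries.HasSubst.of_constantCoeff_zero' hφ
  have e1 : (PowerSeries.subst (0 : PowerSeries R) φ : PowerSeries R) = 0 :=
    PowerSeries.subst_zero_of_constantCoeff_zero hφ
  have e2 : (PowerSeries.subst φ (0 : PowerSeries R) : PowerSeries R) = 0 := by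
    rw [← PowerSeries.coe_substAlgHom hs, map_zero]
  rw [e1] at h1
  rw [e2] at h2
  simp only [map_zero, sub_zero] at h1 h2
  rw [← h1, ← h2, h]

variable (n : ℕ)

theorem heightIdeal_map (ω : LTRing p n →+* LTRing p n) (H : FormalGroup (LTRing p n)) (h : ℕ) :
    heightIdeal p n (H.map ω) h = (heightIdeal p n H h).map ω := by
  induction h with
  | zero => simp [heightIdeal, Ideal.map_bot]
  | succ h ih =>
    simp only [heightIdeal]
    rw [ih, Ideal.map_sup, Ideal.map_span, Set.image_singleton, ← mulSeries_map,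
      PowerSeries.coeff_map]

theorem coeff_mem_heightIdeal (H : FormalGroup (LTRing p n)) {j h : ℕ} (hj : j < h) :
    PowerSeries.coeff (p ^ j) (mulSeries H p) ∈ heightIdeal p n H h := by
  induction h with
  | zero => omega
  | succ h ih =>
    simp only [heightIdeal]
    rcases Nat.lt_succ_iff_lt_or_eq.mp hj with h1 | rfl
    · exact Ideal.mem_sup_left (ih h1)
    · exact Ideal.mem_sup_right (Ideal.subset_span rfl)

theorem heightIdeal_iso (F G : FormalGroup (LTRing p n)) [F.IsComm] [G.IsComm]
    {φ : PowerSeries (LTRing p n)} (hφ : IsFGHom F G φ) (hu : IsUnit (PowerSeries.coeff 1 φ))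
    (h : ℕ) : heightIdeal p n F h = heightIdeal p n G h := by
  induction h with
  | zero => rfl
  | succ h ih =>
    rcases Nat.eq_zero_or_pos h with rfl | hpos
    · simp only [heightIdeal]
      rw [pow_zero, coeff_one_mulSeries, coeff_one_mulSeries]
    · by_cases htop : heightIdeal p n F h = ⊤
      · simp only [heightIdeal]
        rw [← ih, htop, top_sup_eq, top_sup_eq]
      · let I := heightIdeal p n F h
        let R := LTRing p n ⧸ I
        let π : LTRing p n →+* R := Ideal.Quotient.mk I
        have : Nontrivial R := Ideal.Quotient.nontrivial_iff.mpr htop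
        have hpR : (p : R) = 0 := by
          have h1 : (p : LTRing p n) ∈ I := by
            have := coeff_mem_heightIdeal n F hpos
            rwa [pow_zero, coeff_one_mulSeries] at this
          have h2 : π (p : LTRing p n) = 0 := Ideal.Quotient.eq_zero_iff_mem.mpr h1
          rwa [map_natCast] at h2
        have : CharP R p := (CharP.charP_iff_prime_eq_zero Fact.out).mpr hpR
        have : (F.map π).IsComm := LT.map_isComm F π
        have : (G.map π).IsComm := LT.map_isComm G π
        have hFlow : ∀ i < p ^ h, PowerSeries.coeff i (mulSeries (F.map π) p) = 0 := by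
          apply coeff_lt_eq_zero h (IsFGHom.mulSeries (F.map π) p)
          intro j hj
          rw [← mulSeries_map, PowerSeries.coeff_map]
          exact Ideal.Quotient.eq_zero_iff_mem.mpr (coeff_mem_heightIdeal n F hj)
        have hGlow : ∀ i < p ^ h, PowerSeries.coeff i (mulSeries (G.map π) p) = 0 := by
          apply coeff_lt_eq_zero h (IsFGHom.mulSeries (G.map π) p)
          intro j hj
          rw [← mulSeries_map, PowerSeries.coeff_map]
          apply Ideal.Quotient.eq_zero_iff_mem.mpr
          simp only [I]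
          rw [ih]
          exact coeff_mem_heightIdeal n G hj
        have key := leading_coeff_comm (p ^ h) (IsFGHom.map π hφ).1
          (constantCoeff_mulSeries (F.map π) p)
          (IsFGHom.comm_mulSeries (IsFGHom.map π hφ) p) hFlow hGlow
        rw [← mulSeries_map, ← mulSeries_map, PowerSeries.coeff_map, PowerSeries.coeff_map,
          PowerSeries.coeff_map, ← map_mul, ← map_pow, ← map_mul, Ideal.Quotient.eq] at key
        obtain ⟨c, hc⟩ := hu.exists_left_inv
        simp only [heightIdeal]
        rw [← ih]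
        apply le_antisymm
        · apply sup_le le_sup_left
          rw [Ideal.span_singleton_le_iff_mem]
          have e : PowerSeries.coeff (p ^ h) (mulSeries F p) =
              c * (PowerSeries.coeff 1 φ * PowerSeries.coeff (p ^ h) (mulSeries F p) -
                PowerSeries.coeff 1 φ ^ p ^ h * PowerSeries.coeff (p ^ h) (mulSeries G p)) +
              (c * PowerSeries.coeff 1 φ ^ p ^ h) * PowerSeries.coeff (p ^ h) (mulSeries G p) := by
            linear_combination (-PowerSeries.coeff (p ^ h) (mulSeries F p)) * hc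
          rw [e]
          exact Ideal.add_mem _ (Ideal.mem_sup_left (Ideal.mul_mem_left _ _ key))
            (Ideal.mem_sup_right (Ideal.mul_mem_left _ _ (Ideal.subset_span rfl)))
        · apply sup_le le_sup_left
          rw [Ideal.span_singleton_le_iff_mem]
          have hc' : c ^ p ^ h * PowerSeries.coeff 1 φ ^ p ^ h = 1 := by
            rw [← mul_pow, hc, one_pow]
          have e : PowerSeries.coeff (p ^ h) (mulSeries G p) =
              -(c ^ p ^ h) * (PowerSeries.coeff 1 φ * PowerSeries.coeff (p ^ h) (mulSeries F p) -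
                PowerSeries.coeff 1 φ ^ p ^ h * PowerSeries.coeff (p ^ h) (mulSeries G p)) +
              (c ^ p ^ h * PowerSeries.coeff 1 φ) * PowerSeries.coeff (p ^ h) (mulSeries F p) := by
            linear_combination (-PowerSeries.coeff (p ^ h) (mulSeries G p)) * hc'
          rw [e]
          exact Ideal.add_mem _ (Ideal.mem_sup_left (Ideal.mul_mem_left _ _ key))
            (Ideal.mem_sup_right (Ideal.mul_mem_left _ _ (Ideal.subset_span rfl)))

end Crest.Agent.R227
end
end

-- ▼ part R227/TrAux
section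

/-!
# R227 / TrAux : universality and transport of stable ideals (part of task TRANSFER)
-/

set_option autoImplicit false

noncomputable section

namespace Crest.Agent.R227

open Crest.LubinTate MvPowerSeries

namespace LT

/-! ### one variable substitution bookkeeping -/

section ps

variable {R S : Type*} [CommRing R] [CommRing S]

theorem ps_assoc (a b c : PowerSeries R) (ha : PowerSeries.constantCoeff a = 0)
    (hb : PowerSeries.constantCoeff b = 0) :
    (PowerSeries.subst (PowerSeries.subst a b : PowerSeries R) c : PowerSeries R) =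
      PowerSeries.subst a (PowerSeries.subst b c : PowerSeries R) :=
  ps_subst_subst (a : MvPowerSeries Unit R) ha b hb c

theorem ps_X_subst (a : PowerSeries R) (ha : PowerSeries.constantCoeff a = 0) :
    (PowerSeries.subst a (PowerSeries.X : PowerSeries R) : PowerSeries R) = a :=
  PowerSeries.subst_X (PowerSeries.HasSubst.of_constantCoeff_zero' ha)

theorem ps_constantCoeff_subst (a b : PowerSeries R) (ha : PowerSeries.constantCoeff a = 0)
    (hb : PowerSeries.constantCoeff b = 0) :
    PowerSeries.constantCoeff (PowerSeries.subst a b : PowerSeries R) = 0 :=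
  PowerSeries.constantCoeff_subst_eq_zero (a := (a : MvPowerSeries Unit R)) ha b hb

theorem ps_map_subst (r : R →+* S) (a b : PowerSeries R) (ha : PowerSeries.constantCoeff a = 0) :
    PowerSeries.map r (PowerSeries.subst a b : PowerSeries R) =
      PowerSeries.subst (PowerSeries.map r a) (PowerSeries.map r b) :=
  PowerSeries.map_subst (PowerSeries.HasSubst.of_constantCoeff_zero' ha) b

theorem ps_map_map {T : Type*} [CommRing T] (f : R →+* S) (g : S →+* T) (a : PowerSeries R) :
    PowerSeries.map g (PowerSeries.map f a) = PowerSeries.map (g.comp f) a := by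
  ext i
  simp

theorem ps_coeff_one_subst (a b : PowerSeries R) (ha : PowerSeries.constantCoeff a = 0)
    (hb : PowerSeries.constantCoeff b = 0) :
    PowerSeries.coeff 1 (PowerSeries.subst a b : PowerSeries R) =
      PowerSeries.coeff 1 b * PowerSeries.coeff 1 a := by
  have h1 := coeff_diff_left b a 0 ha (by simp) 1 (fun i hi => by
    have : i = 0 := by omega
    rw [this, PowerSeries.coeff_zero_eq_constantCoeff_apply, ha]; simp)
  have e1 : (PowerSeries.subst (0 : PowerSeries R) b : PowerSeries R) = 0 :=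
    PowerSeries.subst_zero_of_constantCoeff_zero hb
  rw [e1] at h1
  simpa using h1

/-- if `mu ∘ lam = X` and `a ∘ mu = X` then `a = lam` -/
theorem eq_of_leftInv {mu lam a : PowerSeries R} (hmu : PowerSeries.constantCoeff mu = 0)
    (hlam : PowerSeries.constantCoeff lam = 0)
    (h1 : (PowerSeries.subst lam mu : PowerSeries R) = PowerSeries.X)
    (h2 : (PowerSeries.subst mu a : PowerSeries R) = PowerSeries.X) : a = lam := by
  have h3 := ps_assoc lam mu a hlam hmu
  rw [h1, h2, ps_X_subst lam hlam, PowerSeries.X_subst] at h3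
  exact h3

/-- congruences mod `X^M` -/
theorem dvd_subst_sub (M : ℕ) (g a b : PowerSeries R) (ha : PowerSeries.constantCoeff a = 0)
    (hb : PowerSeries.constantCoeff b = 0) (h : (PowerSeries.X : PowerSeries R) ^ M ∣ a - b) :
    (PowerSeries.X : PowerSeries R) ^ M ∣
      (PowerSeries.subst a g : PowerSeries R) - PowerSeries.subst b g := by
  obtain ⟨u, _, hgu⟩ := subst_sub_subst g (a : MvPowerSeries Unit R) b ha hb
  obtain ⟨w, hw⟩ := h
  refine ⟨w * u, ?_⟩
  refine hgu.trans ?_
  have : (a - b : MvPowerSeries Unit R) = (PowerSeries.X : PowerSeries R) ^ M * w := hw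
  rw [this]
  exact mul_assoc _ _ _

theorem dvd_subst (M : ℕ) (a f : PowerSeries R) (ha : PowerSeries.constantCoeff a = 0)
    (h : (PowerSeries.X : PowerSeries R) ^ M ∣ f) :
    (PowerSeries.X : PowerSeries R) ^ M ∣ (PowerSeries.subst a f : PowerSeries R) := by
  have hs : PowerSeries.HasSubst a := PowerSeries.HasSubst.of_constantCoeff_zero' ha
  obtain ⟨w, rfl⟩ := h
  obtain ⟨v, hv⟩ : (PowerSeries.X : PowerSeries R) ∣ a := by rwa [PowerSeries.X_dvd_iff]
  refine ⟨v ^ M * PowerSeries.subst a w, ?_⟩
  rw [PowerSeries.subst_mul hs, PowerSeries.subst_pow hs, PowerSeries.subst_X hs]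
  have : (a : PowerSeries R) ^ M * PowerSeries.subst a w = PowerSeries.X ^ M *
      (v ^ M * PowerSeries.subst a w) := by
    nth_rewrite 1 [hv]
    rw [mul_pow, mul_assoc]
  exact this

theorem congr_X_iff (M : ℕ) (g : PowerSeries R) :
    (∀ i : ℕ, i < M → PowerSeries.coeff i g = PowerSeries.coeff i PowerSeries.X) ↔
      (PowerSeries.X : PowerSeries R) ^ M ∣ g - PowerSeries.X := by
  rw [PowerSeries.X_pow_dvd_iff]
  refine forall₂_congr fun i _ => ?_
  rw [map_sub, sub_eq_zero]

/-- conjugation preserves congruence to `X` -/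
theorem conj_congr_X (M : ℕ) (mu lam g : PowerSeries R) (hmu : PowerSeries.constantCoeff mu = 0)
    (hlam : PowerSeries.constantCoeff lam = 0) (hg : PowerSeries.constantCoeff g = 0)
    (h1 : (PowerSeries.subst lam mu : PowerSeries R) = PowerSeries.X)
    (h : ∀ i : ℕ, i < M → PowerSeries.coeff i g = PowerSeries.coeff i PowerSeries.X) :
    ∀ i : ℕ, i < M → PowerSeries.coeff i
      (PowerSeries.subst (PowerSeries.subst lam g : PowerSeries R) mu : PowerSeries R) =
        PowerSeries.coeff i PowerSeries.X := by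
  rw [congr_X_iff] at h ⊢
  have hs : PowerSeries.HasSubst lam := PowerSeries.HasSubst.of_constantCoeff_zero' hlam
  have h2 := dvd_subst M lam _ hlam h
  rw [PowerSeries.subst_sub hs] at h2
  have h2' : (PowerSeries.X : PowerSeries R) ^ M ∣
      (PowerSeries.subst lam g : PowerSeries R) - lam := by
    have e := ps_X_subst lam hlam
    rw [e] at h2
    exact h2
  have h3 := dvd_subst_sub M mu _ _ (ps_constantCoeff_subst lam g hlam hg) hlam h2'
  rwa [h1] at h3

end ps

/-! ### lifting series -/

theorem isUnit_of_residue {B k : Type*} [CommRing B] [IsLocalRing B] [Field k] (r : B →+* k)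
    (hker : RingHom.ker r = IsLocalRing.maximalIdeal B) (b : B) (h : r b ≠ 0) : IsUnit b := by
  by_contra hb
  apply h
  have : b ∈ IsLocalRing.maximalIdeal B := hb
  rw [← hker] at this
  exact this

theorem exists_lift {B k : Type*} [CommRing B] [IsLocalRing B] [Field k] (r : B →+* k)
    (hr : Function.Surjective r) (hker : RingHom.ker r = IsLocalRing.maximalIdeal B)
    (φ : PowerSeries k) (h0 : PowerSeries.constantCoeff φ = 0)
    (hu : IsUnit (PowerSeries.coeff 1 φ)) :
    ∃ ψ : PowerSeries B, PowerSeries.constantCoeff ψ = 0 ∧ IsUnit (PowerSeries.coeff 1 ψ) ∧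
      PowerSeries.map r ψ = φ := by
  classical
  let s : k → B := Function.surjInv hr
  have hs : ∀ x, r (s x) = x := Function.surjInv_eq hr
  refine ⟨PowerSeries.mk (fun i => if i = 0 then 0 else s (PowerSeries.coeff i φ)), ?_, ?_, ?_⟩
  · rw [← PowerSeries.coeff_zero_eq_constantCoeff_apply, PowerSeries.coeff_mk, if_pos rfl]
  · apply isUnit_of_residue r hker
    rw [PowerSeries.coeff_mk, if_neg one_ne_zero, hs]
    exact hu.ne_zero
  · ext i
    rw [PowerSeries.coeff_map, PowerSeries.coeff_mk]
    split_ifs with h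
    · rw [h, map_zero, PowerSeries.coeff_zero_eq_constantCoeff_apply, h0]
    · exact hs _

/-- lift of an isomorphism `Γ₁ → Γ₂` with prescribed lift of the source -/
theorem exists_lift_iso {B k : Type*} [CommRing B] [IsLocalRing B] [Field k] (r : B →+* k)
    (hr : Function.Surjective r) (hker : RingHom.ker r = IsLocalRing.maximalIdeal B)
    {F1 F2 : FormalGroup k} {mu : PowerSeries k} (hmu : IsFGHom F1 F2 mu)
    (hu : IsUnit (PowerSeries.coeff 1 mu)) (G : FormalGroup B) (hG : G.map r = F1) :
    ∃ (G' : FormalGroup B) (ψ : PowerSeries B), IsFGHom G G' ψ ∧ G'.map r = F2 ∧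
      IsUnit (PowerSeries.coeff 1 ψ) ∧ PowerSeries.map r ψ = mu := by
  obtain ⟨ψ, h0, h1, h2⟩ := exists_lift r hr hker mu hmu.1 hu
  obtain ⟨G', hG'⟩ := exists_conj G ψ h0 h1
  refine ⟨G', ψ, hG', ?_, h1, h2⟩
  have h3 := IsFGHom.map r hG'
  rw [hG, h2] at h3
  exact IsFGHom.target_unique h3 hmu hu

/-- the inverse of a lift reduces to the inverse -/
theorem map_inv {R S : Type*} [CommRing R] [CommRing S] (r : R →+* S)
    {a b : PowerSeries R} {lam mu : PowerSeries S} (ha : PowerSeries.constantCoeff a = 0)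
    (hlam : PowerSeries.constantCoeff lam = 0) (hmu : PowerSeries.constantCoeff mu = 0)
    (hba : (PowerSeries.subst a b : PowerSeries R) = PowerSeries.X)
    (h1 : (PowerSeries.subst lam mu : PowerSeries S) = PowerSeries.X)
    (ham : PowerSeries.map r a = mu) : PowerSeries.map r b = lam := by
  apply eq_of_leftInv hmu hlam h1
  have := congrArg (PowerSeries.map r) hba
  rw [ps_map_subst r a b ha, ham, PowerSeries.map_X] at this
  exact this

end LT

end Crest.Agent.R227
end
end

-- ▼ part R227/Transfer

/-!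
# R227 / Transfer (task TRANSFER)
-/

set_option autoImplicit false

noncomputable section

namespace Crest.Agent.R227

open Crest.LubinTate MvPowerSeries Topology

variable (p : ℕ) [Fact p.Prime] (n : ℕ)

/-! ### Task TRANSFER -/

/-- the comparison map `ω : E₀ → E₀` and the isomorphism `Λ : ω_* H → H1` -/
theorem exists_omega (Γ : FormalGroup (GaloisField p n))
    (H : FormalGroup (LTRing p n)) (hH : IsUniversalDeformation p n Γ H)
    {lam mu : PowerSeries (GaloisField p n)} (hlam : IsFGHom Γ (Fn p n) lam)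
    (hmu : IsFGHom (Fn p n) Γ mu) (hu : IsUnit (PowerSeries.coeff 1 mu))
    (h1 : (PowerSeries.subst lam mu : PowerSeries (GaloisField p n)) = PowerSeries.X) :
    ∃ (ω : LTRing p n →ₐ[WittVector p (GaloisField p n)] LTRing p n)
      (Λ : PowerSeries (LTRing p n)),
      (LTRing.residue p n).comp ω.toRingHom = LTRing.residue p n ∧
      IsFGHom (H.map ω.toRingHom) (H1 p n) Λ ∧
      PowerSeries.map (LTRing.residue p n) Λ = lam := by
  obtain ⟨H1', μ, hμ, hred, hμu, hμr⟩ := LT.exists_lift_iso (LTRing.residue p n)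
    (residue_surjective p n) (ker_residue p n) hmu hu (H1 p n) (hz_residue p n)
  obtain ⟨ω, ⟨hω, θ, hθ, hθX⟩, _⟩ := hH.2 (LTRing p n) inferInstance (LTRing.residue p n)
    (residue_surjective p n) (ker_residue p n) (residue_comp_algebraMap p n) H1' hred
  obtain ⟨ν, hν, hν1, hν2, hνu⟩ := IsFGHom.exists_inv hμ hμu
  have hνr : PowerSeries.map (LTRing.residue p n) ν = lam :=
    LT.map_inv (LTRing.residue p n) hμ.1 hlam.1 hmu.1 hν1 h1 hμr
  refine ⟨ω, PowerSeries.subst θ ν, hω, IsFGHom.comp hθ hν, ?_⟩
  rw [LT.ps_map_subst _ θ ν hθ.1, hθX, hνr, PowerSeries.X_subst]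

/-- `ω` is bijective -/
theorem omega_bijective (hn : 1 ≤ n) (H : FormalGroup (LTRing p n)) [H.IsComm]
    (ω : LTRing p n →ₐ[WittVector p (GaloisField p n)] LTRing p n)
    {Λ : PowerSeries (LTRing p n)}
    (hω : (LTRing.residue p n).comp ω.toRingHom = LTRing.residue p n)
    (hΛ : IsFGHom (H.map ω.toRingHom) (H1 p n) Λ) (hu : IsUnit (PowerSeries.coeff 1 Λ)) :
    Function.Bijective ω.toRingHom := by
  have : (H.map ω.toRingHom).IsComm := LT.map_isComm H _
  have h1 : heightIdeal p n (H.map ω.toRingHom) n = IsLocalRing.maximalIdeal (LTRing p n) := by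
    rw [heightIdeal_iso n _ _ hΛ hu, heightIdeal_H1 p n hn n le_rfl, II_n_eq_max p n hn]
  rw [heightIdeal_map] at h1
  have h2 : heightIdeal p n H n ≤ IsLocalRing.maximalIdeal (LTRing p n) := by
    apply IsLocalRing.le_maximalIdeal
    intro h
    rw [h, Ideal.map_top] at h1
    exact (IsLocalRing.maximalIdeal.isMaximal (LTRing p n)).ne_top h1.symm
  have hmap : (IsLocalRing.maximalIdeal (LTRing p n)).map ω.toRingHom =
      IsLocalRing.maximalIdeal (LTRing p n) := by
    apply le_antisymm
    · rw [Ideal.map_le_iff_le_comap]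
      intro x hx
      rw [← ker_residue, RingHom.mem_ker] at hx
      rw [Ideal.mem_comap, ← ker_residue, RingHom.mem_ker, ← RingHom.comp_apply, hω, hx]
    · rw [← h1]
      exact Ideal.map_mono (h1 ▸ h2)
  have hsurj : Function.Surjective ω.toRingHom := by
    have : IsHausdorff (Ideal.map ω.toRingHom (IsLocalRing.maximalIdeal (LTRing p n)))
        (LTRing p n) := by
      rw [hmap]; infer_instance
    apply surjective_of_mk_map_comp_surjective (I := IsLocalRing.maximalIdeal (LTRing p n))
    intro y
    obtain ⟨y, rfl⟩ := Ideal.Quotient.mk_surjective y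
    refine ⟨algebraMap (WittVector p (GaloisField p n)) (LTRing p n)
      (MvPowerSeries.constantCoeff y), ?_⟩
    rw [RingHom.comp_apply, Ideal.Quotient.eq, hmap, ← ker_residue, RingHom.mem_ker, map_sub]
    have : ω.toRingHom (algebraMap (WittVector p (GaloisField p n)) (LTRing p n)
      (MvPowerSeries.constantCoeff y)) = algebraMap _ _ (MvPowerSeries.constantCoeff y) :=
        ω.commutes _
    rw [this]
    simp [LTRing.residue, MvPowerSeries.algebraMap_apply]
  exact ⟨injective_of_surjective_noeth _ hsurj, hsurj⟩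

/-- transport of stability -/
theorem stable_transfer (F1 F2 : FormalGroup (GaloisField p n))
    (L1 L2 : FormalGroup (LTRing p n))
    (a b : LTRing p n →ₐ[WittVector p (GaloisField p n)] LTRing p n)
    (hab : a.comp b = AlgHom.id _ _) (hba : b.comp a = AlgHom.id _ _)
    (ha : (LTRing.residue p n).comp a.toRingHom = LTRing.residue p n)
    {Λ : PowerSeries (LTRing p n)} (hΛ : IsFGHom (L1.map a.toRingHom) L2 Λ)
    (hu : IsUnit (PowerSeries.coeff 1 Λ)) {lam mu : PowerSeries (GaloisField p n)}
    (hΛr : PowerSeries.map (LTRing.residue p n) Λ = lam)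
    (hlam : IsFGHom F1 F2 lam) (hmu : IsFGHom F2 F1 mu)
    (h1 : (PowerSeries.subst lam mu : PowerSeries (GaloisField p n)) = PowerSeries.X)
    (h2 : (PowerSeries.subst mu lam : PowerSeries (GaloisField p n)) = PowerSeries.X)
    (M : ℕ) (J : Ideal (LTRing p n)) (hJ : IsStableIdeal p n F1 L1 M J) :
    IsStableIdeal p n F2 L2 M (J.comap b.toRingHom) := by
  have hb : (LTRing.residue p n).comp b.toRingHom = LTRing.residue p n := by
    ext x
    have e1 : a (b x) = x := by
      have := DFunLike.congr_fun hab x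
      simpa using this
    have e2 := DFunLike.congr_fun ha (b x)
    rw [RingHom.comp_apply] at e2 ⊢
    exact e2.symm.trans (congrArg _ e1)
  have hlu : PowerSeries.coeff 1 lam * PowerSeries.coeff 1 mu = 1 := by
    rw [← LT.ps_coeff_one_subst mu lam hmu.1 hlam.1, h2, PowerSeries.coeff_one_X]
  intro g2 φ2 hg2 hgM hφ2
  obtain ⟨hφ2r, θ2, hθ2, hθ2r⟩ := hφ2
  have hg20 : PowerSeries.constantCoeff g2 = 0 := hg2.1.1
  obtain ⟨N, hN, hN1, hN2, hNu⟩ := IsFGHom.exists_inv hΛ hu
  have hNr : PowerSeries.map (LTRing.residue p n) N = mu :=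
    LT.map_inv (LTRing.residue p n) hΛ.1 hmu.1 hlam.1 hN1 h2 hΛr
  -- the composite `(L1.map a).map φ2 → L2.map φ2 → L2 → L1.map a`
  have hΛφ := IsFGHom.map φ2.toRingHom hΛ
  have hθ' := IsFGHom.comp (IsFGHom.comp hΛφ hθ2) hN
  have hθ1 := IsFGHom.map b.toRingHom hθ'
  have eL : (L1.map a.toRingHom).map b.toRingHom = L1 := by
    rw [LT.map_map]
    have : b.toRingHom.comp a.toRingHom = RingHom.id _ :=
      RingHom.ext fun x => DFunLike.congr_fun hba x
    rw [this, LT.map_id]
  have eS : ((L1.map a.toRingHom).map φ2.toRingHom).map b.toRingHom =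
      L1.map (b.comp (φ2.comp a)).toRingHom := by
    rw [LT.map_map, LT.map_map]
    rfl
  rw [eL, eS] at hθ1
  have hφ1r : (LTRing.residue p n).comp (b.comp (φ2.comp a)).toRingHom = LTRing.residue p n := by
    ext x
    have e1 := DFunLike.congr_fun hb (φ2 (a x))
    have e2 := DFunLike.congr_fun hφ2r (a x)
    have e3 := DFunLike.congr_fun ha x
    exact e1.trans (e2.trans e3)
  have hstab : IsStabilizerMap p n L1
      (PowerSeries.subst (PowerSeries.subst lam g2 : PowerSeries (GaloisField p n)) mu)
      (b.comp (φ2.comp a)) := by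
    refine ⟨hφ1r, _, hθ1, ?_⟩
    rw [LT.ps_map_map, hb, LT.ps_map_subst _ _ N (IsFGHom.comp hΛφ hθ2).1, hNr,
      LT.ps_map_subst _ _ θ2 hΛφ.1, hθ2r, LT.ps_map_map, hφ2r, hΛr]
  have hcomp : IsFGHom F1 F1
      (PowerSeries.subst (PowerSeries.subst lam g2 : PowerSeries (GaloisField p n)) mu) :=
    IsFGHom.comp (IsFGHom.comp hlam hg2.1) hmu
  have haut : IsFGAut F1
      (PowerSeries.subst (PowerSeries.subst lam g2 : PowerSeries (GaloisField p n)) mu) := by
    refine ⟨hcomp, ?_⟩
    rw [LT.ps_coeff_one_subst _ mu (LT.ps_constantCoeff_subst lam g2 hlam.1 hg20) hmu.1,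
      LT.ps_coeff_one_subst lam g2 hlam.1 hg20]
    have : PowerSeries.coeff 1 mu * (PowerSeries.coeff 1 g2 * PowerSeries.coeff 1 lam) =
        PowerSeries.coeff 1 g2 := by
      linear_combination (PowerSeries.coeff 1 g2) * hlu
    rw [this]
    exact hg2.2
  have hcongr := LT.conj_congr_X M mu lam g2 hmu.1 hlam.1 hg20 h1 hgM
  have key := hJ _ _ haut hcongr hstab
  rw [Ideal.comap_comap]
  have e : b.toRingHom.comp φ2.toRingHom =
      (b.comp (φ2.comp a)).toRingHom.comp b.toRingHom := by
    refine RingHom.ext fun x => ?_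
    have e1 : a (b x) = x := DFunLike.congr_fun hab x
    change b (φ2 x) = b (φ2 (a (b x)))
    rw [e1]
  rw [e, ← Ideal.comap_comap, key]

/-- `H1` is a universal deformation of `Fn` -/
theorem universal_H1 (Γ : FormalGroup (GaloisField p n))
    (H : FormalGroup (LTRing p n)) (hH : IsUniversalDeformation p n Γ H)
    {lam mu : PowerSeries (GaloisField p n)} (hlam : IsFGHom Γ (Fn p n) lam)
    (hmu : IsFGHom (Fn p n) Γ mu)
    (h1 : (PowerSeries.subst lam mu : PowerSeries (GaloisField p n)) = PowerSeries.X)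
    (h2 : (PowerSeries.subst mu lam : PowerSeries (GaloisField p n)) = PowerSeries.X)
    (a b : LTRing p n →ₐ[WittVector p (GaloisField p n)] LTRing p n)
    (hab : a.comp b = AlgHom.id _ _) (hba : b.comp a = AlgHom.id _ _)
    (ha : (LTRing.residue p n).comp a.toRingHom = LTRing.residue p n)
    {Λ : PowerSeries (LTRing p n)} (hΛ : IsFGHom (H.map a.toRingHom) (H1 p n) Λ)
    (hu : IsUnit (PowerSeries.coeff 1 Λ))
    (hΛr : PowerSeries.map (LTRing.residue p n) Λ = lam) :
    IsUniversalDeformation p n (Fn p n) (H1 p n) := by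
  refine ⟨hz_residue p n, ?_⟩
  intro B _ _ _ _ hcomplete r hr hker hrW G hG
  have hlu : PowerSeries.coeff 1 lam * PowerSeries.coeff 1 mu = 1 := by
    rw [← LT.ps_coeff_one_subst mu lam hmu.1 hlam.1, h2, PowerSeries.coeff_one_X]
  have hmuu : IsUnit (PowerSeries.coeff 1 mu) :=
    IsUnit.of_mul_eq_one _ (by rw [mul_comm]; exact hlu)
  obtain ⟨G', μ, hμ, hG', hμu, hμr⟩ := LT.exists_lift_iso r hr hker hmu hmuu G hG
  obtain ⟨ν, hν, hν1, hν2, hνu⟩ := IsFGHom.exists_inv hμ hμu
  have hνr : PowerSeries.map r ν = lam :=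
    LT.map_inv r hμ.1 hlam.1 hmu.1 hν1 h1 hμr
  obtain ⟨φ, ⟨hφr, θ, hθ, hθX⟩, huniq⟩ := hH.2 B hcomplete r hr hker hrW G' hG'
  have hb : (LTRing.residue p n).comp b.toRingHom = LTRing.residue p n := by
    ext x
    have e1 : a (b x) = x := by
      have := DFunLike.congr_fun hab x
      simpa using this
    have e2 := DFunLike.congr_fun ha (b x)
    rw [RingHom.comp_apply] at e2 ⊢
    exact e2.symm.trans (congrArg _ e1)
  refine ⟨φ.comp b, ⟨?_, ?_⟩, ?_⟩
  · ext x
    exact (DFunLike.congr_fun hφr (b x)).trans (DFunLike.congr_fun hb x)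
  · -- `H1.map (φ b) → H.map φ → G' → G`
    have hψr : r.comp (φ.comp b).toRingHom = LTRing.residue p n := by
      ext x
      exact (DFunLike.congr_fun hφr (b x)).trans (DFunLike.congr_fun hb x)
    have e1 : (H.map a.toRingHom).map (φ.comp b).toRingHom = H.map φ.toRingHom := by
      rw [LT.map_map]
      congr 1
      ext x
      have := DFunLike.congr_fun hba x
      change φ (b (a x)) = φ x
      have e1 : b (a x) = x := by simpa using this
      rw [e1]
    have hΛψ := IsFGHom.map (φ.comp b).toRingHom hΛ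
    rw [e1] at hΛψ
    have hΛψu : IsUnit (PowerSeries.coeff 1 (PowerSeries.map (φ.comp b).toRingHom Λ)) := by
      rw [PowerSeries.coeff_map]
      exact hu.map _
    obtain ⟨N, hN, hN1, hN2, hNu⟩ := IsFGHom.exists_inv hΛψ hΛψu
    have hNr : PowerSeries.map r N = mu := by
      apply LT.map_inv r hΛψ.1 hmu.1 hlam.1 hN1 h2
      rw [LT.ps_map_map, hψr, hΛr]
    refine ⟨_, IsFGHom.comp (IsFGHom.comp hN hθ) hν, ?_⟩
    rw [LT.ps_map_subst _ _ ν (IsFGHom.comp hN hθ).1, hνr, LT.ps_map_subst _ _ θ hN.1, hNr, hθX,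
      LT.ps_X_subst mu hmu.1, h2]
  · rintro ψ ⟨hψr, θ', hθ', hθ'X⟩
    have hφ' : ψ.comp a = φ := by
      apply huniq
      refine ⟨?_, ?_⟩
      · ext x
        exact (DFunLike.congr_fun hψr (a x)).trans (DFunLike.congr_fun ha x)
      · have hΛψ := IsFGHom.map ψ.toRingHom hΛ
        have e1 : (H.map a.toRingHom).map ψ.toRingHom = H.map (ψ.comp a).toRingHom := by
          rw [LT.map_map]; rfl
        rw [e1] at hΛψ
        refine ⟨_, IsFGHom.comp (IsFGHom.comp hΛψ hθ') hμ, ?_⟩
        rw [LT.ps_map_subst _ _ μ (IsFGHom.comp hΛψ hθ').1, hμr, LT.ps_map_subst _ _ θ' hΛψ.1,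
          hθ'X, LT.ps_map_map, hψr, hΛr, LT.ps_X_subst lam hlam.1, h1]
    rw [← hφ']
    ext x
    have := DFunLike.congr_fun hab x
    change ψ x = ψ (a (b x))
    have e1 : a (b x) = x := by simpa using this
    rw [e1]

/-- Reduction of the theorem to the standard pair `(Fn, H1)`. -/
theorem transfer (hn : 1 ≤ n) (Γ : FormalGroup (GaloisField p n)) [Γ.IsComm]
    (hΓ : mulSeries Γ p = PowerSeries.X ^ (p ^ n))
    (H : FormalGroup (LTRing p n)) [H.IsComm] (hH : IsUniversalDeformation p n Γ H)
    (hstd : IsUniversalDeformation p n (Fn p n) (H1 p n) →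
      ∀ M : ℕ, 1 ≤ M → Concl p n (Fn p n) (H1 p n) M)
    (M : ℕ) (hM : 1 ≤ M) : Concl p n Γ H M := by
  obtain ⟨lam, hlam, hlam1⟩ := exists_lam p n hn Γ hΓ H hH.1
  obtain ⟨mu, hmu, h1, h2, hmuu⟩ := IsFGHom.exists_inv hlam (by rw [hlam1]; exact isUnit_one)
  obtain ⟨ω, Λ, hω, hΛ, hΛr⟩ := exists_omega p n Γ H hH hlam hmu hmuu h1
  have hu : IsUnit (PowerSeries.coeff 1 Λ) := by
    apply LT.isUnit_of_residue (LTRing.residue p n) (ker_residue p n)
    rw [← PowerSeries.coeff_map, hΛr, hlam1]
    exact one_ne_zero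
  have hbij := omega_bijective p n hn H ω hω hΛ hu
  let e : LTRing p n ≃ₐ[WittVector p (GaloisField p n)] LTRing p n := AlgEquiv.ofBijective ω hbij
  let b : LTRing p n →ₐ[WittVector p (GaloisField p n)] LTRing p n := e.symm.toAlgHom
  have hab : ω.comp b = AlgHom.id _ _ := AlgHom.ext fun x => e.apply_symm_apply x
  have hba : b.comp ω = AlgHom.id _ _ := AlgHom.ext fun x => e.symm_apply_apply x
  have hU := universal_H1 p n Γ H hH hlam hmu h1 h2 ω b hab hba hω hΛ hu hΛr
  obtain ⟨hC1, hC2⟩ := hstd hU M hM
  have : (H.map ω.toRingHom).IsComm := LT.map_isComm H _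
  -- the transport of ideals
  have hab' : ω.toRingHom.comp b.toRingHom = RingHom.id _ :=
    RingHom.ext fun x => DFunLike.congr_fun hab x
  have hba' : b.toRingHom.comp ω.toRingHom = RingHom.id _ :=
    RingHom.ext fun x => DFunLike.congr_fun hba x
  have hb : (LTRing.residue p n).comp b.toRingHom = LTRing.residue p n := by
    have e1 := congrArg (fun f => f.comp b.toRingHom) hω
    simp only [RingHom.comp_assoc] at e1
    rw [hab', RingHom.comp_id] at e1
    exact e1.symm
  have hTT : ∀ J : Ideal (LTRing p n), (J.comap b.toRingHom).comap ω.toRingHom = J := by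
    intro J
    rw [Ideal.comap_comap, hba', Ideal.comap_id]
  have hTT' : ∀ J : Ideal (LTRing p n), (J.comap ω.toRingHom).comap b.toRingHom = J := by
    intro J
    rw [Ideal.comap_comap, hab', Ideal.comap_id]
  have hht : ∀ h : ℕ, (heightIdeal p n H h).comap b.toRingHom = heightIdeal p n (H1 p n) h := by
    intro h
    rw [← heightIdeal_iso n _ _ hΛ hu, heightIdeal_map]
    apply le_antisymm
    · intro x hx
      rw [Ideal.mem_comap] at hx
      have := Ideal.mem_map_of_mem ω.toRingHom hx
      rwa [← RingHom.comp_apply, hab', RingHom.id_apply] at this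
    · rw [Ideal.map_le_iff_le_comap, hTT]
  have hst : ∀ J : Ideal (LTRing p n), IsStableIdeal p n Γ H M J ↔
      IsStableIdeal p n (Fn p n) (H1 p n) M (J.comap b.toRingHom) := by
    intro J
    constructor
    · intro hJ
      exact stable_transfer p n Γ (Fn p n) H (H1 p n) ω b hab hba hω hΛ hu hΛr hlam hmu h1 h2 M J hJ
    · intro hJ
      -- inverse data
      obtain ⟨N, hN, hN1, hN2, hNu⟩ := IsFGHom.exists_inv hΛ hu
      have hNr : PowerSeries.map (LTRing.residue p n) N = mu :=
        LT.map_inv (LTRing.residue p n) hΛ.1 hmu.1 hlam.1 hN1 h2 hΛr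
      have hNb := IsFGHom.map b.toRingHom hN
      rw [LT.map_map, hba', LT.map_id] at hNb
      have hNbr : PowerSeries.map (LTRing.residue p n) (PowerSeries.map b.toRingHom N) = mu := by
        rw [LT.ps_map_map, hb, hNr]
      have hNbu : IsUnit (PowerSeries.coeff 1 (PowerSeries.map b.toRingHom N)) := by
        rw [PowerSeries.coeff_map]
        exact hNu.map _
      have := stable_transfer p n (Fn p n) Γ (H1 p n) H b ω hba hab hb hNb hNbu hNbr hmu hlam
        h2 h1 M _ hJ
      rwa [hTT] at this
  have hprime : ∀ J : Ideal (LTRing p n), J.IsPrime ↔ (J.comap b.toRingHom).IsPrime := by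
    intro J
    constructor
    · intro hJ
      exact Ideal.comap_isPrime _ _
    · intro hJ
      rw [← hTT J]
      exact Ideal.comap_isPrime _ _
  have hrad : ∀ J : Ideal (LTRing p n), J.IsRadical ↔ (J.comap b.toRingHom).IsRadical := by
    intro J
    constructor
    · intro hJ
      exact hJ.comap _
    · intro hJ
      rw [← hTT J]
      exact hJ.comap _
  have heq : ∀ (J : Ideal (LTRing p n)) (h : ℕ), J = heightIdeal p n H h ↔
      J.comap b.toRingHom = heightIdeal p n (H1 p n) h := by
    intro J h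
    constructor
    · rintro rfl
      exact hht h
    · intro hJ
      rw [← hTT J, hJ, ← hht h, hTT]
  have htop : ∀ J : Ideal (LTRing p n), J = ⊤ ↔ J.comap b.toRingHom = ⊤ := by
    intro J
    constructor
    · rintro rfl
      exact Ideal.comap_top
    · intro hJ
      rw [← hTT J, hJ, Ideal.comap_top]
  refine ⟨fun P => ?_, fun J => ?_⟩
  · rw [hst, hprime, hC1]
    simp only [heq]
  · rw [hst, hrad, hC2, ← htop]
    simp only [heq]

end Crest.Agent.R227
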