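import Mathlib.RingTheory.WittVector.Complete
import Mathlib.RingTheory.WittVector.TeichmullerSeries
import Mathlib.RingTheory.WittVector.Domain
import Mathlib.RingTheory.WittVector.InitTail

/-!
# Algebra of `W(O) / ([w])` for `O` a perfect ring of characteristic `p` (row 227, helper60)

* `teichmuller_mul_coeff` : `([w] * x)_n = w ^ (p ^ n) * x_n` (any ring of characteristic `p`);
* `mem_span_teich_iff` : `x ∈ ([w])` iff `w ^ (p ^ n) ∣ x_n` for all `n`;
* `mem_span_teich_of_p_mul` : `p x ∈ ([w])` implies `x ∈ ([w])`  (`O` perfect);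
* `mem_span_teich_of_forall` : `x ∈ p^k W + [w] W` for all `k` implies `x ∈ ([w])`;
* quotient forms `RQ_p_torsion_free`, `RQ_p_separated`.
-/

namespace Crest.Agent.R227

open WittVector

section charP

variable {p : ℕ} [hp : Fact p.Prime] {O : Type*} [CommRing O] [CharP O p]

omit [CharP O p] in
theorem wv_eq_teich_add (x : WittVector p O) :
    x = teichmuller p (x.coeff 0) + verschiebung (x.shift 1) := by
  ext n
  rw [coeff_add_of_disjoint]
  · cases n with
    | zero => simp
    | succ n =>
      rw [teichmuller_coeff_pos p _ _ (Nat.succ_pos n), verschiebung_coeff_succ, shift_coeff,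
        zero_add, add_comm]
  · intro n
    cases n with
    | zero => right; simp
    | succ n => left; exact teichmuller_coeff_pos p _ _ (Nat.succ_pos n)

theorem frobenius_teichmuller_charP (w : O) :
    WittVector.frobenius (teichmuller p w) = teichmuller p (w ^ p) := by
  ext n
  rw [coeff_frobenius_charP]
  cases n with
  | zero => rw [teichmuller_coeff_zero, teichmuller_coeff_zero]
  | succ n =>
    rw [teichmuller_coeff_pos p _ _ (Nat.succ_pos n), teichmuller_coeff_pos p _ _ (Nat.succ_pos n),
      zero_pow hp.out.ne_zero]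

/-- `([w] * x)_n = w ^ (p ^ n) * x_n`. -/
theorem teichmuller_mul_coeff (w : O) (x : WittVector p O) (n : ℕ) :
    (teichmuller p w * x).coeff n = w ^ (p ^ n) * x.coeff n := by
  induction n generalizing w x with
  | zero => simp [WittVector.mul_coeff_zero]
  | succ n ih =>
    have h1 : teichmuller p w * x
        = teichmuller p (w * x.coeff 0) + verschiebung (teichmuller p (w ^ p) * x.shift 1) := by
      conv_lhs => rw [wv_eq_teich_add x]
      rw [mul_add, map_mul, ← frobenius_teichmuller_charP w]
      congr 1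
      rw [mul_comm (WittVector.frobenius _), verschiebung_mul_frobenius, mul_comm]
    rw [h1, coeff_add_of_disjoint]
    · rw [teichmuller_coeff_pos p _ _ (Nat.succ_pos n), verschiebung_coeff_succ, ih, zero_add,
        shift_coeff, ← pow_mul, pow_succ', add_comm 1 n]
    · intro m
      cases m with
      | zero => right; simp
      | succ m => left; exact teichmuller_coeff_pos p _ _ (Nat.succ_pos m)

/-- `x ∈ ([w])` iff `w ^ (p ^ n) ∣ x_n` for all `n`. -/
theorem mem_span_teich_iff (w : O) (x : WittVector p O) :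
    x ∈ Ideal.span {teichmuller p w} ↔ ∀ n, w ^ (p ^ n) ∣ x.coeff n := by
  rw [Ideal.mem_span_singleton]
  constructor
  · rintro ⟨y, rfl⟩ n
    rw [teichmuller_mul_coeff]
    exact dvd_mul_right _ _
  · intro h
    choose y hy using h
    refine ⟨WittVector.mk p y, ?_⟩
    ext n
    rw [teichmuller_mul_coeff, WittVector.coeff_mk, hy]

/-- `p x ∈ ([w])` implies `x ∈ ([w])`, over a perfect ring. -/
theorem mem_span_teich_of_p_mul [PerfectRing O p] (w : O) (x : WittVector p O)
    (h : (p : WittVector p O) * x ∈ Ideal.span {teichmuller p w}) :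
    x ∈ Ideal.span {teichmuller p w} := by
  rw [mem_span_teich_iff] at h ⊢
  intro n
  obtain ⟨c, hc⟩ := h (n + 1)
  rw [mul_comm, mul_charP_coeff_succ, pow_succ, pow_mul] at hc
  obtain ⟨d, rfl⟩ := (bijective_frobenius O p).surjective c
  refine ⟨d, (bijective_frobenius O p).injective ?_⟩
  simp only [frobenius_def] at hc ⊢
  rw [hc, mul_pow]


/-- congruence modulo `p ^ k` preserves the first `k` coefficients. -/
theorem coeff_eq_of_sub_p_pow {x y a : WittVector p O} {k : ℕ}
    (h : x = (p : WittVector p O) ^ k * a + y) {n : ℕ} (hn : n < k) :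
    x.coeff n = y.coeff n := by
  have h0 : truncate k ((p : WittVector p O) ^ k * a) = 0 := by
    rw [← RingHom.mem_ker, mem_ker_truncate]
    intro i hi
    rw [mul_comm]
    exact mul_pow_charP_coeff_zero a hi
  have h1 : truncate k x = truncate k y := by
    rw [h, map_add, h0, zero_add]
  have h2 := congrArg (fun z => TruncatedWittVector.coeff (⟨n, hn⟩ : Fin k) z) h1
  simpa [coeff_truncate] using h2

/-- `x ∈ p^k W + [w] W` for all `k` implies `x ∈ ([w])`. -/
theorem mem_span_teich_of_forall (w : O) (x : WittVector p O)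
    (h : ∀ k : ℕ, ∃ a b : WittVector p O,
      x = (p : WittVector p O) ^ k * a + teichmuller p w * b) :
    x ∈ Ideal.span {teichmuller p w} := by
  rw [mem_span_teich_iff]
  intro n
  obtain ⟨a, b, hab⟩ := h (n + 1)
  rw [coeff_eq_of_sub_p_pow hab (Nat.lt_succ_self n), teichmuller_mul_coeff]
  exact dvd_mul_right _ _

/-! ### quotient forms -/

/-- In `W(O)/([w])`, `p` is a non-zero-divisor. -/
theorem quot_teich_p_torsion_free [PerfectRing O p] (w : O)
    (x : WittVector p O ⧸ Ideal.span {teichmuller p w}) (h : (p : _) * x = 0) : x = 0 := by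
  obtain ⟨x, rfl⟩ := Ideal.Quotient.mk_surjective x
  rw [← map_natCast (Ideal.Quotient.mk _), ← map_mul, Ideal.Quotient.eq_zero_iff_mem] at h
  rw [Ideal.Quotient.eq_zero_iff_mem]
  exact mem_span_teich_of_p_mul w x h

/-- In `W(O)/([w])`, `p ^ k` is a non-zero-divisor. -/
theorem quot_teich_p_pow_torsion_free [PerfectRing O p] (w : O) (k : ℕ)
    (x : WittVector p O ⧸ Ideal.span {teichmuller p w}) (h : (p : _) ^ k * x = 0) : x = 0 := by
  induction k with
  | zero => simpa using h
  | succ k ih =>
    refine ih (quot_teich_p_torsion_free w _ ?_)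
    rwa [← mul_assoc, ← pow_succ']

/-- `W(O)/([w])` is `p`-adically separated. -/
theorem quot_teich_p_separated (w : O)
    (x : WittVector p O ⧸ Ideal.span {teichmuller p w})
    (h : ∀ k : ℕ, ((p : WittVector p O ⧸ Ideal.span {teichmuller p w}) ^ k) ∣ x) : x = 0 := by
  obtain ⟨x, rfl⟩ := Ideal.Quotient.mk_surjective x
  rw [Ideal.Quotient.eq_zero_iff_mem]
  refine mem_span_teich_of_forall w x fun k => ?_
  obtain ⟨a, ha⟩ := h k
  obtain ⟨a, rfl⟩ := Ideal.Quotient.mk_surjective a
  rw [← map_natCast (Ideal.Quotient.mk _), ← map_pow, ← map_mul, Ideal.Quotient.eq,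
    Ideal.mem_span_singleton] at ha
  obtain ⟨b, hb⟩ := ha
  exact ⟨a, b, by rw [← hb]; ring⟩

end charP

end Crest.Agent.R227
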